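import Vale.Agent.P287T.G3.Br
import Vale.Agent.P287T.Cy.Main

/-!
# The category `HM W`: cones, minimal models, Serre duality
-/

open Vale.Agent.P294 Matrix CategoryTheory CategoryTheory.Limits CategoryTheory.Pretriangulated
  MvPolynomial

namespace Vale.Agent.P287T.G3

open Vale.Agent.P287T.Cy Vale.Agent.P287Z.O.L Vale.Agent.P287Z.T

variable {W : S6} {E F G : HM W}

/-! ### compositions -/

theorem sgM_even {ι : Type} [DecidableEq ι] (p : ι → ℤ) {j : ℤ} (h : Even j) : sgM p j = 1 := by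
  rw [sgM, ← Matrix.diagonal_one]
  congr 1
  funext i
  rw [sg_even (h.mul_right _), Int.cast_one]

theorem sgM_add {ι : Type} [Fintype ι] [DecidableEq ι] (p : ι → ℤ) (j k : ℤ) :
    sgM p (j + k) = sgM p j * sgM p k := by
  rw [sgM, sgM, sgM, Matrix.diagonal_mul_diagonal]
  congr 1
  funext i
  rw [add_mul, sg_add, Int.cast_mul]

theorem ZZ_mul {j k l : ℤ} {f : Matrix F.ι E.ι S6} {g : Matrix G.ι F.ι S6}
    (hg : g ∈ ZZ F.pz F.dz G.pz G.dz k) (hf : f ∈ ZZ E.pz E.dz F.pz F.dz j) (h : k + j = l) :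
    g * f ∈ ZZ E.pz E.dz G.pz G.dz l :=
  ⟨MM_mul hg.1 hf.1 ((add_comm j k).trans h), by rw [← Matrix.mul_assoc, hg.2, Matrix.mul_assoc, hf.2, Matrix.mul_assoc]⟩

theorem mkT_congr (j : ℤ) {f g : Matrix F.ι E.ι S6} (hf : f ∈ ZZ E.pz E.dz F.pz F.dz j)
    (hg : g ∈ ZZ E.pz E.dz F.pz F.dz j) (h : f = g) : mkT j f hf = mkT j g hg := by
  subst h
  rfl

theorem mkT_eq (j : ℤ) {f g : Matrix F.ι E.ι S6} (hf : f ∈ ZZ E.pz E.dz F.pz F.dz j)
    (hg : g ∈ ZZ E.pz E.dz F.pz F.dz j) :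
    mkT j f hf = mkT j g hg ↔ f - g ∈ BB E.pz E.dz F.pz F.dz j := by
  rw [← mkT_eq_zero j (sub_mem hf hg), ← sub_eq_zero]
  exact (congrArg (· = 0) ((zzTw E F j).map_sub ⟨f, hf⟩ ⟨g, hg⟩)).to_iff.symm

theorem mkR_comp_mkT {j : ℤ} {f : Matrix F.ι E.ι S6} (hf : f ∈ ZZ E.pz E.dz F.pz F.dz 0)
    {g : Matrix G.ι F.ι S6} (hg : g ∈ ZZ F.pz F.dz G.pz G.dz j) :
    mkR f hf ≫ mkT j g hg = mkT j (g * f) (ZZ_mul hg hf (add_zero j)) := by
  have h1 : g * sgM F.pz j * f = g * f * sgM E.pz j := by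
    rw [Matrix.mul_assoc, sgM_comm j (mem_ZZ.1 hf).1, mul_zero, sg_zero, one_smul,
      Matrix.mul_assoc]
  exact (mkR_comp (E := E) (F := F) (G := tw ((mvCtx 6).en j) G) hf _).trans
    (mkR_congr (E := E) (F := tw ((mvCtx 6).en j) G) _ _ h1)

theorem mkT_comp_map {j : ℤ} {f : Matrix F.ι E.ι S6} (hf : f ∈ ZZ E.pz E.dz F.pz F.dz j)
    {g : Matrix G.ι F.ι S6} (hg : g ∈ ZZ F.pz F.dz G.pz G.dz 0) :
    mkT j f hf ≫ (twF ((mvCtx 6).en j)).map (mkR g hg) =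
      mkT j (g * f) (ZZ_mul hg hf (zero_add j)) :=
  (mkR_comp (E := E) (F := tw ((mvCtx 6).en j) F) (G := tw ((mvCtx 6).en j) G) _
    ((mem_Z0_iff _ _ _).1 (tw_mem_Z0 _ ((mem_Z0_iff F G g).2 hg)))).trans
    (mkR_congr (E := E) (F := tw ((mvCtx 6).en j) G) _ _ (Matrix.mul_assoc g f _).symm)

theorem shift_map (k : ℤ) (f : E ⟶ F) :
    (shiftFunctor (HM W) k).map f = (twF ((mvCtx 6).en (3 * k))).map f := rfl

/-! ### cones -/

/-- the cone of a closed map -/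
noncomputable def coneR {f : Matrix F.ι E.ι S6} (hf : f ∈ ZZ E.pz E.dz F.pz F.dz 0) : HM W :=
  cone E F f ((mem_Z0_iff E F f).2 hf)

theorem coneR_pz {f : Matrix F.ι E.ι S6} (hf : f ∈ ZZ E.pz E.dz F.pz F.dz 0) :
    (coneR hf).pz = Sum.elim F.pz fun i => E.pz i - 3 := by
  funext i
  rcases i with i | i
  · rfl
  · exact tw_pz 3 E i

theorem coneR_dz {f : Matrix F.ι E.ι S6} (hf : f ∈ ZZ E.pz E.dz F.pz F.dz 0) :
    (coneR hf).dz = Matrix.fromBlocks F.dz f 0 (-E.dz) := rfl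

theorem coneR_inl {f : Matrix F.ι E.ι S6} (hf : f ∈ ZZ E.pz E.dz F.pz F.dz 0) :
    (Matrix.fromRows 1 0 : Matrix (F.ι ⊕ E.ι) F.ι S6) ∈
      ZZ F.pz F.dz (coneR hf).pz (coneR hf).dz 0 :=
  (mem_Z0_iff F (coneR hf) _).1 (inlMat_mem E F f _)

theorem coneR_snd {f : Matrix F.ι E.ι S6} (hf : f ∈ ZZ E.pz E.dz F.pz F.dz 0) :
    (Matrix.fromCols 0 1 : Matrix E.ι (F.ι ⊕ E.ι) S6) ∈
      ZZ (coneR hf).pz (coneR hf).dz (MF.pz (E⟦(1 : ℤ)⟧)) (MF.dz (E⟦(1 : ℤ)⟧)) 0 :=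
  (mem_Z0_iff (coneR hf) (E⟦(1 : ℤ)⟧) _).1 (sndMat_mem' E F f _)

/-- the standard triangle -/
theorem coneR_tri {f : Matrix F.ι E.ι S6} (hf : f ∈ ZZ E.pz E.dz F.pz F.dz 0) :
    Triangle.mk (mkR f hf) (mkR (E := F) (F := coneR hf) _ (coneR_inl hf))
      (mkR (E := coneR hf) (F := E⟦(1 : ℤ)⟧) _ (coneR_snd hf)) ∈ distTriang (HM W) :=
  stdTri_mem E F f _

/-- the third object of a distinguished triangle is the cone -/
theorem iso_coneR {f : Matrix F.ι E.ι S6} (hf : f ∈ ZZ E.pz E.dz F.pz F.dz 0) {g : F ⟶ G}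
    {h : G ⟶ E⟦(1 : ℤ)⟧} (hT : Triangle.mk (mkR f hf) g h ∈ distTriang (HM W)) :
    Nonempty (G ≅ coneR hf) := by
  obtain ⟨e, -⟩ := exists_iso_of_arrow_iso _ _ hT (coneR_tri hf) (Iso.refl _)
  exact ⟨Triangle.π₃.mapIso e⟩

theorem isIso_iff_cone {f : Matrix F.ι E.ι S6} (hf : f ∈ ZZ E.pz E.dz F.pz F.dz 0) :
    IsIso (mkR f hf) ↔ IsZero (coneR hf) :=
  (Triangle.isZero₃_iff_isIso₁ _ (coneR_tri hf)).symm

theorem shift_pz (k : ℤ) (E : HM W) (i : E.ι) : MF.pz (E⟦k⟧) i = E.pz i - 3 * k :=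
  tw_pz (3 * k) E i

theorem shift_dz (k : ℤ) (E : HM W) : MF.dz (E⟦k⟧) = sg k • E.dz :=
  (tw_dz (3 * k) E).trans (by rw [sg_five_mul])

/-- objects with the same matrices up to a bijection of the bases -/
noncomputable def permR (e : E.ι ≃ F.ι) (hp : ∀ i, F.pz (e i) = E.pz i)
    (hd : ∀ i j, F.dz (e i) (e j) = E.dz i j) : E ≅ F := permIso e hp hd

section block

variable {ι κ : Type} [Fintype ι] [Fintype κ] [DecidableEq ι] [DecidableEq κ] {p : ι → ℤ}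
  {q : κ → ℤ} {a : Matrix ι ι S6} {b : Matrix ι κ S6} {c : Matrix κ κ S6}

theorem isMF_blocks (ha : IsMF W p a) (hc : IsMF W q c) (hb : b ∈ MM q p 3)
    (h : a * b + b * c = 0) : IsMF W (Sum.elim p q) (Matrix.fromBlocks a b 0 c) := by
  refine ⟨fun i j => ?_, ?_⟩
  · rcases i with i | i <;> rcases j with j | j
    · exact ha.deg i j
    · exact hb i j
    · exact hga_zero _
    · exact hc.deg i j
  · rw [Matrix.fromBlocks_multiply, h, ha.sq, hc.sq, ← Matrix.fromBlocks_one,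
      Matrix.fromBlocks_smul]
    simp only [Matrix.mul_zero, Matrix.zero_mul, add_zero, zero_add, smul_zero]

theorem blocks_of_isMF (h : IsMF W (Sum.elim p q) (Matrix.fromBlocks a b 0 c)) :
    IsMF W p a ∧ IsMF W q c ∧ b ∈ MM q p 3 ∧ a * b + b * c = 0 := by
  have h1 := h.sq
  rw [Matrix.fromBlocks_multiply, ← Matrix.fromBlocks_one, Matrix.fromBlocks_smul,
    Matrix.fromBlocks_inj] at h1
  simp only [Matrix.mul_zero, Matrix.zero_mul, add_zero, zero_add, smul_zero] at h1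
  exact ⟨⟨fun i j => h.deg (Sum.inl i) (Sum.inl j), h1.1⟩,
    ⟨fun i j => h.deg (Sum.inr i) (Sum.inr j), h1.2.2.2⟩,
    fun i j => h.deg (Sum.inl i) (Sum.inr j), h1.2.1⟩

/-- a block triangular matrix factorization is an extension -/
theorem tri_blocks (h : IsMF W (Sum.elim p q) (Matrix.fromBlocks a b 0 c)) (ha : IsMF W p a)
    (hc : IsMF W q c) : ∃ (f : ofRaw ha ⟶ ofRaw h) (g : ofRaw h ⟶ ofRaw hc)
      (δ : ofRaw hc ⟶ (ofRaw ha)⟦(1 : ℤ)⟧), Triangle.mk f g δ ∈ distTriang (HM W) := by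
  classical
  obtain ⟨Lo, Hi, e₁, e₂, f, g, δ, hT, p1, p2, d1, d2⟩ := sub_quot (ofRaw h)
    (fun i : ι ⊕ κ => i.isLeft = true) (by
      rintro (i | i) (j | j) hi hj
      · exact absurd rfl hi
      · exact absurd rfl hi
      · rfl
      · exact absurd hj Bool.false_ne_true)
  have k1 : ∀ x : {i : ι ⊕ κ // i.isLeft = true}, x.1 = Sum.inl (Equiv.sumIsLeft x) := by
    rintro ⟨i | i, hi⟩
    · rfl
    · exact absurd hi Bool.false_ne_true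
  let s : {i : ι ⊕ κ // ¬ i.isLeft = true} ≃ κ :=
    (Equiv.subtypeEquivRight fun i => by cases i <;> simp).trans Equiv.sumIsRight
  have k2 : ∀ x : {i : ι ⊕ κ // ¬ i.isLeft = true}, x.1 = Sum.inr (s x) := by
    rintro ⟨i | i, hi⟩
    · exact absurd rfl hi
    · rfl
  let u : Lo ≅ ofRaw ha := permIso (e₁.trans Equiv.sumIsLeft)
    (fun i => ((p1 i).trans (congrArg (ofRaw h).p (k1 (e₁ i)))).symm)
    (fun i j => ((d1 i j).trans (congrArg₂ (ofRaw h).d (k1 (e₁ i)) (k1 (e₁ j)))).symm)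
  let v : Hi ≅ ofRaw hc := permIso (e₂.trans s)
    (fun i => ((p2 i).trans (congrArg (ofRaw h).p (k2 (e₂ i)))).symm)
    (fun i j => ((d2 i j).trans (congrArg₂ (ofRaw h).d (k2 (e₂ i)) (k2 (e₂ j)))).symm)
  refine ⟨u.inv ≫ f, g ≫ v.hom, v.inv ≫ δ ≫ u.hom⟦(1 : ℤ)⟧', ?_⟩
  refine isomorphic_distinguished _ hT _ (Triangle.isoMk _ _ u.symm (Iso.refl _) v.symm ?_ ?_ ?_)
  · exact Category.comp_id _
  · change (g ≫ v.hom) ≫ v.inv = 𝟙 _ ≫ g
    rw [Category.assoc, v.hom_inv_id, Category.comp_id, Category.id_comp]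
  · change (v.inv ≫ δ ≫ u.hom⟦(1 : ℤ)⟧') ≫ u.inv⟦(1 : ℤ)⟧' = v.inv ≫ δ
    rw [Category.assoc, Category.assoc, ← Functor.map_comp, u.hom_inv_id,
      CategoryTheory.Functor.map_id, Category.comp_id]

end block

/-! ### minimal models -/

theorem hg_of_isHomogeneous (hW : W.IsHomogeneous 3) : P287Z.O.V.Hg 6 W := by
  have := (mv_mem_iff 6 0 W).1 (mem_of_isHomogeneous hW 0 6 (by norm_num))
  rwa [sub_zero] at this

theorem ev_mvS (hW : P287Z.O.V.Hg 6 W) : GCtx.Aug.ev (mvS W) = 0 :=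
  N1_evpos (m := 6) hW (by norm_num)

/-- every object has a minimal model -/
theorem exists_min (hW : P287Z.O.V.Hg 6 W) (E : HM W) :
    ∃ E' : HM W, Nonempty (E ≅ E') ∧ ∀ i j, constantCoeff (E'.dz i j) = 0 := by
  obtain ⟨E', e, h⟩ := exists_minimal (ev_mvS hW) E
  exact ⟨E', e, fun i j => congrFun (congrFun h i) j⟩

theorem dbar_eq_zero_iff (E : HM W) : dbar E = 0 ↔ ∀ i j, constantCoeff (E.dz i j) = 0 :=
  ⟨fun h i j => congrFun (congrFun h i) j, fun h => Matrix.ext h⟩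

/-! ### finiteness and Serre duality -/

theorem finite_hom (E F : HM W) : Module.Finite ℂ (E ⟶ F) :=
  have := finite_HH E.pz E.dz F.pz F.dz 0
  Module.Finite.equiv (hom0 E F)

theorem serre_tw (hW : P287Z.O.V.Hg 6 W) (hs : Sm W) (E F : HM W) {j j' : ℤ} (h : j + j' = 6) :
    Module.finrank ℂ (E ⟶ tw ((mvCtx 6).en j) F) =
      Module.finrank ℂ (F ⟶ tw ((mvCtx 6).en j') E) := by
  rw [finrank_tw, finrank_tw]
  exact serre hW hs E.isMF F.isMF h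

/-- **Serre duality**: the category is Calabi-Yau of dimension two -/
theorem serre_sh (hW : P287Z.O.V.Hg 6 W) (hs : Sm W) (E F : HM W) (k : ℤ) :
    Module.finrank ℂ (E ⟶ F⟦k⟧) = Module.finrank ℂ (F ⟶ E⟦2 - k⟧) :=
  serre_tw hW hs E F (by ring)

theorem serre_zero (hW : P287Z.O.V.Hg 6 W) (hs : Sm W) (E F : HM W) :
    Module.finrank ℂ (E ⟶ F) = Module.finrank ℂ (F ⟶ E⟦(2 : ℤ)⟧) := by
  rw [finrank_hom, finrank_sh]
  exact serre hW hs E.isMF F.isMF (by norm_num)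

theorem hom_zero_iff_finrank (E F : HM W) :
    (∀ f : E ⟶ F, f = 0) ↔ Module.finrank ℂ (E ⟶ F) = 0 :=
  have := finite_hom E F
  finrank_zero_iff_forall_zero.symm

theorem serre_van (hW : P287Z.O.V.Hg 6 W) (hs : Sm W) (E F : HM W) :
    (∀ f : E ⟶ F, f = 0) ↔ ∀ g : F ⟶ E⟦(2 : ℤ)⟧, g = 0 := by
  rw [hom_zero_iff_finrank, hom_zero_iff_finrank, serre_zero hW hs]

theorem finHom (hW : P287Z.O.V.Hg 6 W) (hs : Sm W) (E F : HM W) : FinHom E F := by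
  refine ⟨fun m => finite_hom _ _, ?_⟩
  obtain ⟨b, hb⟩ := exists_bound hW hs E.isMF F.isMF
  refine (Set.finite_Icc (-(b : ℤ)) b).subset fun m hm => ?_
  by_contra hc
  refine hm ?_
  have := hb (3 * m) (by
    rw [Set.mem_Icc, ← abs_le, not_le] at hc
    have h3 : |(3 : ℤ)| = 3 := rfl
    rw [abs_mul, h3]
    have := abs_nonneg m
    omega)
  rw [finrank_sh]
  exact Module.finrank_zero_of_subsingleton

theorem chi_symm (hW : P287Z.O.V.Hg 6 W) (hs : Sm W) (E F : HM W) : chi E F = chi F E := by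
  unfold chi
  rw [← finsum_comp_equiv (Equiv.subLeft (2 : ℤ))]
  refine finsum_congr fun k => ?_
  rw [Equiv.subLeft_apply, ← serre_sh hW hs, Int.negOnePow_sub,
    Int.negOnePow_even 2 even_two, one_mul]

/-- the trace on `Hom(E, E[2])` -/
noncomputable def trC (J : Jd W) (E : HM W) : (E ⟶ E⟦(2 : ℤ)⟧) →ₗ[ℂ] ℂ :=
  (Submodule.liftQ _ (J.tr E.pz E.dz ∘ₗ (ZZ E.pz E.dz E.pz E.dz (3 * 2)).subtype) (by
    rintro ⟨g, hg⟩ ⟨h, -, e⟩
    exact (congrArg (J.tr E.pz E.dz) e).trans (J.tr_bd E.isMF h))) ∘ₗ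
    (homSh E E 2).symm.toLinearMap

theorem trC_mkT (J : Jd W) {g : Matrix E.ι E.ι S6} (hg : g ∈ ZZ E.pz E.dz E.pz E.dz (3 * 2)) :
    trC J E (mkT (3 * 2) g hg) = J.tr E.pz E.dz g := by
  have h : (homSh E E 2).symm (mkT (3 * 2) g hg) = Submodule.Quotient.mk ⟨g, hg⟩ :=
    (LinearEquiv.symm_apply_eq _).2 (homSh_mk E E 2 ⟨g, hg⟩).symm
  exact (congrArg _ h).trans rfl

theorem trC_comp (J : Jd W) {f : Matrix F.ι E.ι S6} (hf : f ∈ ZZ E.pz E.dz F.pz F.dz 0)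
    {g : Matrix E.ι F.ι S6} (hg : g ∈ ZZ F.pz F.dz E.pz E.dz (3 * 2)) :
    trC J E (mkR f hf ≫ (mkT (3 * 2) g hg : F ⟶ E⟦(2 : ℤ)⟧)) = J.tr E.pz E.dz (g * f) :=
  (congrArg (trC J E) (mkR_comp_mkT hf hg)).trans (trC_mkT J _)

/-- the trace is cyclic -/
theorem trC_comm (J : Jd W) (f : E ⟶ F) (g : F ⟶ E⟦(2 : ℤ)⟧) :
    trC J E (f ≫ g) = trC J F (g ≫ f⟦(2 : ℤ)⟧') := by
  obtain ⟨f, hf, rfl⟩ := exists_mkR f
  obtain ⟨g, hg, rfl⟩ := exists_mkT (3 * 2) g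
  refine (trC_comp J hf hg).trans (Eq.trans ?_
    ((congrArg (trC J F) (mkT_comp_map hg hf)).trans (trC_mkT J _)).symm)
  rw [J.tr_comm E.isMF F.isMF hf hg.2]
  simp [Cy.sg]

theorem trC_nondeg (J : Jd W) (f : E ⟶ F) (h : ∀ g : F ⟶ E⟦(2 : ℤ)⟧, trC J E (f ≫ g) = 0) :
    f = 0 := by
  obtain ⟨f, hf, rfl⟩ := exists_mkR f
  exact (mkR_eq_zero hf).2 (J.nondeg E.isMF F.isMF (j' := 3 * 2) (by norm_num) hf fun g hg =>
    (trC_comp J hf hg).symm.trans (h _))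

theorem trC_nondeg' (J : Jd W) (g : F ⟶ E⟦(2 : ℤ)⟧) (h : ∀ f : E ⟶ F, trC J E (f ≫ g) = 0) :
    g = 0 := by
  obtain ⟨g, hg, rfl⟩ := exists_mkT (3 * 2) g
  exact (mkT_eq_zero _ hg).2 (J.nondeg' E.isMF F.isMF (j := 0) (by norm_num) hg fun f hf =>
    (trC_comp J hf hg).symm.trans (h _))

end Vale.Agent.P287T.G3
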