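import Vale.Agent.P287T.G3.F

/-!
# The Fermat step preserves semistable objects
-/

open Matrix CategoryTheory CategoryTheory.Limits CategoryTheory.Pretriangulated Polynomial

open Vale.Agent.P294 Vale.Agent.P287T.Op

namespace Vale.Agent.P287T.G3

variable {A : GCtx}

theorem cast_hom {W W' : A.S} (h : W = W') {X Y : MF A W}
    (h0 : ∀ f : castMF h X ⟶ castMF h Y, f = 0) : ∀ f : X ⟶ Y, f = 0 := by
  subst h
  exact h0

theorem evW_zero {W l : A.S} (h0 : l = 0) : evW A (C W + X ^ 3 : A.S[X]) l = W := by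
  rw [h0, evW]
  simp

/-- the sides of an induced object -/
theorem tgr_IndO {W l : A.S} (hl : ∀ a, l ∈ A.H (A.en 2 +ᵥ a) a) (h0 : l = 0)
    (Y : MF A.P (WP A W)) (v : ZMod 3) :
    Nonempty (castMF (evW_zero h0) ((Ev A (C W + X ^ 3 : A.S[X]) l hl).obj Y) ≅
      tgr v (IndO Y)) := by
  subst h0
  refine ⟨permIso (E := castMF (evW_zero rfl) ((Ev A (C W + X ^ 3 : A.S[X]) 0 hl).obj Y))
    (F := tgr v (IndO Y))
    { toFun := fun i => ⟨(i.1, v), rfl⟩
      invFun := fun i => ⟨i.1.1, trivial⟩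
      left_inv := fun _ => rfl
      right_inv := fun i => Subtype.ext (Prod.ext rfl i.2.symm) } (fun _ => rfl) fun i j => ?_⟩
  refine (coeff_wtPart (v - v) (Y.d i.1 j.1) 0).trans ?_
  refine (if_pos (by simp)).trans ?_
  exact coeff_zero_eq_eval_zero _

/-- restriction to `y = 0` is the sum of the three sides -/
theorem ev_Fo {W l : A.S} (hl : ∀ a, l ∈ A.H (A.en 2 +ᵥ a) a) (h0 : l = 0) (Y : MFT A W) :
    ExtCl (fun Z => ∃ v : ZMod 3, Nonempty (Z ≅ tgr v Y))
      (castMF (evW_zero h0) ((Ev A (C W + X ^ 3 : A.S[X]) l hl).obj ((Fo A W).obj Y))) := by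
  subst h0
  have hd : ∀ i j : Y.ι, (show A.S[X] from Y.d i j).eval 0 = (show A.S[X] from Y.d i j).coeff 0 :=
    fun i j => (coeff_zero_eq_eval_zero _).symm
  refine E2_ext_univ _ (fun i => (show A.L × ZMod 3 from Y.p i.1.1).2) ?_ fun v => ?_
  · intro i j h
    have h1 : (show A.S[X] from Y.d i.1.1 j.1.1).coeff 0 ≠ 0 := fun h2 => h ((hd _ _).trans h2)
    rcases T1_coeff A (Y.deg i.1.1 j.1.1) 0 with h3 | h3
    · have h4 := h3.1
      rw [Nat.cast_zero, add_zero] at h4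
      exact h4.symm.trans (T1_vadd_snd A 3 (Y.p j.1.1))
    · exact absurd h3 h1
  · refine ExtCl.of _ ⟨v, E2_reindex
      { toFun := fun i => ⟨i.1.1.1, i.2⟩
        invFun := fun i => ⟨⟨⟨i.1, trivial⟩, trivial⟩, i.2⟩
        left_inv := fun _ => rfl
        right_inv := fun _ => rfl } (fun _ => rfl) fun i j => (hd _ _).symm⟩

theorem adj_zero {B : GCtx} {W : A.S} {V : B.S} {L : MF A W ⥤ MF B V} {R : MF B V ⥤ MF A W}
    (adj : L ⊣ R) {X Z : MF A W} {Y : MF B V} (e : R.obj Y ≅ Z)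
    (h : ∀ u : L.obj X ⟶ Y, u = 0) (f : X ⟶ Z) : f = 0 := by
  have : Subsingleton (X ⟶ R.obj Y) :=
    ⟨fun a b => (adj.homEquiv _ _).symm.injective ((h _).trans (h _).symm)⟩
  have h3 : f ≫ e.inv = 0 := Subsingleton.elim _ _
  rw [← cancel_mono e.inv, h3, Limits.zero_comp]

variable [GCtx.Aug A]

theorem step_Vc {W V l : A.S} (g : GD A W) (hl : ∀ a, l ∈ A.H (A.en 2 +ᵥ a) a) (h0 : l = 0)
    (hW : ∀ a, (inP A (C W + X ^ 3 : A.S[X])) ∈ A.P.H (A.P.en 6 +ᵥ a) a)
    (hV : V = evW A (C W + X ^ 3 : A.S[X]) l) (e : V = W) (E : MF A V) {s : ℝ}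
    (h : g.σ.V s (castMF e E)) :
    (gdT g).σ.V s (IndO (A := A) (W := W) (EvR hl hW (castMF hV E))) := by
  rw [Slic.V_iff]
  intro Y hY
  obtain ⟨R1, adj1, h1⟩ := Fo_adj (A := A) (W := W)
  obtain ⟨R2, adj2, h2⟩ := Ev_adj hl hW
  obtain ⟨e1⟩ := h1 (EvR hl hW (castMF hV E))
  obtain ⟨e2⟩ := h2 (castMF hV E)
  refine adj_zero adj1 e1 (adj_zero adj2 (X := (Fo A W).functor.obj Y) e2 ?_)
  exact cast_hom (evW_zero h0) (Slic.A1b_hom_from (ev_Fo hl h0 Y) (by
    rintro Z ⟨v, ⟨k⟩⟩ u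
    exact (g.σ.ts s).hom ((g.σ.ts s).isoU k.symm ((gdT_win g).U s Y hY v)) h u))

omit [GCtx.Aug A] in
theorem dsum_U {W : A.S} {σ : Slic (MF A W)} {s : ℝ} {E F : MF A W} (hE : σ.U s E)
    (hF : σ.U s F) : σ.U s (dsum E F) := by
  have h : ExtCl (σ.U s) (dsum E F) := by
    refine E2_ext_univ (dsum E F) (fun i => i.isLeft) ?_ fun b => ExtCl.of _ ?_
    · rintro (i | i) (j | j) h
      · rfl
      · exact absurd rfl h
      · exact absurd rfl h
      · rfl
    · cases b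
      · refine (σ.ts s).isoU (permIso (E := F)
          { toFun := fun i => ⟨Sum.inr i, rfl⟩
            invFun := fun i => i.1.getRight (Sum.isLeft_eq_false.1 i.2)
            left_inv := fun _ => rfl
            right_inv := by
              rintro ⟨i | i, h⟩
              · exact absurd h (by simp)
              · rfl } (fun _ => rfl) (fun _ _ => rfl)) hF
      · refine (σ.ts s).isoU (permIso (E := E)
          { toFun := fun i => ⟨Sum.inl i, rfl⟩
            invFun := fun i => i.1.getLeft i.2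
            left_inv := fun _ => rfl
            right_inv := by
              rintro ⟨i | i, h⟩
              · rfl
              · exact absurd h (by simp) } (fun _ => rfl) (fun _ _ => rfl)) hE
  exact e3_extCl (𝟭 _) s (fun _ h => h) h

/-- **the Fermat step preserves semistable objects and their phase** -/
theorem R_P {W V l : A.S} (g : GD A W) (hl : ∀ a, l ∈ A.H (A.en 2 +ᵥ a) a) (h0 : l = 0)
    (hW : ∀ a, (inP A (C W + X ^ 3 : A.S[X])) ∈ A.P.H (A.P.en 6 +ᵥ a) a)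
    (hV : V = evW A (C W + X ^ 3 : A.S[X]) l) (e : V = W) (E : MF A V) {φ : ℝ}
    (h : g.σ.P φ (castMF e E)) :
    (gdT g).σ.P φ (IndO (A := A) (W := W) (EvR hl hW (castMF hV E))) := by
  have hc : (gdT g).σ.Vc φ (IndO (A := A) (W := W) (EvR hl hW (castMF hV E))) :=
    fun t ht => step_Vc g hl h0 hW hV e E (h.2 t ht)
  have hU : (gdT g).σ.U (φ - 1 / 2) (IndO (A := A) (W := W) (EvR hl hW (castMF hV E))) := by
    refine (gdT_win g).U_of (t := φ) (by linarith) fun v => ?_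
    obtain ⟨k⟩ := tgr_step hl h0 hW hV e E v
    refine (g.σ.ts φ).isoU k (dsum_U h.1 ?_)
    refine g.σ.anti ?_ _ (g.twU (A.en 1) φ _ h.1)
    rw [A.chΓ_en]
    norm_num
  refine ⟨(lam_lo (gdT g).stab ⟨_, by linarith, hU⟩ hc).2 ?_, hc⟩
  obtain ⟨m, -, hm⟩ := g.stab.ph φ _ h
  have h1 : Zf (IndO (A := A) (W := W) (EvR hl hW (castMF hV E))) = kD * Zf (castMF e E) := by
    refine (Zf_IndO (A := A) (W := W) _).trans ?_
    refine (congrArg (fun z => 3 * z) (Zf_EvR hl hW (castMF hV E))).trans ?_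
    rw [Zf_castMF, Zf_castMF, kD, mul_assoc]
  have h2 : (gdT g).κ * Zf (IndO (A := A) (W := W) (EvR hl hW (castMF hV E))) =
      ((3 * m : ℝ) : ℂ) * ray φ := by
    have h3 : g.κ * Zf (castMF e E) = m * ray φ := hm
    rw [h1, gdT_κ]
    push_cast
    linear_combination (g.κ * Zf (castMF e E)) * kT_kD + 3 * h3
  have h4 : lam φ (((3 * m : ℝ) : ℂ) * ray φ) = 0 := by
    rw [lam_mul_ray]
    simp
  exact (congrArg (lam φ) h2).trans h4

/-- the same for the Fermat tower -/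
theorem R_P_Fer {n : ℕ} {V l : (co n).S} (hl : ∀ a, l ∈ (co n).H ((co n).en 2 +ᵥ a) a)
    (h0 : l = 0)
    (hW : ∀ a, (inP (co n) (C (Fer n) + X ^ 3 : (co n).S[X])) ∈
      (co n).P.H ((co n).P.en 6 +ᵥ a) a)
    (hV : V = evW (co n) (C (Fer n) + X ^ 3 : (co n).S[X]) l) (e : V = Fer n) (E : MF (co n) V)
    {φ : ℝ} (h : (gdFer n).σ.P φ (castMF e E)) :
    (gdFer (n + 1)).σ.P φ (EvR hl hW (castMF hV E)) := by
  have h1 := R_P (gdFer n) hl h0 hW hV e E h
  exact ⟨(gdFer_U n φ _).2 h1.1, fun t ht => (gdFer_V n t _).2 (h1.2 t ht)⟩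

theorem sig_fer_P (n : ℕ) (φ : ℝ) (E : MF (mvCtx n) (mvS (fer n))) :
    (sig (fer n) (fer_hom n) (fer_smooth n)).σ.P φ E ↔
      (gdFer n).σ.P φ (castMF (mvIso_fer n) (((mvIso n).chom (mvS (fer n))).obj E)) := by
  have k : castMF (mvIso_fer n) (((mvIso n).chom (mvS (fer n))).obj E) ≅
      (mvIso n).ob (mvIso_fer n) E :=
    permIso (E := castMF (mvIso_fer n) (((mvIso n).chom (mvS (fer n))).obj E))
      (F := (mvIso n).ob (mvIso_fer n) E) (Equiv.subtypeUnivEquiv fun _ => trivial)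
      (fun _ => rfl) (fun _ _ => rfl)
  rw [grel_sigP]
  exact ⟨L2d_P_iso k.symm, L2d_P_iso k⟩

end Vale.Agent.P287T.G3
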