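import Vale.Agent.P287T.G3.C
import Vale.Agent.P287T.Cy.Defs

/-!
# The category `MF (mvCtx 6) W` and raw matrices

`HM W` is the triangulated category of graded matrix factorizations of a form in six variables.
Its morphisms are the spaces `HH` of `Cy/Defs`.
-/

open Vale.Agent.P294 Matrix CategoryTheory CategoryTheory.Limits MvPolynomial

namespace Vale.Agent.P287T.G3

open Vale.Agent.P287T.Cy Vale.Agent.P287Z.O.L Vale.Agent.P287Z.T

/-- a polynomial as an element of the ring of `mvCtx n` -/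
def mvS {n : ℕ} (W : MvPolynomial (Fin n) ℂ) : (mvCtx n).S := W

/-- graded matrix factorizations of a form in six variables, up to homotopy -/
abbrev HM (W : S6) : Type 1 := MF (mvCtx 6) (mvS W)

variable {W : S6}

/-- the charges -/
def MF.pz (E : HM W) : E.ι → ℤ := E.p

/-- the differential -/
def MF.dz (E : HM W) : Matrix E.ι E.ι S6 := E.d

theorem mv_en (n : ℕ) (j : ℤ) : (mvCtx n).en j = (j : ℤ) := by
  change j • (1 : ℤ) = j
  rw [smul_eq_mul, mul_one]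

theorem mv_H (j a b : ℤ) (f : S6) :
    mvS f ∈ (mvCtx 6).H ((mvCtx 6).en j +ᵥ (show (mvCtx 6).L from a))
      (show (mvCtx 6).L from b) ↔ P287Z.O.V.Hg (j + a - b) f := by
  rw [mv_en]
  exact Iff.rfl

theorem isDeg_iff (E F : HM W) (j : ℤ) (f : Matrix F.ι E.ι S6) :
    IsDeg E F ((mvCtx 6).en j) f ↔ f ∈ MM E.pz F.pz j :=
  forall_congr' fun i => forall_congr' fun l => mv_H j (E.pz l) (F.pz i) (f i l)

theorem isDeg_zero_iff (E F : HM W) (f : Matrix F.ι E.ι S6) :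
    IsDeg E F 0 f ↔ f ∈ MM E.pz F.pz 0 := by
  rw [← (mvCtx 6).en_zero]
  exact isDeg_iff E F 0 f

theorem MF.isMF (E : HM W) : IsMF W E.pz E.dz :=
  ⟨(isDeg_iff E E 3 E.dz).1 (isDeg_d E), E.sq⟩

/-- the object given by raw matrices -/
noncomputable def ofRaw {ι : Type} [Fintype ι] [DecidableEq ι] {p : ι → ℤ} {d : Matrix ι ι S6}
    (h : IsMF W p d) : HM W where
  ι := ι
  p := p
  d := d
  deg i l := (mv_H 3 (p l) (p i) (d i l)).2 (h.deg i l)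
  sq := h.sq

section

variable {ι : Type} [Fintype ι] [DecidableEq ι] {p : ι → ℤ} {d : Matrix ι ι S6}

theorem ofRaw_pz (h : IsMF W p d) : (ofRaw h).pz = p := rfl

theorem ofRaw_dz (h : IsMF W p d) : (ofRaw h).dz = d := rfl

end

theorem ofRaw_isMF (E : HM W) : ofRaw E.isMF = E := rfl

theorem mem_Z0_iff (E F : HM W) (f : Matrix F.ι E.ι S6) :
    f ∈ Z0 E F ↔ f ∈ ZZ E.pz E.dz F.pz F.dz 0 :=
  and_congr (isDeg_zero_iff E F f) Iff.rfl

theorem mem_B0_iff (E F : HM W) (f : Matrix F.ι E.ι S6) :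
    f ∈ B0 E F ↔ f ∈ BB E.pz E.dz F.pz F.dz 0 := by
  rw [mem_BB, zero_sub]
  exact exists_congr fun h => and_congr (isDeg_iff E F (-3) h) Iff.rfl

theorem tw_pz (j : ℤ) (E : HM W) (i : E.ι) :
    MF.pz (tw ((mvCtx 6).en j) E) i = E.pz i - j := by
  change -(show ℤ from (mvCtx 6).en j) + E.pz i = _
  rw [mv_en]
  ring

theorem tw_dz (j : ℤ) (E : HM W) : MF.dz (tw ((mvCtx 6).en j) E) = sg j • E.dz := by
  change sg ((mvCtx 6).chΓ ((mvCtx 6).en j)) • E.dz = _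
  rw [GCtx.chΓ_en]

theorem shift_eq (k : ℤ) (E : HM W) : E⟦k⟧ = tw ((mvCtx 6).en (3 * k)) E := rfl

theorem isPot_iff : (mvCtx 6).IsPot (mvS W) ↔ P287Z.O.V.Hg 6 W := by
  constructor
  · intro h
    have := (mv_H 6 0 0 W).1 (h (0 : ℤ))
    rwa [add_zero, sub_zero] at this
  · intro h a
    exact (mv_H 6 a a W).2 ((add_sub_cancel_right (6 : ℤ) a).symm ▸ h)

theorem cst_smul {a b : Type} (z : ℂ) (f : Matrix a b S6) :
    (show S6 from GCtx.Aug.cst (A := mvCtx 6) z) • f = z • f := by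
  ext1 i j
  change C z * f i j = z • f i j
  rw [smul_eq_C_mul]

/-! ### signs -/

section sign

variable {ι κ : Type}

/-- the diagonal matrix of the signs `(-1) ^ (j p)` -/
noncomputable def sgM [DecidableEq ι] (p : ι → ℤ) (j : ℤ) : Matrix ι ι S6 :=
  Matrix.diagonal fun i => (sg (j * p i) : S6)

theorem mul_sgM [Fintype ι] [DecidableEq ι] (p : ι → ℤ) (j : ℤ) (g : Matrix κ ι S6) (i : κ)
    (l : ι) : (g * sgM p j) i l = sg (j * p l) • g i l := by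
  rw [sgM, Matrix.mul_diagonal, zsmul_eq_mul, mul_comm]

theorem sgM_mul [Fintype ι] [DecidableEq ι] (p : ι → ℤ) (j : ℤ) (g : Matrix ι κ S6) (i : ι)
    (l : κ) : (sgM p j * g) i l = sg (j * p i) • g i l := by
  rw [sgM, Matrix.diagonal_mul, zsmul_eq_mul]

theorem sgM_mul_self [Fintype ι] [DecidableEq ι] (p : ι → ℤ) (j : ℤ) :
    sgM p j * sgM p j = 1 := by
  rw [sgM, Matrix.diagonal_mul_diagonal, ← Matrix.diagonal_one]
  congr 1
  funext i
  rw [← Int.cast_mul, sg_mul_self, Int.cast_one]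

theorem sgM_zero [DecidableEq ι] (p : ι → ℤ) : sgM p 0 = 1 := by
  rw [sgM, ← Matrix.diagonal_one]
  congr 1
  funext i
  rw [zero_mul, sg_zero, Int.cast_one]

theorem sg_even {a : ℤ} (h : Even a) : sg a = 1 := by
  unfold sg
  rw [Int.negOnePow_even _ h]
  rfl

theorem sg_congr {a b : ℤ} (h : Even (a - b)) : sg a = sg b := by
  rw [show a = b + (a - b) by ring, sg_add, sg_even h, mul_one]

theorem hg_zsmul {n : ℤ} (c : ℤ) {f : S6} (hf : P287Z.O.V.Hg n f) : P287Z.O.V.Hg n (c • f) := by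
  rw [← Int.cast_smul_eq_zsmul ℂ]
  exact hga_smul _ hf

theorem mul_sgM_mem [Fintype ι] [DecidableEq ι] {p : ι → ℤ} {q : κ → ℤ} {k : ℤ} (j : ℤ)
    {g : Matrix κ ι S6} (hg : g ∈ MM p q k) : g * sgM p j ∈ MM p q k := fun i l => by
  rw [mul_sgM]
  exact hg_zsmul _ (hg i l)

/-- a map of degree `k` commutes with the signs up to `(-1) ^ (j k)` -/
theorem sgM_comm [Fintype ι] [DecidableEq ι] [Fintype κ] [DecidableEq κ] {p : ι → ℤ} {q : κ → ℤ}
    {k : ℤ} (j : ℤ) {g : Matrix κ ι S6} (hg : g ∈ MM p q k) :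
    sgM q j * g = sg (j * k) • (g * sgM p j) := by
  ext1 i l
  rw [Matrix.smul_apply, sgM_mul, mul_sgM, smul_smul, ← sg_add]
  by_cases h : 2 ∣ k + p l - q i
  · obtain ⟨c, hc⟩ := h
    rw [sg_congr (a := j * q i) (b := j * k + j * p l) ⟨-(j * c), by linear_combination (-j) * hc⟩]
  · rw [hga_odd_eq_zero (hg i l) h, smul_zero, smul_zero]

theorem sgM_d [Fintype ι] [DecidableEq ι] {p : ι → ℤ} (j : ℤ) {d : Matrix ι ι S6}
    (hd : d ∈ MM p p 3) : sgM p j * d = sg j • (d * sgM p j) := by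
  rw [sgM_comm j hd, sg_congr (a := j * 3) (b := j) ⟨j, by ring⟩]

end sign

/-! ### morphisms -/

/-- the class of a closed map of degree zero -/
noncomputable def mkR {E F : HM W} (f : Matrix F.ι E.ι S6) (hf : f ∈ ZZ E.pz E.dz F.pz F.dz 0) :
    E ⟶ F := mk f ((mem_Z0_iff E F f).2 hf)

section

variable {E F G : HM W}

theorem homR_ind {motive : (E ⟶ F) → Prop} (h : ∀ f hf, motive (mkR f hf)) (x : E ⟶ F) :
    motive x := hom_ind (fun f hf => h f ((mem_Z0_iff E F f).1 hf)) x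

theorem exists_mkR (x : E ⟶ F) : ∃ f hf, x = mkR f hf :=
  homR_ind (motive := fun x => ∃ f hf, x = mkR f hf) (fun f hf => ⟨f, hf, rfl⟩) x

theorem ZZ0_mul {f : Matrix F.ι E.ι S6} {g : Matrix G.ι F.ι S6}
    (hg : g ∈ ZZ F.pz F.dz G.pz G.dz 0) (hf : f ∈ ZZ E.pz E.dz F.pz F.dz 0) :
    g * f ∈ ZZ E.pz E.dz G.pz G.dz 0 :=
  (mem_Z0_iff E G _).1 (Z0_mul ((mem_Z0_iff F G g).2 hg) ((mem_Z0_iff E F f).2 hf))

theorem ZZ0_one (E : HM W) : (1 : Matrix E.ι E.ι S6) ∈ ZZ E.pz E.dz E.pz E.dz 0 :=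
  (mem_Z0_iff E E _).1 (one_mem_Z0 E)

theorem mkR_comp {f : Matrix F.ι E.ι S6} (hf : f ∈ ZZ E.pz E.dz F.pz F.dz 0)
    {g : Matrix G.ι F.ι S6} (hg : g ∈ ZZ F.pz F.dz G.pz G.dz 0) :
    mkR f hf ≫ mkR g hg = mkR (g * f) (ZZ0_mul hg hf) := rfl

theorem mkR_one (E : HM W) : mkR (1 : Matrix E.ι E.ι S6) (ZZ0_one E) = 𝟙 E := rfl

theorem mkR_add {f g : Matrix F.ι E.ι S6} (hf : f ∈ ZZ E.pz E.dz F.pz F.dz 0)
    (hg : g ∈ ZZ E.pz E.dz F.pz F.dz 0) :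
    mkR f hf + mkR g hg = mkR (f + g) (add_mem hf hg) := rfl

theorem mkR_neg {f : Matrix F.ι E.ι S6} (hf : f ∈ ZZ E.pz E.dz F.pz F.dz 0) :
    -mkR f hf = mkR (-f) (neg_mem hf) := rfl

theorem mkR_congr {f g : Matrix F.ι E.ι S6} (hf : f ∈ ZZ E.pz E.dz F.pz F.dz 0)
    (hg : g ∈ ZZ E.pz E.dz F.pz F.dz 0) (h : f = g) : mkR f hf = mkR g hg := by
  subst h
  rfl

theorem mkR_smul (c : ℂ) {f : Matrix F.ι E.ι S6} (hf : f ∈ ZZ E.pz E.dz F.pz F.dz 0) :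
    c • mkR f hf = mkR (c • f) (Submodule.smul_mem _ c hf) :=
  (smul_mk c ((mem_Z0_iff E F f).2 hf)).trans (mk_congr _ (cst_smul c f))

theorem mkR_eq {f g : Matrix F.ι E.ι S6} (hf : f ∈ ZZ E.pz E.dz F.pz F.dz 0)
    (hg : g ∈ ZZ E.pz E.dz F.pz F.dz 0) :
    mkR f hf = mkR g hg ↔ f - g ∈ BB E.pz E.dz F.pz F.dz 0 :=
  (mk_eq_mk _ _).trans (mem_B0_iff E F _)

theorem mkR_eq_zero {f : Matrix F.ι E.ι S6} (hf : f ∈ ZZ E.pz E.dz F.pz F.dz 0) :
    mkR f hf = 0 ↔ f ∈ BB E.pz E.dz F.pz F.dz 0 :=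
  (mk_eq_zero _).trans (mem_B0_iff E F _)

end

theorem MM_tw (E F : HM W) (j k : ℤ) :
    MM E.pz (MF.pz (tw ((mvCtx 6).en j) F)) k = MM E.pz F.pz (j + k) := by
  ext g
  refine forall_congr' fun i => forall_congr' fun l => ?_
  rw [tw_pz, show k + E.pz l - (F.pz i - j) = j + k + E.pz l - F.pz i by ring]

theorem sgM_Z0_iff (E F : HM W) (j : ℤ) (g : Matrix F.ι E.ι S6) :
    g * sgM E.pz j ∈ Z0 E (tw ((mvCtx 6).en j) F) ↔ g ∈ ZZ E.pz E.dz F.pz F.dz j := by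
  rw [mem_Z0_iff E (tw ((mvCtx 6).en j) F), mem_ZZ, mem_ZZ, MM_tw, add_zero, tw_dz]
  have h1 := sgM_d j E.isMF.deg
  have h2 := sgM_mul_self E.pz j
  refine and_congr ⟨fun h => ?_, mul_sgM_mem j⟩ ?_
  · have := mul_sgM_mem j h
    rwa [Matrix.mul_assoc, h2, Matrix.mul_one] at this
  · rw [Matrix.mul_assoc g, h1, Matrix.mul_smul, Matrix.smul_mul, ← Matrix.mul_assoc,
      ← Matrix.mul_assoc]
    constructor
    · intro h
      have h3 := congrArg (fun x => sg j • (x * sgM E.pz j)) h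
      simp only [Matrix.smul_mul, smul_smul, sg_mul_self, one_smul, Matrix.mul_assoc, h2,
        Matrix.mul_one] at h3
      exact h3
    · intro h
      rw [h]

theorem sgM_B0_iff (E F : HM W) (j : ℤ) (g : Matrix F.ι E.ι S6) :
    g * sgM E.pz j ∈ B0 E (tw ((mvCtx 6).en j) F) ↔ g ∈ BB E.pz E.dz F.pz F.dz j := by
  rw [mem_B0_iff E (tw ((mvCtx 6).en j) F), mem_BB, mem_BB, MM_tw, tw_dz,
    show j + (0 - 3) = j - 3 by ring]
  have h1 := sgM_d j E.isMF.deg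
  have h2 := sgM_mul_self E.pz j
  have h4 : E.dz * sgM E.pz j = sg j • (sgM E.pz j * E.dz) := by
    rw [h1, smul_smul, sg_mul_self, one_smul]
  constructor
  · rintro ⟨h, hh, e⟩
    refine ⟨sg j • (h * sgM E.pz j), zsmul_mem (mul_sgM_mem j hh) _, ?_⟩
    have h3 := congrArg (fun x => x * sgM E.pz j) e
    simp only [Matrix.mul_assoc, h2, Matrix.mul_one, Matrix.add_mul, Matrix.smul_mul, h4,
      Matrix.mul_smul] at h3 ⊢
    exact h3
  · rintro ⟨h, hh, rfl⟩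
    refine ⟨sg j • (h * sgM E.pz j), zsmul_mem (mul_sgM_mem j hh) _, ?_⟩
    simp only [Matrix.mul_assoc, Matrix.add_mul, Matrix.smul_mul, h4, Matrix.mul_smul, smul_smul,
      sg_mul_self, one_smul]

/-- the class of a closed map of degree `j`, as a morphism to the twist -/
noncomputable def mkT {E F : HM W} (j : ℤ) (g : Matrix F.ι E.ι S6)
    (hg : g ∈ ZZ E.pz E.dz F.pz F.dz j) : E ⟶ tw ((mvCtx 6).en j) F :=
  mkR (E := E) (F := tw ((mvCtx 6).en j) F) (g * sgM E.pz j)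
    ((mem_Z0_iff E (tw ((mvCtx 6).en j) F) _).1 ((sgM_Z0_iff E F j g).2 hg))

theorem mkT_eq_zero {E F : HM W} (j : ℤ) {g : Matrix F.ι E.ι S6}
    (hg : g ∈ ZZ E.pz E.dz F.pz F.dz j) : mkT j g hg = 0 ↔ g ∈ BB E.pz E.dz F.pz F.dz j :=
  (mk_eq_zero _).trans (sgM_B0_iff E F j g)

theorem exists_mkT {E F : HM W} (j : ℤ) (x : E ⟶ tw ((mvCtx 6).en j) F) :
    ∃ g hg, x = mkT j g hg := by
  obtain ⟨f, hf, rfl⟩ := exists_mkR x
  have e : ∀ f : Matrix F.ι E.ι S6, f * sgM E.pz j * sgM E.pz j = f := fun f => by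
    rw [Matrix.mul_assoc, sgM_mul_self, Matrix.mul_one]
  have h1 : ∀ f : Matrix F.ι E.ι S6, f ∈ Z0 E (tw ((mvCtx 6).en j) F) →
      f * sgM E.pz j ∈ ZZ E.pz E.dz F.pz F.dz j := fun f hf => by
    refine (sgM_Z0_iff E F j _).1 ?_
    rw [e]
    exact hf
  exact ⟨_, h1 f ((mem_Z0_iff E _ f).2 hf), mkR_congr _ _ (e f).symm⟩

/-- closed maps of degree `j` give morphisms to the twist -/
noncomputable def zzTw (E F : HM W) (j : ℤ) :
    ZZ E.pz E.dz F.pz F.dz j →ₗ[ℂ] (E ⟶ tw ((mvCtx 6).en j) F) where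
  toFun g := mkT j g.1 g.2
  map_add' g g' :=
    (mkR_congr (E := E) (F := tw ((mvCtx 6).en j) F) _ _
      (Matrix.add_mul g.1 g'.1 (sgM E.pz j))).trans
      (mkR_add (E := E) (F := tw ((mvCtx 6).en j) F) _ _).symm
  map_smul' c g :=
    (mkR_congr (E := E) (F := tw ((mvCtx 6).en j) F) _ _
      (Matrix.smul_mul c g.1 (sgM E.pz j))).trans
      (mkR_smul (E := E) (F := tw ((mvCtx 6).en j) F) c _).symm

theorem zzTw_surj (E F : HM W) (j : ℤ) : Function.Surjective (zzTw E F j) := fun x => by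
  obtain ⟨g, hg, rfl⟩ := exists_mkT j x
  exact ⟨⟨g, hg⟩, rfl⟩

theorem zzTw_ker (E F : HM W) (j : ℤ) :
    (BB E.pz E.dz F.pz F.dz j).submoduleOf (ZZ E.pz E.dz F.pz F.dz j) =
      LinearMap.ker (zzTw E F j) := by
  ext g
  rw [LinearMap.mem_ker]
  exact (mkT_eq_zero j g.2).symm

/-- `HH` in degree `j` is the space of morphisms to the twist by `j` -/
noncomputable def homTw (E F : HM W) (j : ℤ) :
    HH E.pz E.dz F.pz F.dz j ≃ₗ[ℂ] (E ⟶ tw ((mvCtx 6).en j) F) :=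
  (Submodule.quotEquivOfEq _ _ (zzTw_ker E F j)).trans
    ((zzTw E F j).quotKerEquivOfSurjective (zzTw_surj E F j))

theorem homTw_mk (E F : HM W) (j : ℤ) (g : ZZ E.pz E.dz F.pz F.dz j) :
    homTw E F j (Submodule.Quotient.mk g) = mkT j g.1 g.2 := rfl

/-- `HH` in degree `3 k` is `Hom(E, F[k])` -/
noncomputable def homSh (E F : HM W) (k : ℤ) :
    HH E.pz E.dz F.pz F.dz (3 * k) ≃ₗ[ℂ] (E ⟶ F⟦k⟧) := homTw E F (3 * k)

theorem homSh_mk (E F : HM W) (k : ℤ) (g : ZZ E.pz E.dz F.pz F.dz (3 * k)) :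
    homSh E F k (Submodule.Quotient.mk g) = mkT (3 * k) g.1 g.2 := rfl

/-- closed maps of degree zero give morphisms -/
noncomputable def zz0 (E F : HM W) : ZZ E.pz E.dz F.pz F.dz 0 →ₗ[ℂ] (E ⟶ F) where
  toFun g := mkR g.1 g.2
  map_add' _ _ := rfl
  map_smul' c g := (mkR_smul c g.2).symm

theorem zz0_surj (E F : HM W) : Function.Surjective (zz0 E F) := by
  intro x
  obtain ⟨f, hf, rfl⟩ := exists_mkR x
  exact ⟨⟨f, hf⟩, rfl⟩

theorem zz0_ker (E F : HM W) :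
    (BB E.pz E.dz F.pz F.dz 0).submoduleOf (ZZ E.pz E.dz F.pz F.dz 0) =
      LinearMap.ker (zz0 E F) := by
  ext g
  rw [LinearMap.mem_ker]
  exact (mkR_eq_zero g.2).symm

/-- `HH` in degree zero is the space of morphisms -/
noncomputable def hom0 (E F : HM W) : HH E.pz E.dz F.pz F.dz 0 ≃ₗ[ℂ] (E ⟶ F) :=
  (Submodule.quotEquivOfEq _ _ (zz0_ker E F)).trans
    ((zz0 E F).quotKerEquivOfSurjective (zz0_surj E F))

theorem hom0_mk (E F : HM W) (g : ZZ E.pz E.dz F.pz F.dz 0) :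
    hom0 E F (Submodule.Quotient.mk g) = mkR g.1 g.2 := rfl

theorem finrank_tw (E F : HM W) (j : ℤ) :
    Module.finrank ℂ (E ⟶ tw ((mvCtx 6).en j) F) =
      Module.finrank ℂ (HH E.pz E.dz F.pz F.dz j) := (homTw E F j).finrank_eq.symm

theorem finrank_sh (E F : HM W) (k : ℤ) :
    Module.finrank ℂ (E ⟶ F⟦k⟧) = Module.finrank ℂ (HH E.pz E.dz F.pz F.dz (3 * k)) :=
  (homSh E F k).finrank_eq.symm

theorem finrank_hom (E F : HM W) :
    Module.finrank ℂ (E ⟶ F) = Module.finrank ℂ (HH E.pz E.dz F.pz F.dz 0) :=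
  (hom0 E F).finrank_eq.symm

/-- the Euler pairing in terms of raw matrices -/
theorem chi_eq (E F : HM W) : chi E F =
    ∑ᶠ k : ℤ, (k.negOnePow : ℤ) * (Module.finrank ℂ (HH E.pz E.dz F.pz F.dz (3 * k)) : ℤ) :=
  finsum_congr fun k => by rw [finrank_sh]

theorem hom_zero_iff (E F : HM W) :
    (∀ f : E ⟶ F, f = 0) ↔ ZZ E.pz E.dz F.pz F.dz 0 ≤ BB E.pz E.dz F.pz F.dz 0 := by
  constructor
  · intro h g hg
    exact (mkR_eq_zero hg).1 (h _)
  · intro h x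
    obtain ⟨f, hf, rfl⟩ := exists_mkR x
    exact (mkR_eq_zero hf).2 (h hf)

theorem hom_tw_zero_iff (E F : HM W) (j : ℤ) :
    (∀ f : E ⟶ tw ((mvCtx 6).en j) F, f = 0) ↔
      ZZ E.pz E.dz F.pz F.dz j ≤ BB E.pz E.dz F.pz F.dz j := by
  constructor
  · intro h g hg
    exact (mkT_eq_zero j hg).1 (h _)
  · intro h x
    obtain ⟨f, hf, rfl⟩ := exists_mkT j x
    exact (mkT_eq_zero j hf).2 (h hf)

theorem hom_sh_zero_iff (E F : HM W) (k : ℤ) :
    (∀ f : E ⟶ F⟦k⟧, f = 0) ↔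
      ZZ E.pz E.dz F.pz F.dz (3 * k) ≤ BB E.pz E.dz F.pz F.dz (3 * k) :=
  hom_tw_zero_iff E F (3 * k)

theorem isZero_iff_BB (E : HM W) :
    IsZero E ↔ (1 : Matrix E.ι E.ι S6) ∈ BB E.pz E.dz E.pz E.dz 0 :=
  (isZero_iff E).trans (mem_B0_iff E E _)

/-- the isomorphism given by a homotopy equivalence -/
noncomputable def isoR {E F : HM W} {f : Matrix F.ι E.ι S6} {g : Matrix E.ι F.ι S6}
    (hf : f ∈ ZZ E.pz E.dz F.pz F.dz 0) (hg : g ∈ ZZ F.pz F.dz E.pz E.dz 0)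
    (h1 : g * f - 1 ∈ BB E.pz E.dz E.pz E.dz 0) (h2 : f * g - 1 ∈ BB F.pz F.dz F.pz F.dz 0) :
    E ≅ F where
  hom := mkR f hf
  inv := mkR g hg
  hom_inv_id := (mkR_eq (ZZ0_mul hg hf) (ZZ0_one E)).2 h1
  inv_hom_id := (mkR_eq (ZZ0_mul hf hg) (ZZ0_one F)).2 h2

/-- isomorphisms are homotopy equivalences -/
theorem iso_iff (E F : HM W) : Nonempty (E ≅ F) ↔
    ∃ f ∈ ZZ E.pz E.dz F.pz F.dz 0, ∃ g ∈ ZZ F.pz F.dz E.pz E.dz 0,
      g * f - 1 ∈ BB E.pz E.dz E.pz E.dz 0 ∧ f * g - 1 ∈ BB F.pz F.dz F.pz F.dz 0 := by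
  constructor
  · rintro ⟨⟨a, b, h1, h2⟩⟩
    obtain ⟨f, hf, rfl⟩ := exists_mkR a
    obtain ⟨g, hg, rfl⟩ := exists_mkR b
    exact ⟨f, hf, g, hg, (mkR_eq (ZZ0_mul hg hf) (ZZ0_one E)).1 h1,
      (mkR_eq (ZZ0_mul hf hg) (ZZ0_one F)).1 h2⟩
  · rintro ⟨f, hf, g, hg, h1, h2⟩
    exact ⟨isoR hf hg h1 h2⟩

theorem isIso_mkR_iff {E F : HM W} {f : Matrix F.ι E.ι S6} (hf : f ∈ ZZ E.pz E.dz F.pz F.dz 0) :
    IsIso (mkR f hf) ↔ ∃ g ∈ ZZ F.pz F.dz E.pz E.dz 0,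
      g * f - 1 ∈ BB E.pz E.dz E.pz E.dz 0 ∧ f * g - 1 ∈ BB F.pz F.dz F.pz F.dz 0 := by
  constructor
  · rintro ⟨b, h1, h2⟩
    obtain ⟨g, hg, rfl⟩ := exists_mkR b
    exact ⟨g, hg, (mkR_eq (ZZ0_mul hg hf) (ZZ0_one E)).1 h1,
      (mkR_eq (ZZ0_mul hf hg) (ZZ0_one F)).1 h2⟩
  · rintro ⟨g, hg, h1, h2⟩
    exact (isoR hf hg h1 h2).isIso_hom

theorem Zf_eq (E : HM W) : Zf E = ∑ i, ray (-(E.pz i : ℝ) / 3) := rfl

theorem dbar_eq (E : HM W) : dbar E = E.dz.map constantCoeff := rfl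

/-! ### matrix factorizations indexed by `Fin n` -/

/-- the object given by a `GMF` -/
noncomputable def ofGMF {n : ℕ} (X : P287Z.O.V.GMF W n) : HM W := ofRaw (isMF_gmf X)

theorem cl_iff {m n : ℕ} (X : P287Z.O.V.GMF W m) (Y : P287Z.O.V.GMF W n) (f : Matrix (Fin n) (Fin m) S6) :
    P287Z.O.V.Cl X Y f ↔ f ∈ Z0 (ofGMF X) (ofGMF Y) := by
  refine Iff.trans ?_ (mem_Z0_iff (ofGMF X) (ofGMF Y) f).symm
  refine and_congr (forall_congr' fun i => forall_congr' fun l => ?_) Iff.rfl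
  change _ ↔ P287Z.O.V.Hg (0 + X.p l - Y.p i) (f i l)
  rw [zero_add]

theorem nh_iff {m n : ℕ} (X : P287Z.O.V.GMF W m) (Y : P287Z.O.V.GMF W n) (f : Matrix (Fin n) (Fin m) S6) :
    P287Z.O.V.Nh X Y f ↔ f ∈ B0 (ofGMF X) (ofGMF Y) := by
  refine Iff.trans ?_ (mem_B0_iff (ofGMF X) (ofGMF Y) f).symm
  refine exists_congr fun h =>
    and_congr (forall_congr' fun i => forall_congr' fun l => ?_) Iff.rfl
  change _ ↔ P287Z.O.V.Hg (0 - 3 + X.p l - Y.p i) (h i l)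
  rw [show 0 - 3 + X.p l - Y.p i = X.p l - Y.p i - 3 by ring]

/-- numbering the basis -/
noncomputable def toGMF (E : HM W) : P287Z.O.V.GMF W (Fintype.card E.ι) where
  p i := E.pz ((Fintype.equivFin E.ι).symm i)
  d := E.dz.submatrix (Fintype.equivFin E.ι).symm (Fintype.equivFin E.ι).symm
  deg _ _ := E.isMF.deg _ _
  sq := by
    rw [Matrix.submatrix_mul_equiv, E.isMF.sq, Matrix.submatrix_smul,
      ← Matrix.submatrix_one_equiv (Fintype.equivFin E.ι).symm]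
    rfl

/-- every object is isomorphic to a `GMF` -/
noncomputable def toGMFIso (E : HM W) : ofGMF (toGMF E) ≅ E :=
  permIso (E := ofGMF (toGMF E)) (F := E) (Fintype.equivFin E.ι).symm (fun _ => rfl)
    (fun _ _ => rfl)

end Vale.Agent.P287T.G3
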