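import Vale.Agent.P287T.G3.D
import Vale.Agent.P287T.G3.War
import Vale.Agent.P287T.G3.Br
import Vale.Agent.P287T.Op.Mx1
import Vale.Agent.P287T.Op.Open

/-!
# The global family of Gepner-type stability conditions on smooth cubic forms
-/

open Matrix CategoryTheory CategoryTheory.Limits CategoryTheory.Pretriangulated Filter Topology

open Vale.Agent.P294 Vale.Agent.P287T.Op

namespace Vale.Agent.P287T.G3

/-- the isomorphism with the iterated polynomial ring -/
noncomputable def mvIso : (n : ℕ) → CIso (mvCtx n) (co n)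
  | 0 => N2_base
  | n + 1 => N2_step (mvIso n)

/-- the Fermat form -/
noncomputable def fer (n : ℕ) : MvPolynomial (Fin n) ℂ := ∑ i, MvPolynomial.X i ^ 3

theorem mvIso_vars : ∀ n : ℕ, (mvIso n).φ ''
    (Set.range fun i => (MvPolynomial.X i : MvPolynomial (Fin n) ℂ)) = vars n
  | 0 => N2_base_vars
  | n + 1 => N2_vars (mvIso n).φ (vars n) (mvIso_vars n)

theorem mvIso_fer : ∀ n : ℕ, (mvIso n).φ (mvS (fer n)) = Fer n
  | 0 => N2_base_fer
  | n + 1 => N2_fer (mvIso n).φ (Fer n) (mvIso_fer n)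

theorem mvIso_ev : ∀ (n : ℕ) (s : (mvCtx n).S),
    GCtx.Aug.ev ((mvIso n).φ s) = GCtx.Aug.ev s
  | 0 => N2_base_ev
  | n + 1 => N2_ev (mvIso n).φ (GCtx.Aug.ev (A := co n)) (mvIso_ev n)

theorem mvIso_cst (n : ℕ) (z : ℂ) :
    (mvIso n).φ (GCtx.Aug.cst z) = GCtx.Aug.cst z := by
  have : Nonempty (mvCtx n).L := ⟨(0 : ℤ)⟩
  exact (mvIso n).cst (mvIso_ev n) z

theorem fer_hom (n : ℕ) : (fer n).IsHomogeneous 3 := by
  refine MvPolynomial.IsHomogeneous.sum _ _ _ fun i _ => ?_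
  have := (MvPolynomial.isHomogeneous_X ℂ i).pow 3
  simpa using this

theorem fer_smooth (n : ℕ) : SmoothForm (fer n) := by
  intro x hx
  funext i
  have h := hx i
  rw [fer, map_sum, Finset.sum_eq_single i] at h
  · simpa [Derivation.leibniz_pow] using h
  · intro j _ hj
    simp [Derivation.leibniz_pow, MvPolynomial.pderiv_X_of_ne hj]
  · intro h'
    exact absurd (Finset.mem_univ i) h'

theorem mem_lin {n : ℕ} {f : MvPolynomial (Fin n) ℂ} (hf : f.IsHomogeneous 1) (a : (mvCtx n).L) :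
    mvS f ∈ (mvCtx n).H ((mvCtx n).en 2 +ᵥ a) a := by
  refine mem_of_isHomogeneous hf _ _ ?_
  have key : ∀ a : ℤ, (2 : ℤ) • (1 : ℤ) + a = a + 2 * ((1 : ℕ) : ℤ) := fun a => by
    simp
    ring
  exact key a

theorem isPot_mvS {n : ℕ} {W : MvPolynomial (Fin n) ℂ} (hW : W.IsHomogeneous 3) :
    (mvCtx n).IsPot (mvS W) := by
  intro a
  refine mem_of_isHomogeneous hW _ _ ?_
  have key : ∀ a : ℤ, (6 : ℤ) • (1 : ℤ) + a = a + 2 * ((3 : ℕ) : ℤ) := fun a => by
    simp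
    ring
  exact key a

/-! ### a Waring decomposition depending continuously on the form -/

/-- the number of forms in the uniform decomposition -/
noncomputable def wN (n : ℕ) : ℕ := (waring_lin n).choose

/-- the linear forms -/
noncomputable def wL (n : ℕ) : Fin (wN n) → MvPolynomial (Fin n) ℂ :=
  (waring_lin n).choose_spec.choose

/-- the monomials -/
noncomputable def wM (n : ℕ) : Fin (wN n) → (Fin n →₀ ℕ) :=
  (waring_lin n).choose_spec.choose_spec.choose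

theorem wL_hom (n : ℕ) (i : Fin (wN n)) : (wL n i).IsHomogeneous 1 :=
  (waring_lin n).choose_spec.choose_spec.choose_spec.1 i

theorem wL_sum (n : ℕ) (W : MvPolynomial (Fin n) ℂ) (hW : W.IsHomogeneous 3) :
    W = ∑ i, MvPolynomial.C ((1 / 24) * W.coeff (wM n i)) * wL n i ^ 3 :=
  (waring_lin n).choose_spec.choose_spec.choose_spec.2 W hW

/-- principal cube root -/
noncomputable def cbr (z : ℂ) : ℂ := z ^ (((3 : ℕ) : ℂ)⁻¹)

theorem cbr_pow (z : ℂ) : cbr z ^ 3 = z := Complex.cpow_nat_inv_pow z (by norm_num)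

theorem cbr_zero : cbr 0 = 0 := Complex.zero_cpow (by norm_num)

theorem cbr_cont {z : ℂ} (hz : 0 ≤ z.re) : ContinuousAt cbr z :=
  Complex.continuousAt_cpow_const_of_re_pos (Or.inl hz) (by norm_num)

variable {n : ℕ}

/-- the coefficients of `W - fer` -/
noncomputable def wc (W : MvPolynomial (Fin n) ℂ) (i : Fin (wN n)) : ℂ :=
  (1 / 24) * (W - fer n).coeff (wM n i)

/-- the sum of their norms -/
noncomputable def wS (W : MvPolynomial (Fin n) ℂ) : ℝ := ∑ i, ‖wc W i‖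

/-- the number of additional variables -/
noncomputable def mW (n : ℕ) : ℕ := wN n + wN n

/-- the scalars -/
noncomputable def wa (W : MvPolynomial (Fin n) ℂ) (i : ℕ) : ℂ :=
  if h : i < wN n then cbr (wc W ⟨i, h⟩ + wS W) else -cbr (wS W)

/-- the fixed linear forms -/
noncomputable def wF (n : ℕ) (i : ℕ) : MvPolynomial (Fin n) ℂ :=
  if h : i < wN n then wL n ⟨i, h⟩ else if h : i - wN n < wN n then wL n ⟨i - wN n, h⟩ else 0

theorem wF_hom (i : ℕ) : (wF n i).IsHomogeneous 1 := by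
  unfold wF
  split_ifs
  · exact wL_hom n _
  · exact wL_hom n _
  · exact MvPolynomial.isHomogeneous_zero _ _ _

/-- the linear forms of the decomposition of `W` -/
noncomputable def lW (W : MvPolynomial (Fin n) ℂ) (i : ℕ) : MvPolynomial (Fin n) ℂ :=
  MvPolynomial.C (wa W i) * wF n i

theorem lW_hom (W : MvPolynomial (Fin n) ℂ) (i : ℕ) : (lW W i).IsHomogeneous 1 := by
  have h := (MvPolynomial.isHomogeneous_C (Fin n) (wa W i)).mul (wF_hom (n := n) i)
  rwa [zero_add] at h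

theorem lW_sum (W : MvPolynomial (Fin n) ℂ) (hW : W.IsHomogeneous 3) :
    W = fer n + ∑ i ∈ Finset.range (mW n), lW W i ^ 3 := by
  have h1 := wL_sum n _ (hW.sub (fer_hom n))
  have h2 : ∑ i ∈ Finset.range (wN n), lW W i ^ 3 =
      ∑ i : Fin (wN n), MvPolynomial.C (wc W i + wS W) * wL n i ^ 3 := by
    rw [Finset.sum_range]
    refine Finset.sum_congr rfl fun i _ => ?_
    rw [lW, wa, wF, dif_pos i.2, dif_pos i.2, mul_pow, ← MvPolynomial.C_pow, cbr_pow]
  have h3 : ∑ i ∈ Finset.range (wN n), lW W (wN n + i) ^ 3 =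
      ∑ i : Fin (wN n), MvPolynomial.C (-(wS W : ℂ)) * wL n i ^ 3 := by
    rw [Finset.sum_range]
    refine Finset.sum_congr rfl fun i _ => ?_
    have e1 : ¬ wN n + i < wN n := by omega
    have e2 : wN n + i - wN n < wN n := by
      have := i.2
      omega
    have e3 : (⟨wN n + i - wN n, e2⟩ : Fin (wN n)) = i := Fin.ext (by simp)
    have e4 : (-cbr (wS W)) ^ 3 = -(wS W : ℂ) := by
      rw [neg_pow, cbr_pow]
      norm_num
    rw [lW, wa, wF, dif_neg e1, dif_neg e1, dif_pos e2, e3, mul_pow, ← MvPolynomial.C_pow, e4]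
  rw [mW, Finset.sum_range_add, h2, h3, ← Finset.sum_add_distrib]
  have h4 : ∑ i : Fin (wN n), (MvPolynomial.C (wc W i + wS W) * wL n i ^ 3 +
      MvPolynomial.C (-(wS W : ℂ)) * wL n i ^ 3) = W - fer n := by
    rw [h1]
    refine Finset.sum_congr rfl fun i _ => ?_
    rw [← add_mul, ← MvPolynomial.C_add, add_neg_cancel_right]
    rfl
  rw [h4]
  ring

theorem wa_fer (i : ℕ) : wa (fer n) i = 0 := by
  have h1 : ∀ j, wc (fer n) j = 0 := fun j => by simp [wc]
  have h2 : wS (fer n) = 0 := by simp [wS, h1]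
  unfold wa
  split_ifs
  · rw [h1, h2]
    simpa using cbr_zero
  · rw [h2]
    simpa using cbr_zero

theorem lW_fer (i : ℕ) : lW (fer n) i = 0 := by
  rw [lW, wa_fer, map_zero, zero_mul]

/-- the scalars are continuous in the coefficients of the form -/
theorem wa_tendsto {I : Type} {l : Filter I} {W : I → MvPolynomial (Fin n) ℂ}
    {W0 : MvPolynomial (Fin n) ℂ}
    (h : ∀ m, Tendsto (fun k => (W k).coeff m) l (𝓝 (W0.coeff m))) (i : ℕ) :
    Tendsto (fun k => wa (W k) i) l (𝓝 (wa W0 i)) := by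
  have h1 : ∀ j, Tendsto (fun k => wc (W k) j) l (𝓝 (wc W0 j)) := by
    intro j
    simp only [wc, MvPolynomial.coeff_sub]
    exact ((h _).sub_const _).const_mul _
  have h2 : Tendsto (fun k => wS (W k)) l (𝓝 (wS W0)) :=
    tendsto_finsetSum _ fun j _ => (h1 j).norm
  have h3 : Tendsto (fun k => (wS (W k) : ℂ)) l (𝓝 (wS W0 : ℂ)) :=
    (Complex.continuous_ofReal.tendsto _).comp h2
  have h4 : 0 ≤ wS W0 := Finset.sum_nonneg fun j _ => norm_nonneg _
  unfold wa
  split_ifs with hi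
  · refine (cbr_cont ?_).tendsto.comp ((h1 _).add h3)
    have h5 : ‖wc W0 ⟨i, hi⟩‖ ≤ wS W0 :=
      Finset.single_le_sum (f := fun j => ‖wc W0 j‖) (fun j _ => norm_nonneg _)
        (Finset.mem_univ _)
    have h6 := Complex.abs_re_le_norm (wc W0 ⟨i, hi⟩)
    have h7 := neg_abs_le (wc W0 ⟨i, hi⟩).re
    rw [Complex.add_re, Complex.ofReal_re]
    linarith
  · exact ((cbr_cont (by simpa using h4)).tendsto.comp h3).neg

/-- the linear forms in the iterated polynomial ring -/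
noncomputable def lC (W : MvPolynomial (Fin n) ℂ) (i : ℕ) : (co n).S :=
  (mvIso n).φ (mvS (lW W i))

theorem lC_mem (W : MvPolynomial (Fin n) ℂ) (i : ℕ) (a : (co n).L) :
    lC W i ∈ (co n).H ((co n).en 2 +ᵥ a) a :=
  F1_mem_aux (mvIso n) (mem_lin (lW_hom W i)) a

theorem lC_eq (W : MvPolynomial (Fin n) ℂ) (i : ℕ) :
    lC W i = GCtx.Aug.cst (wa W i) * (mvIso n).φ (mvS (wF n i)) := by
  rw [← mvIso_cst, ← map_mul]
  rfl

theorem lC_fer (i : ℕ) : lC (fer n) i = 0 := by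
  rw [lC_eq, wa_fer, map_zero, zero_mul]

theorem sum_map {n : ℕ} {W : MvPolynomial (Fin n) ℂ} {l : ℕ → MvPolynomial (Fin n) ℂ} {m : ℕ}
    (h : W = fer n + ∑ i ∈ Finset.range m, l i ^ 3) :
    (mvIso n).φ (mvS W) = Fer n + ∑ i ∈ Finset.range m, (mvIso n).φ (mvS (l i)) ^ 3 := by
  have h1 : mvS W = mvS (fer n) + ∑ i ∈ Finset.range m, mvS (l i) ^ 3 := h
  rw [h1, map_add, map_sum, mvIso_fer]
  simp only [map_pow]

theorem lC_sum (W : MvPolynomial (Fin n) ℂ) (hW : W.IsHomogeneous 3) :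
    (mvIso n).φ (mvS W) = Fer n + ∑ i ∈ Finset.range (mW n), lC W i ^ 3 :=
  sum_map (lW_sum W hW)

section cv

attribute [local instance] Mx.algS

theorem lC_cv {I : Type} {l : Filter I} {W : I → MvPolynomial (Fin n) ℂ}
    {W0 : MvPolynomial (Fin n) ℂ}
    (h : ∀ m, Tendsto (fun k => (W k).coeff m) l (𝓝 (W0.coeff m))) (i : ℕ) :
    Cv l (fun k => lC (W k) i) (lC W0 i) :=
  (Cv.smul (wa_tendsto h i) (Cv.const l ((mvIso n).φ (mvS (wF n i))))).congr'
    (fun k => (lC_eq (W k) i).symm) (lC_eq W0 i).symm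

/-- a coefficient as a linear functional -/
noncomputable def coefL (n : ℕ) (m : Fin n →₀ ℕ) : (mvCtx n).S →ₗ[ℂ] ℂ where
  toFun s := MvPolynomial.coeff m (show MvPolynomial (Fin n) ℂ from s)
  map_add' _ _ := MvPolynomial.coeff_add m _ _
  map_smul' z _ := MvPolynomial.coeff_C_mul m z _

theorem tendsto_of_cv {I : Type} {l : Filter I} {W : I → MvPolynomial (Fin n) ℂ}
    {W0 : MvPolynomial (Fin n) ℂ} (h : Cv l (fun k => mvS (W k)) (mvS W0)) (m : Fin n →₀ ℕ) :
    Tendsto (fun k => (W k).coeff m) l (𝓝 (W0.coeff m)) :=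
  (h.map (coefL n m)).tendsto

/-- the ring isomorphism as a linear map -/
noncomputable def mvL (n : ℕ) : (mvCtx n).S →ₗ[ℂ] (co n).S where
  toFun := (mvIso n).φ
  map_add' := map_add _
  map_smul' z s := by
    rw [Mx.smul_eq, map_mul, mvIso_cst]
    rfl

end cv

/-! ### the family -/

/-- the fixed category: `Fer + y_1^3 + ... + y_m^3` with all the weights -/
abbrev Big (n : ℕ) : Type 1 := MF (TT (co n) (mW n)) (TTW (co n) (Fer n) (mW n))

/-- the fixed Gepner data -/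
noncomputable def g0 (n : ℕ) : GD (TT (co n) (mW n)) (TTW (co n) (Fer n) (mW n)) :=
  gdTT (gdFer n) (mW n)

/-- the descent functor on objects -/
noncomputable def Fd (W : MvPolynomial (Fin n) ℂ) (hW : W.IsHomogeneous 3)
    (E : MF (mvCtx n) (mvS W)) : Big n :=
  DObj (lC W) (lC_mem W) (mW n) (Fer n) ((mvIso n).φ (mvS W)) (Fer_isPot n) (lC_sum W hW)
    (((mvIso n).chom (mvS W)).obj E)

theorem nilp_co {W : MvPolynomial (Fin n) ℂ} (hW : W.IsHomogeneous 3) (hs : SmoothForm W) :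
    ∃ N, 1 ≤ N ∧ Nilp (co n) ((mvIso n).φ (mvS W)) (vars n) N := by
  obtain ⟨N, hN, hnil⟩ := nilp_of_smooth hW hs
  have := (mvIso n).nilp_chom (W := mvS W) hnil
  rw [mvIso_vars] at this
  exact ⟨N, hN, this⟩

theorem ray_third : ray (1 / 3) ^ 2 = ray (1 / 3) - 1 := by
  have h1 : ray (1 / 3) ^ 3 = -1 := by
    rw [← T3a_ray_pow, ← ray_one]
    norm_num
  have h2 : (1 + ray (1 / 3)) * (ray (1 / 3) ^ 2 - (ray (1 / 3) - 1)) = 0 := by
    linear_combination h1
  exact sub_eq_zero.1 ((mul_eq_zero.1 h2).resolve_left e3_ray_ne)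

theorem ray_two_third : ray (2 / 3) = ray (1 / 3) ^ 2 := by
  rw [← T3a_ray_pow]
  norm_num

theorem three_kT : 3 * kT = 2 - ray (1 / 3) := by
  have h := ray_third
  have h0 : ray (2 / 3) - 1 ≠ 0 := sub_ne_zero.2 T3a_q_ne
  rw [kT, ← mul_div_assoc, div_eq_iff h0, ray_two_third]
  linear_combination (ray (1 / 3) + 2) * h

theorem kT_kD : kT * kD = 3 := by
  have h := ray_third
  have h1 : kT * kD = 3 * kT * (1 + ray (1 / 3)) := by rw [kD]; ring
  rw [h1, three_kT]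
  linear_combination (-1 : ℂ) * h

theorem three_kT_six : (3 * kT) ^ 6 = -27 := by
  have h := ray_third
  have h2 : (3 * kT) ^ 2 = 3 - 3 * ray (1 / 3) := by
    rw [three_kT]
    linear_combination h
  have h3 : (3 * kT) ^ 6 = ((3 * kT) ^ 2) ^ 3 := by ring
  rw [h3, h2]
  linear_combination (54 - 27 * ray (1 / 3)) * h

/-- Gepner data attached to any decomposition `W = fer + ∑ l i ^ 3` -/
theorem exists_gd {W : MvPolynomial (Fin n) ℂ} (hW : W.IsHomogeneous 3) (hs : SmoothForm W)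
    (l : ℕ → (co n).S) (hl : ∀ i a, l i ∈ (co n).H ((co n).en 2 +ᵥ a) a) (m : ℕ)
    (h : (mvIso n).φ (mvS W) = Fer n + ∑ i ∈ Finset.range m, l i ^ 3) :
    ∃ g : GD (mvCtx n) (mvS W), g.κ = (3 * kT) ^ n * 3 ^ m ∧ g.c = (gdTT (gdFer n) m).c ∧
      (∀ s X, g.σ.U s X ↔ (gdTT (gdFer n) m).σ.U s (DObj l hl m (Fer n) _ (Fer_isPot n) h
        (((mvIso n).chom (mvS W)).obj X))) ∧
      (∀ s X, g.σ.V s X ↔ (gdTT (gdFer n) m).σ.V s (DObj l hl m (Fer n) _ (Fer_isPot n) h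
        (((mvIso n).chom (mvS W)).obj X))) := by
  obtain ⟨N, hN, hnil⟩ := nilp_co hW hs
  obtain ⟨g1, h1, h2, h3, h4⟩ := gd_sum l hl m h hN hnil
  obtain ⟨g2, k1, k2, k3, k4⟩ := gd_ciso (mvIso n) (mvIso_ev n) g1
  refine ⟨g2, ?_, k2.trans h2, fun s X => (k3 s X).trans (h3 s _),
    fun s X => (k4 s X).trans (h4 s _)⟩
  rw [k1, h1, gdTT_κ, gdFer_κ, mul_assoc, ← mul_pow, kT_kD]

/-- **the family** -/
noncomputable def sig (W : MvPolynomial (Fin n) ℂ) (hW : W.IsHomogeneous 3) (hs : SmoothForm W) :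
    GD (mvCtx n) (mvS W) :=
  (exists_gd hW hs (lC W) (lC_mem W) (mW n) (lC_sum W hW)).choose

variable {W : MvPolynomial (Fin n) ℂ} (hW : W.IsHomogeneous 3) (hs : SmoothForm W)

theorem sig_κ : (sig W hW hs).κ = (3 * kT) ^ n * 3 ^ mW n :=
  (exists_gd hW hs (lC W) (lC_mem W) (mW n) (lC_sum W hW)).choose_spec.1

theorem sig_c : (sig W hW hs).c = (g0 n).c :=
  (exists_gd hW hs (lC W) (lC_mem W) (mW n) (lC_sum W hW)).choose_spec.2.1

theorem sig_U (s : ℝ) (E : MF (mvCtx n) (mvS W)) :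
    (sig W hW hs).σ.U s E ↔ (g0 n).σ.U s (Fd W hW E) :=
  (exists_gd hW hs (lC W) (lC_mem W) (mW n) (lC_sum W hW)).choose_spec.2.2.1 s E

theorem sig_V (s : ℝ) (E : MF (mvCtx n) (mvS W)) :
    (sig W hW hs).σ.V s E ↔ (g0 n).σ.V s (Fd W hW E) :=
  (exists_gd hW hs (lC W) (lC_mem W) (mW n) (lC_sum W hW)).choose_spec.2.2.2 s E

theorem sig_P (s : ℝ) (E : MF (mvCtx n) (mvS W)) :
    (sig W hW hs).σ.P s E ↔ (g0 n).σ.P s (Fd W hW E) :=
  and_congr (sig_U hW hs s E) (forall_congr' fun t => forall_congr' fun _ => sig_V hW hs t E)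

theorem Zf_Fd (E : MF (mvCtx n) (mvS W)) : Zf (Fd W hW E) = kD ^ mW n * Zf E := by
  rw [Fd, Zf_DObj, CIso.Zf_obj]

/-! ### the central charge takes values in the Eisenstein lattice -/

theorem ray_int (k : ℤ) : ∃ a b : ℤ, ray ((k : ℝ) / 3) = a + b * ray (1 / 3) := by
  have h := ray_third
  induction k using Int.induction_on with
  | zero => exact ⟨1, 0, by simp [ray_zero]⟩
  | succ k ih =>
    obtain ⟨a, b, hab⟩ := ih
    refine ⟨-b, a + b, ?_⟩
    have e : (((k : ℤ) + 1 : ℤ) : ℝ) / 3 = (((k : ℤ) : ℤ) : ℝ) / 3 + 1 / 3 := by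
      push_cast
      ring
    rw [e, ray_add, hab]
    push_cast
    linear_combination (b : ℂ) * h
  | pred k ih =>
    obtain ⟨a, b, hab⟩ := ih
    refine ⟨a + b, -a, ?_⟩
    have e : ((-(k : ℤ) : ℤ) : ℝ) / 3 = ((-(k : ℤ) - 1 : ℤ) : ℝ) / 3 + 1 / 3 := by
      push_cast
      ring
    rw [e, ray_add] at hab
    refine mul_right_cancel₀ (ray_ne_zero (1 / 3)) ?_
    rw [hab]
    push_cast
    linear_combination (a : ℂ) * h

theorem Zf_int {A : GCtx} {V : A.S} (E : MF A V) :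
    ∃ a b : ℤ, Zf E = a + b * ray (1 / 3) := by
  choose a b h using fun i : E.ι => ray_int (-A.ch (E.p i))
  refine ⟨∑ i, a i, ∑ i, b i, ?_⟩
  unfold Zf
  push_cast
  rw [Finset.sum_mul, ← Finset.sum_add_distrib]
  refine Finset.sum_congr rfl fun i _ => ?_
  rw [← h i]
  push_cast
  rfl

theorem lat_Zf {A : GCtx} {V : A.S} {κ : ℂ} (hκ : κ ≠ 0) :
    Lat (fun E : MF A V => κ * Zf E) := by
  refine ⟨κ, κ * ray (1 / 3), ?_, fun E => ?_⟩
  · have h1 : κ.re * (κ * ray (1 / 3)).im - κ.im * (κ * ray (1 / 3)).re =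
        Complex.normSq κ * (ray (1 / 3)).im := by
      rw [Complex.mul_im, Complex.mul_re, Complex.normSq_apply]
      ring
    rw [h1]
    refine mul_ne_zero (by simpa using hκ) ?_
    rw [ray_eq]
    refine (Real.sin_pos_of_pos_of_lt_pi (by positivity) ?_).ne'
    have := Real.pi_pos
    linarith
  · obtain ⟨a, b, h⟩ := Zf_int E
    exact ⟨a, b, by change κ * Zf E = _; rw [h]; ring⟩

theorem disc_of_lat {C : Type 1} {Z : C → ℂ}
    (h : ∃ z1 z2 : ℂ, z1.re * z2.im - z1.im * z2.re ≠ 0 ∧ ∀ X, ∃ a b : ℤ, Z X = a * z1 + b * z2)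
    (R : ℝ) : {z : ℂ | (∃ X, Z X = z) ∧ ‖z‖ ≤ R}.Finite := by
  obtain ⟨z1, z2, hD, hZ⟩ := h
  set D := z1.re * z2.im - z1.im * z2.re with hDdef
  have hD0 : 0 < |D| := abs_pos.2 hD
  obtain ⟨K, hK⟩ := exists_nat_ge (2 * R * (‖z1‖ + ‖z2‖) / |D|)
  rw [div_le_iff₀ hD0] at hK
  refine (((Set.finite_Icc (-(K : ℤ)) K).prod (Set.finite_Icc (-(K : ℤ)) K)).image
    (fun p : ℤ × ℤ => (p.1 : ℂ) * z1 + p.2 * z2)).subset ?_
  rintro z ⟨⟨X, rfl⟩, hR⟩
  obtain ⟨a, b, hab⟩ := hZ X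
  have hR0 : 0 ≤ R := (norm_nonneg _).trans hR
  have key : ∀ (k : ℤ) (w : ℂ), ‖w‖ ≤ ‖z1‖ + ‖z2‖ →
      |(k : ℝ) * D| = |(Z X).re * w.im - (Z X).im * w.re| → k ∈ Set.Icc (-(K : ℤ)) K := by
    intro k w hw hk
    have h1 := (Complex.abs_re_le_norm (Z X)).trans hR
    have h2 := (Complex.abs_im_le_norm (Z X)).trans hR
    have h3 := (Complex.abs_re_le_norm w).trans hw
    have h4 := (Complex.abs_im_le_norm w).trans hw
    have h5 := abs_sub ((Z X).re * w.im) ((Z X).im * w.re)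
    rw [abs_mul, abs_mul] at h5
    have h6 := mul_le_mul h1 h4 (abs_nonneg _) hR0
    have h7 := mul_le_mul h2 h3 (abs_nonneg _) hR0
    rw [abs_mul] at hk
    have h8 : |(k : ℝ)| * |D| ≤ K * |D| := by linarith
    have h9 : |(k : ℝ)| ≤ K := le_of_mul_le_mul_right h8 hD0
    have h10 : |k| ≤ (K : ℤ) := by exact_mod_cast h9
    exact abs_le.1 h10
  refine ⟨(a, b), ⟨key a z2 (by linarith [norm_nonneg z1]) ?_,
    key b z1 (by linarith [norm_nonneg z2]) ?_⟩, hab.symm⟩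
  · congr 1
    rw [hab, hDdef]
    simp
    ring
  · rw [← abs_neg]
    congr 1
    rw [hab, hDdef]
    simp
    ring

theorem disc_Zf {A : GCtx} {V : A.S} {κ : ℂ} (hκ : κ ≠ 0) :
    Disc (fun E : MF A V => κ * Zf E) :=
  disc_of_lat (lat_Zf hκ)

theorem GD.lat {A : GCtx} [GCtx.Aug A] {V : A.S} (g : GD A V) :
    Lat (fun E : MF A V => g.κ * Zf E) := lat_Zf g.κ_ne

theorem GD.disc {A : GCtx} [GCtx.Aug A] {V : A.S} (g : GD A V) :
    Disc (fun E : MF A V => g.κ * Zf E) := disc_Zf g.κ_ne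

/-- rescaling the central charge -/
theorem stab_scale {A : GCtx} {V : A.S} {σ : Slic (MF A V)} {Z Z' : MF A V → ℂ}
    {r : MF A V → ℕ} {c t : ℝ} (ht : 0 < t) (h : Stab σ Z r c) (e : ∀ X, Z X = t * Z' X) :
    Stab σ Z' r (c / t) := by
  have ht' : (t : ℂ) ≠ 0 := by exact_mod_cast ht.ne'
  refine ⟨h.hn, fun T hT => ?_, h.rk, div_pos h.cpos ht, fun φ X hX => ?_⟩
  · have h1 := h.add T hT
    simp only [e] at h1
    refine mul_left_cancel₀ ht' ?_
    rw [h1, mul_add]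
  · obtain ⟨m, h1, h2⟩ := h.ph φ X hX
    refine ⟨m / t, ?_, ?_⟩
    · rw [div_mul_eq_mul_div]
      exact div_le_div_of_nonneg_right h1 ht.le
    · refine mul_left_cancel₀ ht' ?_
      rw [← e, h2]
      push_cast
      field_simp

/-- the mass constant for cubic fourfolds -/
noncomputable def c6 : ℝ := (g0 6).c / (27 * 3 ^ mW 6)

/-- for six variables the central charge is `-Zf` -/
theorem sig6_stab {W : MvPolynomial (Fin 6) ℂ} (hW : W.IsHomogeneous 3) (hs : SmoothForm W) :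
    Stab (sig W hW hs).σ (fun E => -Zf E) rk c6 := by
  have h := (sig W hW hs).stab
  rw [sig_c] at h
  refine stab_scale (by positivity) h fun X => ?_
  rw [sig_κ, three_kT_six]
  push_cast
  ring

theorem lat_neg {A : GCtx} {V : A.S} : Lat (fun E : MF A V => -Zf E) := by
  have h := lat_Zf (A := A) (V := V) (κ := -1) (by norm_num)
  simpa only [neg_one_mul] using h

theorem disc_neg {A : GCtx} {V : A.S} : Disc (fun E : MF A V => -Zf E) := disc_of_lat lat_neg

end Vale.Agent.P287T.G3
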