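import Vale.Agent.P287T.G3.A

set_option linter.all false

open Vale.Agent.P294

section

section

/-!
# Gluing data
-/

open CategoryTheory CategoryTheory.Pretriangulated CategoryTheory.Limits

namespace Vale.Agent.P287T.G3

set_option linter.unusedSectionVars false

universe v₁ v₂ v₃ u₁ u₂ u₃

variable {C : Type u₁} [Category.{v₁} C] [Preadditive C] [HasZeroObject C] [HasShift C ℤ]
  [∀ n : ℤ, (shiftFunctor C n).Additive] [Pretriangulated C] [IsTriangulated C]
variable {D : Type u₂} [Category.{v₂} D] [Preadditive D] [HasZeroObject D] [HasShift D ℤ]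
  [∀ n : ℤ, (shiftFunctor D n).Additive] [Pretriangulated D] [IsTriangulated D]
variable {E : Type u₃} [Category.{v₃} E] [Preadditive E] [HasZeroObject E] [HasShift E ℤ]
  [∀ n : ℤ, (shiftFunctor E n).Additive] [Pretriangulated E] [IsTriangulated E]

variable (C D E) in
/-- `E` is glued from `C` (quotient, via `g`) and `D` (sub, via `i`). -/
structure Glue where
  i : D ⥤ E
  x : E ⥤ D
  b : E ⥤ D
  g : E ⥤ C
  n : C ⥤ E
  [ics : i.CommShift ℤ]
  [xcs : x.CommShift ℤ]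
  [bcs : b.CommShift ℤ]
  [gcs : g.CommShift ℤ]
  [ncs : n.CommShift ℤ]
  [it : i.IsTriangulated]
  [xt : x.IsTriangulated]
  [bt : b.IsTriangulated]
  [gt : g.IsTriangulated]
  [nt : n.IsTriangulated]
  bi : b ⊣ i
  ix : i ⊣ x
  ng : n ⊣ g
  iF : i.FullyFaithful
  nF : n.FullyFaithful
  gi : ∀ X, IsZero (g.obj (i.obj X))
  /-- right adjoint objects of `g` -/
  J : C → E
  ε : ∀ G, g.obj (J G) ≅ G
  Juniv : ∀ (G : C) (Y : E) (f : g.obj Y ⟶ G), ∃! f' : Y ⟶ J G, g.map f' ≫ (ε G).hom = f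
  tri1 : ∀ Y, ∃ δ, Triangle.mk (ng.counit.app Y) (bi.unit.app Y) δ ∈ distTriang E

attribute [instance] Glue.ics Glue.xcs Glue.bcs Glue.gcs Glue.ncs Glue.it Glue.xt Glue.bt
  Glue.gt Glue.nt

namespace Glue

theorem hom_adj {A : Type*} {B : Type*} [Category A] [Category B] [HasZeroMorphisms A]
    [HasZeroMorphisms B] {F : A ⥤ B} {G : B ⥤ A} (adj : F ⊣ G) [G.PreservesZeroMorphisms]
    (X : A) (Y : B) : (∀ f : F.obj X ⟶ Y, f = 0) ↔ ∀ f : X ⟶ G.obj Y, f = 0 := by
  have h0 : (adj.homEquiv X Y) 0 = 0 := by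
    rw [adj.homEquiv_unit, G.map_zero, comp_zero]
  constructor
  · intro h f
    obtain ⟨g, rfl⟩ := (adj.homEquiv X Y).surjective f
    rw [h g, h0]
  · intro h f
    apply (adj.homEquiv X Y).injective
    rw [h (adj.homEquiv X Y f), h0]

variable (Φ : Glue C D E)

theorem hom_n (G : C) (Y : E) : (∀ f : Φ.n.obj G ⟶ Y, f = 0) ↔ ∀ f : G ⟶ Φ.g.obj Y, f = 0 :=
  hom_adj Φ.ng G Y

theorem hom_J (G : C) (Y : E) : (∀ f : Y ⟶ Φ.J G, f = 0) ↔ ∀ f : Φ.g.obj Y ⟶ G, f = 0 := by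
  constructor
  · intro h f
    obtain ⟨f', hf', -⟩ := Φ.Juniv G Y f
    rw [← hf', h f', Functor.map_zero, zero_comp]
  · intro h f
    obtain ⟨f', -, hu⟩ := Φ.Juniv G Y (Φ.g.map f ≫ (Φ.ε G).hom)
    rw [hu f rfl, ← hu 0 (by
      change Φ.g.map 0 ≫ (Φ.ε G).hom = _
      rw [h (Φ.g.map f ≫ (Φ.ε G).hom), Functor.map_zero, zero_comp])]

theorem hom_i (X : D) (Y : E) : (∀ f : Φ.i.obj X ⟶ Y, f = 0) ↔ ∀ f : X ⟶ Φ.x.obj Y, f = 0 :=
  hom_adj Φ.ix X Y

theorem hom_i' (X : D) (Y : E) : (∀ f : Y ⟶ Φ.i.obj X, f = 0) ↔ ∀ f : Φ.b.obj Y ⟶ X, f = 0 :=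
  (hom_adj Φ.bi Y X).symm

theorem bn (G : C) : IsZero (Φ.b.obj (Φ.n.obj G)) := by
  rw [IsZero.iff_id_eq_zero]
  refine (Φ.hom_i' _ _).1 ?_ _
  rw [Φ.hom_n]
  intro f
  exact (Φ.gi _).eq_of_tgt _ _

theorem xJ (G : C) : IsZero (Φ.x.obj (Φ.J G)) := by
  rw [IsZero.iff_id_eq_zero]
  refine (Φ.hom_i _ _).1 ?_ _
  rw [Φ.hom_J]
  intro f
  exact (Φ.gi _).eq_of_src _ _

theorem isIso_xi (X : D) : IsIso (Φ.ix.unit.app X) := by
  have := Φ.iF.full
  have := Φ.iF.faithful
  infer_instance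

theorem isIso_bi (X : D) : IsIso (Φ.bi.counit.app X) := by
  have := Φ.iF.full
  have := Φ.iF.faithful
  infer_instance

theorem xi (X : D) : Nonempty (Φ.x.obj (Φ.i.obj X) ≅ X) := by
  have := Φ.isIso_xi X
  exact ⟨(asIso (Φ.ix.unit.app X)).symm⟩

theorem bi' (X : D) : Nonempty (Φ.b.obj (Φ.i.obj X) ≅ X) := by
  have := Φ.isIso_bi X
  exact ⟨asIso (Φ.bi.counit.app X)⟩

theorem gn (G : C) : Nonempty (Φ.g.obj (Φ.n.obj G) ≅ G) := by
  have := Φ.nF.full
  have := Φ.nF.faithful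
  exact ⟨(asIso (Φ.ng.unit.app G)).symm⟩

/-- an object with `g Y = 0` comes from `D` -/
theorem of_g_zero (Y : E) (h : IsZero (Φ.g.obj Y)) :
    Nonempty (Y ≅ Φ.i.obj (Φ.x.obj Y)) ∧ Nonempty (Φ.b.obj Y ≅ Φ.x.obj Y) := by
  obtain ⟨δ, hδ⟩ := Φ.tri1 Y
  have h1 : IsZero (Φ.n.obj (Φ.g.obj Y)) := Functor.map_isZero Φ.n h
  have h2 : IsIso (Φ.bi.unit.app Y) := (Triangle.isZero₁_iff_isIso₂ _ hδ).1 h1
  have e : Y ≅ Φ.i.obj (Φ.b.obj Y) := asIso (Φ.bi.unit.app Y)
  obtain ⟨e2⟩ := Φ.xi (Φ.b.obj Y)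
  have e3 : Φ.x.obj Y ≅ Φ.b.obj Y := Φ.x.mapIso e ≪≫ e2
  exact ⟨⟨e ≪≫ Φ.i.mapIso e3.symm⟩, ⟨e3.symm⟩⟩

theorem isZero_of (Y : E) (h : IsZero (Φ.g.obj Y)) (h' : IsZero (Φ.x.obj Y)) : IsZero Y := by
  obtain ⟨⟨e⟩, -⟩ := Φ.of_g_zero Y h
  exact (Functor.map_isZero Φ.i h').of_iso e

theorem tri_aux' {W Y Z J : D} (c : W ⟶ Y) (p : Y ⟶ Z) (q : Z ⟶ W⟦(1 : ℤ)⟧)
    (h : Triangle.mk c p q ∈ distTriang D) (f : Y ⟶ J) (φ : Z ≅ J) (hφ : p ≫ φ.hom = f) :
    Triangle.mk c f (φ.inv ≫ q) ∈ distTriang D := by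
  refine isomorphic_distinguished _ h _ ?_
  refine Triangle.isoMk _ _ (Iso.refl _) (Iso.refl _) φ.symm ?_ ?_ ?_
  · exact (Category.comp_id _).trans (Category.id_comp _).symm
  · change f ≫ φ.inv = 𝟙 _ ≫ p
    rw [← hφ, Category.assoc, Iso.hom_inv_id, Category.comp_id, Category.id_comp]
  · change (φ.inv ≫ q) ≫ (shiftFunctor D (1 : ℤ)).map (𝟙 _) = φ.inv ≫ q
    rw [CategoryTheory.Functor.map_id, Category.comp_id]

/-- `x n g Y ⟶ x Y ⟶ b Y` -/
theorem tri3 (Y : E) : ∃ (f : Φ.x.obj Y ⟶ Φ.b.obj Y) (δ : _),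
    Triangle.mk (Φ.x.map (Φ.ng.counit.app Y)) f δ ∈ distTriang D := by
  obtain ⟨δ, hδ⟩ := Φ.tri1 Y
  have h1 := Φ.x.map_distinguished _ hδ
  obtain ⟨e⟩ := Φ.xi (Φ.b.obj Y)
  exact ⟨_, _, tri_aux' _ _ _ h1 (Φ.x.map (Φ.bi.unit.app Y) ≫ e.hom) e rfl⟩

end Glue

end Vale.Agent.P287T.G3
end
end

section

section

/-!
# Glued t-structures
-/

open CategoryTheory CategoryTheory.Pretriangulated CategoryTheory.Limits

namespace Vale.Agent.P287T.G3

universe v₁ v₂ v₃ u₁ u₂ u₃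

variable {C : Type u₁} [Category.{v₁} C] [Preadditive C] [HasZeroObject C] [HasShift C ℤ]
  [∀ n : ℤ, (shiftFunctor C n).Additive] [Pretriangulated C] [IsTriangulated C]
variable {D : Type u₂} [Category.{v₂} D] [Preadditive D] [HasZeroObject D] [HasShift D ℤ]
  [∀ n : ℤ, (shiftFunctor D n).Additive] [Pretriangulated D] [IsTriangulated D]
variable {E : Type u₃} [Category.{v₃} E] [Preadditive E] [HasZeroObject E] [HasShift E ℤ]
  [∀ n : ℤ, (shiftFunctor E n).Additive] [Pretriangulated E] [IsTriangulated E]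

omit [IsTriangulated C] in
/-- two distinguished triangles with compatible second and third terms have isomorphic first
terms -/
theorem glue_iso₁ (T T' : Triangle C) (hT : T ∈ distTriang C) (hT' : T' ∈ distTriang C)
    (e₂ : T.obj₂ ≅ T'.obj₂) (e₃ : T.obj₃ ≅ T'.obj₃)
    (comm : T.mor₂ ≫ e₃.hom = e₂.hom ≫ T'.mor₂) : Nonempty (T.obj₁ ≅ T'.obj₁) := by
  obtain ⟨a, ha1, ha2⟩ :=
    complete_distinguished_triangle_morphism₁ T T' hT hT' e₂.hom e₃.hom comm
  let φ : T ⟶ T' :=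
    { hom₁ := a
      hom₂ := e₂.hom
      hom₃ := e₃.hom
      comm₁ := ha1
      comm₂ := comm
      comm₃ := ha2 }
  have h : IsIso φ.hom₁ := Pretriangulated.isIso₁_of_isIso₂₃ φ hT hT'
    (inferInstanceAs (IsIso e₂.hom)) (inferInstanceAs (IsIso e₃.hom))
  exact ⟨@asIso _ _ _ _ φ.hom₁ h⟩

namespace Glue

variable (Φ : Glue C D E)

/-- glued aisle -/
def gU (UC : C → Prop) (UD : D → Prop) (Y : E) : Prop := UC (Φ.g.obj Y) ∧ UD (Φ.b.obj Y)

/-- glued co-aisle -/
def gV (VC : C → Prop) (VD : D → Prop) (Y : E) : Prop := VC (Φ.g.obj Y) ∧ VD (Φ.x.obj Y)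

theorem glued_hom {UC VC : C → Prop} {UD VD : D → Prop} (hC : IsTS UC VC) (hD : IsTS UD VD)
    {X Y : E} (hX : Φ.gU UC UD X) (hY : Φ.gV VC VD Y) (f : X ⟶ Y) : f = 0 := by
  obtain ⟨δ, hδ⟩ := Φ.tri1 X
  have h1 : Φ.ng.counit.app X ≫ f = 0 :=
    (Φ.hom_n (Φ.g.obj X) Y).2 (fun k => hC.hom hX.1 hY.1 k) _
  obtain ⟨k, hk⟩ := Triangle.yoneda_exact₂ _ hδ f h1
  have h2 : k = 0 := (Φ.hom_i (Φ.b.obj X) Y).2 (fun k => hD.hom hX.2 hY.2 k) _
  rw [hk, h2]
  exact comp_zero

theorem glued_tri {UC VC : C → Prop} {UD VD : D → Prop} (hC : IsTS UC VC) (hD : IsTS UD VD)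
    (Y : E) : ∃ (X Z : E) (f : X ⟶ Y) (g : Y ⟶ Z) (h : Z ⟶ X⟦(1 : ℤ)⟧),
    Triangle.mk f g h ∈ distTriang E ∧ Φ.gU UC UD X ∧ Φ.gV VC VD Z := by
  obtain ⟨A, B, f, q, h, hT, hA, hB⟩ := hC.tri (Φ.g.obj Y)
  obtain ⟨q', hq', -⟩ := Φ.Juniv B Y q
  obtain ⟨E', a', d', hE'⟩ := distinguished_cocone_triangle₁ q'
  -- `g E' ≅ A`
  have hgE' : Nonempty (Φ.g.obj E' ≅ A) := by
    refine glue_iso₁ (Φ.g.mapTriangle.obj (Triangle.mk a' q' d')) (Triangle.mk f q h)
      (Φ.g.map_distinguished _ hE') hT (Iso.refl _) (Φ.ε B) ?_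
    exact hq'.trans (Category.id_comp q).symm
  obtain ⟨eA⟩ := hgE'
  obtain ⟨A2, B2, f2, p2, h2, hT2, hA2, hB2⟩ := hD.tri (Φ.b.obj E')
  let r : E' ⟶ Φ.i.obj B2 := Φ.bi.unit.app E' ≫ Φ.i.map p2
  obtain ⟨E'', a'', d'', hE''⟩ := distinguished_cocone_triangle₁ r
  -- `g E'' ≅ g E'`
  have hg'' : IsIso (Φ.g.map a'') := by
    have := (Triangle.isZero₃_iff_isIso₁ (Φ.g.mapTriangle.obj (Triangle.mk a'' r d''))
      (Φ.g.map_distinguished _ hE'')).1 (Φ.gi B2)
    exact this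
  have egE'' : Φ.g.obj E'' ≅ A := (@asIso _ _ _ _ (Φ.g.map a'') hg'').trans eA
  -- `b E'' ≅ A2`
  have : Φ.i.Full := Φ.iF.full
  have : Φ.i.Faithful := Φ.iF.faithful
  have hcu : IsIso (Φ.bi.counit.app B2) := inferInstance
  have hcomm : Φ.b.map r ≫ Φ.bi.counit.app B2 = p2 := by
    simp [r]
  have hbE'' : Nonempty (Φ.b.obj E'' ≅ A2) := by
    refine glue_iso₁ (Φ.b.mapTriangle.obj (Triangle.mk a'' r d'')) (Triangle.mk f2 p2 h2)
      (Φ.b.map_distinguished _ hE'') hT2 (Iso.refl _)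
      (@asIso _ _ _ _ (Φ.bi.counit.app B2) hcu) ?_
    exact hcomm.trans (Category.id_comp p2).symm
  obtain ⟨ebE''⟩ := hbE''
  obtain ⟨Z, v13, w13, h13⟩ := distinguished_cocone_triangle (a'' ≫ a')
  let O := Triangulated.someOctahedron rfl hE'' hE' h13
  have hO := O.mem
  have hgZ : IsIso (Φ.g.map O.m₃) :=
    (Triangle.isZero₁_iff_isIso₂ (Φ.g.mapTriangle.obj O.triangle)
      (Φ.g.map_distinguished _ hO)).1 (Φ.gi B2)
  have hxZ : IsIso (Φ.x.map O.m₁) :=
    (Triangle.isZero₃_iff_isIso₁ (Φ.x.mapTriangle.obj O.triangle)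
      (Φ.x.map_distinguished _ hO)).1 (Φ.xJ B)
  have egZ : Φ.g.obj Z ≅ B := (@asIso _ _ _ _ (Φ.g.map O.m₃) hgZ).trans (Φ.ε B)
  obtain ⟨exi⟩ := Φ.xi B2
  have exZ : B2 ≅ Φ.x.obj Z := exi.symm.trans (@asIso _ _ _ _ (Φ.x.map O.m₁) hxZ)
  exact ⟨E'', Z, a'' ≫ a', v13, w13, h13,
    ⟨hC.isoU egE''.symm hA, hD.isoU ebE''.symm hA2⟩,
    ⟨hC.isoV egZ.symm hB, hD.isoV exZ hB2⟩⟩

theorem glued {UC VC : C → Prop} {UD VD : D → Prop} (hC : IsTS UC VC) (hD : IsTS UD VD) :
    IsTS (Φ.gU UC UD) (Φ.gV VC VD) where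
  isoU := fun e h => ⟨hC.isoU (Φ.g.mapIso e) h.1, hD.isoU (Φ.b.mapIso e) h.2⟩
  isoV := fun e h => ⟨hC.isoV (Φ.g.mapIso e) h.1, hD.isoV (Φ.x.mapIso e) h.2⟩
  hom := fun hX hY f => Φ.glued_hom hC hD hX hY f
  shU := fun {X} h => ⟨hC.isoU ((Φ.g.commShiftIso (1 : ℤ)).app X).symm (hC.shU h.1),
    hD.isoU ((Φ.b.commShiftIso (1 : ℤ)).app X).symm (hD.shU h.2)⟩
  shV := fun {X} h => ⟨hC.isoV ((Φ.g.commShiftIso (-1 : ℤ)).app X).symm (hC.shV h.1),
    hD.isoV ((Φ.x.commShiftIso (-1 : ℤ)).app X).symm (hD.shV h.2)⟩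
  tri := fun Y => Φ.glued_tri hC hD Y

/-- if `Y ∈ gU (UC) (UD)` and `x n UC ⊆ U`, `UD ⊆ U` then `x Y ∈ U` -/
theorem x_mem {UC : C → Prop} {UD : D → Prop} {U V : D → Prop} (h : IsTS U V)
    (hN : ∀ G, UC G → U (Φ.x.obj (Φ.n.obj G))) (hU : ∀ X, UD X → U X) {Y : E}
    (hY : Φ.gU UC UD Y) : U (Φ.x.obj Y) := by
  obtain ⟨f, δ, hT⟩ := Φ.tri3 Y
  exact h.extU hT (hN _ hY.1) (hU _ hY.2)

end Glue

end Vale.Agent.P287T.G3
end
end

section

section

/-!
# The gluing-and-tilting step: set up and (★)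
-/

open CategoryTheory CategoryTheory.Pretriangulated CategoryTheory.Limits

namespace Vale.Agent.P287T.G3

universe v₁ v₂ v₃ u₁ u₂ u₃

variable {C : Type u₁} [Category.{v₁} C] [Preadditive C] [HasZeroObject C] [HasShift C ℤ]
  [∀ n : ℤ, (shiftFunctor C n).Additive] [Pretriangulated C] [IsTriangulated C]
variable {D : Type u₂} [Category.{v₂} D] [Preadditive D] [HasZeroObject D] [HasShift D ℤ]
  [∀ n : ℤ, (shiftFunctor D n).Additive] [Pretriangulated D] [IsTriangulated D]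
variable {E : Type u₃} [Category.{v₃} E] [Preadditive E] [HasZeroObject E] [HasShift E ℤ]
  [∀ n : ℤ, (shiftFunctor E n).Additive] [Pretriangulated E] [IsTriangulated E]

/-- data of one step: `w = k/3`, `k = 1,2,1`. -/
structure StepHyp (Φ : Glue C D E) (σC : Slic C) (ZC : C → ℂ) (rC : C → ℕ) (cC : ℝ)
    (σD : Slic D) (ZD : D → ℂ) (rD : D → ℕ) (cD : ℝ) (w : ℝ) : Prop where
  hC : Stab σC ZC rC cC
  hD : Stab σD ZD rD cD
  w1 : 1 / 3 ≤ w
  w2 : w ≤ 1 / 3
  hN : ∀ φ G, σC.P φ G → σD.P (φ + (w - 1 / 3)) (Φ.x.obj (Φ.n.obj G))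
  hZ : ∀ G, ZD (Φ.x.obj (Φ.n.obj G)) =
    ((Real.sin (Real.pi * w) / Real.sin (Real.pi / 3) : ℝ) : ℂ) * ray (w - 1 / 3) * ZC G

/-- the glued central charge -/
noncomputable def Glue.Z (Φ : Glue C D E) (ZC : C → ℂ) (ZD : D → ℂ) (w : ℝ) (Y : E) : ℂ :=
  ZD (Φ.x.obj Y) + ray (2 * w) * ZC (Φ.g.obj Y)

namespace StepHyp

variable {Φ : Glue C D E} {σC : Slic C} {ZC : C → ℂ} {rC : C → ℕ} {cC : ℝ}
    {σD : Slic D} {ZD : D → ℂ} {rD : D → ℕ} {cD : ℝ} {w : ℝ}

/-- the glued aisle `U'_s` -/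
def U' (_ : StepHyp Φ σC ZC rC cC σD ZD rD cD w) (s : ℝ) (Y : E) : Prop :=
  Φ.gU (σC.U (s - w)) (σD.U s) Y

/-- the glued co-aisle `V'_s` -/
def V' (_ : StepHyp Φ σC ZC rC cC σD ZD rD cD w) (s : ℝ) (Y : E) : Prop :=
  Φ.gV (σC.V (s - w)) (σD.V s) Y

variable (h : StepHyp Φ σC ZC rC cC σD ZD rD cD w)

include h in
theorem Zadd : AddTri (Φ.Z ZC ZD w) := by
  intro T hT
  have h1 := h.hD.add _ (Φ.x.map_distinguished T hT)
  have h2 := h.hC.add _ (Φ.g.map_distinguished T hT)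
  simp only [Functor.mapTriangle_obj, Triangle.mk_obj₁, Triangle.mk_obj₂,
    Triangle.mk_obj₃] at h1 h2
  simp only [Glue.Z]
  rw [h1, h2]
  ring

theorem glued_ts (s : ℝ) : IsTS (h.U' s) (h.V' s) :=
  Φ.glued (σC.ts (s - w)) (σD.ts s)

theorem U'_anti {s t : ℝ} (hst : s ≤ t) {Y : E} (hY : h.U' t Y) : h.U' s Y :=
  ⟨σC.anti (by linarith) _ hY.1, σD.anti hst _ hY.2⟩

theorem V'_mono {s t : ℝ} (hst : s ≤ t) {Y : E} (hY : h.V' s Y) : h.V' t Y :=
  ⟨σC.monoV (by linarith) _ hY.1, σD.monoV hst _ hY.2⟩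

theorem U'_shift {s : ℝ} {Y : E} (hY : h.U' s Y) : h.U' (s + 1) (Y⟦(1 : ℤ)⟧) := by
  refine ⟨?_, ?_⟩
  · have h1 := (σC.shift (s - w) (Φ.g.obj Y)).2 hY.1
    rw [show s - w + 1 = s + 1 - w by ring] at h1
    exact (σC.ts _).isoU ((Φ.g.commShiftIso (1 : ℤ)).app Y).symm h1
  · exact (σD.ts _).isoU ((Φ.b.commShiftIso (1 : ℤ)).app Y).symm
      ((σD.shift s (Φ.b.obj Y)).2 hY.2)

theorem V'_shift {s : ℝ} {Y : E} (hY : h.V' s (Y⟦(-1 : ℤ)⟧)) : h.V' (s + 1) Y := by
  refine ⟨?_, ?_⟩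
  · have h1 : σC.V (s - w) ((Φ.g.obj Y)⟦(-1 : ℤ)⟧) :=
      (σC.ts _).isoV ((Φ.g.commShiftIso (-1 : ℤ)).app Y) hY.1
    refine (σC.shiftV_int (s + 1 - w) (-1) _).1 ?_
    rw [show s + 1 - w + ((-1 : ℤ) : ℝ) = s - w by push_cast; ring]
    exact h1
  · have h1 : σD.V s ((Φ.x.obj Y)⟦(-1 : ℤ)⟧) :=
      (σD.ts _).isoV ((Φ.x.commShiftIso (-1 : ℤ)).app Y) hY.2
    refine (σD.shiftV_int (s + 1) (-1) _).1 ?_
    rw [show s + 1 + ((-1 : ℤ) : ℝ) = s by push_cast; ring]
    exact h1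

include h in
theorem N_mem_U_aux {s : ℝ} {G : C} (hG : σC.U s G) :
    σD.U (s + (w - 1 / 3)) (Φ.x.obj (Φ.n.obj G)) := by
  obtain ⟨a, b, -, hb⟩ := σC.bdd G
  have hext := h.hC.hn s b G hG hb
  clear hG hb
  induction hext with
  | zero X hX =>
    exact (σD.ts _).zeroU (Φ.x.map_isZero (Φ.n.map_isZero hX))
  | of X hX =>
    obtain ⟨φ, h1, h2, h3⟩ := hX
    exact σD.anti (by linarith) _ (h.hN φ X h3).1
  | ext T hT _ _ ih1 ih3 =>
    exact (σD.ts _).extU (Φ.x.map_distinguished _ (Φ.n.map_distinguished T hT)) ih1 ih3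

include h in
theorem N_mem_V_aux {s : ℝ} {G : C} (hG : σC.V s G) :
    σD.V (s + (w - 1 / 3)) (Φ.x.obj (Φ.n.obj G)) := by
  obtain ⟨a, b, ha, -⟩ := σC.bdd G
  have hext := h.hC.hn a s G ha hG
  clear hG ha
  induction hext with
  | zero X hX =>
    exact (σD.ts _).zeroV (Φ.x.map_isZero (Φ.n.map_isZero hX))
  | of X hX =>
    obtain ⟨φ, h1, h2, h3⟩ := hX
    exact (h.hN φ X h3).2 _ (by linarith)
  | ext T hT _ _ ih1 ih3 =>
    exact (σD.ts _).extV (Φ.x.map_distinguished _ (Φ.n.map_distinguished T hT)) ih1 ih3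

/-- `x Y` has phases `≥ s - 1/3` for `Y ∈ U'_s` -/
theorem x_mem_U {s : ℝ} {Y : E} (hY : h.U' s Y) : σD.U (s - 1 / 3) (Φ.x.obj Y) := by
  refine Φ.x_mem (σD.ts (s - 1 / 3)) (UC := σC.U (s - w)) (UD := σD.U s) ?_ ?_ hY
  · intro G hG
    have := h.N_mem_U_aux hG
    rwa [show s - w + (w - 1 / 3) = s - 1 / 3 by ring] at this
  · intro X hX
    exact σD.anti (by linarith) _ hX

include h in
/-- the functor `N = x n` maps windows to windows -/
theorem N_mem_U {s : ℝ} {G : C} (hG : σC.U s G) : σD.U (s + (w - 1 / 3)) (Φ.x.obj (Φ.n.obj G)) :=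
  h.N_mem_U_aux hG

include h in
theorem N_mem_V {s : ℝ} {G : C} (hG : σC.V s G) : σD.V (s + (w - 1 / 3)) (Φ.x.obj (Φ.n.obj G)) :=
  h.N_mem_V_aux hG

/-- the key trigonometric identity -/
theorem key_ray (w : ℝ) : ((Real.sin (Real.pi * w) : ℝ) : ℂ) +
    ((Real.sin (Real.pi / 3) : ℝ) : ℂ) * ray (w + 1 / 3) =
    ((Real.sin (Real.pi * (w + 1 / 3)) : ℝ) : ℂ) * ray (1 / 3) := by
  have hr : ∀ φ : ℝ, ray φ = ((Real.cos (Real.pi * φ) : ℝ) : ℂ) +
      ((Real.sin (Real.pi * φ) : ℝ) : ℂ) * Complex.I := by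
    intro φ
    rw [ray, mul_comm, Complex.exp_mul_I, Complex.ofReal_cos, Complex.ofReal_sin]
  rw [hr, hr]
  have e1 : Real.pi / 3 = Real.pi * (1 / 3) := by ring
  rw [e1]
  have e2 : Real.sin (Real.pi * w) = Real.sin (Real.pi * (w + 1 / 3)) *
      Real.cos (Real.pi * (1 / 3)) - Real.cos (Real.pi * (w + 1 / 3)) *
      Real.sin (Real.pi * (1 / 3)) := by
    rw [← Real.sin_sub]
    congr 1
    ring
  rw [e2]
  push_cast
  ring

include h in
theorem sin_pos1 : 0 < Real.sin (Real.pi * w) := by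
  have h1 := h.w1
  have h2 := h.w2
  apply Real.sin_pos_of_pos_of_lt_pi
  · have := Real.pi_pos
    nlinarith
  · have := Real.pi_pos
    nlinarith

include h in
theorem sin_pos2 : 0 < Real.sin (Real.pi * (w + 1 / 3)) := by
  have h1 := h.w1
  have h2 := h.w2
  apply Real.sin_pos_of_pos_of_lt_pi
  · have := Real.pi_pos
    nlinarith
  · have := Real.pi_pos
    nlinarith

theorem sin_pos5 : 0 < Real.sin (Real.pi / 3) := by
  apply Real.sin_pos_of_pos_of_lt_pi
  · have := Real.pi_pos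
    linarith
  · have := Real.pi_pos
    linarith

/-- (★) -/
theorem star {s : ℝ} {Y : E} (hU : h.U' s Y) (hV : h.V' (s + 1 - w) Y) :
    0 ≤ lam s (Φ.Z ZC ZD w Y) := by
  have w1 := h.w1
  have w2 := h.w2
  set G := Φ.g.obj Y with hG
  set X := Φ.x.obj Y with hX
  set NG := Φ.x.obj (Φ.n.obj G) with hNG
  have hGU : σC.U (s - w) G := hU.1
  have hGV : σC.V (s + 1 - w - w) G := hV.1
  have hbU : σD.U s (Φ.b.obj Y) := hU.2
  have hXV : σD.V (s + 1 - w) X := hV.2
  have hXU : σD.U (s - 1 / 3) X := h.x_mem_U hU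
  have hNU : σD.U (s - 1 / 3) NG := by
    have := h.N_mem_U hGU
    rwa [show s - w + (w - 1 / 3) = s - 1 / 3 by ring] at this
  have hNV : σD.V (s + 2 / 3 - w) NG := by
    have := h.N_mem_V hGV
    rwa [show s + 1 - w - w + (w - 1 / 3) = s + 2 / 3 - w by ring] at this
  -- the heart
  have ts := σD.ts (s - 1 / 3)
  have down : ∀ {A : D}, σD.V (s + 2 / 3) A → σD.V (s - 1 / 3) (A⟦(-1 : ℤ)⟧) := by
    intro A hA
    have := (σD.shiftV_int (s + 2 / 3) (-1) A).2 hA
    rwa [show s + 2 / 3 + ((-1 : ℤ) : ℝ) = s - 1 / 3 by push_cast; ring] at this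
  have up : ∀ {A : D}, σD.V (s - 1 / 3) (A⟦(-1 : ℤ)⟧) → σD.V (s + 2 / 3) A := by
    intro A hA
    refine (σD.shiftV_int (s + 2 / 3) (-1) A).1 ?_
    rwa [show s + 2 / 3 + ((-1 : ℤ) : ℝ) = s - 1 / 3 by push_cast; ring]
  have hH1 : Ht (σD.U (s - 1 / 3)) (σD.V (s - 1 / 3)) NG :=
    ⟨hNU, down (σD.monoV (by linarith) _ hNV)⟩
  have hH2 : Ht (σD.U (s - 1 / 3)) (σD.V (s - 1 / 3)) X :=
    ⟨hXU, down (σD.monoV (by linarith) _ hXV)⟩
  obtain ⟨f, δ, hT⟩ := Φ.tri3 Y
  obtain ⟨K, I, Q, k, p, m, q, d1, d2, a, b, d3, t1, t2, t3, hK, hI, hQ, -⟩ :=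
    heart_cone ts hT hH1 hH2
  have hQU : σD.U s Q := by
    refine (σD.ts s).ext3U t3 hbU ?_
    have h1 : σD.U (s - 1 / 3 + 1) (K⟦(1 : ℤ)⟧) := (σD.shift _ _).2 hK.1
    have h2 : σD.U (s - 1 / 3 + 1 + 1) (K⟦(1 : ℤ)⟧⟦(1 : ℤ)⟧) := (σD.shift _ _).2 h1
    exact σD.anti (by linarith) _ h2
  have hQV : σD.V (s + 2 / 3) Q := up hQ.2
  have hKV : σD.V (s + 2 / 3 - w) K := by
    refine (σD.ts (s + 2 / 3 - w)).ext1V t1 hNV ?_
    exact σD.monoV (by linarith) _ hI.2
  have eX : ZD X = ZD I + ZD Q := h.hD.add _ t2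
  have eN : ZD NG = ZD K + ZD I := h.hD.add _ t1
  have eZ : ZD NG = ((Real.sin (Real.pi * w) / Real.sin (Real.pi / 3) : ℝ) : ℂ) *
      ray (w - 1 / 3) * ZC G := h.hZ G
  have p1 := h.sin_pos1
  have p2 := h.sin_pos2
  have p5 := sin_pos5
  have hkey := key_ray w
  set c1 : ℝ := Real.sin (Real.pi * w) with hc1
  set c2 : ℝ := Real.sin (Real.pi * (w + 1 / 3)) with hc2
  set c5 : ℝ := Real.sin (Real.pi / 3) with hc5
  have n1 : (c1 : ℂ) ≠ 0 := by exact_mod_cast p1.ne'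
  have n5 : (c5 : ℂ) ≠ 0 := by exact_mod_cast p5.ne'
  -- Z(Y) in terms of K, I, Q
  have eG : ray (2 * w) * ZC G = ((c5 / c1 : ℝ) : ℂ) * (ray (w + 1 / 3) * (ZD K + ZD I)) := by
    rw [← eN, eZ, show (2 : ℝ) * w = (w + 1 / 3) + (w - 1 / 3) by ring, ray_add]
    push_cast
    have e3 : (c5 : ℂ) / c1 * (c1 / c5) = 1 := by field_simp
    linear_combination (-(ray (w + 1 / 3) * ray (w - 1 / 3) * ZC G)) * e3
  have eY : Φ.Z ZC ZD w Y = ZD Q + (((c2 / c1 : ℝ) : ℂ) * (ray (1 / 3) * ZD I) +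
      ((c5 / c1 : ℝ) : ℂ) * (ray (w + 1 / 3) * ZD K)) := by
    change ZD X + ray (2 * w) * ZC G = _
    rw [eG, eX]
    have : ((c2 / c1 : ℝ) : ℂ) * ray (1 / 3) = 1 + ((c5 / c1 : ℝ) : ℂ) * ray (w + 1 / 3) := by
      have e4 : ((c2 / c1 : ℝ) : ℂ) * ray (1 / 3) = ((c2 : ℂ) * ray (1 / 3)) * (c1 : ℂ)⁻¹ := by
        push_cast
        ring
      have e5 : (c1 : ℂ) * (c1 : ℂ)⁻¹ = 1 := mul_inv_cancel₀ n1
      rw [e4, ← hkey]
      push_cast
      linear_combination e5
    linear_combination (-(ZD I)) * this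
  rw [eY, lam_add, lam_add, lam_real_mul, lam_real_mul, lam_ray_mul, lam_ray_mul]
  have hpre := h.hD.pre
  have l1 : 0 ≤ lam s (ZD Q) := hpre.lam_nonneg le_rfl (by linarith) hQU hQV
  have l2 : 0 ≤ lam (s - 1 / 3) (ZD I) := hpre.lam_nonneg le_rfl (by linarith) hI.1 (up hI.2)
  have l3 : 0 ≤ lam (s - (w + 1 / 3)) (ZD K) :=
    hpre.lam_nonneg (a := s - 1 / 3) (b := s + 2 / 3 - w) (by linarith) (by linarith) hK.1 hKV
  have q2 : 0 ≤ c2 / c1 := by positivity
  have q5 : 0 ≤ c5 / c1 := by positivity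
  have := mul_nonneg q2 l2
  have := mul_nonneg q5 l3
  linarith

/-- (★) on an interval of values of `s`. -/
theorem star' {a b s : ℝ} {Y : E} (hU : h.U' a Y) (hV : h.V' b Y) (hs : s ≤ a)
    (hb : b ≤ s + 1 - w) : 0 ≤ lam s (Φ.Z ZC ZD w Y) :=
  h.star (h.U'_anti hs hU) (h.V'_mono hb hV)

/-- bounded below additive function on `U'_{t-w} ∩ V'_{t'}` when `t' - t < 1/3`. -/
theorem exists_N (t t' : ℝ) (htt : t' - t < 1 / 3) : ∃ (N : E → ℝ) (c : ℝ), AddTri N ∧ 0 < c ∧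
    ∀ Y, h.U' (t - w) Y → h.V' t' Y → ¬ IsZero Y → c ≤ N Y := by
  have w1 := h.w1
  have w2 := h.w2
  obtain ⟨c1, hc1, hb1⟩ := h.hC.exists_bound (a := t - w - w) (b := t' - w) (by linarith)
  obtain ⟨c2, hc2, hb2⟩ := h.hD.exists_bound (a := t - w - 1 / 3) (b := t') (by linarith)
  refine ⟨fun Y => mu ((t - w - w + (t' - w)) / 2) (ZC (Φ.g.obj Y)) +
    mu ((t - w - 1 / 3 + t') / 2) (ZD (Φ.x.obj Y)), min c1 c2, ?_, lt_min hc1 hc2, ?_⟩
  · intro T hT
    have h1 := h.hC.add.mu ((t - w - w + (t' - w)) / 2) _ (Φ.g.map_distinguished T hT)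
    have h2 := h.hD.add.mu ((t - w - 1 / 3 + t') / 2) _ (Φ.x.map_distinguished T hT)
    simp only [Functor.mapTriangle_obj, Triangle.mk_obj₁, Triangle.mk_obj₂,
      Triangle.mk_obj₃] at h1 h2
    simp only
    rw [h1, h2]
    ring
  · intro Y hU hV hY
    have k1 := hb1 (Φ.g.obj Y) hU.1 (σC.V_le_Vc le_rfl hV.1)
    have k2 := hb2 (Φ.x.obj Y) (h.x_mem_U hU) (σD.V_le_Vc le_rfl hV.2)
    have hr : 1 ≤ rC (Φ.g.obj Y) + rD (Φ.x.obj Y) := by
      by_contra hlt
      have e1 : rC (Φ.g.obj Y) = 0 := by omega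
      have e2 : rD (Φ.x.obj Y) = 0 := by omega
      exact hY (Φ.isZero_of Y ((h.hC.rk.zero _).1 e1) ((h.hD.rk.zero _).1 e2))
    have hr' : (1 : ℝ) ≤ rC (Φ.g.obj Y) + rD (Φ.x.obj Y) := by exact_mod_cast hr
    have m1 : min c1 c2 ≤ c1 := min_le_left _ _
    have m2 : min c1 c2 ≤ c2 := min_le_right _ _
    have m0 : 0 < min c1 c2 := lt_min hc1 hc2
    have r1 : (0 : ℝ) ≤ rC (Φ.g.obj Y) := Nat.cast_nonneg _
    have r2 : (0 : ℝ) ≤ rD (Φ.x.obj Y) := Nat.cast_nonneg _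
    have b1 := mul_le_mul_of_nonneg_right m1 r1
    have b2 := mul_le_mul_of_nonneg_right m2 r2
    have b3 := mul_le_mul_of_nonneg_left hr' m0.le
    simp only
    linarith

/-- a chosen additive function for the tilt at `t` -/
noncomputable def Nt (t : ℝ) : E → ℝ := (h.exists_N t t (by norm_num)).choose

noncomputable def ct (t : ℝ) : ℝ := (h.exists_N t t (by norm_num)).choose_spec.choose

theorem tiltHyp (t : ℝ) : TiltHyp (h.U' (t - w)) (h.V' (t - w)) (h.U' t) (h.V' t)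
    (fun Y => lam t (Φ.Z ZC ZD w Y)) (h.Nt t) (h.ct t) := by
  have w1 := h.w1
  have w2 := h.w2
  have hspec := (h.exists_N t t (by norm_num)).choose_spec.choose_spec
  refine ⟨h.glued_ts _, h.glued_ts _, ?_, ?_, h.Zadd.lam t, ?_, hspec.1, hspec.2.1, hspec.2.2⟩
  · intro X hX
    exact h.U'_anti (by linarith) hX
  · intro X hX
    exact h.U'_anti (by linarith) (h.U'_shift hX)
  · intro X hX hV
    have := h.V'_shift hV
    rw [show t - w + 1 = t + 1 - w by ring] at this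
    exact h.star hX this

end StepHyp

end Vale.Agent.P287T.G3
end
end

section

section

/-!
# Isomorphisms of contexts
-/

open Matrix CategoryTheory CategoryTheory.Limits CategoryTheory.Pretriangulated

namespace Vale.Agent.P287T.G3

/-- isomorphism of contexts -/
structure CIso (A B : GCtx) where
  φ : A.S ≃+* B.S
  lab : A.L ≃ B.L
  ψ : A.Γ ≃+ B.Γ
  e : ψ A.e = B.e
  chΓ : ∀ γ, B.chΓ (ψ γ) = A.chΓ γ
  ch : ∀ a, B.ch (lab a) = A.ch a
  vadd : ∀ γ a, lab (γ +ᵥ a) = ψ γ +ᵥ lab a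
  H : ∀ a b s, s ∈ A.H a b ↔ φ s ∈ B.H (lab a) (lab b)

namespace CIso

variable {A B : GCtx} (I : CIso A B) (W : A.S)

theorem n2a_en (n : ℤ) : I.ψ (A.en n) = B.en n := by
  simp only [GCtx.en, map_zsmul, I.e]

/-- the induced context homomorphism -/
def chom : CHom A B W (I.φ W) where
  dom := fun _ => True
  lab := I.lab
  θ := fun _ _ => (I.φ : A.S →+* B.S).toAddMonoidHom
  θ_mem := by
    intro a b s _ _ hs
    exact (I.H a b s).1 hs
  θ_one := by
    intro a _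
    exact map_one I.φ
  θ_mul := by
    intro a b c x y _ _ _ _ _
    exact map_mul I.φ x y
  θ_mul0 := by
    intro a b c x y _ hb _ _ _
    exact absurd trivial hb
  dom_e := by
    intro n a
    exact Iff.rfl
  lab_e := by
    intro n a _
    rw [I.vadd, I.n2a_en]
  θ_e := by
    intro n a b _ _
    rfl
  θ_W := by
    intro a _ _
    rfl

/-- the inverse operation on matrices -/
def n2aBi (E F : MF A W) (g : Matrix ((I.chom W).Ix F) ((I.chom W).Ix E) B.S) :
    Matrix F.ι E.ι A.S := fun i j => I.φ.symm (g ⟨i, trivial⟩ ⟨j, trivial⟩)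

variable {W}

theorem n2a_mat_apply (n : ℤ) (E F : MF A W) (f : Matrix F.ι E.ι A.S)
    (i : (I.chom W).Ix F) (j : (I.chom W).Ix E) :
    (I.chom W).mat n E F f i j = I.φ (f i.1 j.1) := rfl

theorem n2a_mat_bi (n : ℤ) (E F : MF A W)
    (g : Matrix ((I.chom W).Ix F) ((I.chom W).Ix E) B.S) :
    (I.chom W).mat n E F (I.n2aBi W E F g) = g := by
  ext i j
  rw [n2a_mat_apply]
  exact I.φ.apply_symm_apply _

theorem n2a_mat_inj {n m : ℤ} {E F : MF A W} {f g : Matrix F.ι E.ι A.S}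
    (h : (I.chom W).mat n E F f = (I.chom W).mat m E F g) : f = g := by
  ext i j
  have h1 := congrFun (congrFun h ⟨i, trivial⟩) ⟨j, trivial⟩
  rw [n2a_mat_apply, n2a_mat_apply] at h1
  exact I.φ.injective h1

theorem n2a_isDeg {n : ℤ} {E F : MF A W} {f : Matrix F.ι E.ι A.S}
    (hf : IsDeg ((I.chom W).obj E) ((I.chom W).obj F) (B.en n) ((I.chom W).mat n E F f)) :
    IsDeg E F (A.en n) f := by
  intro i j
  have h1 := hf ⟨i, trivial⟩ ⟨j, trivial⟩
  rw [n2a_mat_apply] at h1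
  rw [I.H, I.vadd, I.n2a_en]
  exact h1

theorem n2a_Z0 {E F : MF A W} {f : Matrix F.ι E.ι A.S}
    (hf : (I.chom W).mat 0 E F f ∈ Z0 ((I.chom W).obj E) ((I.chom W).obj F)) :
    f ∈ Z0 E F := by
  have hd : IsDeg E F (A.en 0) f := by
    refine I.n2a_isDeg ?_
    rw [B.en_zero]
    exact hf.1
  have hd' : IsDeg E F 0 f := by rwa [A.en_zero] at hd
  refine ⟨hd', ?_⟩
  apply I.n2a_mat_inj (n := 3) (m := 3)
  rw [(I.chom W).mat_mul (m := 3) (n := 0) (k := 3) (by norm_num) hd (isDeg_d F),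
    (I.chom W).mat_mul (m := 0) (n := 3) (k := 3) (by norm_num) (isDeg_d E) hd]
  exact hf.2

theorem n2a_B0 {E F : MF A W} {f : Matrix F.ι E.ι A.S}
    (hf : (I.chom W).mat 0 E F f ∈ B0 ((I.chom W).obj E) ((I.chom W).obj F)) :
    f ∈ B0 E F := by
  obtain ⟨h', hh', he⟩ := hf
  have h1 := I.n2a_mat_bi (-3) E F h'
  have hd : IsDeg E F (A.en (-3)) (I.n2aBi W E F h') := by
    refine I.n2a_isDeg ?_
    rw [h1]
    exact hh'
  refine ⟨I.n2aBi W E F h', hd, ?_⟩
  apply I.n2a_mat_inj (n := 0) (m := 0)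
  rw [he, (I.chom W).mat_add, (I.chom W).mat_mul (m := 3) (n := -3) (k := 0) (by norm_num) hd
      (isDeg_d F), (I.chom W).mat_mul (m := -3) (n := 3) (k := 0) (by norm_num) (isDeg_d E) hd, h1]
  rfl

theorem n2a_mat_sub (n : ℤ) (E F : MF A W) (f g : Matrix F.ι E.ι A.S) :
    (I.chom W).mat n E F (f - g) = (I.chom W).mat n E F f - (I.chom W).mat n E F g := by
  ext i j
  rw [n2a_mat_apply, Matrix.sub_apply, Matrix.sub_apply, map_sub]
  rfl

/-- reindexing matrix -/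
theorem n2a_re_mem {X Y : MF A W} (e : X.ι ≃ Y.ι) (hp : ∀ i, Y.p (e i) = X.p i)
    (hd : X.d = Y.d.submatrix e e) :
    (1 : Matrix Y.ι Y.ι A.S).submatrix id e ∈ Z0 X Y := by
  constructor
  · intro i j
    rw [zero_vadd, ← hp, Matrix.submatrix_apply, id]
    by_cases h : i = e j
    · subst h
      rw [Matrix.one_apply_eq]
      exact A.one_mem _
    · rw [Matrix.one_apply_ne h]
      exact zero_mem _
  · rw [hd]
    have h1 : Y.d * (1 : Matrix Y.ι Y.ι A.S).submatrix id e = Y.d.submatrix id e := by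
      have := Matrix.submatrix_mul_equiv Y.d (1 : Matrix Y.ι Y.ι A.S) id (Equiv.refl Y.ι) e
      rw [Matrix.mul_one] at this
      exact this
    have h2 : (1 : Matrix Y.ι Y.ι A.S).submatrix id e * Y.d.submatrix e e =
        Y.d.submatrix id e := by
      have := Matrix.submatrix_mul_equiv (1 : Matrix Y.ι Y.ι A.S) Y.d id e e
      rw [Matrix.one_mul] at this
      exact this
    rw [h1, h2]

/-- the inverse of the reindexing matrix -/
theorem n2a_re_mem' {X Y : MF A W} (e : X.ι ≃ Y.ι) (hp : ∀ i, Y.p (e i) = X.p i)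
    (hd : X.d = Y.d.submatrix e e) :
    (1 : Matrix Y.ι Y.ι A.S).submatrix e id ∈ Z0 Y X := by
  constructor
  · intro i j
    rw [zero_vadd, ← hp, Matrix.submatrix_apply, id]
    by_cases h : e i = j
    · subst h
      rw [Matrix.one_apply_eq]
      exact A.one_mem _
    · rw [Matrix.one_apply_ne h]
      exact zero_mem _
  · rw [hd]
    have h1 : (1 : Matrix Y.ι Y.ι A.S).submatrix e id * Y.d = Y.d.submatrix e id := by
      have := Matrix.submatrix_mul_equiv (1 : Matrix Y.ι Y.ι A.S) Y.d e (Equiv.refl Y.ι) id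
      rw [Matrix.one_mul] at this
      exact this
    have h2 : Y.d.submatrix e e * (1 : Matrix Y.ι Y.ι A.S).submatrix e id =
        Y.d.submatrix e id := by
      have := Matrix.submatrix_mul_equiv Y.d (1 : Matrix Y.ι Y.ι A.S) e e id
      rw [Matrix.mul_one] at this
      exact this
    rw [h1, h2]

/-- objects which differ by a bijection of the bases are isomorphic -/
noncomputable def n2aReIso {X Y : MF A W} (e : X.ι ≃ Y.ι) (hp : ∀ i, Y.p (e i) = X.p i)
    (hd : X.d = Y.d.submatrix e e) : X ≅ Y where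
  hom := Vale.Agent.P287T.G3.mk _ (n2a_re_mem e hp hd)
  inv := Vale.Agent.P287T.G3.mk _ (n2a_re_mem' e hp hd)
  hom_inv_id := by
    rw [mk_comp_mk]
    refine mk_congr _ ?_
    have := Matrix.submatrix_mul_equiv (1 : Matrix Y.ι Y.ι A.S) (1 : Matrix Y.ι Y.ι A.S) e
      (Equiv.refl Y.ι) e
    rw [Matrix.one_mul, Matrix.submatrix_one_equiv] at this
    exact this
  inv_hom_id := by
    rw [mk_comp_mk]
    refine mk_congr _ ?_
    have := Matrix.submatrix_mul_equiv (1 : Matrix Y.ι Y.ι A.S) (1 : Matrix Y.ι Y.ι A.S) id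
      e id
    rw [Matrix.one_mul, Matrix.submatrix_id_id] at this
    exact this

/-- the preimage of an object -/
def n2aPre (Y : MF B (I.φ W)) : MF A W where
  ι := Y.ι
  p i := I.lab.symm (Y.p i)
  d := Y.d.map I.φ.symm
  deg i j := by
    rw [I.H, I.vadd, I.n2a_en, Equiv.apply_symm_apply, Equiv.apply_symm_apply, Matrix.map_apply,
      RingEquiv.apply_symm_apply]
    exact Y.deg i j
  sq := by
    rw [← Matrix.map_mul, Y.sq]
    ext i j
    rw [Matrix.map_apply, Matrix.smul_apply, Matrix.smul_apply, smul_eq_mul, smul_eq_mul, map_mul,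
      RingEquiv.symm_apply_apply]
    by_cases h : i = j
    · subst h
      rw [Matrix.one_apply_eq, Matrix.one_apply_eq, map_one]
    · rw [Matrix.one_apply_ne h, Matrix.one_apply_ne h, map_zero]

theorem n2a_mapMap {ι κ : Type} (M : Matrix ι κ B.S) : (M.map I.φ.symm).map I.φ = M := by
  ext i j
  simp

/-- the image of the preimage -/
noncomputable def n2aPreIso (Y : MF B (I.φ W)) : (I.chom W).obj (I.n2aPre Y) ≅ Y :=
  n2aReIso (X := (I.chom W).obj (I.n2aPre Y)) (Y := Y)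
    (Equiv.subtypeUnivEquiv fun _ => trivial)
    (fun i => (I.lab.apply_symm_apply (Y.p i.1)).symm)
    (by
      ext i j
      exact I.φ.apply_symm_apply _)

variable (W)

theorem chom_equiv : (I.chom W).functor.IsEquivalence := by
  have hfaith : (I.chom W).functor.Faithful := by
    refine ⟨fun {X Y} f g hfg => ?_⟩
    induction f using hom_ind with
    | h a ha =>
    induction g using hom_ind with
    | h b hb =>
    have h1 : Vale.Agent.P287T.G3.mk (E := (I.chom W).obj X) (F := (I.chom W).obj Y)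
        ((I.chom W).mat 0 X Y a) ((I.chom W).mat_Z0 ha) =
        Vale.Agent.P287T.G3.mk (E := (I.chom W).obj X) (F := (I.chom W).obj Y)
        ((I.chom W).mat 0 X Y b) ((I.chom W).mat_Z0 hb) := hfg
    have h2 := (mk_eq_mk (E := (I.chom W).obj X) (F := (I.chom W).obj Y)
      ((I.chom W).mat_Z0 ha) ((I.chom W).mat_Z0 hb)).1 h1
    refine (mk_eq_mk _ _).2 (I.n2a_B0 ?_)
    rw [n2a_mat_sub]
    exact h2
  have hfull : (I.chom W).functor.Full := by
    refine ⟨fun {X Y} f => ?_⟩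
    have key : ∀ f : (I.chom W).obj X ⟶ (I.chom W).obj Y,
        ∃ g : X ⟶ Y, (I.chom W).functor.map g = f := by
      intro f
      induction f using hom_ind with
      | h a ha =>
      have h1 := I.n2a_mat_bi 0 X Y a
      have h2 : I.n2aBi W X Y a ∈ Z0 X Y := I.n2a_Z0 (by rw [h1]; exact ha)
      exact ⟨Vale.Agent.P287T.G3.mk _ h2, mk_congr _ h1⟩
    exact key f
  have hess : (I.chom W).functor.EssSurj := ⟨fun Y => ⟨I.n2aPre Y, ⟨I.n2aPreIso Y⟩⟩⟩
  exact { faithful := hfaith, full := hfull, essSurj := hess }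

theorem nilp_chom {S : Set A.S} {N : ℕ} (h : Nilp A W S N) : Nilp B (I.φ W) (I.φ '' S) N := by
  refine ⟨fun Y s' hs' => ?_⟩
  obtain ⟨s, hs, rfl⟩ := hs'
  obtain ⟨k, hk, he⟩ : ∃ k : Matrix Y.ι Y.ι A.S,
      (∀ i j, k i j ∈ A.H ((A.en (2 * N) - A.en 3) +ᵥ I.lab.symm (Y.p j)) (I.lab.symm (Y.p i))) ∧
      (s ^ N) • (1 : Matrix Y.ι Y.ι A.S) = Y.d.map I.φ.symm * k + k * Y.d.map I.φ.symm :=
    h.nh (I.n2aPre Y) s hs
  refine ⟨k.map I.φ, ?_, ?_⟩
  · intro i j
    have h1 := hk i j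
    rw [I.H, I.vadd, map_sub, I.n2a_en, I.n2a_en, Equiv.apply_symm_apply,
      Equiv.apply_symm_apply] at h1
    exact h1
  · have h1 := congrArg (fun M : Matrix Y.ι Y.ι A.S => M.map I.φ) he
    have h2 : ((s ^ N) • (1 : Matrix Y.ι Y.ι A.S)).map I.φ =
        (I.φ s ^ N) • (1 : Matrix Y.ι Y.ι B.S) := by
      ext i j
      simp only [Matrix.map_apply, Matrix.smul_apply, smul_eq_mul, map_mul, map_pow]
      congr 1
      by_cases hij : i = j
      · subst hij
        rw [Matrix.one_apply_eq, Matrix.one_apply_eq, map_one]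
      · rw [Matrix.one_apply_ne hij, Matrix.one_apply_ne hij, map_zero]
    have h4 : (Y.d.map I.φ.symm).map I.φ = Y.d := I.n2a_mapMap Y.d
    have h5 : (Y.d.map I.φ.symm * k + k * Y.d.map I.φ.symm).map I.φ =
        Y.d * k.map I.φ + k.map I.φ * Y.d := by
      rw [Matrix.map_add _ (map_add I.φ), Matrix.map_mul, Matrix.map_mul, h4]
    exact h2.symm.trans (h1.trans h5)

end CIso

end Vale.Agent.P287T.G3
end
end

section

section

/-!
# Twists: central charge, rank, slicings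
-/

open Matrix CategoryTheory CategoryTheory.Limits CategoryTheory.Pretriangulated Polynomial

namespace Vale.Agent.P287T.G3

variable {A : GCtx} {W : A.S}

theorem Zf_tw (γ : A.Γ) (E : MF A W) : Zf (tw γ E) = ray ((A.chΓ γ : ℝ) / 3) * Zf E := by
  unfold Zf
  rw [Finset.mul_sum]
  refine Finset.sum_congr rfl fun i _ => ?_
  rw [← ray_add]
  congr 1
  change -((A.ch (-γ +ᵥ E.p i) : ℤ) : ℝ) / 3 = _
  rw [A.ch_vadd, map_neg]
  push_cast
  ring

theorem T3c_sg_cases (n : ℤ) : sg n = 1 ∨ sg n = -1 := by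
  rcases Int.units_eq_one_or n.negOnePow with h | h
  · left; simp [sg, h]
  · right; simp [sg, h]

theorem rk_tw [GCtx.Aug A] (γ : A.Γ) (E : MF A W) : rk (tw γ E) = rk E := by
  unfold rk
  have h : (dbar (tw γ E)).rank = (dbar E).rank := by
    rcases T3c_sg_cases (A.chΓ γ) with h | h
    · have : dbar (tw γ E) = dbar E := by
        unfold dbar
        change (sg (A.chΓ γ) • E.d).map _ = _
        rw [h, one_smul]
      rw [this]
    · have : dbar (tw γ E) = -dbar E := by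
        unfold dbar
        change (sg (A.chΓ γ) • E.d).map _ = _
        rw [h, neg_one_smul]
        ext i j
        simp
      have h2 : (-1 : Matrix E.ι E.ι ℂ) * dbar E = -dbar E := by simp
      rw [this, ← h2, Matrix.rank_mul_eq_right_of_isUnit_det]
      have h3 : IsUnit (-1 : Matrix E.ι E.ι ℂ) := isUnit_one.neg
      exact (Matrix.isUnit_iff_isUnit_det _).1 h3
  rw [h]

/-- twists commute -/
noncomputable def T3c_comm (E : MF A W) (a b : A.Γ) : tw b (tw a E) ≅ tw a (tw b E) :=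
  (twAdd E (a := a) (b := b) rfl).symm ≪≫ twAdd E (a := b) (b := a) (add_comm a b)

noncomputable def T3c_inv (E : MF A W) (γ : A.Γ) : tw (-γ) (tw γ E) ≅ E :=
  (twAdd E (a := γ) (b := -γ) rfl).symm ≪≫ twZero E (add_neg_cancel γ)

noncomputable def T3c_inv' (E : MF A W) (γ : A.Γ) : tw γ (tw (-γ) E) ≅ E :=
  (twAdd E (a := -γ) (b := γ) rfl).symm ≪≫ twZero E (neg_add_cancel γ)

theorem T3c_faithful (γ : A.Γ) {E F : MF A W} (f : E ⟶ F) (h : (twF γ).map f = 0) : f = 0 := by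
  induction f using hom_ind with
  | h f hf =>
    rw [twF_map_mk, mk_eq_zero] at h
    rw [mk_eq_zero]
    obtain ⟨k, hk, hf'⟩ := h
    refine ⟨sg (A.chΓ γ) • k, ((isDeg_tw γ).1 hk).zsmul _, ?_⟩
    refine hf'.trans ?_
    change (sg (A.chΓ γ) • F.d) * k + k * (sg (A.chΓ γ) • E.d) = _
    simp only [Matrix.smul_mul, Matrix.mul_smul]

theorem T3c_aux {C : Type*} [Category C] (S : C ⥤ C) {X Y Z P : C} (a : X ⟶ Y) (c : Y ⟶ S.obj Z)
    (x : Z ⟶ P) (y : P ⟶ Z) (h : x ≫ y = 𝟙 Z) : (a ≫ c ≫ S.map x) ≫ S.map y = a ≫ c := by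
  rw [Category.assoc, Category.assoc, ← CategoryTheory.Functor.map_comp, h,
    CategoryTheory.Functor.map_id, Category.comp_id]

/-- twists preserve triangles (up to a sign in the third morphism) -/
theorem T3c_tri (γ : A.Γ) {T : Triangle (MF A W)} (hT : T ∈ distTriang (MF A W)) :
    ∃ h' : tw γ T.obj₃ ⟶ (tw γ T.obj₁)⟦(1 : ℤ)⟧,
      Triangle.mk (X := tw γ T.obj₁) (Y := tw γ T.obj₂) (Z := tw γ T.obj₃)
        ((twF γ).map T.mor₁) ((twF γ).map T.mor₂) h' ∈ distTriang (MF A W) := by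
  obtain ⟨E, F, f, hf, ⟨e⟩⟩ := (mem_dist_iff T).1 hT
  have hm : (1 : Matrix E.ι E.ι A.S) ∈ Z0 (tw γ (tw (A.en (3 * 1)) E))
      (tw (A.en (3 * 1)) (tw γ E)) :=
    idMat_mem (p := fun i => -γ +ᵥ (-A.en (3 * 1) +ᵥ E.p i))
      (p' := fun i => -A.en (3 * 1) +ᵥ (-γ +ᵥ E.p i))
      (d := sg (A.chΓ γ) • sg (A.chΓ (A.en (3 * 1))) • E.d)
      (d' := sg (A.chΓ (A.en (3 * 1))) • sg (A.chΓ γ) • E.d)
      (h1 := (tw γ (tw (A.en (3 * 1)) E)).deg) (h2 := (tw γ (tw (A.en (3 * 1)) E)).sq)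
      (h1' := (tw (A.en (3 * 1)) (tw γ E)).deg) (h2' := (tw (A.en (3 * 1)) (tw γ E)).sq)
      (by funext i; rw [vadd_vadd, vadd_vadd, add_comm]) (smul_comm _ _ _)
  obtain ⟨c, h1⟩ : ∃ c : tw γ (stdTri E F f hf).obj₃ ⟶ (tw γ E)⟦(1 : ℤ)⟧,
      Triangle.mk ((twF γ).map (stdTri E F f hf).mor₁) ((twF γ).map (stdTri E F f hf).mor₂) c ∈
        distTriang (MF A W) :=
    ⟨_, tw_stdTri γ E F f hf (mk (E := tw γ (tw (A.en (3 * 1)) E))
      (F := tw (A.en (3 * 1)) (tw γ E)) (1 : Matrix E.ι E.ι A.S) hm) ⟨hm, rfl⟩⟩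
  let e1 : T.obj₁ ≅ (stdTri E F f hf).obj₁ := Triangle.π₁.mapIso e
  let e2 : T.obj₂ ≅ (stdTri E F f hf).obj₂ := Triangle.π₂.mapIso e
  let e3 : T.obj₃ ≅ (stdTri E F f hf).obj₃ := Triangle.π₃.mapIso e
  refine ⟨(twF γ).map e3.hom ≫ c ≫ ((twF γ).map e1.inv)⟦(1 : ℤ)⟧', ?_⟩
  refine isomorphic_distinguished _ h1 _ (Triangle.isoMk _ _ ((twF γ).mapIso e1)
    ((twF γ).mapIso e2) ((twF γ).mapIso e3) ?_ ?_ ?_)
  · change (twF γ).map T.mor₁ ≫ (twF γ).map e2.hom = (twF γ).map e1.hom ≫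
      (twF γ).map (stdTri E F f hf).mor₁
    rw [← Functor.map_comp, ← Functor.map_comp]
    congr 1
    exact e.hom.comm₁
  · change (twF γ).map T.mor₂ ≫ (twF γ).map e3.hom = (twF γ).map e2.hom ≫
      (twF γ).map (stdTri E F f hf).mor₂
    rw [← Functor.map_comp, ← Functor.map_comp]
    congr 1
    exact e.hom.comm₂
  · change ((twF γ).map e3.hom ≫ c ≫ ((twF γ).map e1.inv)⟦(1 : ℤ)⟧') ≫
      ((twF γ).map e1.hom)⟦(1 : ℤ)⟧' = (twF γ).map e3.hom ≫ c
    exact T3c_aux (shiftFunctor (MF A W) (1 : ℤ)) ((twF γ).map e3.hom) c ((twF γ).map e1.inv)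
      ((twF γ).map e1.hom) ((twF γ).mapIso e1).inv_hom_id

theorem T3c_extCl {P Q : MF A W → Prop} (γ : A.Γ) (h : ∀ Y, P Y → Q (tw γ Y)) {Y : MF A W}
    (hY : ExtCl P Y) : ExtCl Q (tw γ Y) := by
  induction hY with
  | zero X hX => exact ExtCl.zero _ ((twF γ).map_isZero hX)
  | of X hX => exact ExtCl.of _ (h X hX)
  | ext T hT _ _ ih1 ih3 =>
    obtain ⟨h', hh⟩ := T3c_tri γ hT
    exact ExtCl.ext _ hh ih1 ih3

/-- the pulled back slicing -/
noncomputable def T3c_slic (γ : A.Γ) (t : ℝ) (σ : Slic (MF A W)) : Slic (MF A W) where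
  U s E := σ.U (s + t) (tw γ E)
  V s E := σ.V (s + t) (tw γ E)
  ts s :=
    { isoU := fun e hX => (σ.ts (s + t)).isoU ((twF γ).mapIso e) hX
      isoV := fun e hX => (σ.ts (s + t)).isoV ((twF γ).mapIso e) hX
      hom := fun hX hY f => T3c_faithful γ f ((σ.ts (s + t)).hom hX hY _)
      shU := fun {X} hX => (σ.ts (s + t)).isoU (T3c_comm X (A.en (3 * 1)) γ).symm
        ((σ.ts (s + t)).shU hX)
      shV := fun {X} hX => (σ.ts (s + t)).isoV (T3c_comm X (A.en (3 * (-1))) γ).symm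
        ((σ.ts (s + t)).shV hX)
      tri := fun E => by
        obtain ⟨X, Y, f, g, h, hT, hX, hY⟩ := (σ.ts (s + t)).tri (tw γ E)
        obtain ⟨h', hT'⟩ := T3c_tri (-γ) hT
        have hT2 := triIso2 hT' (T3c_inv E γ)
        exact ⟨_, _, _, _, _, hT2, (σ.ts (s + t)).isoU (T3c_inv' X γ).symm hX,
          (σ.ts (s + t)).isoV (T3c_inv' Y γ).symm hY⟩ }
  anti h X hX := σ.anti (by linarith) _ hX
  shift s X := by
    have h1 := σ.shift (s + t) (tw γ X)
    rw [← h1]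
    have e : s + 1 + t = s + t + 1 := by ring
    rw [e]
    exact ⟨fun h => (σ.ts _).isoU (T3c_comm X (A.en (3 * 1)) γ) h,
      fun h => (σ.ts _).isoU (T3c_comm X (A.en (3 * 1)) γ).symm h⟩
  leftc s X hX := by
    refine σ.leftc (s + t) _ fun r hr => ?_
    have := hX (r - t) (by linarith)
    rwa [sub_add_cancel] at this
  bdd X := by
    obtain ⟨a, b, ha, hb⟩ := σ.bdd (tw γ X)
    refine ⟨a - t, b - t, ?_, ?_⟩
    · rwa [sub_add_cancel]
    · rwa [sub_add_cancel]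

theorem T3c_P (γ : A.Γ) (t : ℝ) (σ : Slic (MF A W)) (φ : ℝ) (X : MF A W) :
    (T3c_slic γ t σ).P φ X ↔ σ.P (φ + t) (tw γ X) := by
  constructor
  · rintro ⟨h1, h2⟩
    refine ⟨h1, fun r hr => ?_⟩
    have := h2 (r - t) (by linarith)
    change σ.V (r - t + t) (tw γ X) at this
    rwa [sub_add_cancel] at this
  · rintro ⟨h1, h2⟩
    exact ⟨h1, fun r hr => h2 (r + t) (by linarith)⟩

/-- the twist by `γ` as an equivalence: slicing pulled back along `tw γ` -/
theorem twist_slic (γ : A.Γ) (t : ℝ) {σ : Slic (MF A W)} {Z : MF A W → ℂ} {r : MF A W → ℕ} {c : ℝ}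
    (hσ : Stab σ Z r c) (hZ : ∀ E, Z (tw γ E) = ray t * Z E) (hr : ∀ E, r (tw γ E) = r E) :
    ∃ τ : Slic (MF A W), (∀ s E, τ.U s E ↔ σ.U (s + t) (tw γ E)) ∧
      (∀ s E, τ.V s E ↔ σ.V (s + t) (tw γ E)) ∧ Stab τ Z r c := by
  refine ⟨T3c_slic γ t σ, fun _ _ => Iff.rfl, fun _ _ => Iff.rfl, ?_⟩
  refine
    { hn := ?_
      add := hσ.add
      rk := hσ.rk
      cpos := hσ.cpos
      ph := ?_ }
  · intro s t' X hU hV
    have h1 := hσ.hn (s + t) (t' + t) (tw γ X) hU hV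
    refine ExtCl.iso (T3c_extCl (-γ) ?_ h1) (T3c_inv X γ)
    rintro Y ⟨φ, h2, h3, h4⟩
    refine ⟨φ - t, by linarith, by linarith, ?_⟩
    rw [T3c_P, sub_add_cancel]
    exact ⟨(σ.ts _).isoU (T3c_inv' Y γ).symm h4.1,
      fun r hr => (σ.ts _).isoV (T3c_inv' Y γ).symm (h4.2 r hr)⟩
  · intro φ X hX
    rw [T3c_P] at hX
    obtain ⟨m, h1, h2⟩ := hσ.ph _ _ hX
    refine ⟨m, by rwa [hr] at h1, ?_⟩
    rw [hZ, ray_add] at h2
    have h3 : ray t * Z X = ray t * (m * ray φ) := by rw [h2]; ring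
    exact mul_left_cancel₀ (ray_ne_zero t) h3

end Vale.Agent.P287T.G3
end
end

section

section

/-!
# Sub and quotient matrix factorizations, gaps
-/

open Matrix CategoryTheory CategoryTheory.Limits CategoryTheory.Pretriangulated

namespace Vale.Agent.P287T.G3

variable {A : GCtx} {W : A.S}

/-- reindexing a matrix factorization gives an isomorphic object -/
theorem k1b_reindex (F E : MF A W) (σ : F.ι ≃ E.ι) (hp : ∀ i, F.p i = E.p (σ i))
    (hd : ∀ i j, F.d i j = E.d (σ i) (σ j)) : Nonempty (F ≅ E) := by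
  have hd' : F.d = E.d.submatrix σ σ := by
    ext i j
    exact hd i j
  have h1 : ((1 : Matrix E.ι E.ι A.S).submatrix id σ) ∈ Z0 F E := by
    refine ⟨fun i j => ?_, ?_⟩
    · rw [zero_vadd, hp, Matrix.submatrix_apply, id]
      by_cases h : i = σ j
      · rw [h, Matrix.one_apply_eq]
        exact A.one_mem _
      · rw [Matrix.one_apply_ne h]
        exact zero_mem _
    · rw [hd', Matrix.submatrix_mul_equiv]
      have h2 : E.d * (1 : Matrix E.ι E.ι A.S).submatrix id σ =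
          (E.d * 1).submatrix id σ :=
        Matrix.submatrix_mul_equiv E.d 1 id (Equiv.refl _) σ
      rw [h2, Matrix.mul_one, Matrix.one_mul]
  have h2 : ((1 : Matrix E.ι E.ι A.S).submatrix σ id) ∈ Z0 E F := by
    refine ⟨fun i j => ?_, ?_⟩
    · rw [zero_vadd, hp, Matrix.submatrix_apply, id]
      by_cases h : σ i = j
      · rw [h, Matrix.one_apply_eq]
        exact A.one_mem _
      · rw [Matrix.one_apply_ne h]
        exact zero_mem _
    · rw [hd', Matrix.submatrix_mul_equiv]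
      have h2 : (1 : Matrix E.ι E.ι A.S).submatrix σ id * E.d =
          (1 * E.d).submatrix σ id :=
        Matrix.submatrix_mul_equiv 1 E.d σ (Equiv.refl _) id
      rw [h2, Matrix.mul_one, Matrix.one_mul]
  have h3 : (1 : Matrix E.ι E.ι A.S).submatrix σ id * (1 : Matrix E.ι E.ι A.S).submatrix id σ
      = 1 := by
    have : (1 : Matrix E.ι E.ι A.S).submatrix σ id * (1 : Matrix E.ι E.ι A.S).submatrix id σ
        = (1 * 1 : Matrix E.ι E.ι A.S).submatrix σ σ :=
      Matrix.submatrix_mul_equiv _ _ _ (Equiv.refl _) _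
    rw [this, Matrix.mul_one, Matrix.submatrix_one_equiv]
  have h4 : (1 : Matrix E.ι E.ι A.S).submatrix id σ * (1 : Matrix E.ι E.ι A.S).submatrix σ id
      = 1 := by
    rw [Matrix.submatrix_mul_equiv, Matrix.mul_one, Matrix.submatrix_id_id]
  refine ⟨isoOfHtpy _ h1 _ h2 h3 ?_⟩
  rw [h4, sub_self]
  exact zero_mem _

/-- restriction of a matrix factorization to a set of basis vectors -/
def k1b_restr (E : MF A W) (Q : E.ι → Prop) [DecidablePred Q]
    (hQ : ∀ i j, Q i → Q j → ∀ k, ¬ Q k → E.d i k * E.d k j = 0) : MF A W where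
  ι := {i // Q i}
  p i := E.p i
  d := E.d.submatrix (fun i => i.1) (fun i => i.1)
  deg i j := E.deg _ _
  sq := by
    ext i j
    have h := congrFun (congrFun E.sq i.1) j.1
    rw [Matrix.mul_apply] at h ⊢
    simp only [Matrix.submatrix_apply, Matrix.smul_apply] at h ⊢
    rw [← Fintype.sum_subtype_add_sum_subtype Q] at h
    rw [Finset.sum_eq_zero (fun (k : {k // ¬ Q k}) _ => hQ i.1 j.1 i.2 j.2 k.1 k.2),
      add_zero] at h
    rw [h]
    congr 1
    simp only [Matrix.one_apply, Subtype.ext_iff]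

/-- sub and quotient: if the entries of `d` from `P` to `¬P` vanish there is a triangle. -/
theorem sub_quot (E : MF A W) (P : E.ι → Prop) [DecidablePred P]
    (hP : ∀ i j, ¬ P i → P j → E.d i j = 0) :
    ∃ (Lo Hi : MF A W) (e₁ : Lo.ι ≃ {i // P i}) (e₂ : Hi.ι ≃ {i // ¬ P i})
      (f : Lo ⟶ E) (g : E ⟶ Hi) (δ : Hi ⟶ Lo⟦(1 : ℤ)⟧),
      Triangle.mk f g δ ∈ distTriang (MF A W) ∧
      (∀ i, Lo.p i = E.p (e₁ i)) ∧ (∀ i, Hi.p i = E.p (e₂ i)) ∧
      (∀ i j, Lo.d i j = E.d (e₁ i) (e₁ j)) ∧ (∀ i j, Hi.d i j = E.d (e₂ i) (e₂ j)) := by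
  -- the two factors
  let Lo : MF A W := k1b_restr E P (fun i j _ hj k hk => by rw [hP k j hk hj, mul_zero])
  let Hi : MF A W := k1b_restr E (fun i => ¬ P i)
    (fun i j hi _ k hk => by rw [hP i k hi (not_not.1 hk), zero_mul])
  let Hi' : MF A W := tw (A.en (-3)) Hi
  have hHi' : Hi'.d = - Hi.d := by
    change sg (A.chΓ (A.en (-3))) • Hi.d = - Hi.d
    rw [A.chΓ_en]
    have h : sg (-3) = -1 := by rw [sg_neg, sg_five]
    rw [h, neg_smul, one_smul]
  let b : Matrix Lo.ι Hi'.ι A.S := E.d.submatrix (fun i => i.1) (fun i => i.1)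
  have hb : b ∈ Z0 Hi' Lo := by
    refine ⟨fun i j => ?_, ?_⟩
    · have h := E.deg i.1 j.1
      change E.d i.1 j.1 ∈ A.H ((0 : A.Γ) +ᵥ (-A.en (-3) +ᵥ E.p j.1)) (E.p i.1)
      rw [zero_vadd, A.en_neg, neg_neg]
      exact h
    · rw [hHi', Matrix.mul_neg, eq_neg_iff_add_eq_zero]
      ext i j
      have h := congrFun (congrFun E.sq i.1) j.1
      rw [Matrix.mul_apply] at h
      rw [← Fintype.sum_subtype_add_sum_subtype P] at h
      have hij : i.1 ≠ j.1 := fun hij => j.2 (hij ▸ i.2)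
      rw [Matrix.smul_apply, Matrix.one_apply_ne hij, smul_zero] at h
      rw [Matrix.add_apply, Matrix.mul_apply, Matrix.mul_apply]
      exact h
  -- the cone
  obtain ⟨e⟩ : Nonempty (cone Hi' Lo b hb ≅ E) := by
    refine k1b_reindex _ _ (Equiv.sumCompl P) ?_ ?_
    · rintro (i | i)
      · rfl
      · change -A.en 3 +ᵥ (-A.en (-3) +ᵥ E.p i.1) = E.p i.1
        rw [A.en_neg, neg_neg, vadd_vadd, neg_add_cancel, zero_vadd]
    · rintro (i | i) (j | j)
      · rfl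
      · rfl
      · exact (hP i.1 j.1 i.2 j.2).symm
      · change (- Hi'.d) i j = _
        rw [hHi', neg_neg]
        rfl
  -- the shift of the shift
  let e' : tw (A.en (3 * 1)) Hi' ≅ Hi :=
    (twAdd Hi (c := A.en (-3) + A.en (3 * 1)) rfl).symm ≪≫
      twZero Hi (by rw [← A.en_add]; norm_num [A.en_zero])
  have hT : (stdTri Hi' Lo b hb).rotate ∈ distTriang (MF A W) :=
    rotate_distT _ ⟨Hi', Lo, b, hb, ⟨Iso.refl _⟩⟩
  let m₁ : Lo ⟶ cone Hi' Lo b hb := (stdTri Hi' Lo b hb).rotate.mor₁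
  let m₂ : cone Hi' Lo b hb ⟶ tw (A.en (3 * 1)) Hi' := (stdTri Hi' Lo b hb).rotate.mor₂
  let m₃ : tw (A.en (3 * 1)) Hi' ⟶ Lo⟦(1 : ℤ)⟧ := (stdTri Hi' Lo b hb).rotate.mor₃
  refine ⟨Lo, Hi, Equiv.refl _, Equiv.refl _, m₁ ≫ e.hom, e.inv ≫ m₂ ≫ e'.hom, e'.inv ≫ m₃,
    ?_, fun _ => rfl, fun _ => rfl, fun _ _ => rfl, fun _ _ => rfl⟩
  refine distT_iso _ hT _ ?_
  refine Triangle.isoMk _ _ (Iso.refl _) e.symm e'.symm ?_ ?_ ?_
  · change (m₁ ≫ e.hom) ≫ e.inv = 𝟙 _ ≫ m₁
    simp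
  · change (e.inv ≫ m₂ ≫ e'.hom) ≫ e'.inv = e.inv ≫ m₂
    simp
  · change (e'.inv ≫ m₃) ≫ (shiftFunctor (MF A W) (1 : ℤ)).map (𝟙 _) = e'.inv ≫ m₃
    rw [CategoryTheory.Functor.map_id, Category.comp_id]

/-- a gap of length `> 3` in the charges of a matrix factorization splits off the low part -/
theorem gap_split [GCtx.Aug A] (E : MF A W) (hE : dbar E = 0) (q : ℤ)
    (h : ∀ i, A.ch (E.p i) < q ∨ q + 3 < A.ch (E.p i)) :
    ∃ (Lo Hi : MF A W) (f : Lo ⟶ E) (g : E ⟶ Hi) (δ : Hi ⟶ Lo⟦(1 : ℤ)⟧),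
      Triangle.mk f g δ ∈ distTriang (MF A W) ∧ dbar Lo = 0 ∧ dbar Hi = 0 ∧
      (∀ i, A.ch (Lo.p i) < q ∧ ∃ j, A.ch (E.p j) = A.ch (Lo.p i)) ∧
      (∀ i, q + 3 < A.ch (Hi.p i) ∧ ∃ j, A.ch (E.p j) = A.ch (Hi.p i)) := by
  obtain ⟨Lo, Hi, e₁, e₂, f, g, δ, hT, hp₁, hp₂, hd₁, hd₂⟩ :=
    sub_quot E (fun i => A.ch (E.p i) < q) (by
      intro i j hi hj
      by_contra h0
      have h1 := GCtx.Aug.pos (E.deg i j) h0
      rw [A.ch_vadd, A.chΓ_en] at h1
      rcases h i with h2 | h2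
      · exact hi h2
      · omega)
  refine ⟨Lo, Hi, f, g, δ, hT, ?_, ?_, ?_, ?_⟩
  · ext i j
    have h1 := congrFun (congrFun hE (e₁ i)) (e₁ j)
    simp only [dbar, Matrix.map_apply, Matrix.zero_apply] at h1 ⊢
    rw [hd₁, h1]
  · ext i j
    have h1 := congrFun (congrFun hE (e₂ i)) (e₂ j)
    simp only [dbar, Matrix.map_apply, Matrix.zero_apply] at h1 ⊢
    rw [hd₂, h1]
  · intro i
    rw [hp₁]
    exact ⟨(e₁ i).2, _, rfl⟩
  · intro i
    rw [hp₂]
    exact ⟨(h _).resolve_left (e₂ i).2, _, rfl⟩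

end Vale.Agent.P287T.G3
end
end

section

section

/-!
# The twist functors are triangulated
-/

open Matrix CategoryTheory CategoryTheory.Limits CategoryTheory.Pretriangulated

namespace Vale.Agent.P287T.G3

variable {A : GCtx} {W : A.S}

theorem sg_sq (n : ℤ) : sg n * sg n = 1 := sg_mul_self n

/-- the strict functor of a twist -/
noncomputable def twSF (W : A.S) (γ : A.Γ) : SF A W A W where
  obj := tw γ
  map _ _ := AddMonoidHom.id _
  map_one _ := rfl
  map_mul _ _ := rfl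
  map_Z := tw_mem_Z0 γ
  map_B := tw_mem_B0 γ

theorem twSF_sgn {ι : Type} [Fintype ι] [DecidableEq ι] (s a b : ℤ) (d : Matrix ι ι A.S) :
    (a • b • d) * (s • (1 : Matrix ι ι A.S)) = (s • (1 : Matrix ι ι A.S)) * (b • a • d) := by
  rw [Matrix.mul_smul, Matrix.mul_one, Matrix.smul_mul, Matrix.one_mul, smul_comm a b]

/-- compatibility with the shift -/
noncomputable def twSh (W : A.S) (γ : A.Γ) : (twSF W γ).Sh where
  c n E := sg (A.chΓ γ * n) • (1 : Matrix E.ι E.ι A.S)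
  c' n E := sg (A.chΓ γ * n) • (1 : Matrix E.ι E.ι A.S)
  hc n E := by
    refine ⟨fun i j => ?_, twSF_sgn _ _ _ _⟩
    refine zsmul_mem (DegM.one (p := (tw γ (tw (A.en (3 * n)) E)).p)
          (q := (tw (A.en (3 * n)) (tw γ E)).p) (fun i => ?_) i j) _
    change (0 : A.Γ) +ᵥ (-γ +ᵥ (-A.en (3 * n) +ᵥ E.p i)) = -A.en (3 * n) +ᵥ (-γ +ᵥ E.p i)
    rw [zero_vadd, vadd_vadd, vadd_vadd, add_comm]
  hc' n E := by
    refine ⟨fun i j => ?_, twSF_sgn _ _ _ _⟩
    refine zsmul_mem (DegM.one (q := (tw γ (tw (A.en (3 * n)) E)).p)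
          (p := (tw (A.en (3 * n)) (tw γ E)).p) (fun i => ?_) i j) _
    change (0 : A.Γ) +ᵥ (-A.en (3 * n) +ᵥ (-γ +ᵥ E.p i)) = -γ +ᵥ (-A.en (3 * n) +ᵥ E.p i)
    rw [zero_vadd, vadd_vadd, vadd_vadd, add_comm]
  cc' n E := by
    refine Eq.trans (b := (sg (A.chΓ γ * n) • (1 : Matrix E.ι E.ι A.S)) *
      (sg (A.chΓ γ * n) • (1 : Matrix E.ι E.ι A.S))) rfl ?_
    rw [Matrix.mul_smul, Matrix.mul_one, smul_smul, sg_sq, one_smul]
    rfl
  c'c n E := by
    refine Eq.trans (b := (sg (A.chΓ γ * n) • (1 : Matrix E.ι E.ι A.S)) *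
      (sg (A.chΓ γ * n) • (1 : Matrix E.ι E.ι A.S))) rfl ?_
    rw [Matrix.mul_smul, Matrix.mul_one, smul_smul, sg_sq, one_smul]
    rfl
  nat n E F f _ := by
    refine Eq.trans (b := (sg (A.chΓ γ * n) • (1 : Matrix F.ι F.ι A.S)) * f) rfl ?_
    refine Eq.trans ?_ (show f * (sg (A.chΓ γ * n) • (1 : Matrix E.ι E.ι A.S)) = _ from rfl)
    rw [Matrix.smul_mul, Matrix.mul_smul, Matrix.one_mul, Matrix.mul_one]
  zero E := by
    refine Eq.trans (b := sg (A.chΓ γ * 0) • (1 : Matrix E.ι E.ι A.S)) rfl ?_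
    rw [mul_zero, sg_zero, one_smul]
    rfl
  add m n E := by
    refine Eq.trans ?_ (show (sg (A.chΓ γ * m) • (1 : Matrix E.ι E.ι A.S)) *
      (sg (A.chΓ γ * n) • (1 : Matrix E.ι E.ι A.S)) * (1 : Matrix E.ι E.ι A.S) = _ from rfl)
    rw [Matrix.mul_one, Matrix.mul_smul, Matrix.mul_one, smul_smul]
    exact congrArg (fun t : ℤ => t • (1 : Matrix E.ι E.ι A.S))
      (show sg (A.chΓ γ * (m + n)) = sg (A.chΓ γ * n) * sg (A.chΓ γ * m) by
        rw [mul_add, sg_add, mul_comm])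

/-- compatibility with cones -/
noncomputable def twTr (W : A.S) (γ : A.Γ) : SF.Tr (twSh W γ) where
  k E F _ _ := Matrix.fromBlocks (1 : Matrix F.ι F.ι A.S) (0 : Matrix F.ι E.ι A.S)
      (0 : Matrix E.ι F.ι A.S) (sg (A.chΓ γ) • (1 : Matrix E.ι E.ι A.S))
  k' E F _ _ := Matrix.fromBlocks (1 : Matrix F.ι F.ι A.S) (0 : Matrix F.ι E.ι A.S)
      (0 : Matrix E.ι F.ι A.S) (sg (A.chΓ γ) • (1 : Matrix E.ι E.ι A.S))
  hk E F f _ := by
    refine ⟨?_, m3_tw_theta (sg_mul_self _)⟩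
    rintro (i | i) (j | j)
    · exact DegM.one (p := (tw γ F).p) (q := (tw γ F).p) (fun i => zero_vadd _ _) i j
    · exact zero_mem _
    · exact zero_mem _
    · refine zsmul_mem (DegM.one (p := (tw γ (tw (A.en 3) E)).p)
        (q := (tw (A.en 3) (tw γ E)).p) (fun i => ?_) i j) _
      change (0 : A.Γ) +ᵥ (-γ +ᵥ (-A.en 3 +ᵥ E.p i)) = -A.en 3 +ᵥ (-γ +ᵥ E.p i)
      rw [zero_vadd, vadd_vadd, vadd_vadd, add_comm]
  hk' E F f _ := by
    refine ⟨?_, m3_tw_theta' (sg_mul_self _)⟩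
    rintro (i | i) (j | j)
    · exact DegM.one (p := (tw γ F).p) (q := (tw γ F).p) (fun i => zero_vadd _ _) i j
    · exact zero_mem _
    · exact zero_mem _
    · refine zsmul_mem (DegM.one (q := (tw γ (tw (A.en 3) E)).p)
        (p := (tw (A.en 3) (tw γ E)).p) (fun i => ?_) i j) _
      change (0 : A.Γ) +ᵥ (-A.en 3 +ᵥ (-γ +ᵥ E.p i)) = -γ +ᵥ (-A.en 3 +ᵥ E.p i)
      rw [zero_vadd, vadd_vadd, vadd_vadd, add_comm]
  kk' _ _ _ _ := m3_tw_sq (sg_mul_self _)
  k'k _ _ _ _ := m3_tw_sq (sg_mul_self _)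
  inl _ _ _ _ := m3_tw_inl
  snd E F _ _ := by
    have h := m3_tw_snd (S := A.S) (a := E.ι) (b := F.ι) (s := sg (A.chΓ γ))
    refine Eq.trans ?_ h.symm
    refine Eq.trans (b := (sg (A.chΓ γ * 1) • (1 : Matrix E.ι E.ι A.S)) *
      Matrix.fromCols (0 : Matrix E.ι F.ι A.S) (1 : Matrix E.ι E.ι A.S)) rfl ?_
    rw [Matrix.smul_mul, mul_one, Matrix.mul_smul]

noncomputable instance instTwCommShift (γ : A.Γ) : (twF γ : MF A W ⥤ MF A W).CommShift ℤ :=
  (twSh W γ).commShift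

instance instTwIsTriangulated (γ : A.Γ) : (twF γ : MF A W ⥤ MF A W).IsTriangulated :=
  (twTr W γ).isTriangulated

end Vale.Agent.P287T.G3
end
end

section

section

/-!
# Leveled matrix factorizations: functors
-/

open Matrix CategoryTheory CategoryTheory.Limits CategoryTheory.Pretriangulated

namespace Vale.Agent.P287T.G3

/-- a scalar of `A` seen in `A.lev k` -/
def levS (A : GCtx) (k : ℕ) (s : A.S) : (A.lev k).S := s

/-- matrix factorizations with levels in `Fin k` -/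
abbrev MFL (A : GCtx) (W : A.S) (k : ℕ) : Type 1 := MF (A.lev k) (levS A k W)

theorem L1_mem {A : GCtx} {k : ℕ} {a b : A.L × Fin k} {s : A.S} :
    s ∈ (A.lev k).H a b ↔ (b.2 ≤ a.2 ∧ s ∈ A.H a.1 b.1) ∨ s = 0 :=
  GCtx.lev_mem_iff A k a b s

theorem L1_mem' {A : GCtx} {k : ℕ} {a b : A.L × Fin k} {s : A.S}
    (h1 : b.2 ≤ a.2) (h2 : s ∈ A.H a.1 b.1) :
    s ∈ (A.lev k).H a b := L1_mem.2 (Or.inl ⟨h1, h2⟩)

theorem L1_zero {A : GCtx} {k : ℕ} {a b : A.L × Fin k} {s : A.S} (h : s ∈ (A.lev k).H a b)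
    (hab : ¬ b.2 ≤ a.2) : s = 0 := by
  rcases L1_mem.1 h with h | h
  · exact absurd h.1 hab
  · exact h

theorem L1_memA {A : GCtx} {k : ℕ} {a b : A.L × Fin k} {s : A.S} (h : s ∈ (A.lev k).H a b) :
    s ∈ A.H a.1 b.1 := by
  rcases L1_mem.1 h with h | h
  · exact h.2
  · rw [h]; exact zero_mem _

/-- relabel the levels by a monotone map -/
def levMap (A : GCtx) (W : A.S) {k l : ℕ} (φ : Fin k → Fin l) (hφ : Monotone φ) :
    CHom (A.lev k) (A.lev l) (levS A k W) (levS A l W) where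
  dom := fun _ => True
  lab := fun (a : A.L × Fin k) => ((a.1, φ a.2) : A.L × Fin l)
  θ := fun _ _ => AddMonoidHom.id A.S
  θ_mem := fun {a b s} _ _ h => by
    rcases L1_mem.1 h with h | h
    · exact L1_mem.2 (Or.inl ⟨hφ h.1, h.2⟩)
    · exact L1_mem.2 (Or.inr h)
  θ_one := fun _ => rfl
  θ_mul := fun _ _ _ _ _ => rfl
  θ_mul0 := fun _ h => absurd trivial h
  dom_e := fun _ _ => Iff.rfl
  lab_e := fun _ _ _ => rfl
  θ_e := fun _ _ _ _ _ => rfl
  θ_W := fun _ _ _ => rfl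

/-- drop the lowest level and decrease the others by one -/
def levB (A : GCtx) (W : A.S) (k : ℕ) : CHom (A.lev (k + 2)) (A.lev (k + 1)) (levS A (k + 2) W) (levS A (k + 1) W) where
  dom := fun (a : A.L × Fin (k + 2)) => a.2 ≠ 0
  decdom := fun (a : A.L × Fin (k + 2)) => inferInstanceAs (Decidable (a.2 ≠ 0))
  lab := fun (a : A.L × Fin (k + 2)) => ((a.1, Fin.predAbove 0 a.2) : A.L × Fin (k + 1))
  θ := fun _ _ => AddMonoidHom.id A.S
  θ_mem := fun {a b s} _ _ h => by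
    rcases L1_mem.1 h with h | h
    · exact L1_mem.2 (Or.inl ⟨Fin.predAbove_right_monotone 0 h.1, h.2⟩)
    · exact L1_mem.2 (Or.inr h)
  θ_one := fun _ => rfl
  θ_mul := fun _ _ _ _ _ => rfl
  θ_mul0 := fun {a b c x y} ha hb hc hx hy => by
    have hb' : (b : A.L × Fin (k + 2)).2 = 0 := not_not.1 hb
    have hx0 : x = (0 : A.S) := L1_zero (A := A) (k := k + 2) (a := b) (b := c) hx
      (by rw [hb']; exact fun h => hc (Fin.le_zero_iff.1 h))
    change (x * y : A.S) = 0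
    rw [hx0]
    exact zero_mul (y : A.S)
  dom_e := fun _ _ => Iff.rfl
  lab_e := fun _ _ _ => rfl
  θ_e := fun _ _ _ _ _ => rfl
  θ_W := fun _ _ _ => rfl

/-- the level `v` part -/
def levGr (A : GCtx) (W : A.S) (k : ℕ) (v : Fin k) : CHom (A.lev k) A (levS A k W) W where
  dom := fun (a : A.L × Fin k) => a.2 = v
  decdom := fun (a : A.L × Fin k) => inferInstanceAs (Decidable (a.2 = v))
  lab := fun (a : A.L × Fin k) => a.1
  θ := fun _ _ => AddMonoidHom.id A.S
  θ_mem := fun _ _ h => L1_memA h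
  θ_one := fun _ => rfl
  θ_mul := fun _ _ _ _ _ => rfl
  θ_mul0 := fun {a b c x y} ha hb hc hx hy => by
    by_cases h : (b : A.L × Fin k).2 ≤ (a : A.L × Fin k).2
    · have hx0 : x = (0 : A.S) := L1_zero (A := A) (k := k) (a := b) (b := c) hx (by
        intro h'
        rw [ha] at h
        rw [hc] at h'
        exact hb (le_antisymm h h'))
      change (x * y : A.S) = 0
      rw [hx0]
      exact zero_mul (y : A.S)
    · have hy0 : y = (0 : A.S) := L1_zero (A := A) (k := k) (a := a) (b := b) hy h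
      change (x * y : A.S) = 0
      rw [hy0]
      exact mul_zero (x : A.S)
  dom_e := fun _ _ => Iff.rfl
  lab_e := fun _ _ _ => rfl
  θ_e := fun _ _ _ _ _ => rfl
  θ_W := fun _ _ _ => rfl

/-- forget the levels -/
def levTot (A : GCtx) (W : A.S) (k : ℕ) : CHom (A.lev k) A (levS A k W) W where
  dom := fun _ => True
  lab := fun (a : A.L × Fin k) => a.1
  θ := fun _ _ => AddMonoidHom.id A.S
  θ_mem := fun _ _ h => L1_memA h
  θ_one := fun _ => rfl
  θ_mul := fun _ _ _ _ _ => rfl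
  θ_mul0 := fun _ h => absurd trivial h
  dom_e := fun _ _ => Iff.rfl
  lab_e := fun _ _ _ => rfl
  θ_e := fun _ _ _ _ _ => rfl
  θ_W := fun _ _ _ => rfl

/-- put everything on level `v` -/
def levAt (A : GCtx) (W : A.S) (k : ℕ) (v : Fin k) : CHom A (A.lev k) W (levS A k W) where
  dom := fun _ => True
  lab := fun a => ((a, v) : A.L × Fin k)
  θ := fun _ _ => AddMonoidHom.id A.S
  θ_mem := fun _ _ h => L1_mem' le_rfl h
  θ_one := fun _ => rfl
  θ_mul := fun _ _ _ _ _ => rfl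
  θ_mul0 := fun _ h => absurd trivial h
  dom_e := fun _ _ => Iff.rfl
  lab_e := fun _ _ _ => rfl
  θ_e := fun _ _ _ _ _ => rfl
  θ_W := fun _ _ _ => rfl

/-- `G` at level `v`, glued by the identity with `G[1]` at level `v'`. -/
noncomputable def levJ (A : GCtx) (W : A.S) (k : ℕ) (v v' : Fin k) (hv : v ≤ v') (G : MF A W) :
    MFL A W k where
  ι := G.ι ⊕ G.ι
  p := Sum.elim (fun i => ((G.p i, v) : A.L × Fin k))
    (fun i => ((-A.en 3 +ᵥ G.p i, v') : A.L × Fin k))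
  d := (Matrix.fromBlocks G.d 1 0 (-G.d) : Matrix (G.ι ⊕ G.ι) (G.ι ⊕ G.ι) A.S)
  deg i j := by
    rcases i with i | i <;> rcases j with j | j
    · exact L1_mem' (A := A) (a := (A.en 3 +ᵥ G.p j, v)) (b := (G.p i, v)) le_rfl (G.deg i j)
    · refine L1_mem' (A := A) (a := (A.en 3 +ᵥ (-A.en 3 +ᵥ G.p j), v')) (b := (G.p i, v)) hv ?_
      rw [vadd_vadd, add_neg_cancel, zero_vadd]
      have := IsDeg.one G i j
      rwa [zero_vadd] at this
    · exact zero_mem _
    · refine L1_mem' (A := A) (a := (A.en 3 +ᵥ (-A.en 3 +ᵥ G.p j), v'))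
        (b := (-A.en 3 +ᵥ G.p i, v')) le_rfl ?_
      rw [vadd_vadd, add_comm, ← vadd_vadd, A.H_vadd]
      exact neg_mem (G.deg i j)
  sq := by
    refine (Matrix.fromBlocks_multiply G.d 1 0 (-G.d) G.d 1 0 (-G.d)).trans ?_
    change _ = (W • 1 : Matrix (G.ι ⊕ G.ι) (G.ι ⊕ G.ι) A.S)
    simp [G.sq, ← Matrix.fromBlocks_one, Matrix.fromBlocks_smul]

section L1mat

variable {S : Type} [CommRing S]

theorem L1_N1 {α β q p b : Type} [DecidableEq α] [Fintype q]
    (f : Matrix β α S) (a : b → β) (u : q → α) (v : p → α) (hu : Function.Injective u)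
    (h : ∀ (i : b) (j : p), (∀ k : q, u k ≠ v j) → f (a i) (v j) = 0) :
    f.submatrix a u * (1 : Matrix α α S).submatrix u v = f.submatrix a v := by
  ext i j
  rw [Matrix.mul_apply]
  by_cases h' : ∃ k, u k = v j
  · obtain ⟨k, hk⟩ := h'
    rw [Finset.sum_eq_single k]
    · rw [Matrix.submatrix_apply, Matrix.submatrix_apply, hk, Matrix.one_apply_eq, mul_one,
        Matrix.submatrix_apply]
    · intro l _ hl
      have : u l ≠ v j := fun e => hl (hu (e.trans hk.symm))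
      simp [this]
    · intro hk; exact absurd (Finset.mem_univ _) hk
  · push Not at h'
    rw [Matrix.submatrix_apply, h i j h']
    apply Finset.sum_eq_zero
    intro l _
    simp [h' l]

theorem L1_N2 {α β q p b : Type} [DecidableEq α] [Fintype q]
    (f : Matrix α β S) (a : b → β) (u : q → α) (v : p → α) (hu : Function.Injective u)
    (h : ∀ (i : p) (j : b), (∀ k : q, u k ≠ v i) → f (v i) (a j) = 0) :
    (1 : Matrix α α S).submatrix v u * f.submatrix u a = f.submatrix v a := by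
  ext i j
  rw [Matrix.mul_apply]
  by_cases h' : ∃ k, u k = v i
  · obtain ⟨k, hk⟩ := h'
    rw [Finset.sum_eq_single k]
    · rw [Matrix.submatrix_apply, Matrix.submatrix_apply, hk, Matrix.one_apply_eq, one_mul,
        Matrix.submatrix_apply]
    · intro l _ hl
      have : v i ≠ u l := fun e => hl (hu (e.symm.trans hk.symm))
      simp [this]
    · intro hk; exact absurd (Finset.mem_univ _) hk
  · push Not at h'
    rw [Matrix.submatrix_apply, h i j h']
    apply Finset.sum_eq_zero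
    intro l _
    simp [(h' l).symm]

theorem L1_one {α β : Type} [DecidableEq α] [DecidableEq β] (u : β → α)
    (hu : Function.Injective u) : (1 : Matrix α α S).submatrix u u = 1 := by
  ext i j
  simp [Matrix.one_apply, hu.eq_iff]

theorem L1_Z0 {B : GCtx} {W' : B.S} (X Y : MF B W') {α : Type} [DecidableEq α]
    (D : Matrix α α B.S) (u : X.ι → α) (v : Y.ι → α) (hu : Function.Injective u)
    (hv : Function.Injective v) (hX : X.d = D.submatrix u u) (hY : Y.d = D.submatrix v v)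
    (h1 : ∀ i j, (∀ k, v k ≠ u j) → D (v i) (u j) = 0)
    (h2 : ∀ i j, (∀ k, u k ≠ v i) → D (v i) (u j) = 0)
    (hdeg : ∀ i j, v i = u j → (1 : B.S) ∈ B.H (X.p j) (Y.p i)) :
    (1 : Matrix α α B.S).submatrix v u ∈ Z0 X Y := by
  refine ⟨?_, ?_⟩
  · intro i j
    rw [Matrix.submatrix_apply, zero_vadd, Matrix.one_apply]
    split_ifs with h
    · exact hdeg i j h
    · exact zero_mem _
  · rw [hX, hY, L1_N1 D v v u hv h1, L1_N2 D u u v hu h2]

end L1mat


theorem L1_comp {S : Type} [CommRing S] {α q p r : Type} [DecidableEq α] [Fintype q]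
    (a : p → α) (b : q → α) (c : r → α) (hb : Function.Injective b)
    (h : ∀ i j, a i = c j → ∃ k, b k = c j) :
    (1 : Matrix α α S).submatrix a b * (1 : Matrix α α S).submatrix b c =
      (1 : Matrix α α S).submatrix a c := by
  refine L1_N1 1 a b c hb ?_
  intro i j h'
  refine Matrix.one_apply_ne fun e => ?_
  obtain ⟨k, hk⟩ := h i j e
  exact h' k hk

theorem L1_lift {S : Type} [CommRing S] {α β p q : Type} [DecidableEq α] [DecidableEq β]
    (u : β → α) (hu : Function.Injective u) (a : p → β) (b : q → β) :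
    (1 : Matrix β β S).submatrix a b = (1 : Matrix α α S).submatrix (u ∘ a) (u ∘ b) := by
  ext i j
  simp [Matrix.one_apply, hu.eq_iff]

theorem L1_tri1 {S : Type} [CommRing S] {α : Type} [DecidableEq α] {P : α → Prop} {r : Type}
    [Fintype r] [DecidableEq {x // P x}] (v : r → {x // P x}) (hv : Function.Bijective v) :
    (1 : Matrix {x // P x} {x // P x} S).submatrix id v *
      (1 : Matrix α α S).submatrix (fun x : r => (v x).1) (fun x : {x // P x} => x.1) = 1 := by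
  rw [L1_lift (Subtype.val : {x // P x} → α) Subtype.val_injective id v]
  refine (L1_comp _ _ _ (Subtype.val_injective.comp hv.1) ?_).trans
    (L1_one _ Subtype.val_injective)
  intro i j h
  obtain ⟨x, hx⟩ := hv.2 j
  exact ⟨x, congrArg Subtype.val hx⟩

theorem L1_tri2 {S : Type} [CommRing S] {α : Type} [DecidableEq α] {P : α → Prop} {r : Type}
    [Fintype r] [DecidableEq {x // P x}] (v : r → {x // P x}) (hv : Function.Bijective v) :
    (1 : Matrix α α S).submatrix (fun x : {x // P x} => x.1) (fun x : r => (v x).1) *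
      (1 : Matrix {x // P x} {x // P x} S).submatrix v id = 1 := by
  rw [L1_lift (Subtype.val : {x // P x} → α) Subtype.val_injective v id]
  refine (L1_comp _ _ _ (Subtype.val_injective.comp hv.1) ?_).trans
    (L1_one _ Subtype.val_injective)
  intro i j h
  obtain ⟨x, hx⟩ := hv.2 j
  exact ⟨x, congrArg Subtype.val hx⟩

/-- the index map of a composite of two functors -/
def L1_v {A B C : GCtx} {W : A.S} {W' : B.S} {W'' : C.S} (Φ : CHom A B W W')
    (Ψ : CHom B C W' W'') (E : MF A W) : Ψ.Ix (Φ.obj E) → E.ι := fun x => x.1.1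

theorem L1_v_inj {A B C : GCtx} {W : A.S} {W' : B.S} {W'' : C.S} (Φ : CHom A B W W')
    (Ψ : CHom B C W' W'') (E : MF A W) : Function.Injective (L1_v Φ Ψ E) :=
  fun _ _ h => Subtype.ext (Subtype.ext h)

theorem L1_ps {k : ℕ} (l : Fin (k + 1)) : Fin.predAbove (0 : Fin (k + 1)) l.succ = l := by
  simp

theorem L1_sp {k : ℕ} (l : Fin (k + 2)) (h : l ≠ 0) :
    (Fin.predAbove (0 : Fin (k + 1)) l).succ = l := by
  obtain ⟨m, rfl⟩ := Fin.exists_succ_eq.2 h
  rw [L1_ps]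

theorem L1_le {k : ℕ} (l : Fin (k + 2)) : l ≤ (Fin.predAbove (0 : Fin (k + 1)) l).succ := by
  by_cases h : l = 0
  · rw [h]; exact Fin.zero_le _
  · rw [L1_sp l h]

/-- inclusion of levels `≥ 1` -/
def levI (A : GCtx) (W : A.S) (k : ℕ) :
    CHom (A.lev (k + 1)) (A.lev (k + 2)) (levS A (k + 1) W) (levS A (k + 2) W) :=
  levMap A W Fin.succ (fun _ _ h => Fin.succ_le_succ_iff.2 h)

/-- raise level 0 to level 1 (then renumber) -/
def levX (A : GCtx) (W : A.S) (k : ℕ) :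
    CHom (A.lev (k + 2)) (A.lev (k + 1)) (levS A (k + 2) W) (levS A (k + 1) W) :=
  levMap A W (Fin.predAbove 0) (Fin.predAbove_right_monotone 0)

section L1J

set_option linter.unusedSectionVars false

variable {S : Type} [CommRing S] {g y : Type} [Fintype g] [DecidableEq g] [Fintype y]
  [DecidableEq y]

/-- the homotopy into `J G` -/
theorem L1_Jhtpy {W : S} {dG : Matrix g g S} {dY : Matrix y y S} {a b h : Matrix g y S}
    (hG : dG * dG = W • 1) (hY : dY * dY = W • 1)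
    (hF : Matrix.fromBlocks dG 1 0 (-dG) * Matrix.fromRows a b = Matrix.fromRows a b * dY) :
    Matrix.fromRows a b = Matrix.fromBlocks dG 1 0 (-dG) *
        Matrix.fromRows h (a - dG * h - h * dY) +
      Matrix.fromRows h (a - dG * h - h * dY) * dY := by
  rw [Matrix.fromBlocks_mul_fromRows, Matrix.fromRows_mul, Matrix.fromRows_ext_iff] at hF
  obtain ⟨h1, -⟩ := hF
  rw [Matrix.one_mul] at h1
  have hb : b = a * dY - dG * a := by rw [← h1]; abel
  rw [Matrix.fromBlocks_mul_fromRows, Matrix.fromRows_mul]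
  have e1 : a = dG * h + (1 : Matrix g g S) * (a - dG * h - h * dY) + h * dY := by
    rw [Matrix.one_mul]; abel
  have e2 : b = (0 : Matrix g g S) * h + -dG * (a - dG * h - h * dY) +
      (a - dG * h - h * dY) * dY := by
    have t1 : dG * (dG * h) = W • h := by
      rw [← Matrix.mul_assoc, hG, Matrix.smul_mul, Matrix.one_mul]
    have t2 : h * dY * dY = W • h := by
      rw [Matrix.mul_assoc, hY, Matrix.mul_smul, Matrix.mul_one]
    rw [hb, Matrix.zero_mul, zero_add, Matrix.neg_mul, Matrix.mul_sub, Matrix.mul_sub,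
      Matrix.sub_mul, Matrix.sub_mul, t1, t2, ← Matrix.mul_assoc]
    abel
  ext i j
  rcases i with i | i
  · exact congrFun (congrFun e1 i) j
  · exact congrFun (congrFun e2 i) j

theorem L1_Jcl {W : S} {dG : Matrix g g S} {dY : Matrix y y S} (a : Matrix g y S)
    (hG : dG * dG = W • 1) (hY : dY * dY = W • 1) :
    Matrix.fromBlocks dG 1 0 (-dG) * Matrix.fromRows a (a * dY - dG * a) =
      Matrix.fromRows a (a * dY - dG * a) * dY := by
  rw [Matrix.fromBlocks_mul_fromRows, Matrix.fromRows_mul, Matrix.fromRows_ext_iff]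
  constructor
  · rw [Matrix.one_mul]; abel
  · have t1 : dG * (dG * a) = W • a := by
      rw [← Matrix.mul_assoc, hG, Matrix.smul_mul, Matrix.one_mul]
    have t2 : a * dY * dY = W • a := by
      rw [Matrix.mul_assoc, hY, Matrix.mul_smul, Matrix.mul_one]
    rw [Matrix.zero_mul, zero_add, Matrix.neg_mul, Matrix.mul_sub,
      Matrix.sub_mul, t1, t2, ← Matrix.mul_assoc]
    abel

/-- extension by zero -/
def L1_ext {P : y → Prop} [DecidablePred P] (φ : Matrix g {j // P j} S) : Matrix g y S :=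
  fun i j => if h : P j then φ i ⟨j, h⟩ else 0

theorem L1_ext_pos {P : y → Prop} [DecidablePred P] (φ : Matrix g {j // P j} S) (i : g)
    (x : {j // P j}) : L1_ext φ i x.1 = φ i x := by
  unfold L1_ext
  rw [dif_pos x.2]

theorem L1_ext_neg {P : y → Prop} [DecidablePred P] (φ : Matrix g {j // P j} S) (i : g)
    (j : y) (h : ¬ P j) : L1_ext φ i j = 0 := by
  unfold L1_ext
  rw [dif_neg h]

theorem L1_ext_mul {P : y → Prop} [DecidablePred P] (φ : Matrix g {j // P j} S) {c : Type}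
    (N : Matrix y c S) (i : g) (j : c) :
    (L1_ext φ * N) i j = ∑ x : {j // P j}, φ i x * N x.1 j := by
  rw [Matrix.mul_apply, ← Finset.sum_filter_of_ne (p := P),
    Finset.sum_subtype (p := P) _ (fun x => by simp)]
  · refine Finset.sum_congr rfl fun x _ => ?_
    rw [L1_ext_pos]
  · intro x _ hx
    by_contra h
    rw [L1_ext_neg _ _ _ h, zero_mul] at hx
    exact hx rfl

theorem L1_ext_mul_col {P : y → Prop} [DecidablePred P] (φ : Matrix g {j // P j} S)
    (N : Matrix y y S) (i : g) (x : {j // P j}) :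
    (L1_ext φ * N) i x.1 = (φ * (N.submatrix Subtype.val Subtype.val : Matrix {j // P j}
      {j // P j} S)) i x := by
  rw [L1_ext_mul, Matrix.mul_apply]
  rfl

theorem L1_mul_ext_col {P : y → Prop} [DecidablePred P] (φ : Matrix g {j // P j} S)
    (M : Matrix g g S) (i : g) (x : {j // P j}) :
    (M * L1_ext φ) i x.1 = (M * φ) i x := by
  rw [Matrix.mul_apply, Matrix.mul_apply]
  exact Finset.sum_congr rfl fun k _ => by rw [L1_ext_pos]

theorem L1_DegM_mul {A : GCtx} {ι κ ν : Type} [Fintype κ] {p : ι → A.L} {q : κ → A.L}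
    {r : ν → A.L} {a b c : A.Γ} {f : Matrix κ ι A.S} {g : Matrix ν κ A.S}
    (hg : DegM q r b g) (hf : DegM p q a f) (h : b + a = c) : DegM p r c (g * f) := by
  subst h
  intro i j
  rw [Matrix.mul_apply]
  refine sum_mem fun k _ => ?_
  refine A.mul_mem (hg i k) ?_
  rw [← vadd_vadd, A.H_vadd]
  exact hf k j

end L1J


section L1tri

variable {B : GCtx} {W' : B.S}

/-- the sub-quotient triangle -/
theorem L1_tri (Y Lo Hi : MF B W') (u : Lo.ι → Y.ι) (v : Hi.ι → Y.ι)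
    (hu : Function.Injective u) (hv : Function.Injective v) (hdisj : ∀ x y, u x ≠ v y)
    (hcov : ∀ j, (∃ x, u x = j) ∨ ∃ y, v y = j) (hpu : ∀ x, Lo.p x = Y.p (u x))
    (hpv : ∀ x, Hi.p x = Y.p (v x)) (hdu : Lo.d = Y.d.submatrix u u)
    (hdv : Hi.d = Y.d.submatrix v v) (h0 : ∀ x y, Y.d (v y) (u x) = 0)
    (m1 : (1 : Matrix Y.ι Y.ι B.S).submatrix id u ∈ Z0 Lo Y)
    (m2 : (1 : Matrix Y.ι Y.ι B.S).submatrix v id ∈ Z0 Y Hi) :
    ∃ δ : Hi ⟶ Lo⟦(1 : ℤ)⟧, Triangle.mk (mk _ m1) (mk _ m2) δ ∈ distTriang (MF B W') := by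
  have hw : Function.Bijective (Sum.elim u v) := by
    constructor
    · rintro (x | x) (y | y) h
      · exact congrArg _ (hu h)
      · exact absurd h (hdisj x y)
      · exact absurd h.symm (hdisj y x)
      · exact congrArg _ (hv h)
    · intro j
      rcases hcov j with ⟨x, hx⟩ | ⟨y, hy⟩
      · exact ⟨Sum.inl x, hx⟩
      · exact ⟨Sum.inr y, hy⟩
  have hD : Y.d.submatrix (Sum.elim u v) (Sum.elim u v) =
      Matrix.fromBlocks Lo.d (Y.d.submatrix u v) 0 Hi.d := by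
    ext (i | i) (j | j)
    · rw [hdu]; rfl
    · rfl
    · exact h0 j i
    · rw [hdv]; rfl
  have hDD : Lo.d * Y.d.submatrix u v = Y.d.submatrix u v * -Hi.d := by
    have h1 : Y.d.submatrix (Sum.elim u v) (Sum.elim u v) *
        Y.d.submatrix (Sum.elim u v) (Sum.elim u v) =
        (W' • (1 : Matrix Y.ι Y.ι B.S)).submatrix (Sum.elim u v) (Sum.elim u v) := by
      rw [← Y.sq, Matrix.submatrix_mul _ _ _ (Sum.elim u v) _ hw]
    rw [hD, Matrix.fromBlocks_multiply] at h1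
    have h2 : Lo.d * Y.d.submatrix u v + Y.d.submatrix u v * Hi.d = 0 := by
      ext i j
      have h3 := congrFun (congrFun h1 (Sum.inl i)) (Sum.inr j)
      refine h3.trans ?_
      change W' * (1 : Matrix Y.ι Y.ι B.S) (u i) (v j) = 0
      rw [Matrix.one_apply_ne (hdisj i j), mul_zero]
    rw [Matrix.mul_neg]
    exact eq_neg_of_add_eq_zero_left h2
  have hch : sg (B.chΓ (B.en (-3))) = -1 := by rw [B.chΓ_en]; decide
  have hφ : Y.d.submatrix u v ∈ Z0 (tw (B.en (-3)) Hi) Lo := by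
    refine ⟨?_, ?_⟩
    · intro i j
      rw [tw_p, hpu, hpv, zero_vadd, ← B.en_neg]
      exact Y.deg (u i) (v j)
    · rw [tw_d, hch, neg_smul, one_smul]
      exact hDD
  have hCd : (cone (tw (B.en (-3)) Hi) Lo _ hφ).d =
      Y.d.submatrix (Sum.elim u v) (Sum.elim u v) := by
    rw [hD]
    change Matrix.fromBlocks Lo.d (Y.d.submatrix u v) 0 (-(sg (B.chΓ (B.en (-3))) • Hi.d)) = _
    rw [hch, neg_smul, one_smul, neg_neg]
  have hCp : ∀ x, (cone (tw (B.en (-3)) Hi) Lo _ hφ).p x = Y.p (Sum.elim u v x) := by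
    rintro (x | x)
    · exact hpu x
    · change -B.en 3 +ᵥ (-B.en (-3) +ᵥ Hi.p x) = Y.p (v x)
      rw [vadd_vadd, B.en_neg, neg_neg, neg_add_cancel, zero_vadd, hpv]
  have hcm : (1 : Matrix Y.ι Y.ι B.S).submatrix (Sum.elim u v) id ∈
      Z0 Y (cone (tw (B.en (-3)) Hi) Lo _ hφ) := by
    refine L1_Z0 Y (cone (tw (B.en (-3)) Hi) Lo _ hφ) Y.d id (Sum.elim u v)
      Function.injective_id hw.1 rfl hCd ?_ ?_ ?_
    · intro i j h
      obtain ⟨x, hx⟩ := hw.2 j
      exact absurd hx (h x)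
    · intro i j h
      exact absurd rfl (h _)
    · intro i j h
      rw [hCp, h]
      exact B.one_mem _
  have hci : (1 : Matrix Y.ι Y.ι B.S).submatrix id (Sum.elim u v) ∈
      Z0 (cone (tw (B.en (-3)) Hi) Lo _ hφ) Y := by
    refine L1_Z0 (cone (tw (B.en (-3)) Hi) Lo _ hφ) Y Y.d (Sum.elim u v) id hw.1
      Function.injective_id hCd rfl ?_ ?_ ?_
    · intro i j h
      exact absurd rfl (h _)
    · intro i j h
      obtain ⟨x, hx⟩ := hw.2 i
      exact absurd hx (h x)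
    · intro i j h
      rw [hCp, ← h]
      exact B.one_mem _
  let eC : Y ≅ cone (tw (B.en (-3)) Hi) Lo _ hφ :=
    { hom := mk _ hcm
      inv := mk _ hci
      hom_inv_id := by
        refine (mk_comp_mk _ _).trans ((mk_congr _ ?_).trans (mk_one _))
        refine (L1_comp id (Sum.elim u v) id hw.1 ?_).trans (L1_one id Function.injective_id)
        intro i j h
        exact hw.2 j
      inv_hom_id := by
        refine (mk_comp_mk _ _).trans ((mk_congr _ ?_).trans (mk_one _))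
        refine (L1_comp (Sum.elim u v) id (Sum.elim u v) Function.injective_id ?_).trans
          (L1_one _ hw.1)
        intro i j h
        exact ⟨_, rfl⟩ }
  let e3 : Hi ≅ tw (B.en (3 * 1)) (tw (B.en (-3)) Hi) :=
    (twZero Hi rfl).symm ≪≫ twAdd Hi (c := 0) (by rw [← B.en_add]; exact B.en_zero.symm)
  have he3 : ∃ hm, e3.hom = mk (E := Hi) (F := tw (B.en (3 * 1)) (tw (B.en (-3)) Hi))
      (1 : Matrix Hi.ι Hi.ι B.S) hm := by
    obtain ⟨h1, e1⟩ := twZero_inv Hi (γ := (0 : B.Γ)) rfl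
    obtain ⟨h2, e2⟩ := twAdd_hom Hi (a := B.en (-3)) (b := B.en (3 * 1)) (c := 0)
      (by rw [← B.en_add]; exact B.en_zero.symm)
    have h3 := Z0_mul h2 h1
    rw [Matrix.one_mul] at h3
    refine ⟨h3, ?_⟩
    refine (congrArg₂ (· ≫ ·) e1 e2).trans ((mk_comp_mk _ _).trans ?_)
    exact mk_congr _ (Matrix.one_mul _)
  obtain ⟨hm3, he3⟩ := he3
  refine ⟨e3.hom ≫ (stdTri (tw (B.en (-3)) Hi) Lo _ hφ).rotate.mor₃, ?_⟩
  refine distT_iso _ (rot_stdTri (tw (B.en (-3)) Hi) Lo _ hφ) _ ?_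
  have k1 : (1 : Matrix Y.ι Y.ι B.S).submatrix (Sum.elim u v) id *
      (1 : Matrix Y.ι Y.ι B.S).submatrix id u = inlMat (tw (B.en (-3)) Hi) Lo := by
    rw [L1_comp (Sum.elim u v) id u Function.injective_id (fun i j _ => ⟨u j, rfl⟩)]
    ext (i | i) j
    · change (1 : Matrix Y.ι Y.ι B.S) (u i) (u j) = (1 : Matrix Lo.ι Lo.ι B.S) i j
      simp [Matrix.one_apply, hu.eq_iff]
    · change (1 : Matrix Y.ι Y.ι B.S) (v i) (u j) = 0
      exact Matrix.one_apply_ne (hdisj j i).symm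
  have k2 : sndMat (tw (B.en (-3)) Hi) Lo *
      (1 : Matrix Y.ι Y.ι B.S).submatrix (Sum.elim u v) id =
      (1 : Matrix Hi.ι Hi.ι B.S) * (1 : Matrix Y.ι Y.ι B.S).submatrix v id := by
    have k3 : sndMat (tw (B.en (-3)) Hi) Lo = (1 : Matrix Y.ι Y.ι B.S).submatrix v
        (Sum.elim u v) := by
      ext i (j | j)
      · change 0 = (1 : Matrix Y.ι Y.ι B.S) (v i) (u j)
        exact (Matrix.one_apply_ne (hdisj j i).symm).symm
      · change (1 : Matrix Hi.ι Hi.ι B.S) i j = (1 : Matrix Y.ι Y.ι B.S) (v i) (v j)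
        simp [Matrix.one_apply, hv.eq_iff]
    rw [k3, Matrix.one_mul]
    refine L1_comp v (Sum.elim u v) id hw.1 ?_
    intro i j _
    exact hw.2 j
  refine Triangle.isoMk _ _ (Iso.refl _) eC e3 ?_ ?_ ?_
  · refine (mk_comp_mk (E := Lo) (F := Y) (G := cone (tw (B.en (-3)) Hi) Lo _ hφ) m1 hcm).trans
      ((mk_congr _ k1).trans ?_)
    exact (Category.id_comp (mk (E := Lo) (F := cone (tw (B.en (-3)) Hi) Lo _ hφ)
      (inlMat (tw (B.en (-3)) Hi) Lo) (inlMat_mem _ _ _ hφ))).symm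
  · refine (congrArg (mk _ m2 ≫ ·) he3).trans ((mk_comp_mk _ _).trans ?_)
    refine Eq.trans ?_ (mk_comp_mk (E := Y) (F := cone (tw (B.en (-3)) Hi) Lo _ hφ)
      (G := tw (B.en (3 * 1)) (tw (B.en (-3)) Hi)) hcm (sndMat_mem' _ _ _ hφ)).symm
    exact mk_congr (E := Y) (F := tw (B.en (3 * 1)) (tw (B.en (-3)) Hi)) (Z0_mul hm3 m2) k2.symm
  · exact (congrArg (_ ≫ ·) (CategoryTheory.Functor.map_id _ _)).trans (Category.comp_id _)

end L1tri

section adj

variable (A : GCtx) (W : A.S) (k : ℕ)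

variable {A W k} in
theorem L1_lz {E F : MFL A W k} {γ : A.Γ} {f : Matrix F.ι E.ι A.S}
    (hf : IsDeg (A := A.lev k) E F γ f) (i : F.ι) (j : E.ι)
    (h : ¬ (F.p i : A.L × Fin k).2 ≤ (E.p j : A.L × Fin k).2) : f i j = 0 :=
  L1_zero (A := A) (k := k) (a := (γ +ᵥ (E.p j : A.L × Fin k).1, (E.p j : A.L × Fin k).2))
    (b := F.p i) (hf i j) h

theorem L1_ngU_mem (G : MF A W) : (1 : Matrix G.ι G.ι A.S).submatrix
    (L1_v (levAt A W (k + 2) 0) (levGr A W (k + 2) 0) G) id ∈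
    Z0 G ((levGr A W (k + 2) 0).obj ((levAt A W (k + 2) 0).obj G)) := by
  refine L1_Z0 (B := A) G ((levGr A W (k + 2) 0).obj ((levAt A W (k + 2) 0).obj G)) G.d id
    (L1_v _ _ _) Function.injective_id (L1_v_inj _ _ _) rfl rfl ?_ ?_ ?_
  · intro i j h
    exact absurd rfl (h ⟨⟨j, trivial⟩, rfl⟩)
  · intro i j h
    exact absurd rfl (h i.1.1)
  · intro i j h
    subst h
    exact A.one_mem _

theorem L1_ngC_mem (Y : MFL A W (k + 2)) : (1 : Matrix Y.ι Y.ι A.S).submatrix id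
    (L1_v (levGr A W (k + 2) 0) (levAt A W (k + 2) 0) Y) ∈
    Z0 ((levAt A W (k + 2) 0).obj ((levGr A W (k + 2) 0).obj Y)) Y := by
  refine L1_Z0 (B := A.lev (k + 2)) ((levAt A W (k + 2) 0).obj ((levGr A W (k + 2) 0).obj Y)) Y
    Y.d (L1_v _ _ _) id (L1_v_inj _ _ _) Function.injective_id rfl rfl ?_ ?_ ?_
  · intro i j h
    exact absurd rfl (h j.1.1)
  · intro i j h
    have hj : (Y.p j.1.1 : A.L × Fin (k + 2)).2 = 0 := j.1.2
    refine L1_lz (isDeg_d Y) i j.1.1 fun h' => ?_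
    rw [hj] at h'
    exact h ⟨⟨i, Fin.le_zero_iff.1 h'⟩, trivial⟩ rfl
  · intro i j h
    have hj : (Y.p j.1.1 : A.L × Fin (k + 2)).2 = 0 := j.1.2
    have h : i = j.1.1 := h
    subst h
    exact L1_mem' (A := A) (a := ((Y.p j.1.1 : A.L × Fin (k + 2)).1, 0)) (b := Y.p j.1.1)
      (by rw [hj]) (A.one_mem _)

/-- the adjunction ng -/
noncomputable def L1_ng : (levAt A W (k + 2) 0).functor ⊣ (levGr A W (k + 2) 0).functor :=
  Adjunction.mkOfUnitCounit
    { unit :=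
        { app := fun G => mk (E := G) (F := (levGr A W (k + 2) 0).obj ((levAt A W (k + 2) 0).obj G))
            ((1 : Matrix G.ι G.ι A.S).submatrix (L1_v _ _ G) id) (L1_ngU_mem A W k G)
          naturality := by
            intro E F f
            induction f using hom_ind with
            | h f hf =>
            refine (mk_comp_mk _ _).trans ((mk_congr _ ?_).trans (mk_comp_mk _ _).symm)
            refine (L1_N2 (S := A.S) f id id (L1_v _ _ F) Function.injective_id ?_).trans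
              (L1_N1 (S := A.S) f (L1_v _ _ F) (L1_v _ _ E) id (L1_v_inj _ _ _) ?_).symm
            · intro i j h
              exact absurd rfl (h i.1.1)
            · intro i j h
              exact absurd rfl (h ⟨⟨j, trivial⟩, rfl⟩) }
      counit :=
        { app := fun Y => mk (E := (levAt A W (k + 2) 0).obj ((levGr A W (k + 2) 0).obj Y))
            (F := Y) ((1 : Matrix Y.ι Y.ι A.S).submatrix id (L1_v _ _ Y))
            (L1_ngC_mem A W k Y)
          naturality := by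
            intro E F f
            induction f using hom_ind with
            | h f hf =>
            refine (mk_comp_mk _ _).trans ((mk_congr _ ?_).trans (mk_comp_mk _ _).symm)
            refine (L1_N2 (S := A.S) f (L1_v _ _ E) (L1_v _ _ F) id (L1_v_inj _ _ _) ?_).trans
              (L1_N1 (S := A.S) f id id (L1_v _ _ E) Function.injective_id ?_).symm
            · intro i j h
              have hj : (E.p j.1.1 : A.L × Fin (k + 2)).2 = 0 := j.1.2
              refine L1_lz hf.1 i j.1.1 fun h' => ?_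
              rw [hj] at h'
              exact h ⟨⟨i, Fin.le_zero_iff.1 h'⟩, trivial⟩ rfl
            · intro i j h
              exact absurd rfl (h j.1.1) }
      left_triangle := by
        ext G
        refine (congrArg (_ ≫ ·) (Category.id_comp _)).trans ?_
        refine (mk_comp_mk _ _).trans ((mk_congr _ ?_).trans (mk_one _))
        refine L1_tri1 (S := A.S) (P := fun i : G.ι => (levAt A W (k + 2) 0).dom (G.p i))
          (L1_v (levGr A W (k + 2) 0) (levAt A W (k + 2) 0) ((levAt A W (k + 2) 0).obj G))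
          ⟨L1_v_inj _ _ _, fun j => ?_⟩
        exact ⟨⟨⟨j, rfl⟩, trivial⟩, rfl⟩
      right_triangle := by
        ext Y
        refine (congrArg (_ ≫ ·) (Category.id_comp _)).trans ?_
        refine (mk_comp_mk _ _).trans ((mk_congr _ ?_).trans (mk_one _))
        refine L1_tri2 (S := A.S) (P := fun i : Y.ι => (levGr A W (k + 2) 0).dom (Y.p i))
          (L1_v (levAt A W (k + 2) 0) (levGr A W (k + 2) 0) ((levGr A W (k + 2) 0).obj Y))
          ⟨L1_v_inj _ _ _, fun j => ?_⟩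
        exact ⟨⟨⟨j, trivial⟩, rfl⟩, rfl⟩ }

theorem L1_ixU_mem (G : MFL A W (k + 1)) : (1 : Matrix G.ι G.ι A.S).submatrix
    (L1_v (levI A W k) (levX A W k) G) id ∈
    Z0 G ((levX A W k).obj ((levI A W k).obj G)) := by
  refine L1_Z0 (B := A.lev (k + 1)) G ((levX A W k).obj ((levI A W k).obj G)) G.d id
    (L1_v _ _ _) Function.injective_id (L1_v_inj _ _ _) rfl rfl ?_ ?_ ?_
  · intro i j h
    exact absurd rfl (h ⟨⟨j, trivial⟩, trivial⟩)
  · intro i j h
    exact absurd rfl (h i.1.1)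
  · intro i j h
    subst h
    exact L1_mem' (A := A) (a := G.p i.1.1) (b := ((G.p i.1.1 : A.L × Fin (k + 1)).1,
      Fin.predAbove 0 (G.p i.1.1 : A.L × Fin (k + 1)).2.succ))
      (by rw [L1_ps]) (A.one_mem _)

theorem L1_ixC_mem (Y : MFL A W (k + 2)) : (1 : Matrix Y.ι Y.ι A.S).submatrix id
    (L1_v (levX A W k) (levI A W k) Y) ∈
    Z0 ((levI A W k).obj ((levX A W k).obj Y)) Y := by
  refine L1_Z0 (B := A.lev (k + 2)) ((levI A W k).obj ((levX A W k).obj Y)) Y
    Y.d (L1_v _ _ _) id (L1_v_inj _ _ _) Function.injective_id rfl rfl ?_ ?_ ?_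
  · intro i j h
    exact absurd rfl (h j.1.1)
  · intro i j h
    exact absurd rfl (h ⟨⟨i, trivial⟩, trivial⟩)
  · intro i j h
    have h : i = j.1.1 := h
    subst h
    exact L1_mem' (A := A) (b := Y.p j.1.1) (a := ((Y.p j.1.1 : A.L × Fin (k + 2)).1,
      (Fin.predAbove 0 (Y.p j.1.1 : A.L × Fin (k + 2)).2).succ))
      (L1_le _) (A.one_mem _)

/-- the adjunction ix -/
noncomputable def L1_ix : (levI A W k).functor ⊣ (levX A W k).functor :=
  Adjunction.mkOfUnitCounit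
    { unit :=
        { app := fun G => mk (E := G) (F := (levX A W k).obj ((levI A W k).obj G))
            ((1 : Matrix G.ι G.ι A.S).submatrix (L1_v _ _ G) id) (L1_ixU_mem A W k G)
          naturality := by
            intro E F f
            induction f using hom_ind with
            | h f hf =>
            refine (mk_comp_mk _ _).trans ((mk_congr _ ?_).trans (mk_comp_mk _ _).symm)
            refine (L1_N2 (S := A.S) f id id (L1_v _ _ F) Function.injective_id ?_).trans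
              (L1_N1 (S := A.S) f (L1_v _ _ F) (L1_v _ _ E) id (L1_v_inj _ _ _) ?_).symm
            · intro i j h
              exact absurd rfl (h i.1.1)
            · intro i j h
              exact absurd rfl (h ⟨⟨j, trivial⟩, trivial⟩) }
      counit :=
        { app := fun Y => mk (E := (levI A W k).obj ((levX A W k).obj Y))
            (F := Y) ((1 : Matrix Y.ι Y.ι A.S).submatrix id (L1_v _ _ Y))
            (L1_ixC_mem A W k Y)
          naturality := by
            intro E F f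
            induction f using hom_ind with
            | h f hf =>
            refine (mk_comp_mk _ _).trans ((mk_congr _ ?_).trans (mk_comp_mk _ _).symm)
            refine (L1_N2 (S := A.S) f (L1_v _ _ E) (L1_v _ _ F) id (L1_v_inj _ _ _) ?_).trans
              (L1_N1 (S := A.S) f id id (L1_v _ _ E) Function.injective_id ?_).symm
            · intro i j h
              exact absurd rfl (h ⟨⟨i, trivial⟩, trivial⟩)
            · intro i j h
              exact absurd rfl (h j.1.1) }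
      left_triangle := by
        ext G
        refine (congrArg (_ ≫ ·) (Category.id_comp _)).trans ?_
        refine (mk_comp_mk _ _).trans ((mk_congr _ ?_).trans (mk_one _))
        refine L1_tri1 (S := A.S) (P := fun i : G.ι => (levI A W k).dom (G.p i))
          (L1_v (levX A W k) (levI A W k) ((levI A W k).obj G))
          ⟨L1_v_inj _ _ _, fun j => ?_⟩
        exact ⟨⟨⟨j, trivial⟩, trivial⟩, rfl⟩
      right_triangle := by
        ext Y
        refine (congrArg (_ ≫ ·) (Category.id_comp _)).trans ?_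
        refine (mk_comp_mk _ _).trans ((mk_congr _ ?_).trans (mk_one _))
        refine L1_tri2 (S := A.S) (P := fun i : Y.ι => (levX A W k).dom (Y.p i))
          (L1_v (levI A W k) (levX A W k) ((levX A W k).obj Y))
          ⟨L1_v_inj _ _ _, fun j => ?_⟩
        exact ⟨⟨⟨j, trivial⟩, trivial⟩, rfl⟩ }

theorem L1_biU_mem (G : MFL A W (k + 2)) : (1 : Matrix G.ι G.ι A.S).submatrix
    (L1_v (levB A W k) (levI A W k) G) id ∈
    Z0 G ((levI A W k).obj ((levB A W k).obj G)) := by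
  refine L1_Z0 (B := A.lev (k + 2)) G ((levI A W k).obj ((levB A W k).obj G)) G.d id
    (L1_v _ _ _) Function.injective_id (L1_v_inj _ _ _) rfl rfl ?_ ?_ ?_
  · intro i j h
    have hi : (G.p i.1.1 : A.L × Fin (k + 2)).2 ≠ 0 := i.1.2
    refine L1_lz (isDeg_d G) i.1.1 j fun h' => ?_
    by_cases hj : (G.p j : A.L × Fin (k + 2)).2 = 0
    · rw [hj] at h'
      exact hi (Fin.le_zero_iff.1 h')
    · exact h ⟨⟨j, hj⟩, trivial⟩ rfl
  · intro i j h
    exact absurd rfl (h i.1.1)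
  · intro i j h
    subst h
    have hi : (G.p i.1.1 : A.L × Fin (k + 2)).2 ≠ 0 := i.1.2
    exact L1_mem' (A := A) (a := G.p i.1.1) (b := ((G.p i.1.1 : A.L × Fin (k + 2)).1,
      (Fin.predAbove 0 (G.p i.1.1 : A.L × Fin (k + 2)).2).succ))
      (by rw [L1_sp _ hi]) (A.one_mem _)

theorem L1_biC_mem (Y : MFL A W (k + 1)) : (1 : Matrix Y.ι Y.ι A.S).submatrix id
    (L1_v (levI A W k) (levB A W k) Y) ∈
    Z0 ((levB A W k).obj ((levI A W k).obj Y)) Y := by
  refine L1_Z0 (B := A.lev (k + 1)) ((levB A W k).obj ((levI A W k).obj Y)) Y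
    Y.d (L1_v _ _ _) id (L1_v_inj _ _ _) Function.injective_id rfl rfl ?_ ?_ ?_
  · intro i j h
    exact absurd rfl (h j.1.1)
  · intro i j h
    exact absurd rfl (h ⟨⟨i, trivial⟩, Fin.succ_ne_zero _⟩)
  · intro i j h
    have h : i = j.1.1 := h
    subst h
    exact L1_mem' (A := A) (b := Y.p j.1.1) (a := ((Y.p j.1.1 : A.L × Fin (k + 1)).1,
      Fin.predAbove 0 (Y.p j.1.1 : A.L × Fin (k + 1)).2.succ))
      (by rw [L1_ps]) (A.one_mem _)

/-- the adjunction bi -/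
noncomputable def L1_bi : (levB A W k).functor ⊣ (levI A W k).functor :=
  Adjunction.mkOfUnitCounit
    { unit :=
        { app := fun G => mk (E := G) (F := (levI A W k).obj ((levB A W k).obj G))
            ((1 : Matrix G.ι G.ι A.S).submatrix (L1_v _ _ G) id) (L1_biU_mem A W k G)
          naturality := by
            intro E F f
            induction f using hom_ind with
            | h f hf =>
            refine (mk_comp_mk _ _).trans ((mk_congr _ ?_).trans (mk_comp_mk _ _).symm)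
            refine (L1_N2 (S := A.S) f id id (L1_v _ _ F) Function.injective_id ?_).trans
              (L1_N1 (S := A.S) f (L1_v _ _ F) (L1_v _ _ E) id (L1_v_inj _ _ _) ?_).symm
            · intro i j h
              exact absurd rfl (h i.1.1)
            · intro i j h
              have hi : (F.p i.1.1 : A.L × Fin (k + 2)).2 ≠ 0 := i.1.2
              refine L1_lz hf.1 i.1.1 j fun h' => ?_
              by_cases hj : (E.p j : A.L × Fin (k + 2)).2 = 0
              · rw [hj] at h'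
                exact hi (Fin.le_zero_iff.1 h')
              · exact h ⟨⟨j, hj⟩, trivial⟩ rfl }
      counit :=
        { app := fun Y => mk (E := (levB A W k).obj ((levI A W k).obj Y))
            (F := Y) ((1 : Matrix Y.ι Y.ι A.S).submatrix id (L1_v _ _ Y))
            (L1_biC_mem A W k Y)
          naturality := by
            intro E F f
            induction f using hom_ind with
            | h f hf =>
            refine (mk_comp_mk _ _).trans ((mk_congr _ ?_).trans (mk_comp_mk _ _).symm)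
            refine (L1_N2 (S := A.S) f (L1_v _ _ E) (L1_v _ _ F) id (L1_v_inj _ _ _) ?_).trans
              (L1_N1 (S := A.S) f id id (L1_v _ _ E) Function.injective_id ?_).symm
            · intro i j h
              exact absurd rfl (h ⟨⟨i, trivial⟩, Fin.succ_ne_zero _⟩)
            · intro i j h
              exact absurd rfl (h j.1.1) }
      left_triangle := by
        ext G
        refine (congrArg (_ ≫ ·) (Category.id_comp _)).trans ?_
        refine (mk_comp_mk _ _).trans ((mk_congr _ ?_).trans (mk_one _))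
        refine L1_tri1 (S := A.S) (P := fun i : G.ι => (levB A W k).dom (G.p i))
          (L1_v (levI A W k) (levB A W k) ((levB A W k).obj G))
          ⟨L1_v_inj _ _ _, fun j => ?_⟩
        exact ⟨⟨⟨j, trivial⟩, Fin.succ_ne_zero _⟩, rfl⟩
      right_triangle := by
        ext Y
        refine (congrArg (_ ≫ ·) (Category.id_comp _)).trans ?_
        refine (mk_comp_mk _ _).trans ((mk_congr _ ?_).trans (mk_one _))
        refine L1_tri2 (S := A.S) (P := fun i : Y.ι => (levI A W k).dom (Y.p i))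
          (L1_v (levB A W k) (levI A W k) ((levI A W k).obj Y))
          ⟨L1_v_inj _ _ _, fun j => ?_⟩
        exact ⟨⟨⟨j, Fin.succ_ne_zero _⟩, trivial⟩, rfl⟩ }

theorem L1_isIso {B : GCtx} {W' : B.S} {X Y : MF B W'} (v : Y.ι → X.ι)
    (hv : Function.Bijective v) (h1 : (1 : Matrix X.ι X.ι B.S).submatrix v id ∈ Z0 X Y)
    (h2 : (1 : Matrix X.ι X.ι B.S).submatrix id v ∈ Z0 Y X) :
    IsIso (mk ((1 : Matrix X.ι X.ι B.S).submatrix v id) h1) := by
  refine ⟨⟨mk _ h2, ?_, ?_⟩⟩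
  · refine (mk_comp_mk _ _).trans ((mk_congr _ ?_).trans (mk_one _))
    refine (L1_comp id v id hv.1 ?_).trans (L1_one id Function.injective_id)
    intro i j h
    exact hv.2 j
  · refine (mk_comp_mk _ _).trans ((mk_congr _ ?_).trans (mk_one _))
    refine (L1_comp v id v Function.injective_id ?_).trans (L1_one v hv.1)
    intro i j h
    exact ⟨v j, rfl⟩

theorem L1_ngU_inv (G : MF A W) : (1 : Matrix G.ι G.ι A.S).submatrix
    id (L1_v (levAt A W (k + 2) 0) (levGr A W (k + 2) 0) G) ∈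
    Z0 ((levGr A W (k + 2) 0).obj ((levAt A W (k + 2) 0).obj G)) G := by
  refine L1_Z0 (B := A) ((levGr A W (k + 2) 0).obj ((levAt A W (k + 2) 0).obj G)) G G.d
    (L1_v _ _ _) id (L1_v_inj _ _ _) Function.injective_id rfl rfl ?_ ?_ ?_
  · intro i j h
    exact absurd rfl (h j.1.1)
  · intro i j h
    exact absurd rfl (h ⟨⟨i, trivial⟩, rfl⟩)
  · intro i j h
    have h : i = j.1.1 := h
    subst h
    exact A.one_mem _

theorem L1_ixU_inv (G : MFL A W (k + 1)) : (1 : Matrix G.ι G.ι A.S).submatrix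
    id (L1_v (levI A W k) (levX A W k) G) ∈
    Z0 ((levX A W k).obj ((levI A W k).obj G)) G := by
  refine L1_Z0 (B := A.lev (k + 1)) ((levX A W k).obj ((levI A W k).obj G)) G G.d
    (L1_v _ _ _) id (L1_v_inj _ _ _) Function.injective_id rfl rfl ?_ ?_ ?_
  · intro i j h
    exact absurd rfl (h j.1.1)
  · intro i j h
    exact absurd rfl (h ⟨⟨i, trivial⟩, trivial⟩)
  · intro i j h
    have h : i = j.1.1 := h
    subst h
    exact L1_mem' (A := A) (b := G.p j.1.1) (a := ((G.p j.1.1 : A.L × Fin (k + 1)).1,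
      Fin.predAbove 0 (G.p j.1.1 : A.L × Fin (k + 1)).2.succ))
      (by rw [L1_ps]) (A.one_mem _)

instance L1_ngU_iso : IsIso (L1_ng A W k).unit := by
  rw [NatTrans.isIso_iff_isIso_app]
  intro G
  refine L1_isIso (B := A) (X := G) (Y := (levGr A W (k + 2) 0).obj ((levAt A W (k + 2) 0).obj G))
    (L1_v _ _ _) ⟨L1_v_inj _ _ _, fun j => ⟨⟨⟨j, trivial⟩, rfl⟩, rfl⟩⟩ (L1_ngU_mem A W k G)
    (L1_ngU_inv A W k G)

instance L1_ixU_iso : IsIso (L1_ix A W k).unit := by
  rw [NatTrans.isIso_iff_isIso_app]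
  intro G
  refine L1_isIso (B := A.lev (k + 1)) (X := G) (Y := (levX A W k).obj ((levI A W k).obj G))
    (L1_v _ _ _) ⟨L1_v_inj _ _ _, fun j => ⟨⟨⟨j, trivial⟩, trivial⟩, rfl⟩⟩ (L1_ixU_mem A W k G)
    (L1_ixU_inv A W k G)

noncomputable def L1_nF : (levAt A W (k + 2) 0).functor.FullyFaithful :=
  (L1_ng A W k).fullyFaithfulLOfIsIsoUnit

noncomputable def L1_iF : (levI A W k).functor.FullyFaithful :=
  (L1_ix A W k).fullyFaithfulLOfIsIsoUnit

theorem L1_gi (X : MFL A W (k + 1)) :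
    IsZero ((levGr A W (k + 2) 0).functor.obj ((levI A W k).functor.obj X)) := by
  refine (isZero_iff _).2 ?_
  have h : (1 : Matrix ((levGr A W (k + 2) 0).obj ((levI A W k).obj X)).ι
      ((levGr A W (k + 2) 0).obj ((levI A W k).obj X)).ι A.S) = 0 := by
    ext i
    have hi : (X.p i.1.1 : A.L × Fin (k + 1)).2.succ = 0 := i.2
    exact absurd hi (Fin.succ_ne_zero _)
  exact h ▸ zero_mem (B0 _ _)

/-- `J G` -/
noncomputable abbrev L1_J (G : MF A W) : MFL A W (k + 2) := levJ A W (k + 2) 0 1 (by simp) G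

theorem L1_J_cases (G : MF A W) (x : (levGr A W (k + 2) 0).Ix (L1_J A W k G)) :
    ∃ i : G.ι, x.1 = Sum.inl i := by
  obtain ⟨x, hx⟩ := x
  rcases x with i | i
  · exact ⟨i, rfl⟩
  · exact absurd (show (1 : Fin (k + 2)) = 0 from hx) (by simp)

theorem L1_ε_mem (G : MF A W) : (1 : Matrix (G.ι ⊕ G.ι) (G.ι ⊕ G.ι) A.S).submatrix Sum.inl
    (Subtype.val : (levGr A W (k + 2) 0).Ix (L1_J A W k G) → G.ι ⊕ G.ι) ∈
    Z0 ((levGr A W (k + 2) 0).obj (L1_J A W k G)) G := by
  refine L1_Z0 (B := A) ((levGr A W (k + 2) 0).obj (L1_J A W k G)) G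
    (Matrix.fromBlocks G.d 1 0 (-G.d))
    Subtype.val Sum.inl Subtype.val_injective Sum.inl_injective rfl rfl ?_ ?_ ?_
  · intro i j h
    obtain ⟨j', hj'⟩ := L1_J_cases A W k G j
    exact absurd hj'.symm (h j')
  · intro i j h
    exact absurd rfl (h ⟨Sum.inl i, rfl⟩)
  · intro i j h
    obtain ⟨j', hj'⟩ := L1_J_cases A W k G j
    have e : i = j' := Sum.inl_injective (h.trans hj')
    subst e
    change (1 : A.S) ∈ A.H ((L1_J A W k G).p j.1 : A.L × Fin (k + 2)).1 (G.p i)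
    rw [hj']
    exact A.one_mem _

theorem L1_ε_inv (G : MF A W) : (1 : Matrix (G.ι ⊕ G.ι) (G.ι ⊕ G.ι) A.S).submatrix
    (Subtype.val : (levGr A W (k + 2) 0).Ix (L1_J A W k G) → G.ι ⊕ G.ι) Sum.inl ∈
    Z0 G ((levGr A W (k + 2) 0).obj (L1_J A W k G)) := by
  refine L1_Z0 (B := A) G ((levGr A W (k + 2) 0).obj (L1_J A W k G))
    (Matrix.fromBlocks G.d 1 0 (-G.d))
    Sum.inl Subtype.val Sum.inl_injective Subtype.val_injective rfl rfl ?_ ?_ ?_
  · intro i j h
    exact absurd rfl (h ⟨Sum.inl j, rfl⟩)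
  · intro i j h
    obtain ⟨j', hj'⟩ := L1_J_cases A W k G i
    exact absurd hj'.symm (h j')
  · intro i j h
    obtain ⟨j', hj'⟩ := L1_J_cases A W k G i
    have e : j = j' := Sum.inl_injective (h.symm.trans hj')
    subst e
    change (1 : A.S) ∈ A.H (G.p j) ((L1_J A W k G).p i.1 : A.L × Fin (k + 2)).1
    rw [hj']
    exact A.one_mem _

/-- `g (J G) ≅ G` -/
noncomputable def L1_ε (G : MF A W) : (levGr A W (k + 2) 0).functor.obj (L1_J A W k G) ≅ G where
  hom := mk (E := (levGr A W (k + 2) 0).obj (L1_J A W k G)) (F := G)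
    ((1 : Matrix (G.ι ⊕ G.ι) (G.ι ⊕ G.ι) A.S).submatrix Sum.inl Subtype.val) (L1_ε_mem A W k G)
  inv := mk (F := (levGr A W (k + 2) 0).obj (L1_J A W k G)) (E := G)
    ((1 : Matrix (G.ι ⊕ G.ι) (G.ι ⊕ G.ι) A.S).submatrix Subtype.val Sum.inl) (L1_ε_inv A W k G)
  hom_inv_id := by
    refine (mk_comp_mk _ _).trans ((mk_congr _ ?_).trans (mk_one _))
    refine (L1_comp (S := A.S) Subtype.val Sum.inl Subtype.val Sum.inl_injective ?_).trans
      (L1_one (S := A.S) (β := ((levGr A W (k + 2) 0).obj (L1_J A W k G)).ι) Subtype.val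
        Subtype.val_injective)
    intro i j h
    obtain ⟨j', hj'⟩ := L1_J_cases A W k G j
    exact ⟨j', hj'.symm⟩
  inv_hom_id := by
    refine (mk_comp_mk _ _).trans ((mk_congr _ ?_).trans (mk_one _))
    refine (L1_comp (S := A.S) (q := ((levGr A W (k + 2) 0).obj (L1_J A W k G)).ι) Sum.inl
      Subtype.val Sum.inl Subtype.val_injective ?_).trans (L1_one Sum.inl Sum.inl_injective)
    intro i j h
    exact ⟨⟨Sum.inl j, rfl⟩, rfl⟩

variable {A W k} in
/-- labels without levels -/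
def L1_p (Y : MFL A W (k + 2)) : Y.ι → A.L := fun j => (Y.p j : A.L × Fin (k + 2)).1

variable {A W k} in
/-- the differential over `A` -/
def L1_d (Y : MFL A W (k + 2)) : Matrix Y.ι Y.ι A.S := Y.d

variable {A W k} in
theorem L1_p_deg {Y : MFL A W (k + 2)} : DegM (A := A) (L1_p Y) (L1_p Y) (A.en 3) (L1_d Y) :=
  fun i j => L1_memA (A := A) (k := k + 2) (a := (A.en 3 +ᵥ (Y.p j : A.L × Fin (k + 2)).1,
    (Y.p j : A.L × Fin (k + 2)).2)) (b := Y.p i) (Y.deg i j)

variable {A W k} in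
theorem L1_ext_deg {G : MF A W} {Y : MFL A W (k + 2)} {γ : A.Γ}
    {φ : Matrix G.ι ((levGr A W (k + 2) 0).Ix Y) A.S}
    (hφ : IsDeg ((levGr A W (k + 2) 0).obj Y) G γ φ) : DegM (L1_p Y) G.p γ (L1_ext φ) := by
  intro i j
  by_cases h : (levGr A W (k + 2) 0).dom (Y.p j)
  · have := hφ i ⟨j, h⟩
    rw [← L1_ext_pos φ i ⟨j, h⟩] at this
    exact this
  · rw [L1_ext_neg φ i j h]
    exact zero_mem _

variable {A W k} in
/-- degrees of maps into `J G` -/
theorem L1_J_deg {G : MF A W} {Y : MFL A W (k + 2)} {γ : A.Γ} {a b : Matrix G.ι Y.ι A.S}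
    (ha : DegM (L1_p Y) G.p γ a) (hb : DegM (L1_p Y) G.p (A.en 3 + γ) b)
    (hb0 : ∀ i (x : (levGr A W (k + 2) 0).Ix Y), b i x.1 = 0) :
    IsDeg (A := A.lev (k + 2)) Y (L1_J A W k G) γ (Matrix.fromRows a b) := by
  rintro (i | i) j
  · exact L1_mem' (A := A) (k := k + 2) (a := (γ +ᵥ (Y.p j : A.L × Fin (k + 2)).1,
      (Y.p j : A.L × Fin (k + 2)).2)) (b := (G.p i, 0)) (Fin.zero_le _) (ha i j)
  · by_cases h : (Y.p j : A.L × Fin (k + 2)).2 = 0
    · have h0 : b i j = 0 := hb0 i ⟨j, h⟩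
      change b i j ∈ _
      rw [h0]
      exact zero_mem _
    · refine L1_mem' (A := A) (k := k + 2) (a := (γ +ᵥ (Y.p j : A.L × Fin (k + 2)).1,
        (Y.p j : A.L × Fin (k + 2)).2)) (b := (-A.en 3 +ᵥ G.p i, 1)) ?_ ?_
      · change (1 : Fin (k + 2)) ≤ (Y.p j : A.L × Fin (k + 2)).2
        exact Fin.one_le_of_ne_zero h
      · have h1 := hb i j
        rw [← vadd_vadd] at h1
        change b i j ∈ A.H (γ +ᵥ L1_p Y j) (-A.en 3 +ᵥ G.p i)
        rw [← A.H_vadd (A.en 3) (γ +ᵥ L1_p Y j), vadd_vadd (A.en 3) (-A.en 3), add_neg_cancel,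
          zero_vadd]
        exact h1

theorem L1_Jex (G : MF A W) (Y : MFL A W (k + 2))
    (φ : Matrix G.ι ((levGr A W (k + 2) 0).Ix Y) A.S)
    (hφ : φ ∈ Z0 ((levGr A W (k + 2) 0).obj Y) G) :
    (Matrix.fromRows (L1_ext φ) (L1_ext φ * L1_d Y - G.d * L1_ext φ) :
      Matrix (G.ι ⊕ G.ι) Y.ι A.S) ∈ Z0 Y (L1_J A W k G) := by
  have hd := L1_ext_deg hφ.1
  refine ⟨L1_J_deg hd ?_ ?_, L1_Jcl (S := A.S) (L1_ext φ) G.sq Y.sq⟩
  · intro i j
    exact sub_mem (L1_DegM_mul hd L1_p_deg ((zero_add _).trans (add_zero _).symm) i j)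
      (L1_DegM_mul G.deg hd rfl i j)
  · intro i x
    rw [Matrix.sub_apply, L1_ext_mul_col, L1_mul_ext_col]
    have := congrFun (congrFun hφ.2 i) x
    rw [sub_eq_zero]
    exact this.symm

theorem L1_Jinj (G : MF A W) (Y : MFL A W (k + 2)) (F : Matrix (G.ι ⊕ G.ι) Y.ι A.S)
    (hF : F ∈ Z0 Y (L1_J A W k G))
    (h0 : (F.submatrix Sum.inl Subtype.val : Matrix G.ι ((levGr A W (k + 2) 0).Ix Y) A.S) ∈
      B0 ((levGr A W (k + 2) 0).obj Y) G) : F ∈ B0 Y (L1_J A W k G) := by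
  obtain ⟨h, hh, e⟩ := h0
  obtain ⟨a, b, hab⟩ : ∃ a b, F = Matrix.fromRows a b := ⟨_, _, (Matrix.fromRows_toRows F).symm⟩
  subst hab
  have hd := L1_ext_deg hh
  refine ⟨Matrix.fromRows (L1_ext h) (a - G.d * L1_ext h - L1_ext h * L1_d Y),
    L1_J_deg hd ?_ ?_, ?_⟩
  · intro i j
    have h1 := hF.1 (Sum.inl i) j
    have h2 : a i j ∈ A.H ((0 : A.Γ) +ᵥ L1_p Y j) (G.p i) :=
      L1_memA (A := A) (k := k + 2) (a := ((0 : A.Γ) +ᵥ (Y.p j : A.L × Fin (k + 2)).1,
        (Y.p j : A.L × Fin (k + 2)).2)) (b := (G.p i, 0)) h1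
    have e0 : A.en 3 + A.en (-3) = 0 := by rw [← A.en_add]; exact A.en_zero
    have h3 : (a - G.d * L1_ext h - L1_ext h * L1_d Y) i j ∈
        A.H ((A.en 3 + A.en (-3)) +ᵥ L1_p Y j) (G.p i) := by
      rw [Matrix.sub_apply, Matrix.sub_apply]
      refine sub_mem (sub_mem ?_ ?_) ?_
      · rw [e0]; exact h2
      · exact L1_DegM_mul G.deg hd rfl i j
      · exact L1_DegM_mul hd L1_p_deg (add_comm _ _) i j
    exact h3
  · intro i x
    have e1 : (L1_ext h * L1_d Y) i x.1 = (h * ((levGr A W (k + 2) 0).obj Y).d) i x :=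
      L1_ext_mul_col h (L1_d Y) i x
    have e2 : (G.d * L1_ext h) i x.1 = (G.d * h) i x := L1_mul_ext_col h G.d i x
    have e3 : a i x.1 = (G.d * h) i x + (h * ((levGr A W (k + 2) 0).obj Y).d) i x :=
      congrFun (congrFun e i) x
    change a i x.1 - (G.d * L1_ext h) i x.1 - (L1_ext h * L1_d Y) i x.1 = 0
    rw [e1, e2, e3]
    ring
  · exact L1_Jhtpy (S := A.S) (h := L1_ext h) G.sq Y.sq hF.2

theorem L1_εcomp (G : MF A W) (Y : MFL A W (k + 2)) (F : Matrix (G.ι ⊕ G.ι) Y.ι A.S)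
    (hF : F ∈ Z0 Y (L1_J A W k G)) :
    ∃ hm, (levGr A W (k + 2) 0).functor.map (mk (E := Y) (F := L1_J A W k G) F hF) ≫
      (L1_ε A W k G).hom = mk (E := (levGr A W (k + 2) 0).obj Y) (F := G)
        (F.submatrix Sum.inl Subtype.val) hm := by
  have key : (1 : Matrix (G.ι ⊕ G.ι) (G.ι ⊕ G.ι) A.S).submatrix Sum.inl
      (Subtype.val : (levGr A W (k + 2) 0).Ix (L1_J A W k G) → G.ι ⊕ G.ι) *
      (F.submatrix (Subtype.val : (levGr A W (k + 2) 0).Ix (L1_J A W k G) → G.ι ⊕ G.ι)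
        (Subtype.val : (levGr A W (k + 2) 0).Ix Y → Y.ι)) =
      F.submatrix Sum.inl (Subtype.val : (levGr A W (k + 2) 0).Ix Y → Y.ι) := by
    refine L1_N2 (S := A.S) (q := (levGr A W (k + 2) 0).Ix (L1_J A W k G)) F Subtype.val
      Subtype.val Sum.inl Subtype.val_injective ?_
    intro i j h
    exact absurd rfl (h ⟨Sum.inl i, rfl⟩)
  have hm := Z0_mul (L1_ε_mem A W k G) ((levGr A W (k + 2) 0).mat_Z0 hF)
  have hm' : (F.submatrix Sum.inl (Subtype.val : (levGr A W (k + 2) 0).Ix Y → Y.ι)) ∈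
    Z0 ((levGr A W (k + 2) 0).obj Y) G := key ▸ hm
  exact ⟨hm', (mk_comp_mk _ _).trans (mk_congr _ key)⟩

theorem L1_Jkey (G : MF A W) (Y : MFL A W (k + 2)) (F : Matrix (G.ι ⊕ G.ι) Y.ι A.S)
    (φ : Matrix G.ι ((levGr A W (k + 2) 0).Ix Y) A.S) (ψ : Matrix G.ι Y.ι A.S) :
    (F - Matrix.fromRows (L1_ext φ) ψ).submatrix Sum.inl
      (Subtype.val : (levGr A W (k + 2) 0).Ix Y → Y.ι) = F.submatrix Sum.inl Subtype.val - φ := by
  ext i x
  change F (Sum.inl i) x.1 - L1_ext φ i x.1 = F (Sum.inl i) x.1 - φ i x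
  rw [L1_ext_pos]

theorem L1_Juniv (G : MF A W) (Y : MFL A W (k + 2))
    (f : (levGr A W (k + 2) 0).functor.obj Y ⟶ G) :
    ∃! f' : Y ⟶ L1_J A W k G,
      (levGr A W (k + 2) 0).functor.map f' ≫ (L1_ε A W k G).hom = f := by
  induction f using hom_ind with
  | h φ hφ =>
  refine ⟨mk _ (L1_Jex A W k G Y φ hφ), ?_, ?_⟩
  · obtain ⟨hm, h⟩ := L1_εcomp A W k G Y _ (L1_Jex A W k G Y φ hφ)
    refine h.trans (mk_congr _ ?_)
    ext i x
    exact L1_ext_pos φ i x
  · intro f' hf'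
    induction f' using hom_ind with
    | h F hF =>
    obtain ⟨hm, h⟩ := L1_εcomp A W k G Y F hF
    refine (mk_eq_mk _ _).2 (L1_Jinj A W k G Y _ (sub_mem hF (L1_Jex A W k G Y φ hφ)) ?_)
    have h2 := (mk_eq_mk (E := (levGr A W (k + 2) 0).obj Y) (F := G) hm hφ).1 (h.symm.trans hf')
    exact (congrArg (· ∈ B0 ((levGr A W (k + 2) 0).obj Y) G) (L1_Jkey A W k G Y F φ _)).mpr h2

theorem L1_tri0 (Y : MFL A W (k + 2)) : ∃ δ, Triangle.mk ((L1_ng A W k).counit.app Y)
    ((L1_bi A W k).unit.app Y) δ ∈ distTriang (MFL A W (k + 2)) := by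
  refine L1_tri Y ((levAt A W (k + 2) 0).obj ((levGr A W (k + 2) 0).obj Y))
    ((levI A W k).obj ((levB A W k).obj Y)) (L1_v _ _ Y) (L1_v _ _ Y) (L1_v_inj _ _ _)
    (L1_v_inj _ _ _) ?_ ?_ ?_ ?_ rfl rfl ?_ (L1_ngC_mem A W k Y) (L1_biU_mem A W k Y)
  · intro x y h
    have hx : (Y.p x.1.1 : A.L × Fin (k + 2)).2 = 0 := x.1.2
    have hy : (Y.p y.1.1 : A.L × Fin (k + 2)).2 ≠ 0 := y.1.2
    have h : x.1.1 = y.1.1 := h
    rw [← h] at hy
    exact hy hx
  · intro j
    by_cases h : (Y.p j : A.L × Fin (k + 2)).2 = 0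
    · exact Or.inl ⟨⟨⟨j, h⟩, trivial⟩, rfl⟩
    · exact Or.inr ⟨⟨⟨j, h⟩, trivial⟩, rfl⟩
  · intro x
    have hx : (Y.p x.1.1 : A.L × Fin (k + 2)).2 = 0 := x.1.2
    exact Prod.ext rfl hx.symm
  · intro x
    have hx : (Y.p x.1.1 : A.L × Fin (k + 2)).2 ≠ 0 := x.1.2
    exact Prod.ext rfl (L1_sp _ hx)
  · intro x y
    have hx : (Y.p x.1.1 : A.L × Fin (k + 2)).2 = 0 := x.1.2
    have hy : (Y.p y.1.1 : A.L × Fin (k + 2)).2 ≠ 0 := y.1.2
    refine L1_lz (isDeg_d Y) y.1.1 x.1.1 fun h' => ?_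
    rw [hx] at h'
    exact hy (Fin.le_zero_iff.1 h')

end adj

variable (A : GCtx) (W : A.S)

/-- the gluing datum `HMF(A) , Lev_{k+1} ⊂ Lev_{k+2}` -/
noncomputable def levGlue (k : ℕ) : Glue (MF A W) (MFL A W (k + 1)) (MFL A W (k + 2)) where
  i := (levI A W k).functor
  x := (levX A W k).functor
  b := (levB A W k).functor
  g := (levGr A W (k + 2) 0).functor
  n := (levAt A W (k + 2) 0).functor
  bi := L1_bi A W k
  ix := L1_ix A W k
  ng := L1_ng A W k
  iF := L1_iF A W k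
  nF := L1_nF A W k
  gi := L1_gi A W k
  J := levJ A W (k + 2) 0 1 (by simp)
  ε := L1_ε A W k
  Juniv := L1_Juniv A W k
  tri1 := L1_tri0 A W k

end Vale.Agent.P287T.G3
end
end

section

section

/-!
# Leveled matrix factorizations: Hom computations
-/

set_option linter.unusedSectionVars false
set_option linter.unusedVariables false

open Matrix CategoryTheory CategoryTheory.Limits CategoryTheory.Pretriangulated

namespace Vale.Agent.P287T.G3

section l2aG1

section l2aGen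

variable {A : GCtx} {W : A.S}

theorem l2a_perm_mem {E F : MF A W} (e : E.ι ≃ F.ι) (hp : ∀ i, F.p (e i) = E.p i)
    (hd : ∀ i j, F.d (e i) (e j) = E.d i j) :
    ((1 : Matrix F.ι F.ι A.S).submatrix id e) ∈ Z0 E F := by
  constructor
  · intro i j
    rw [zero_vadd]
    by_cases h : i = e j
    · subst h
      rw [Matrix.submatrix_apply, id, Matrix.one_apply_eq, hp]
      exact A.one_mem _
    · rw [Matrix.submatrix_apply, id, Matrix.one_apply_ne h]
      exact zero_mem _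
  · ext i j
    rw [Matrix.mul_apply, Matrix.mul_apply]
    simp only [Matrix.submatrix_apply, id, Matrix.one_apply, mul_ite, mul_one, mul_zero, ite_mul,
      one_mul, zero_mul]
    rw [Finset.sum_ite_eq' Finset.univ (e j)]
    have : ∀ k, (i = e k) ↔ (e.symm i = k) := fun k => by
      rw [Equiv.symm_apply_eq]
    simp only [this, Finset.sum_ite_eq, Finset.mem_univ, if_true]
    rw [← hd, Equiv.apply_symm_apply]

/-- reindexing isomorphism -/
theorem l2a_iso {E F : MF A W} (e : E.ι ≃ F.ι) (hp : ∀ i, F.p (e i) = E.p i)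
    (hd : ∀ i j, F.d (e i) (e j) = E.d i j) : Nonempty (E ≅ F) := by
  refine ⟨⟨mk _ (l2a_perm_mem e hp hd), mk _ (l2a_perm_mem e.symm (E := F) (F := E) ?_ ?_), ?_, ?_⟩⟩
  · intro i
    rw [← hp, Equiv.apply_symm_apply]
  · intro i j
    rw [← hd, Equiv.apply_symm_apply, Equiv.apply_symm_apply]
  · rw [mk_comp_mk, ← mk_one]
    refine mk_congr _ ?_
    ext i j
    rw [Matrix.mul_apply]
    simp only [Matrix.submatrix_apply, id, Matrix.one_apply, mul_ite, mul_one, mul_zero]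
    rw [Finset.sum_ite_eq' Finset.univ (e j)]
    simp
  · rw [mk_comp_mk, ← mk_one]
    refine mk_congr _ ?_
    ext i j
    rw [Matrix.mul_apply]
    simp only [Matrix.submatrix_apply, id, Matrix.one_apply, mul_ite, mul_one, mul_zero]
    rw [Finset.sum_ite_eq' Finset.univ (e.symm j)]
    simp

theorem l2a_isZero_of_isEmpty (E : MF A W) [IsEmpty E.ι] : IsZero E := by
  rw [isZero_iff]
  refine ⟨0, IsDeg.zero _ _ _, ?_⟩
  ext i
  exact isEmptyElim i

/-- additivity for a sub and a quotient -/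
theorem l2a_add (Z : MF A W → ℂ) (hZ : AddTri Z) (E L H : MF A W) (P : E.ι → Prop)
    [DecidablePred P] (hP : ∀ i j, ¬ P i → P j → E.d i j = 0)
    (e₁ : L.ι ≃ {i // P i}) (e₂ : H.ι ≃ {i // ¬ P i})
    (h1 : ∀ i, L.p i = E.p (e₁ i)) (h2 : ∀ i, H.p i = E.p (e₂ i))
    (h3 : ∀ i j, L.d i j = E.d (e₁ i) (e₁ j)) (h4 : ∀ i j, H.d i j = E.d (e₂ i) (e₂ j)) :
    Z E = Z L + Z H := by
  obtain ⟨Lo, Hi, g₁, g₂, f, g, δ, hT, k1, k2, k3, k4⟩ := sub_quot E P hP
  have := hZ _ hT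
  change Z E = Z Lo + Z Hi at this
  rw [this]
  obtain ⟨i1⟩ := l2a_iso (E := Lo) (F := L) (g₁.trans e₁.symm)
    (fun i => by rw [h1, k1]; simp) (fun i j => by rw [h3, k3]; simp)
  obtain ⟨i2⟩ := l2a_iso (E := Hi) (F := H) (g₂.trans e₂.symm)
    (fun i => by rw [h2, k2]; simp) (fun i j => by rw [h4, k4]; simp)
  rw [hZ.isoC i1, hZ.isoC i2]

end l2aGen

end l2aG1

section l2aG2

variable (A : GCtx) (W : A.S)

/-- part of level `v` -/
noncomputable abbrev gr {A : GCtx} {W : A.S} {k : ℕ} (v : Fin k) (E : MFL A W k) : MF A W :=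
  (levGr A W k v).functor.obj E

/-- forget the levels -/
noncomputable abbrev tot {A : GCtx} {W : A.S} {k : ℕ} (E : MFL A W k) : MF A W :=
  (levTot A W k).functor.obj E

/-- put on level `v` -/
noncomputable abbrev lvl {A : GCtx} {W : A.S} {k : ℕ} (v : Fin k) (G : MF A W) : MFL A W k :=
  (levAt A W k v).functor.obj G

/-- `S_v(G)` for a non-top level -/
noncomputable abbrev sJ {A : GCtx} {W : A.S} {k : ℕ} (v : Fin k) (G : MF A W) :
    MFL A W (k + 1) :=
  levJ A W (k + 1) v.castSucc v.succ v.castSucc_le_succ G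

variable {A W}

/-- the level of an index -/
def l2aL {k : ℕ} (E : MFL A W k) (i : E.ι) : Fin k := (E.p i : A.L × Fin k).2

/-- the differential as a matrix over `A.S` -/
def l2aD {k : ℕ} (E : MFL A W k) : Matrix E.ι E.ι A.S := E.d

theorem l2aD_zero {k : ℕ} (E : MFL A W k) (i j : E.ι) (h : ¬ l2aL E i ≤ l2aL E j) :
    l2aD E i j = 0 := by
  have := E.deg i j
  rcases (GCtx.lev_mem_iff A k _ _ _).1 this with h' | h'
  · exact absurd h'.1 h
  · exact h'

end l2aG2

section l2aG3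

variable {A : GCtx} {W : A.S}

/-- two obvious layers of trivial subtypes -/
def l2aTT {α : Type} {p : α → Prop} {q : {a // p a} → Prop} {r : α → Prop} (hp : ∀ a, p a)
    (hq : ∀ a, q a) (hr : ∀ a, r a) : {b : {a // p a} // q b} ≃ {a // r a} where
  toFun b := ⟨b.1.1, hr _⟩
  invFun a := ⟨⟨a.1, hp _⟩, hq _⟩
  left_inv _ := rfl
  right_inv _ := rfl

theorem levI_lvl {k : ℕ} (v : Fin (k + 1)) (G : MF A W) :
    Nonempty ((levI A W k).functor.obj (lvl v G) ≅ lvl v.succ G) := by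
  refine l2a_iso (E := (levI A W k).functor.obj (lvl v G)) (F := lvl v.succ G)
    (l2aTT (fun _ => trivial) (fun _ => trivial) (fun _ => trivial)) (fun i => rfl)
    (fun i j => rfl)

theorem levX_lvl_zero {k : ℕ} (G : MF A W) :
    Nonempty ((levX A W k).functor.obj (lvl (0 : Fin (k + 2)) G) ≅ lvl (0 : Fin (k + 1)) G) := by
  refine l2a_iso (E := (levX A W k).functor.obj (lvl (0 : Fin (k + 2)) G))
    (F := lvl (0 : Fin (k + 1)) G)
    (l2aTT (fun _ => trivial) (fun _ => trivial) (fun _ => trivial)) (fun i => rfl)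
    (fun i j => rfl)

theorem gr_lvl_self {k : ℕ} (v : Fin k) (G : MF A W) : Nonempty (gr v (lvl v G) ≅ G) := by
  refine l2a_iso (E := gr v (lvl v G)) (F := G)
    (⟨fun b => b.1.1, fun a => ⟨⟨a, trivial⟩, rfl⟩, fun _ => rfl, fun _ => rfl⟩) (fun i => rfl)
    (fun i j => rfl)

theorem gr_lvl_ne {k : ℕ} {v w : Fin k} (h : v ≠ w) (G : MF A W) : IsZero (gr v (lvl w G)) := by
  have : IsEmpty (gr v (lvl w G)).ι := ⟨fun i => h i.2.symm⟩
  exact l2a_isZero_of_isEmpty _

theorem levI_sJ {k : ℕ} (v : Fin k) (G : MF A W) :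
    Nonempty ((levI A W k).functor.obj (sJ v G) ≅ sJ v.succ G) := by
  refine l2a_iso (E := (levI A W k).functor.obj (sJ v G)) (F := sJ v.succ G)
    ⟨fun b => b.1, fun a => ⟨a, trivial⟩, fun _ => rfl, fun _ => rfl⟩ (fun i => ?_)
    (fun i j => ?_)
  · obtain ⟨i | i, hi⟩ := i <;> rfl
  · obtain ⟨i | i, hi⟩ := i <;> obtain ⟨j | j, hj⟩ := j <;> rfl

theorem gr_levX_succ {k : ℕ} (v : Fin k) (Y : MFL A W (k + 2)) :
    Nonempty (gr v.succ ((levX A W k).functor.obj Y) ≅ gr v.succ.succ Y) := by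
  have key : ∀ w : Fin (k + 2), Fin.predAbove 0 w = v.succ ↔ w = v.succ.succ := by
    intro w
    refine Fin.cases ?_ (fun w' => ?_) w
    · constructor
      · intro h
        exact absurd h (by simp [Fin.ext_iff, Fin.predAbove])
      · intro h
        exact absurd h (Fin.succ_ne_zero _).symm
    · rw [Fin.predAbove_zero_succ, Fin.succ_inj]
  refine l2a_iso (E := gr v.succ ((levX A W k).functor.obj Y)) (F := gr v.succ.succ Y)
    ⟨fun b => ⟨b.1.1, (key _).1 b.2⟩, fun a => ⟨⟨a.1, trivial⟩, (key _).2 a.2⟩, fun _ => rfl,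
      fun _ => rfl⟩ (fun i => rfl) (fun i j => rfl)

theorem gr_levX_zero {k : ℕ} (Z : MF A W → ℂ) (hZ : AddTri Z) (Y : MFL A W (k + 2)) :
    Z (gr (0 : Fin (k + 1)) ((levX A W k).functor.obj Y)) =
      Z (gr (0 : Fin (k + 2)) Y) + Z (gr (1 : Fin (k + 2)) Y) := by
  have key : ∀ w : Fin (k + 2), Fin.predAbove (0 : Fin (k + 1)) w = 0 ↔ w = 0 ∨ w = 1 := by
    intro w
    refine Fin.cases ?_ (fun w' => ?_) w
    · simp [Fin.ext_iff, Fin.predAbove]
    · rw [Fin.predAbove_zero_succ]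
      constructor
      · rintro rfl; right; rfl
      · rintro (h | h)
        · exact absurd h (Fin.succ_ne_zero _)
        · have : (1 : Fin (k + 2)) = Fin.succ 0 := rfl
          rw [this, Fin.succ_inj] at h
          exact h
  refine l2a_add Z hZ (gr (0 : Fin (k + 1)) ((levX A W k).functor.obj Y))
    (gr (0 : Fin (k + 2)) Y) (gr (1 : Fin (k + 2)) Y) (fun i => l2aL Y i.1.1 = 0) ?_
    ⟨fun b => ⟨⟨⟨b.1, trivial⟩, (key _).2 (Or.inl b.2)⟩, b.2⟩, fun a => ⟨a.1.1.1, a.2⟩,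
      fun _ => rfl, fun _ => rfl⟩
    ⟨fun b => ⟨⟨⟨b.1, trivial⟩, (key _).2 (Or.inr b.2)⟩, ?_⟩, fun a => ⟨a.1.1.1, ?_⟩,
      fun _ => rfl, fun _ => rfl⟩ (fun _ => rfl) (fun _ => rfl) (fun _ _ => rfl) (fun _ _ => rfl)
  · intro i j hi hj
    refine l2aD_zero Y i.1.1 j.1.1 (fun h => hi ?_)
    rw [hj] at h
    exact Fin.le_zero_iff.1 h
  · intro h
    have h2 : l2aL Y b.1 = 1 := b.2
    have h3 : l2aL Y b.1 = 0 := h
    rw [h2] at h3
    exact absurd h3 (by simp)
  · have h2 := (key _).1 a.1.2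
    have h3 : ¬ l2aL Y a.1.1.1 = 0 := a.2
    exact h2.resolve_left h3

end l2aG3

section l2aG4

variable {A : GCtx} {W : A.S}

theorem l2a_sum {ι S : Type} [Fintype ι] [AddCommMonoid S] (P : ι → Prop) [DecidablePred P]
    (g : ι → S) (hg : ∀ i, ¬ P i → g i = 0) : ∑ i, g i = ∑ i : {i // P i}, g i := by
  rw [← Finset.sum_subtype (Finset.univ.filter P) (by simp) g]
  exact (Finset.sum_filter_of_ne (fun i _ hi => by
    by_contra h
    exact hi (hg i h))).symm

/-- additive invariants of `tot E` are sums over levels -/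
theorem tot_add {k : ℕ} (Z : MF A W → ℂ) (hZ : AddTri Z) (E : MFL A W k) :
    Z (tot E) = ∑ v, Z (gr v E) := by
  induction k with
  | zero =>
    have : IsEmpty (tot E).ι := ⟨fun i => (l2aL E i.1).elim0⟩
    rw [hZ.zeroC (l2a_isZero_of_isEmpty (tot E))]
    simp
  | succ k ih =>
    cases k with
    | zero =>
      rw [Fin.sum_univ_one]
      obtain ⟨e⟩ := l2a_iso (E := tot E) (F := gr 0 E)
        ⟨fun b => ⟨b.1, Subsingleton.elim (α := Fin 1) _ _⟩, fun a => ⟨a.1, trivial⟩, fun _ => rfl,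
          fun _ => rfl⟩ (fun _ => rfl) (fun _ _ => rfl)
      exact hZ.isoC e
    | succ k =>
      rw [Fin.sum_univ_succ]
      have h1 : Z (tot E) = Z (gr 0 E) + Z (tot ((levB A W k).functor.obj E)) := by
        refine l2a_add Z hZ (tot E) (gr 0 E) (tot ((levB A W k).functor.obj E))
          (fun i => l2aL E i.1 = 0) ?_
          ⟨fun b => ⟨⟨b.1, trivial⟩, b.2⟩, fun a => ⟨a.1.1, a.2⟩, fun _ => rfl, fun _ => rfl⟩
          ⟨fun b => ⟨⟨b.1.1, trivial⟩, b.1.2⟩, fun a => ⟨⟨a.1.1, a.2⟩, trivial⟩, fun _ => rfl,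
            fun _ => rfl⟩ (fun _ => rfl) (fun _ => rfl) (fun _ _ => rfl) (fun _ _ => rfl)
        intro i j hi hj
        refine l2aD_zero E i.1 j.1 (fun h => hi ?_)
        rw [hj] at h
        exact Fin.le_zero_iff.1 h
      rw [h1, ih]
      congr 1
      refine Finset.sum_congr rfl (fun v _ => ?_)
      have key : ∀ w : Fin (k + 2), w ≠ 0 → (Fin.predAbove 0 w = v ↔ w = v.succ) := by
        intro w
        refine Fin.cases ?_ (fun w' => ?_) w
        · intro h; exact absurd rfl h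
        · intro _
          rw [Fin.predAbove_zero_succ, Fin.succ_inj]
      obtain ⟨e⟩ := l2a_iso (E := gr v ((levB A W k).functor.obj E)) (F := gr v.succ E)
        ⟨fun b => ⟨b.1.1, (key _ b.1.2).1 b.2⟩,
          fun a => ⟨⟨a.1, fun h => Fin.succ_ne_zero v (a.2.symm.trans h)⟩,
            (key _ (fun h => Fin.succ_ne_zero v (a.2.symm.trans h))).2 a.2⟩,
          fun _ => rfl, fun _ => rfl⟩ (fun _ => rfl) (fun _ _ => rfl)
      exact hZ.isoC e

theorem l2a_tr {S : Type} [AddGroup S] {K : AddSubgroup S} {x y : S} (h : x = y) (hy : y ∈ K) :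
    x ∈ K := h ▸ hy

theorem l2a_N_zero {k : ℕ} {ι S : Type} [Fintype ι] [DecidableEq ι] [CommRing S] (L : ι → Fin k)
    (N : Matrix ι ι S) (hN : ∀ i j, ¬ L i < L j → N i j = 0) (m : ℕ) :
    ∀ i j, ¬ ((L i : ℕ) + m ≤ L j) → (N ^ m) i j = 0 := by
  induction m with
  | zero =>
    intro i j h
    rw [pow_zero, Matrix.one_apply_ne]
    rintro rfl
    simp at h
  | succ m ih =>
    intro i j h
    rw [pow_succ, Matrix.mul_apply]
    refine Finset.sum_eq_zero (fun l _ => ?_)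
    by_cases h1 : (L i : ℕ) + m ≤ L l
    · rw [hN l j, mul_zero]
      intro h2
      have : (L l : ℕ) < L j := h2
      omega
    · rw [ih i l h1, zero_mul]

theorem l2a_pow_Z0 {E : MF A W} {N : Matrix E.ι E.ι A.S} (hN : N ∈ Z0 E E) (m : ℕ) :
    N ^ m ∈ Z0 E E := by
  induction m with
  | zero => rw [pow_zero]; exact one_mem_Z0 E
  | succ m ih => rw [pow_succ]; exact Z0_mul ih hN

theorem l2a_one_mem {E : MF A W} {N : Matrix E.ι E.ι A.S} (hN : 1 + N ∈ B0 E E) {m : ℕ}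
    (hm : N ^ m = 0) : (1 : Matrix E.ι E.ι A.S) ∈ B0 E E := by
  have h1 : N ∈ Z0 E E := by
    have := sub_mem (B0_le_Z0 _ _ hN) (one_mem_Z0 E)
    rwa [add_sub_cancel_left] at this
  have h2 : (∑ i ∈ Finset.range m, (-N) ^ i) ∈ Z0 E E :=
    sum_mem (fun i _ => l2a_pow_Z0 (neg_mem h1) i)
  have h3 := mul_B0 hN h2
  have h4 : (1 + N) * (∑ i ∈ Finset.range m, (-N) ^ i) = 1 := by
    have := mul_neg_geom_sum (-N) m
    rw [sub_neg_eq_add] at this
    rw [this, neg_pow, hm, mul_zero, sub_zero]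
  rwa [h4] at h3

theorem l2a_nilp {S ι : Type} [CommRing S] [Fintype ι] [DecidableEq ι] {k : ℕ} (L : ι → Fin k)
    (D : Matrix ι ι S) (hD : ∀ i j, ¬ L i ≤ L j → D i j = 0)
    (hv : ∀ v, Matrix {i // L i = v} {i // L i = v} S)
    (hv1 : ∀ v, 1 = (D.submatrix Subtype.val Subtype.val) * hv v +
      hv v * (D.submatrix Subtype.val Subtype.val)) :
    ∃ H : Matrix ι ι S, (∀ i j, L i ≠ L j → H i j = 0) ∧
      (∀ v (i j : ι) (hi : L i = v) (hj : L j = v), H i j = hv v ⟨i, hi⟩ ⟨j, hj⟩) ∧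
      (D * H + H * D - 1) ^ k = 0 := by
  let H : Matrix ι ι S := fun i j =>
    if hij : L i = L j then hv (L j) ⟨i, hij⟩ ⟨j, rfl⟩ else 0
  have hH : ∀ v (i j : ι) (hi : L i = v) (hj : L j = v), H i j = hv v ⟨i, hi⟩ ⟨j, hj⟩ := by
    intro v i j hi hj
    subst hj
    simp only [H, hi, dif_pos]
  have hH0 : ∀ i j, L i ≠ L j → H i j = 0 := by
    intro i j hij
    simp only [H, hij, dif_neg, not_false_eq_true]
  refine ⟨H, hH0, hH, ?_⟩
  have hN0 : ∀ i j, ¬ L i < L j → (D * H + H * D - 1) i j = 0 := by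
    intro i j hij
    rw [Matrix.sub_apply, Matrix.add_apply, Matrix.mul_apply, Matrix.mul_apply]
    rcases lt_or_eq_of_le (not_lt.1 hij) with h1 | h1
    · have e1 : ∑ l, D i l * H l j = 0 := by
        refine Finset.sum_eq_zero (fun l _ => ?_)
        by_cases hl : L l = L j
        · rw [hD i l (by rw [hl]; exact not_le.2 h1), zero_mul]
        · rw [hH0 l j hl, mul_zero]
      have e2 : ∑ l, H i l * D l j = 0 := by
        refine Finset.sum_eq_zero (fun l _ => ?_)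
        by_cases hl : L i = L l
        · rw [hD l j (by rw [← hl]; exact not_le.2 h1), mul_zero]
        · rw [hH0 i l hl, zero_mul]
      have e3 : (1 : Matrix ι ι S) i j = 0 :=
        Matrix.one_apply_ne (by rintro rfl; exact lt_irrefl _ h1)
      rw [e1, e2, e3]; simp
    · have e1 : ∑ l, D i l * H l j =
          ((D.submatrix Subtype.val Subtype.val : Matrix {i // L i = L j} {i // L i = L j} S) *
            hv (L j) : Matrix {i // L i = L j} {i // L i = L j} S) ⟨i, h1.symm⟩ ⟨j, rfl⟩ := by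
        rw [l2a_sum (fun l => L l = L j) _ (fun l hl => by rw [hH0 l j hl, mul_zero]),
          Matrix.mul_apply]
        refine Finset.sum_congr rfl (fun l _ => ?_)
        rw [hH (L j) l.1 j l.2 rfl]
        rfl
      have e2 : ∑ l, H i l * D l j =
          (hv (L j) * (D.submatrix Subtype.val Subtype.val :
            Matrix {i // L i = L j} {i // L i = L j} S) :
            Matrix {i // L i = L j} {i // L i = L j} S) ⟨i, h1.symm⟩ ⟨j, rfl⟩ := by
        rw [l2a_sum (fun l => L l = L j) _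
          (fun l hl => by rw [hH0 i l (fun h => hl (h.symm.trans h1.symm)), zero_mul]),
          Matrix.mul_apply]
        refine Finset.sum_congr rfl (fun l _ => ?_)
        rw [hH (L j) i l.1 h1.symm l.2]
        rfl
      have e3 := congrFun (congrFun (hv1 (L j)) ⟨i, h1.symm⟩) ⟨j, rfl⟩
      rw [Matrix.add_apply] at e3
      rw [e1, e2, ← e3, Matrix.one_apply, Matrix.one_apply]
      simp
  ext i j
  exact l2a_N_zero L _ hN0 k i j (by
    have := (L j).2
    omega)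

/-- filtration of `E` by levels: `tot` and `gr` detect zero objects -/
theorem isZero_of_gr {k : ℕ} (E : MFL A W k) (h : ∀ v, IsZero (gr v E)) : IsZero E := by
  have h1 : ∀ v, ∃ hv : Matrix (gr v E).ι (gr v E).ι A.S,
      IsDeg (gr v E) (gr v E) (A.en (-3)) hv ∧ 1 = (gr v E).d * hv + hv * (gr v E).d :=
    fun v => (isZero_iff (gr v E)).1 (h v)
  choose hv hdeg hv1 using h1
  obtain ⟨H, hH0, hH, hN⟩ := l2a_nilp (l2aL E) (l2aD E) (l2aD_zero E) hv hv1
  have hHdeg : IsDeg E E ((A.lev k).en (-3)) H := by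
    intro i j
    refine (GCtx.lev_mem_iff A k _ _ _).2 ?_
    by_cases hij : l2aL E i = l2aL E j
    · refine Or.inl ⟨hij.le, ?_⟩
      exact l2a_tr (hH (l2aL E j) i j hij rfl) (hdeg (l2aL E j) ⟨i, hij⟩ ⟨j, rfl⟩)
    · exact Or.inr (hH0 i j hij)
  have hB : (l2aD E * H + H * l2aD E) ∈ B0 E E := ⟨H, hHdeg, rfl⟩
  rw [isZero_iff]
  have h2 : (1 : Matrix E.ι E.ι A.S) + (l2aD E * H + H * l2aD E - 1 : Matrix E.ι E.ι A.S) =
    l2aD E * H + H * l2aD E := by abel
  exact l2a_one_mem (E := E) (N := (l2aD E * H + H * l2aD E - 1 : Matrix E.ι E.ι A.S)) (m := k)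
    (l2a_tr h2 hB) hN

end l2aG4

section l2aG5


section l2aPure

variable {S ι κ : Type} [CommRing S] [Fintype ι] [DecidableEq ι] [Fintype κ] [DecidableEq κ]

/-- extension by zero rows -/
def l2aR (P : ι → Prop) [DecidablePred P] (f : Matrix {i // P i} κ S) : Matrix ι κ S :=
  fun i j => if h : P i then f ⟨i, h⟩ j else 0

/-- extension by zero columns -/
def l2aC (P : ι → Prop) [DecidablePred P] (f : Matrix κ {i // P i} S) : Matrix κ ι S :=
  fun j i => if h : P i then f j ⟨i, h⟩ else 0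

/-- restriction of a square matrix -/
def l2aS (P : ι → Prop) (D : Matrix ι ι S) : Matrix {i // P i} {i // P i} S :=
  fun i j => D i.1 j.1

/-- restriction of rows -/
def l2aRr (P : ι → Prop) (H : Matrix ι κ S) : Matrix {i // P i} κ S :=
  fun i j => H i.1 j

/-- restriction of columns -/
def l2aRc (P : ι → Prop) (H : Matrix κ ι S) : Matrix κ {i // P i} S :=
  fun j i => H j i.1

theorem l2aR_pos {P : ι → Prop} [DecidablePred P] (f : Matrix {i // P i} κ S) {i : ι} (h : P i)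
    (j : κ) : l2aR P f i j = f ⟨i, h⟩ j := by simp [l2aR, h]

theorem l2aR_neg {P : ι → Prop} [DecidablePred P] (f : Matrix {i // P i} κ S) {i : ι}
    (h : ¬ P i) (j : κ) : l2aR P f i j = 0 := by simp [l2aR, h]

theorem l2aC_pos {P : ι → Prop} [DecidablePred P] (f : Matrix κ {i // P i} S) {i : ι} (h : P i)
    (j : κ) : l2aC P f j i = f j ⟨i, h⟩ := by simp [l2aC, h]

theorem l2aC_neg {P : ι → Prop} [DecidablePred P] (f : Matrix κ {i // P i} S) {i : ι}
    (h : ¬ P i) (j : κ) : l2aC P f j i = 0 := by simp [l2aC, h]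

variable {P : ι → Prop} [DecidablePred P] {D : Matrix ι ι S} {dG : Matrix κ κ S}

theorem l2aR_mul (f : Matrix {i // P i} κ S) (i : ι) (j : κ) :
    (D * l2aR P f) i j = ∑ l : {i // P i}, D i l.1 * f l j := by
  rw [Matrix.mul_apply, l2a_sum P _ (fun l hl => by rw [l2aR_neg f hl, mul_zero])]
  exact Finset.sum_congr rfl (fun l _ => by rw [l2aR_pos f l.2])

theorem l2aC_mul (f : Matrix κ {i // P i} S) (i : ι) (j : κ) :
    (l2aC P f * D) j i = ∑ l : {i // P i}, f j l * D l.1 i := by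
  rw [Matrix.mul_apply, l2a_sum P _ (fun l hl => by rw [l2aC_neg f hl, zero_mul])]
  exact Finset.sum_congr rfl (fun l _ => by rw [l2aC_pos f l.2])

theorem l2aR_closed (hD : ∀ i j, ¬ P i → P j → D i j = 0) {f : Matrix {i // P i} κ S}
    (hf : l2aS P D * f = f * dG) :
    D * l2aR P f = l2aR P f * dG := by
  ext i j
  rw [l2aR_mul]
  by_cases h : P i
  · have := congrFun (congrFun hf ⟨i, h⟩) j
    rw [Matrix.mul_apply, Matrix.mul_apply] at this
    rw [Matrix.mul_apply]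
    simp only [l2aR_pos f h]
    exact this
  · rw [Matrix.mul_apply]
    simp only [l2aR_neg f h, zero_mul, Finset.sum_const_zero]
    exact Finset.sum_eq_zero (fun l _ => by rw [hD i l.1 h l.2, zero_mul])

theorem l2aC_closed (hD : ∀ i j, P i → ¬ P j → D i j = 0) {f : Matrix κ {i // P i} S}
    (hf : dG * f = f * l2aS P D) :
    dG * l2aC P f = l2aC P f * D := by
  ext j i
  rw [l2aC_mul]
  by_cases h : P i
  · have := congrFun (congrFun hf j) ⟨i, h⟩
    rw [Matrix.mul_apply, Matrix.mul_apply] at this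
    rw [Matrix.mul_apply]
    simp only [l2aC_pos f h]
    exact this
  · rw [Matrix.mul_apply]
    simp only [l2aC_neg f h, mul_zero, Finset.sum_const_zero]
    exact (Finset.sum_eq_zero (fun l _ => by rw [hD l.1 i l.2 h, mul_zero])).symm

theorem l2aR_htpy {f : Matrix {i // P i} κ S} {H H2 : Matrix ι κ S}
    (hH2 : ∀ i j, P i → H2 i j = 0) (hz : ∀ i l j, P i → ¬ P l → D i l * H l j = 0)
    (h : l2aR P f = D * H + H2 + H * dG) :
    f = l2aS P D * l2aRr P H +
      l2aRr P H * dG := by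
  ext i j
  have := congrFun (congrFun h i.1) j
  rw [l2aR_pos f i.2, Matrix.add_apply, Matrix.add_apply, hH2 _ _ i.2, add_zero,
    Matrix.mul_apply, Matrix.mul_apply, l2a_sum P _ (fun l hl => hz i.1 l j i.2 hl)] at this
  rw [Matrix.add_apply, Matrix.mul_apply, Matrix.mul_apply]
  exact this

theorem l2aC_htpy {f : Matrix κ {i // P i} S} {H H2 : Matrix κ ι S}
    (hH2 : ∀ j i, P i → H2 j i = 0) (hz : ∀ j l i, P i → ¬ P l → H j l * D l i = 0)
    (h : l2aC P f = dG * H + H2 + H * D) :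
    f = dG * l2aRc P H +
      l2aRc P H * l2aS P D := by
  ext j i
  have := congrFun (congrFun h j) i.1
  rw [l2aC_pos f i.2, Matrix.add_apply, Matrix.add_apply, hH2 _ _ i.2, add_zero,
    Matrix.mul_apply, Matrix.mul_apply, l2a_sum P (fun l => H j l * D l i.1)
      (fun l hl => hz j l i.1 i.2 hl)] at this
  rw [Matrix.add_apply, Matrix.mul_apply, Matrix.mul_apply]
  exact this

theorem l2a_sjto_Z {w : S} (hG : dG * dG = w • (1 : Matrix κ κ S))
    (hD : D * D = w • (1 : Matrix ι ι S)) (F : Matrix κ ι S) :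
    fromBlocks dG 1 0 (-dG) * fromRows F (F * D - dG * F) =
      fromRows F (F * D - dG * F) * D := by
  rw [fromBlocks_mul_fromRows, fromRows_mul]
  congr 1
  · rw [Matrix.one_mul]; abel
  · rw [Matrix.zero_mul, zero_add, Matrix.neg_mul, Matrix.mul_sub, Matrix.sub_mul,
      ← Matrix.mul_assoc dG dG, hG, Matrix.mul_assoc F D D, hD, Matrix.smul_mul, Matrix.mul_smul,
      Matrix.one_mul, Matrix.mul_one, neg_sub, Matrix.mul_assoc]

theorem l2a_sjto_B {F1 F2 : Matrix κ ι S} {H : Matrix (κ ⊕ κ) ι S}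
    (h : fromRows F1 F2 = fromBlocks dG 1 0 (-dG) * H + H * D) :
    F1 = dG * H.toRows₁ + H.toRows₂ + H.toRows₁ * D := by
  have h1 : H = fromRows H.toRows₁ H.toRows₂ := (fromRows_toRows H).symm
  generalize H.toRows₁ = H1 at h1 ⊢
  generalize H.toRows₂ = H2 at h1 ⊢
  subst h1
  rw [fromBlocks_mul_fromRows, fromRows_mul] at h
  have h2 := congrArg toRows₁ h
  rw [toRows₁_fromRows] at h2
  rw [h2]
  ext i j
  simp [toRows₁]

theorem l2a_sjfrom_Z {w : S} (hG : dG * dG = w • (1 : Matrix κ κ S))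
    (hD : D * D = w • (1 : Matrix ι ι S)) (F : Matrix ι κ S) :
    D * fromCols (D * F + F * dG) F =
      fromCols (D * F + F * dG) F * fromBlocks dG 1 0 (-dG) := by
  rw [fromCols_mul_fromBlocks, mul_fromCols]
  congr 1
  · rw [Matrix.mul_zero, add_zero, Matrix.mul_add, Matrix.add_mul, Matrix.mul_assoc F dG dG, hG,
      ← Matrix.mul_assoc D D F, hD, Matrix.smul_mul, Matrix.mul_smul, Matrix.one_mul,
      Matrix.mul_one, add_comm, Matrix.mul_assoc]
  · rw [Matrix.mul_one, Matrix.mul_neg]; abel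

theorem l2a_sjfrom_B {F1 F2 : Matrix ι κ S} {H : Matrix ι (κ ⊕ κ) S}
    (h : fromCols F1 F2 = D * H + H * fromBlocks dG 1 0 (-dG)) :
    F2 = D * H.toCols₂ + H.toCols₁ + H.toCols₂ * (-dG) := by
  have h1 : H = fromCols H.toCols₁ H.toCols₂ := (fromCols_toCols H).symm
  generalize H.toCols₁ = H1 at h1 ⊢
  generalize H.toCols₂ = H2 at h1 ⊢
  subst h1
  rw [fromCols_mul_fromBlocks, mul_fromCols] at h
  have h2 := congrArg toCols₂ h
  rw [toCols₂_fromCols] at h2
  rw [h2]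
  ext i j
  simp [toCols₂]
  abel

theorem l2aS_sq {w : S} (hP : ∀ i, P i) (hD : D * D = w • (1 : Matrix ι ι S)) :
    l2aS P D * l2aS P D = w • (1 : Matrix {i // P i} {i // P i} S) := by
  ext i j
  have := congrFun (congrFun hD i.1) j.1
  rw [Matrix.mul_apply, Matrix.smul_apply, l2a_sum P _ (fun l hl => absurd (hP l) hl)] at this
  rw [Matrix.mul_apply, Matrix.smul_apply]
  refine this.trans ?_
  rw [Matrix.one_apply, Matrix.one_apply]
  simp [Subtype.ext_iff]

end l2aPure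

end l2aG5

section l2aG6

variable {A : GCtx} {W : A.S}

/-- forget the levels (without a trivial subtype) -/
noncomputable def l2aE {k : ℕ} (E : MFL A W k) : MF A W where
  ι := E.ι
  p i := (E.p i : A.L × Fin k).1
  d := l2aD E
  deg i j := by
    rcases (GCtx.lev_mem_iff A k _ _ _).1 (E.deg i j) with h | h
    · exact h.2
    · exact l2a_tr h (zero_mem _)
  sq := E.sq

/-- a trivial subtype as index -/
noncomputable def l2aT (G : MF A W) : MF A W where
  ι := {i : G.ι // True}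
  p i := G.p i.1
  d := l2aS (fun _ => True) G.d
  deg i j := G.deg i.1 j.1
  sq := l2aS_sq (fun _ => trivial) G.sq

theorem l2aT_iso (G : MF A W) : Nonempty (l2aT G ≅ G) :=
  l2a_iso (E := l2aT G) (F := G) ⟨fun i => i.1, fun i => ⟨i, trivial⟩, fun _ => rfl, fun _ => rfl⟩
    (fun _ => rfl) (fun _ _ => rfl)

theorem l2aE_iso {k : ℕ} (E : MFL A W k) : Nonempty (tot E ≅ l2aE E) :=
  l2a_iso (E := tot E) (F := l2aE E) ⟨fun i => i.1, fun i => ⟨i, trivial⟩, fun _ => rfl,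
    fun _ => rfl⟩ (fun _ => rfl) (fun _ _ => rfl)

theorem l2a_src {C : Type*} [Category C] [HasZeroMorphisms C] {X Y Z : C} (e : Nonempty (X ≅ Y))
    (h : ∀ f : X ⟶ Z, f = 0) : ∀ f : Y ⟶ Z, f = 0 := by
  obtain ⟨e⟩ := e
  intro f
  have := h (e.hom ≫ f)
  rw [← Category.id_comp f, ← e.inv_hom_id, Category.assoc, this, comp_zero]

theorem l2a_tgt {C : Type*} [Category C] [HasZeroMorphisms C] {X Y Z : C} (e : Nonempty (Y ≅ Z))
    (h : ∀ f : X ⟶ Y, f = 0) : ∀ f : X ⟶ Z, f = 0 := by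
  obtain ⟨e⟩ := e
  intro f
  have := h (f ≫ e.inv)
  rw [← Category.comp_id f, ← e.inv_hom_id, ← Category.assoc, this, zero_comp]

theorem l2a_deg_mem {k : ℕ} {E F : MFL A W k} {γ : A.Γ} {H : Matrix F.ι E.ι A.S}
    (h : IsDeg (A := A.lev k) E F γ H) (i : F.ι) (j : E.ι) :
    H i j ∈ A.H (γ +ᵥ (l2aE E).p j) ((l2aE F).p i) := by
  rcases (GCtx.lev_mem_iff A k _ _ _).1 (h i j) with h | h
  · exact h.2
  · exact l2a_tr h (zero_mem _)

theorem l2a_deg_zero {k : ℕ} {E F : MFL A W k} {γ : A.Γ} {H : Matrix F.ι E.ι A.S}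
    (h : IsDeg (A := A.lev k) E F γ H) (i : F.ι) (j : E.ι) (hn : ¬ l2aL F i ≤ l2aL E j) :
    H i j = 0 := by
  rcases (GCtx.lev_mem_iff A k _ _ _).1 (h i j) with h | h
  · exact absurd h.1 hn
  · exact h

theorem l2a_deg_intro {k : ℕ} {E F : MFL A W k} {γ : A.Γ} {H : Matrix F.ι E.ι A.S}
    (h0 : ∀ i j, ¬ l2aL F i ≤ l2aL E j → H i j = 0)
    (h1 : ∀ i j, l2aL F i ≤ l2aL E j → H i j ∈ A.H (γ +ᵥ (l2aE E).p j) ((l2aE F).p i)) :
    IsDeg (A := A.lev k) E F γ H := by
  intro i j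
  refine (GCtx.lev_mem_iff A k _ _ _).2 ?_
  by_cases h : l2aL F i ≤ l2aL E j
  · exact Or.inl ⟨h, h1 i j h⟩
  · exact Or.inr (h0 i j h)

theorem hom_from_lvl_zero {k : ℕ} (G : MF A W) (E : MFL A W (k + 1))
    (h : ∀ f : lvl 0 G ⟶ E, f = 0) : ∀ f : G ⟶ gr 0 E, f = 0 := by
  refine l2a_src (l2aT_iso G) (fun f => ?_)
  induction f using hom_ind with
  | h f hf =>
    have hF : l2aR (fun i => l2aL E i = 0) f ∈ Z0 (lvl 0 G) E := by
      refine ⟨l2a_deg_intro (E := lvl 0 G) (F := E) (γ := 0) (fun i j hn => ?_) (fun i j hij => ?_),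
        l2aR_closed (P := fun i => l2aL E i = 0) (D := l2aD E) (dG := (l2aT G).d) ?_ hf.2⟩
      · refine l2aR_neg f (fun hi => hn ?_) j
        exact hi.le
      · have hi : l2aL E i = 0 := Fin.le_zero_iff.1 hij
        exact l2a_tr (l2aR_pos f hi j) (hf.1 ⟨i, hi⟩ j)
      · intro i j hi hj
        refine l2aD_zero E i j (fun h' => hi ?_)
        rw [hj] at h'
        exact Fin.le_zero_iff.1 h'
    obtain ⟨H, hH, hE⟩ := (mk_eq_zero hF).1 (h (mk _ hF))
    refine (mk_eq_zero hf).2 ⟨l2aRr (fun i => l2aL E i = 0) H,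
      fun i j => l2a_deg_mem hH i.1 j, ?_⟩
    refine l2aR_htpy (P := fun i => l2aL E i = 0) (D := l2aD E) (dG := (l2aT G).d) (H2 := 0)
      (fun _ _ _ => rfl) (fun i l j hi hl => ?_) ?_
    · rw [l2a_deg_zero hH l j (fun h' => hl (Fin.le_zero_iff.1 h')), mul_zero]
    · rw [add_zero]
      exact hE

theorem hom_to_lvl_last {k : ℕ} (G : MF A W) (E : MFL A W (k + 1))
    (h : ∀ f : E ⟶ lvl (Fin.last k) G, f = 0) : ∀ f : gr (Fin.last k) E ⟶ G, f = 0 := by
  refine l2a_tgt (l2aT_iso G) (fun f => ?_)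
  induction f using hom_ind with
  | h f hf =>
    have hF : l2aC (fun i => l2aL E i = Fin.last k) f ∈ Z0 E (lvl (Fin.last k) G) := by
      refine ⟨l2a_deg_intro (E := E) (F := lvl (Fin.last k) G) (γ := 0) (fun i j hn => ?_)
        (fun i j hij => ?_),
        l2aC_closed (P := fun i => l2aL E i = Fin.last k) (D := l2aD E) (dG := (l2aT G).d) ?_
          hf.2⟩
      · refine l2aC_neg f (fun hi => hn ?_) i
        exact hi.ge
      · have hi : l2aL E j = Fin.last k := Fin.last_le_iff.1 hij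
        exact l2a_tr (l2aC_pos f hi i) (hf.1 i ⟨j, hi⟩)
      · intro i j hi hj
        refine l2aD_zero E i j (fun h' => hj ?_)
        rw [hi] at h'
        exact Fin.last_le_iff.1 h'
    obtain ⟨H, hH, hE⟩ := (mk_eq_zero hF).1 (h (mk _ hF))
    refine (mk_eq_zero hf).2 ⟨l2aRc (fun i => l2aL E i = Fin.last k) H,
      fun i j => l2a_deg_mem hH i j.1, ?_⟩
    refine l2aC_htpy (P := fun i => l2aL E i = Fin.last k) (D := l2aD E) (dG := (l2aT G).d)
      (H2 := 0) (fun _ _ _ => rfl) (fun i l j hi hl => ?_) ?_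
    · rw [l2a_deg_zero hH i l (fun h' => hl (Fin.last_le_iff.1 h')), zero_mul]
    · rw [add_zero]
      exact hE

theorem hom_to_lvl_zero {k : ℕ} (G : MF A W) (E : MFL A W (k + 1))
    (h : ∀ f : E ⟶ lvl 0 G, f = 0) : ∀ f : tot E ⟶ G, f = 0 := by
  obtain ⟨e⟩ := l2aE_iso E
  refine l2a_src ⟨e.symm⟩ (l2a_tgt (l2aT_iso G) (fun f => ?_))
  induction f using hom_ind with
  | h f hf =>
    have hF : f ∈ Z0 E (lvl 0 G) := by
      refine ⟨l2a_deg_intro (E := E) (F := lvl 0 G) (γ := 0) (fun i j hn => ?_)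
        (fun i j hij => hf.1 i j), hf.2⟩
      exact absurd (Fin.zero_le _) hn
    obtain ⟨H, hH, hE⟩ := (mk_eq_zero hF).1 (h (mk _ hF))
    exact (mk_eq_zero hf).2 ⟨H, fun i j => l2a_deg_mem hH i j, hE⟩

theorem hom_from_lvl_last {k : ℕ} (G : MF A W) (E : MFL A W (k + 1))
    (h : ∀ f : lvl (Fin.last k) G ⟶ E, f = 0) : ∀ f : G ⟶ tot E, f = 0 := by
  obtain ⟨e⟩ := l2aE_iso E
  refine l2a_tgt ⟨e.symm⟩ (l2a_src (l2aT_iso G) (fun f => ?_))
  induction f using hom_ind with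
  | h f hf =>
    have hF : f ∈ Z0 (lvl (Fin.last k) G) E := by
      refine ⟨l2a_deg_intro (E := lvl (Fin.last k) G) (F := E) (γ := 0) (fun i j hn => ?_)
        (fun i j hij => hf.1 i j), hf.2⟩
      exact absurd (Fin.le_last _) hn
    obtain ⟨H, hH, hE⟩ := (mk_eq_zero hF).1 (h (mk _ hF))
    exact (mk_eq_zero hf).2 ⟨H, fun i j => l2a_deg_mem hH i j, hE⟩

end l2aG6

section l2aG7

variable {A : GCtx} {W : A.S}

theorem l2a_H5 {a b : A.L} {s : A.S} (h : s ∈ A.H (A.en 3 +ᵥ a) b) :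
    s ∈ A.H ((0 : A.Γ) +ᵥ a) (-A.en 3 +ᵥ b) := by
  rw [zero_vadd, ← A.H_vadd (A.en 3), vadd_vadd, add_neg_cancel, zero_vadd]
  exact h

theorem l2a_H5' {a b : A.L} {s : A.S}
    (h : s ∈ A.H ((0 : A.Γ) +ᵥ a) (-A.en (3 * (-1)) +ᵥ b)) :
    s ∈ A.H (A.en (-3) +ᵥ a) b := by
  rw [zero_vadd, ← A.H_vadd (A.en (-3)), vadd_vadd] at h
  norm_num at h
  exact h

theorem l2a_H5'' {a b : A.L} {s : A.S} (h : s ∈ A.H (A.en (-3) +ᵥ (-A.en 3 +ᵥ a)) b) :
    s ∈ A.H (A.en (-3) +ᵥ a) (-A.en (3 * (-1)) +ᵥ b) := by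
  have h1 : A.en (3 * (-1)) = A.en (-3) := by norm_num
  rw [h1, ← A.H_vadd (A.en (-3)), vadd_vadd (A.en (-3)) (-A.en (-3)), add_neg_cancel, zero_vadd]
  rw [← A.en_neg] at h
  exact h

theorem hom_to_sJ {k : ℕ} (v : Fin k) (G : MF A W) (E : MFL A W (k + 1))
    (h : ∀ f : E ⟶ sJ v G, f = 0) : ∀ f : gr v.castSucc E ⟶ G, f = 0 := by
  intro f
  induction f using hom_ind with
  | h f hf =>
    set P : E.ι → Prop := fun i => l2aL E i = v.castSucc with hP
    let F1 : Matrix G.ι E.ι A.S := l2aC P f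
    let F2 : Matrix G.ι E.ι A.S := F1 * l2aD E - G.d * F1
    have hd1 : IsDeg (l2aE E) G 0 F1 := by
      intro a j
      by_cases hj : P j
      · exact l2a_tr (l2aC_pos f hj a) (hf.1 a ⟨j, hj⟩)
      · exact l2a_tr (l2aC_neg f hj a) (zero_mem _)
    have hd2 : IsDeg (l2aE E) G (A.en 3) F2 :=
      (hd1.mul (isDeg_d (l2aE E)) (zero_add _)).sub ((isDeg_d G).mul hd1 (add_zero _))
    have hz2 : ∀ a j, l2aL E j ≤ v.castSucc → F2 a j = 0 := by
      intro a j hj
      have e1 : (F1 * l2aD E) a j = ∑ l : {i // P i}, f a l * l2aD E l.1 j := l2aC_mul f j a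
      rcases lt_or_eq_of_le hj with h1 | h1
      · have e2 : (F1 * l2aD E) a j = 0 := by
          rw [e1]
          refine Finset.sum_eq_zero (fun l _ => ?_)
          rw [l2aD_zero E l.1 j, mul_zero]
          rw [l.2]; exact not_le.2 h1
        have e3 : (G.d * F1) a j = 0 := by
          rw [Matrix.mul_apply]
          refine Finset.sum_eq_zero (fun b _ => ?_)
          have : F1 b j = 0 := l2aC_neg f (ne_of_lt h1) b
          rw [this, mul_zero]
        exact (Matrix.sub_apply _ _ _ _).trans (by rw [e2, e3, sub_zero])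
      · have e3 : (G.d * F1) a j = ∑ b, G.d a b * f b ⟨j, h1⟩ := by
          rw [Matrix.mul_apply]
          refine Finset.sum_congr rfl (fun b _ => ?_)
          have : F1 b j = f b ⟨j, h1⟩ := l2aC_pos f h1 b
          rw [this]
        have e4 : ∑ b, G.d a b * f b ⟨j, h1⟩ = ∑ l : {i // P i}, f a l * l2aD E l.1 j :=
          congrFun (congrFun hf.2 a) ⟨j, h1⟩
        exact (Matrix.sub_apply _ _ _ _).trans (by rw [e1, e3, e4, sub_self])
    have hF : (fromRows F1 F2 : Matrix (G.ι ⊕ G.ι) E.ι A.S) ∈ Z0 E (sJ v G) := by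
      refine ⟨l2a_deg_intro (E := E) (F := sJ v G) (γ := 0) ?_ ?_, l2a_sjto_Z G.sq E.sq F1⟩
      · intro i j hn
        rcases i with a | a
        · exact l2aC_neg f (fun hj => hn (ge_of_eq hj)) a
        · refine hz2 a j ?_
          have h1 : ¬ v.succ ≤ l2aL E j := hn
          rw [not_le] at h1
          exact Fin.le_castSucc_iff.2 h1
      · intro i j _
        rcases i with a | a
        · exact hd1 a j
        · exact l2a_H5 (hd2 a j)
    obtain ⟨H₀, hH, hE⟩ := (mk_eq_zero hF).1 (h (mk _ hF))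
    obtain ⟨H, hHH⟩ : ∃ H : Matrix (G.ι ⊕ G.ι) E.ι A.S, H = H₀ := ⟨H₀, rfl⟩
    subst hHH
    obtain ⟨H1, hH1⟩ : ∃ H1 : Matrix G.ι E.ι A.S, H1 = toRows₁ H := ⟨_, rfl⟩
    obtain ⟨H2, hH2⟩ : ∃ H2 : Matrix G.ι E.ι A.S, H2 = toRows₂ H := ⟨_, rfl⟩
    have hB := l2a_sjto_B (F1 := F1) (F2 := F2) (H := H) (D := l2aD E) (dG := G.d) hE
    rw [← hH1, ← hH2] at hB
    have hm1 : ∀ i j, H1 i j ∈ A.H (A.en (-3) +ᵥ (l2aE E).p j) (G.p i) := by
      intro i j
      rw [hH1]
      exact l2a_deg_mem hH (Sum.inl i) j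
    have hm2 : ∀ j l, ¬ v.castSucc ≤ l2aL E l → H1 j l = 0 := by
      intro j l h1
      rw [hH1]
      exact l2a_deg_zero hH (Sum.inl j) l h1
    have hm3 : ∀ j l, ¬ v.succ ≤ l2aL E l → H2 j l = 0 := by
      intro j l h1
      rw [hH2]
      exact l2a_deg_zero hH (Sum.inr j) l h1
    refine (mk_eq_zero hf).2 ⟨l2aRc P H1, fun i j => hm1 i j.1, ?_⟩
    refine l2aC_htpy (P := P) (D := l2aD E) (dG := G.d) ?_ ?_ hB
    · intro j i hi
      refine hm3 j i (fun h1 => ?_)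
      rw [hi] at h1
      exact absurd (Fin.castSucc_lt_succ (i := v)) (not_lt.2 h1)
    · intro j l i hi hl
      rcases lt_or_gt_of_ne hl with h1 | h1
      · rw [hm2 j l (not_le.2 h1), zero_mul]
      · rw [l2aD_zero E l i (by rw [hi]; exact not_le.2 h1), mul_zero]

theorem hom_from_sJ {k : ℕ} (v : Fin k) (G : MF A W) (E : MFL A W (k + 1))
    (h : ∀ f : sJ v G ⟶ E, f = 0) : ∀ f : G ⟶ (gr v.succ E)⟦(-1 : ℤ)⟧, f = 0 := by
  change ∀ f : G ⟶ tw (A.en (3 * (-1))) (gr v.succ E), f = 0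
  intro f
  induction f using hom_ind with
  | h f hf =>
    set P : E.ι → Prop := fun i => l2aL E i = v.succ with hP
    let F2 : Matrix E.ι G.ι A.S := l2aR P f
    let F1 : Matrix E.ι G.ι A.S := l2aD E * F2 + F2 * G.d
    have hsg : (tw (A.en (3 * (-1))) (gr v.succ E)).d = -(gr v.succ E).d := by
      change sg (A.chΓ (A.en (3 * (-1)))) • (gr v.succ E).d = _
      rw [A.chΓ_en]
      have : sg (3 * (-1)) = -1 := by decide
      rw [this, neg_smul, one_smul]
    have hcl : (gr v.succ E).d * f = -(f * G.d) := by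
      have h2 := hf.2
      rw [hsg, Matrix.neg_mul] at h2
      rw [← h2, neg_neg]
    have hd2 : IsDeg G (l2aE E) (A.en (-3)) F2 := by
      intro i b
      by_cases hi : P i
      · exact l2a_tr (l2aR_pos f hi b) (l2a_H5' (hf.1 ⟨i, hi⟩ b))
      · exact l2a_tr (l2aR_neg f hi b) (zero_mem _)
    have hd1 : IsDeg G (l2aE E) 0 F1 :=
      ((isDeg_d (l2aE E)).mul hd2 (by rw [← A.en_add]; exact A.en_zero)).add
        (hd2.mul (isDeg_d G) (by rw [← A.en_add]; exact A.en_zero))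
    have hz1 : ∀ i b, v.succ ≤ l2aL E i → F1 i b = 0 := by
      intro i b hi
      have e1 : (l2aD E * F2) i b = ∑ l : {i // P i}, l2aD E i l.1 * f l b := l2aR_mul f i b
      rcases lt_or_eq_of_le hi with h1 | h1
      · have e2 : (l2aD E * F2) i b = 0 := by
          rw [e1]
          refine Finset.sum_eq_zero (fun l _ => ?_)
          rw [l2aD_zero E i l.1, zero_mul]
          rw [l.2]; exact not_le.2 h1
        have e3 : (F2 * G.d) i b = 0 := by
          rw [Matrix.mul_apply]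
          refine Finset.sum_eq_zero (fun c _ => ?_)
          have : F2 i c = 0 := l2aR_neg f (ne_of_gt h1) c
          rw [this, zero_mul]
        exact (Matrix.add_apply _ _ _ _).trans (by rw [e2, e3, add_zero])
      · have e3 : (F2 * G.d) i b = ∑ c, f ⟨i, h1.symm⟩ c * G.d c b := by
          rw [Matrix.mul_apply]
          refine Finset.sum_congr rfl (fun c _ => ?_)
          have : F2 i c = f ⟨i, h1.symm⟩ c := l2aR_pos f h1.symm c
          rw [this]
        have e4 : ∑ l : {i // P i}, l2aD E i l.1 * f l b = -(∑ c, f ⟨i, h1.symm⟩ c * G.d c b) :=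
          congrFun (congrFun hcl ⟨i, h1.symm⟩) b
        exact (Matrix.add_apply _ _ _ _).trans (by rw [e1, e3, e4, neg_add_cancel])
    have hF : (fromCols F1 F2 : Matrix E.ι (G.ι ⊕ G.ι) A.S) ∈ Z0 (sJ v G) E := by
      refine ⟨l2a_deg_intro (E := sJ v G) (F := E) (γ := 0) ?_ ?_, l2a_sjfrom_Z G.sq E.sq F2⟩
      · intro i j hn
        rcases j with b | b
        · refine hz1 i b ?_
          have h1 : ¬ l2aL E i ≤ v.castSucc := hn
          rw [not_le] at h1
          exact Fin.castSucc_lt_iff_succ_le.1 h1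
        · exact l2aR_neg f (fun hi => hn (le_of_eq hi)) b
      · intro i j _
        rcases j with b | b
        · exact hd1 i b
        · have := hd2 i b
          rw [A.en_neg] at this
          change F2 i b ∈ A.H ((0 : A.Γ) +ᵥ (-A.en 3 +ᵥ G.p b)) _
          rw [zero_vadd]
          exact this
    obtain ⟨H₀, hH, hE⟩ := (mk_eq_zero hF).1 (h (mk _ hF))
    obtain ⟨H, hHH⟩ : ∃ H : Matrix E.ι (G.ι ⊕ G.ι) A.S, H = H₀ := ⟨H₀, rfl⟩
    subst hHH
    obtain ⟨H1, hH1⟩ : ∃ H1 : Matrix E.ι G.ι A.S, H1 = toCols₁ H := ⟨_, rfl⟩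
    obtain ⟨H2, hH2⟩ : ∃ H2 : Matrix E.ι G.ι A.S, H2 = toCols₂ H := ⟨_, rfl⟩
    have hB := l2a_sjfrom_B (F1 := F1) (F2 := F2) (H := H) (D := l2aD E) (dG := G.d) hE
    rw [← hH1, ← hH2] at hB
    have hm1 : ∀ i j, H2 i j ∈ A.H (A.en (-3) +ᵥ (-A.en 3 +ᵥ G.p j)) ((l2aE E).p i) := by
      intro i j
      rw [hH2]
      exact l2a_deg_mem hH i (Sum.inr j)
    have hm2 : ∀ i j, ¬ l2aL E i ≤ v.castSucc → H1 i j = 0 := by
      intro i j h1
      rw [hH1]
      exact l2a_deg_zero hH i (Sum.inl j) h1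
    have hm3 : ∀ i j, ¬ l2aL E i ≤ v.succ → H2 i j = 0 := by
      intro i j h1
      rw [hH2]
      exact l2a_deg_zero hH i (Sum.inr j) h1
    have hfin : f = l2aS P (l2aD E) * l2aRr P H2 + l2aRr P H2 * (-G.d) := by
      refine l2aR_htpy (P := P) (D := l2aD E) (dG := -G.d) (H := H2) (H2 := H1) ?_ ?_ hB
      · intro i j hi
        refine hm2 i j (fun h1 => ?_)
        rw [hi] at h1
        exact absurd (Fin.castSucc_lt_succ (i := v)) (not_lt.2 h1)
      · intro i l j hi hl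
        rcases lt_or_gt_of_ne hl with h1 | h1
        · rw [l2aD_zero E i l (by rw [hi]; exact not_le.2 h1), zero_mul]
        · rw [hm3 l j (not_le.2 h1), mul_zero]
    have hneg : ∀ (X : Matrix {i // P i} {i // P i} A.S) (Y : Matrix {i // P i} G.ι A.S),
        X * Y + Y * (-G.d) = (-X) * (-Y) + (-Y) * G.d := by
      intro X Y
      rw [Matrix.mul_neg Y, Matrix.neg_mul X, Matrix.mul_neg X, neg_neg, Matrix.neg_mul Y]
    refine (mk_eq_zero hf).2 ⟨-(l2aRr P H2),
      fun i j => neg_mem (l2a_H5'' (hm1 i.1 j)), ?_⟩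
    rw [hsg]
    exact hfin.trans (hneg _ _)

end l2aG7

section l2aG8

section l2aPure2

variable {S ι κ μ : Type} [CommRing S] [Fintype ι] [DecidableEq ι]

/-- the inverse operation -/
def l2aV (f : Matrix {i : κ // True} {i : ι // True} S) : Matrix κ ι S :=
  fun i j => f ⟨i, trivial⟩ ⟨j, trivial⟩

theorem l2aV_mul (f : Matrix {i : κ // True} {i : ι // True} S)
    (g : Matrix {i : ι // True} {i : μ // True} S) : l2aV (f * g) = l2aV f * l2aV g := by
  ext i j
  have : ∑ l, l2aV f i l * l2aV g l j = ∑ l : {l : ι // True}, l2aV f i l.1 * l2aV g l.1 j :=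
    l2a_sum (fun _ => True) _ (fun l hl => absurd trivial hl)
  rw [Matrix.mul_apply, this]
  exact Matrix.mul_apply

end l2aPure2

variable {A : GCtx} {W : A.S}

/-- one level only: `tot` is an equivalence -/
theorem levTot_one_equiv : (levTot A W 1).functor.IsEquivalence := by
  have hfaith : (levTot A W 1).functor.Faithful := by
    constructor
    intro E F f g hfg
    induction f using hom_ind with
    | h f hf =>
    induction g using hom_ind with
    | h g hg =>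
      obtain ⟨H, hH, hE⟩ := (mk_eq_mk ((levTot A W 1).mat_Z0 hf) ((levTot A W 1).mat_Z0 hg)).1 hfg
      refine (mk_eq_mk hf hg).2 ⟨l2aV (κ := F.ι) (ι := E.ι) H, ?_, ?_⟩
      · refine l2a_deg_intro (E := E) (F := F) (γ := A.en (-3)) (fun i j hn => ?_)
          (fun i j _ => hH ⟨i, trivial⟩ ⟨j, trivial⟩)
        exact absurd (le_of_eq (Subsingleton.elim (α := Fin 1) _ _)) hn
      · have h1 := congrArg (l2aV (κ := F.ι) (ι := E.ι) (S := A.S)) hE
        refine h1.trans ?_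
        have h2 := l2aV_mul (κ := F.ι) (ι := F.ι) (μ := E.ι) (S := A.S) (tot F).d H
        have h3 := l2aV_mul (κ := F.ι) (ι := E.ι) (μ := E.ι) (S := A.S) H (tot E).d
        exact congrArg₂ (· + ·) h2 h3
  have hfull : (levTot A W 1).functor.Full := by
    constructor
    intro E F g
    induction g using hom_ind with
    | h g hg =>
      have hf : l2aV (κ := F.ι) (ι := E.ι) (S := A.S) g ∈ Z0 E F := by
        refine ⟨l2a_deg_intro (E := E) (F := F) (γ := 0) (fun i j hn => ?_)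
          (fun i j _ => hg.1 ⟨i, trivial⟩ ⟨j, trivial⟩), ?_⟩
        · exact absurd (le_of_eq (Subsingleton.elim (α := Fin 1) _ _)) hn
        · have h1 := congrArg (l2aV (κ := F.ι) (ι := E.ι) (S := A.S)) hg.2
          have h2 := l2aV_mul (κ := F.ι) (ι := F.ι) (μ := E.ι) (S := A.S) (tot F).d g
          have h3 := l2aV_mul (κ := F.ι) (ι := E.ι) (μ := E.ι) (S := A.S) g (tot E).d
          exact h2.symm.trans (h1.trans h3)
      exact ⟨mk _ hf, rfl⟩
  have hess : (levTot A W 1).functor.EssSurj := by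
    constructor
    intro G
    refine ⟨lvl 0 G, ?_⟩
    exact l2a_iso (E := tot (lvl 0 G)) (F := G)
      ⟨fun b => b.1.1, fun a => ⟨⟨a, trivial⟩, trivial⟩, fun _ => rfl, fun _ => rfl⟩
      (fun _ => rfl) (fun _ _ => rfl)
  exact { faithful := hfaith, full := hfull, essSurj := hess }

end l2aG8

end Vale.Agent.P287T.G3
end
end

section

section

/-!
# From `A[y]` with weights in `ℤ/3` to leveled matrix factorizations: functors
-/

open Matrix CategoryTheory CategoryTheory.Limits CategoryTheory.Pretriangulated Polynomial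

namespace Vale.Agent.P287T.G3

/-- the potential `W + y^3` on `A.T` -/
noncomputable def WT (A : GCtx) (W : A.S) : A.T.S := (C W + X ^ 3 : A.S[X])

/-- matrix factorizations of `W + y^3` with `ℤ/3`-weights -/
abbrev MFT (A : GCtx) (W : A.S) : Type 1 := MF A.T (WT A W)

/-- coefficient extraction: the entry from weight `u` to weight `v` (both represented in
`{0,..,2}`) is the coefficient of `y^{u-v}` if `v ≤ u`, and zero otherwise. -/
noncomputable def coeffT (A : GCtx) (a b : A.L × ZMod 3) : A.S[X] →+ A.S :=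
  if b.2.val ≤ a.2.val then (Polynomial.lcoeff A.S (a.2.val - b.2.val)).toAddMonoidHom else 0

theorem T1_en (A : GCtx) (n : ℕ) : A.en (-2 * n) = -(n • A.en 2) := by
  rw [show (-2 * (n : ℤ)) = -((n : ℤ) * 2) by ring, A.en_neg, GCtx.en, GCtx.en, mul_smul,
    natCast_zsmul]

/-- the degree of the variable -/
noncomputable def T1_η (A : GCtx) : (A.wt (ZMod 3)).Γ := (A.en 2, 1)

theorem T1_mem_aux (A : GCtx) (a b : (A.wt (ZMod 3)).L) (s : A.S) (n : ℕ) :
    s ∈ (A.wt (ZMod 3)).H (-(n • T1_η A) +ᵥ a) b ↔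
      (a.2 = b.2 + n ∧ s ∈ A.H (A.en (-2 * n) +ᵥ a.1) b.1) ∨ s = 0 := by
  have e2 : (-(n • T1_η A) +ᵥ a).2 = -(n • (1 : ZMod 3)) + a.2 := rfl
  have e1 : (-(n • T1_η A) +ᵥ a).1 = -(n • A.en 2) +ᵥ a.1 := rfl
  have h := GCtx.wt_mem_iff A (ZMod 3) (-(n • T1_η A) +ᵥ a) b s
  rw [h, e1, e2, ← T1_en]
  have e3 : -(n • (1 : ZMod 3)) + a.2 = b.2 ↔ a.2 = b.2 + n := by
    rw [nsmul_eq_mul, mul_one, neg_add_eq_iff_eq_add, add_comm]
  rw [e3]

/-- coefficients of homogeneous elements of `A.T` -/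
theorem T1_coeff (A : GCtx) {a b : A.L × ZMod 3} {f : A.S[X]}
    (hf : (f : A.T.S) ∈ A.T.H a b) (n : ℕ) :
    (a.2 = b.2 + n ∧ f.coeff n ∈ A.H (A.en (-2 * n) +ᵥ a.1) b.1) ∨ f.coeff n = 0 :=
  (T1_mem_aux A a b _ n).1 (hf n)

theorem T1_coeff_mem (A : GCtx) {a b : A.L × ZMod 3} {f : A.S[X]}
    (hf : (f : A.T.S) ∈ A.T.H a b) (n : ℕ) : f.coeff n ∈ A.H (A.en (-2 * n) +ᵥ a.1) b.1 := by
  rcases T1_coeff A hf n with h | h
  · exact h.2
  · rw [h]; exact zero_mem _

/-- the weights of nonzero coefficients -/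
theorem T1_weight (A : GCtx) {a b : A.L × ZMod 3} {f : A.S[X]}
    (hf : (f : A.T.S) ∈ A.T.H a b) {n : ℕ} (hn : f.coeff n ≠ 0) :
    a.2.val = (b.2.val + n) % 3 := by
  rcases T1_coeff A hf n with h | h
  · have h1 := congrArg ZMod.val h.1
    rw [h1, ZMod.val_add, ZMod.val_natCast, Nat.add_mod_mod]
  · exact absurd h hn

theorem T1_coeffT_pos (A : GCtx) {a b : A.L × ZMod 3} (h : b.2.val ≤ a.2.val) (f : A.S[X]) :
    coeffT A a b f = f.coeff (a.2.val - b.2.val) := by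
  rw [coeffT, if_pos h]; rfl

theorem T1_coeffT_neg (A : GCtx) {a b : A.L × ZMod 3} (h : ¬ b.2.val ≤ a.2.val) (f : A.S[X]) :
    coeffT A a b f = 0 := by
  rw [coeffT, if_neg h]; rfl

theorem T1_mul (A : GCtx) {a b c : A.L × ZMod 3} {x y : A.S[X]}
    (hx : (x : A.T.S) ∈ A.T.H b c) (hy : (y : A.T.S) ∈ A.T.H a b) :
    coeffT A a c (x * y) = coeffT A b c x * coeffT A a b y := by
  have la := ZMod.val_lt a.2
  have lb := ZMod.val_lt b.2
  have lc := ZMod.val_lt c.2
  by_cases h1 : c.2.val ≤ b.2.val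
  · by_cases h2 : b.2.val ≤ a.2.val
    · rw [T1_coeffT_pos A h1, T1_coeffT_pos A h2, T1_coeffT_pos A (h1.trans h2), coeff_mul]
      rw [Finset.sum_eq_single (b.2.val - c.2.val, a.2.val - b.2.val)]
      · rintro ⟨i, j⟩ hij hne
        by_contra hcon
        have hxi : x.coeff i ≠ 0 := fun h => hcon (by simp [h])
        have hyj : y.coeff j ≠ 0 := fun h => hcon (by simp [h])
        have w1 := T1_weight A hx hxi
        have w2 := T1_weight A hy hyj
        rw [Finset.HasAntidiagonal.mem_antidiagonal] at hij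
        simp only at hij
        apply hne
        rw [Prod.mk.injEq]
        omega
      · intro h
        exfalso
        apply h
        rw [Finset.HasAntidiagonal.mem_antidiagonal]
        simp only
        omega
    · rw [T1_coeffT_neg A h2, mul_zero]
      by_cases h3 : c.2.val ≤ a.2.val
      · rw [T1_coeffT_pos A h3, coeff_mul]
        refine Finset.sum_eq_zero ?_
        rintro ⟨i, j⟩ hij
        by_contra hcon
        have hxi : x.coeff i ≠ 0 := fun h => hcon (by simp [h])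
        have hyj : y.coeff j ≠ 0 := fun h => hcon (by simp [h])
        have w1 := T1_weight A hx hxi
        have w2 := T1_weight A hy hyj
        rw [Finset.HasAntidiagonal.mem_antidiagonal] at hij
        simp only at hij
        omega
      · rw [T1_coeffT_neg A h3]
  · rw [T1_coeffT_neg A h1, zero_mul]
    by_cases h3 : c.2.val ≤ a.2.val
    · rw [T1_coeffT_pos A h3, coeff_mul]
      refine Finset.sum_eq_zero ?_
      rintro ⟨i, j⟩ hij
      by_contra hcon
      have hxi : x.coeff i ≠ 0 := fun h => hcon (by simp [h])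
      have hyj : y.coeff j ≠ 0 := fun h => hcon (by simp [h])
      have w1 := T1_weight A hx hxi
      have w2 := T1_weight A hy hyj
      rw [Finset.HasAntidiagonal.mem_antidiagonal] at hij
      simp only at hij
      omega
    · rw [T1_coeffT_neg A h3]

/-- the product formula for the coefficients between the first and the second period -/
theorem T1_mul5 (A : GCtx) {a b c : A.L × ZMod 3} {x y : A.S[X]}
    (hx : (x : A.T.S) ∈ A.T.H b c) (hy : (y : A.T.S) ∈ A.T.H a b) :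
    (x * y).coeff (3 + a.2.val - c.2.val) =
      coeffT A b c x * y.coeff (3 + a.2.val - b.2.val) +
        x.coeff (3 + b.2.val - c.2.val) * coeffT A a b y := by
  have la := ZMod.val_lt a.2
  have lb := ZMod.val_lt b.2
  have lc := ZMod.val_lt c.2
  obtain ⟨u, hu⟩ : ∃ u, u = a.2.val := ⟨_, rfl⟩
  obtain ⟨v, hv⟩ : ∃ v, v = b.2.val := ⟨_, rfl⟩
  obtain ⟨w, hw⟩ : ∃ w, w = c.2.val := ⟨_, rfl⟩
  have key : ∀ p ∈ Finset.HasAntidiagonal.antidiagonal (3 + u - w), x.coeff p.1 * y.coeff p.2 =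
      (if p = (v - w, 3 + u - v) then (if w ≤ v then x.coeff (v - w) * y.coeff (3 + u - v) else 0)
        else 0) +
      (if p = (3 + v - w, u - v) then (if v ≤ u then x.coeff (3 + v - w) * y.coeff (u - v) else 0)
        else 0) := by
    rintro ⟨i, j⟩ hij
    rw [Finset.HasAntidiagonal.mem_antidiagonal] at hij
    simp only at hij ⊢
    by_cases hcon : x.coeff i * y.coeff j = 0
    · rw [hcon]
      have e1 : (if (i, j) = (v - w, 3 + u - v) then
          (if w ≤ v then x.coeff (v - w) * y.coeff (3 + u - v) else 0) else 0) = 0 := by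
        split_ifs with g1 g2
        · rw [Prod.mk.injEq] at g1
          rw [← g1.1, ← g1.2]; exact hcon
        · rfl
        · rfl
      have e2 : (if (i, j) = (3 + v - w, u - v) then
          (if v ≤ u then x.coeff (3 + v - w) * y.coeff (u - v) else 0) else 0) = 0 := by
        split_ifs with g1 g2
        · rw [Prod.mk.injEq] at g1
          rw [← g1.1, ← g1.2]; exact hcon
        · rfl
        · rfl
      rw [e1, e2, add_zero]
    · have hxi : x.coeff i ≠ 0 := fun h => hcon (by simp [h])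
      have hyj : y.coeff j ≠ 0 := fun h => hcon (by simp [h])
      have w1 := T1_weight A hx hxi
      have w2 := T1_weight A hy hyj
      rw [← hv, ← hw] at w1
      rw [← hu, ← hv] at w2
      rw [← hu] at la
      rw [← hv] at lb
      rw [← hw] at lc
      have hor : (w ≤ v ∧ i = v - w ∧ j = 3 + u - v) ∨ (v ≤ u ∧ i = 3 + v - w ∧ j = u - v) := by
        omega
      rcases hor with ⟨g1, g2, g3⟩ | ⟨g1, g2, g3⟩
      · have n1 : (i, j) = (v - w, 3 + u - v) := by rw [g2, g3]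
        have n2 : (i, j) ≠ (3 + v - w, u - v) := by
          intro h
          rw [Prod.mk.injEq] at h
          omega
        rw [if_pos n1, if_neg n2, if_pos g1, add_zero, g2, g3]
      · have n1 : (i, j) = (3 + v - w, u - v) := by rw [g2, g3]
        have n2 : (i, j) ≠ (v - w, 3 + u - v) := by
          intro h
          rw [Prod.mk.injEq] at h
          omega
        rw [if_neg n2, if_pos n1, if_pos g1, zero_add, g2, g3]
  rw [coeff_mul, ← hu, ← hv, ← hw, Finset.sum_congr rfl key, Finset.sum_add_distrib,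
    Finset.sum_ite_eq', Finset.sum_ite_eq']
  simp only [Finset.HasAntidiagonal.mem_antidiagonal]
  rw [← hu] at la
  rw [← hv] at lb
  rw [← hw] at lc
  congr 1
  · by_cases h : w ≤ v
    · rw [if_pos (by omega), if_pos h, T1_coeffT_pos A (by omega), ← hv, ← hw]
    · rw [if_neg h, ite_self, T1_coeffT_neg A (by omega), zero_mul]
  · by_cases h : v ≤ u
    · rw [if_pos (by omega), if_pos h, T1_coeffT_pos A (by omega), ← hu, ← hv]
    · rw [if_neg h, ite_self, T1_coeffT_neg A (by omega), mul_zero]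


theorem T1_vadd_snd (A : GCtx) (n : ℤ) (a : A.T.L) : (A.T.en n +ᵥ a).2 = a.2 := by
  change (n • (0 : ZMod 3)) + a.2 = a.2
  simp

theorem T1_vadd_fst (A : GCtx) (n : ℤ) (a : A.T.L) : (A.T.en n +ᵥ a).1 = A.en n +ᵥ a.1 := rfl

theorem T1_shift_mem (A : GCtx) {m n : ℤ} {l : ℤ} (h : l = m - n) {a b : A.L} {s : A.S} :
    s ∈ A.H (A.en m +ᵥ a) (A.en n +ᵥ b) ↔ s ∈ A.H (A.en l +ᵥ a) b := by
  have : A.en m = A.en n + A.en l := by rw [← A.en_add, h]; congr 1; ring
  rw [this, ← vadd_vadd, A.H_vadd]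

theorem T1_coeffT_mem (A : GCtx) {a b : A.L × ZMod 3} (h : b.2.val ≤ a.2.val) {s : A.S[X]}
    (hs : (s : A.T.S) ∈ A.T.H a b) :
    coeffT A a b s ∈ A.H (A.en (2 * (2 - (a.2.val : ℤ))) +ᵥ a.1)
      (A.en (2 * (2 - (b.2.val : ℤ))) +ᵥ b.1) := by
  rw [T1_coeffT_pos A h]
  refine (T1_shift_mem A (l := -2 * ((a.2.val - b.2.val : ℕ) : ℤ)) ?_).2 ?_
  · push_cast [Nat.cast_sub h]
    ring
  · exact T1_coeff_mem A hs _

theorem T1_coeffT_congr (A : GCtx) {a b a' b' : A.L × ZMod 3} (ha : a.2 = a'.2)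
    (hb : b.2 = b'.2) : coeffT A a b = coeffT A a' b' := by
  unfold coeffT
  rw [ha, hb]

theorem T1_coeffT_W (A : GCtx) (W : A.S) {a b : A.L × ZMod 3} (h : a.2 = b.2) :
    coeffT A a b (C W + X ^ 3 : A.S[X]) = W := by
  rw [T1_coeffT_pos A (by rw [h]), h, Nat.sub_self]
  simp

/-- `E ↦` weight `2` component of `E / y^3 E`, as a 3-leveled matrix factorization; a basis vector
`e_j` of weight `v` gives `y^{2-v} e_j` at level `v`. -/
noncomputable def TL5 (A : GCtx) (W : A.S) : CHom A.T (A.lev 3) (WT A W) (levS A 3 W) where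
  dom := fun _ => True
  lab := fun (a : A.L × ZMod 3) =>
    ((A.en (2 * (2 - (a.2.val : ℤ))) +ᵥ a.1, (⟨a.2.val, ZMod.val_lt a.2⟩ : Fin 3)) : A.L × Fin 3)
  θ := fun a b => coeffT A a b
  θ_mem := by
    intro (a : A.L × ZMod 3) (b : A.L × ZMod 3) (s : A.S[X]) _ _ hs
    refine (GCtx.lev_mem_iff A 3 _ _ _).2 ?_
    by_cases h : b.2.val ≤ a.2.val
    · exact Or.inl ⟨h, T1_coeffT_mem A h hs⟩
    · exact Or.inr (T1_coeffT_neg A h s)
  θ_one := by
    intro (a : A.L × ZMod 3) _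
    refine (T1_coeffT_pos A (a := a) (b := a) le_rfl (1 : A.S[X])).trans ?_
    rw [Nat.sub_self]
    exact Polynomial.coeff_one_zero
  θ_mul := by
    intro (a : A.L × ZMod 3) (b : A.L × ZMod 3) (c : A.L × ZMod 3) (x : A.S[X]) (y : A.S[X])
      _ _ _ hx hy
    exact T1_mul A hx hy
  θ_mul0 := by
    intro a b c x y _ h
    exact absurd trivial h
  dom_e := fun _ _ => Iff.rfl
  lab_e := by
    intro n a _
    have h1 := T1_vadd_snd A n a
    refine Prod.ext ?_ ?_
    · change A.en (2 * (2 - (((A.T.en n +ᵥ a).2.val : ℕ) : ℤ))) +ᵥ (A.en n +ᵥ a.1) =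
        A.en n +ᵥ (A.en (2 * (2 - ((a.2.val : ℕ) : ℤ))) +ᵥ a.1)
      rw [vadd_vadd, vadd_vadd, h1, add_comm]
    · apply Fin.ext
      change (A.T.en n +ᵥ a).2.val = a.2.val
      rw [h1]
  θ_e := by
    intro n a b _ _
    exact T1_coeffT_congr A (T1_vadd_snd A n a) (T1_vadd_snd A n b)
  θ_W := by
    intro a _ _
    exact T1_coeffT_W A W (T1_vadd_snd A 6 a)

/-- weight `v` component of `E / y E` -/
noncomputable def Tgr (A : GCtx) (W : A.S) (v : ZMod 3) : CHom A.T A (WT A W) W where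
  dom := fun (a : A.L × ZMod 3) => a.2 = v
  decdom := fun (a : A.L × ZMod 3) => inferInstanceAs (Decidable (a.2 = v))
  lab := fun (a : A.L × ZMod 3) => a.1
  θ := fun _ _ => (Polynomial.lcoeff A.S 0).toAddMonoidHom
  θ_mem := by
    intro (a : A.L × ZMod 3) (b : A.L × ZMod 3) (s : A.S[X]) _ _ hs
    have := T1_coeff_mem A hs 0
    simp only [Nat.cast_zero, mul_zero, A.en_zero, zero_vadd] at this
    exact this
  θ_one := by
    intro (a : A.L × ZMod 3) _
    exact Polynomial.coeff_one_zero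
  θ_mul := by
    intro a b c (x : A.S[X]) (y : A.S[X]) _ _ _ _ _
    exact Polynomial.mul_coeff_zero x y
  θ_mul0 := by
    intro (a : A.L × ZMod 3) (b : A.L × ZMod 3) (c : A.L × ZMod 3) (x : A.S[X]) (y : A.S[X])
      ha hb _ _ hy
    have h1 : (x * y).coeff 0 = x.coeff 0 * y.coeff 0 := Polynomial.mul_coeff_zero x y
    have h2 : y.coeff 0 = 0 := by
      rcases T1_coeff A hy 0 with h | h
      · exfalso
        apply hb
        rw [← ha, h.1]
        simp
      · exact h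
    change (x * y).coeff 0 = 0
    rw [h1, h2, mul_zero]
  dom_e := by
    intro n a
    have h1 := T1_vadd_snd A n a
    change (A.T.en n +ᵥ a).2 = v ↔ a.2 = v
    rw [h1]
  lab_e := by
    intro n a _
    rfl
  θ_e := fun _ _ _ _ _ => rfl
  θ_W := by
    intro a _ _
    change (C W + X ^ 3 : A.S[X]).coeff 0 = W
    simp

variable {A : GCtx} {W : A.S}

/-- weight `v` component of `E/yE` -/
noncomputable abbrev tgr (v : ZMod 3) (E : MFT A W) : MF A W := (Tgr A W v).functor.obj E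

/-- the five-leveled object -/
noncomputable abbrev tl5 (E : MFT A W) : MFL A W 3 := (TL5 A W).functor.obj E

/-- the four-leveled object -/
noncomputable abbrev tl4 (E : MFT A W) : MFL A W 2 :=
  (levB A W 1).functor.obj ((TL5 A W).functor.obj E)

/-- the index equivalence of the total object -/
def T1_e (E : MFT A W) : (tot (tl5 E)).ι ≃ E.ι :=
  (Equiv.subtypeUnivEquiv fun _ => trivial).trans (Equiv.subtypeUnivEquiv fun _ => trivial)

theorem T1_tot_d (E : MFT A W) (i j : (tot (tl5 E)).ι) : (tot (tl5 E)).d i j =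
    coeffT A (A.T.en 3 +ᵥ E.p (T1_e E j)) (E.p (T1_e E i)) (E.d (T1_e E i) (T1_e E j)) := rfl

theorem T1_tot_p (E : MFT A W) (i : (tot (tl5 E)).ι) : (tot (tl5 E)).p i =
    A.en (2 * (2 - (((E.p (T1_e E i)).2.val : ℕ) : ℤ))) +ᵥ (E.p (T1_e E i)).1 := rfl

/-- the total object of `tl5 E` is contractible (homotopy: `u`-derivative, `u = y^3`) -/
theorem tot_tl5 (E : MFT A W) : IsZero (tot (tl5 E)) := by
  rw [isZero_iff]
  let d' : Matrix E.ι E.ι A.S[X] := E.d
  have hd' : ∀ i j, (d' i j : A.T.S) ∈ A.T.H (A.T.en 3 +ᵥ E.p j) (E.p i) := E.deg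
  obtain ⟨h, hh⟩ : ∃ h : Matrix (tot (tl5 E)).ι (tot (tl5 E)).ι A.S, ∀ i j, h i j =
      (d' (T1_e E i) (T1_e E j)).coeff (3 + (E.p (T1_e E j)).2.val - (E.p (T1_e E i)).2.val) :=
    ⟨fun i j => _, fun i j => rfl⟩
  refine ⟨h, ?_, ?_⟩
  · intro i j
    have h1 := T1_coeff_mem A (hd' (T1_e E i) (T1_e E j))
      (3 + (E.p (T1_e E j)).2.val - (E.p (T1_e E i)).2.val)
    have hlt := ZMod.val_lt (E.p (T1_e E i)).2
    rw [hh, T1_tot_p, T1_tot_p, vadd_vadd, ← A.en_add]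
    rw [T1_vadd_fst, vadd_vadd, ← A.en_add] at h1
    rw [T1_shift_mem A (l := -3 + 2 * (2 - (((E.p (T1_e E j)).2.val : ℕ) : ℤ)) -
      2 * (2 - (((E.p (T1_e E i)).2.val : ℕ) : ℤ))) rfl]
    have e1 : -2 * ((3 + (E.p (T1_e E j)).2.val - (E.p (T1_e E i)).2.val : ℕ) : ℤ) + 3 =
        -3 + 2 * (2 - (((E.p (T1_e E j)).2.val : ℕ) : ℤ)) -
      2 * (2 - (((E.p (T1_e E i)).2.val : ℕ) : ℤ)) := by
      rw [Nat.cast_sub (by omega)]
      push_cast
      ring
    rw [← e1]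
    exact h1
  · ext i k
    have hgoal : ((tot (tl5 E)).d * h + h * (tot (tl5 E)).d) i k =
        ∑ j : (tot (tl5 E)).ι, ((tot (tl5 E)).d i j * h j k + h i j * (tot (tl5 E)).d j k) := by
      rw [Matrix.add_apply, Matrix.mul_apply, Matrix.mul_apply, ← Finset.sum_add_distrib]
    rw [hgoal]
    have hsq : (d' * d') (T1_e E i) (T1_e E k) =
        ((C W + X ^ 3 : A.S[X]) • (1 : Matrix E.ι E.ι A.S[X])) (T1_e E i) (T1_e E k) :=
      congrFun (congrFun E.sq _) _
    have hc := congrArg (fun f : A.S[X] =>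
      f.coeff (3 + (E.p (T1_e E k)).2.val - (E.p (T1_e E i)).2.val)) hsq
    simp only [Matrix.mul_apply, Polynomial.finsetSum_coeff] at hc
    have hsum : ∑ j : (tot (tl5 E)).ι, ((tot (tl5 E)).d i j * h j k +
        h i j * (tot (tl5 E)).d j k) =
        ∑ j : E.ι, (d' (T1_e E i) j * d' j (T1_e E k)).coeff
          (3 + (E.p (T1_e E k)).2.val - (E.p (T1_e E i)).2.val) := by
      rw [← (T1_e E).sum_comp]
      refine Finset.sum_congr rfl fun j _ => ?_
      have hx := hd' (T1_e E i) (T1_e E j)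
      have hy := hd' (T1_e E j) (T1_e E k)
      have hx' : (d' (T1_e E i) (T1_e E j) : A.T.S) ∈
          A.T.H (A.T.en 3 +ᵥ E.p (T1_e E j)) (E.p (T1_e E i)) := hx
      have hy' : (d' (T1_e E j) (T1_e E k) : A.T.S) ∈
          A.T.H (A.T.en 6 +ᵥ E.p (T1_e E k)) (A.T.en 3 +ᵥ E.p (T1_e E j)) := by
        have : A.T.en 6 = A.T.en 3 + A.T.en 3 := by rw [← A.T.en_add]; rfl
        rw [this, ← vadd_vadd, A.T.H_vadd]
        exact hy
      have key := T1_mul5 A hx' hy'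
      rw [T1_vadd_snd, T1_vadd_snd] at key
      rw [key, hh, hh, T1_tot_d, T1_tot_d]
      congr 2
      exact DFunLike.congr_fun (T1_coeffT_congr A
        ((T1_vadd_snd A 3 _).trans (T1_vadd_snd A 6 _).symm) (T1_vadd_snd A 3 _).symm) _
    refine Eq.trans ?_ hsum.symm
    rw [hc]
    rw [Matrix.smul_apply, Matrix.one_apply, Matrix.one_apply, smul_eq_mul]
    by_cases hik : i = k
    · subst hik
      rw [if_pos rfl, if_pos rfl, mul_one, Nat.add_sub_cancel]
      simp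
    · have hik' : T1_e E i ≠ T1_e E k := fun h => hik ((T1_e E).injective h)
      rw [if_neg hik, if_neg hik', mul_zero, Polynomial.coeff_zero]


theorem T1_val_iff (w : ZMod 3) (v : Fin 3) : w.val = v.val ↔ w = (v.val : ZMod 3) := by
  constructor
  · intro h
    rw [← h, ZMod.natCast_zmod_val]
  · intro h
    rw [h]
    exact ZMod.val_natCast_of_lt v.2

/-- the index equivalence -/
def T1_e5 (v : Fin 3) (E : MFT A W) :
    (gr v (tl5 E)).ι ≃ (tw (A.en (-2 * (2 - (v : ℤ)))) (tgr (v.val : ZMod 3) E)).ι where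
  toFun i := ⟨i.1.1, (T1_val_iff _ v).1 (congrArg Fin.val i.2)⟩
  invFun i := ⟨⟨i.1, trivial⟩, Fin.ext ((T1_val_iff _ v).2 i.2)⟩
  left_inv _ := rfl
  right_inv _ := rfl

/-- levels of `tl5 E` are twisted weight components of `E/yE` -/
theorem gr_tl5 (v : Fin 3) (E : MFT A W) :
    Nonempty (gr v (tl5 E) ≅ tw (A.en (-2 * (2 - (v : ℤ)))) (tgr (v.val : ZMod 3) E)) := by
  refine ⟨permIso (T1_e5 v E) ?_ ?_⟩
  · intro i
    have h : (⟨(E.p i.1.1).2.val, ZMod.val_lt _⟩ : Fin 3) = v := i.2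
    change -A.en (-2 * (2 - (v : ℤ))) +ᵥ (E.p i.1.1).1 =
      A.en (2 * (2 - (((E.p i.1.1).2.val : ℕ) : ℤ))) +ᵥ (E.p i.1.1).1
    have h2 : (E.p i.1.1).2.val = v.val := congrArg Fin.val h
    rw [h2, ← A.en_neg]
    congr 2
    ring
  · intro i j
    have hi : (E.p i.1.1).2.val = v.val := congrArg Fin.val i.2
    have hj : (E.p j.1.1).2.val = v.val := congrArg Fin.val j.2
    change sg (A.chΓ (A.en (-2 * (2 - (v : ℤ))))) • (E.d i.1.1 j.1.1 : A.S[X]).coeff 0 =
      coeffT A (A.T.en 3 +ᵥ E.p j.1.1) (E.p i.1.1) (E.d i.1.1 j.1.1)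
    have h5 : (A.T.en 3 +ᵥ E.p j.1.1).2 = (E.p j.1.1).2 := T1_vadd_snd A 3 _
    have h6 := T1_coeffT_pos A (a := A.T.en 3 +ᵥ E.p j.1.1) (b := E.p i.1.1)
      (by rw [h5, hi, hj]) (E.d i.1.1 j.1.1)
    refine Eq.trans ?_ h6.symm
    have h7 : (A.T.en 3 +ᵥ E.p j.1.1).2.val - (E.p i.1.1).2.val = 0 := by
      rw [h5, hi, hj, Nat.sub_self]
    rw [h7, A.chΓ_en]
    have h8 : sg (-2 * (2 - (v : ℤ))) = 1 := by
      unfold sg
      rw [Int.negOnePow_even _ ⟨-(2 - (v : ℤ)), by ring⟩]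
      rfl
    rw [h8, one_smul]
    rfl


theorem T1_pred : ∀ (w : Fin 3) (v : Fin 2), (w ≠ 0 ∧ Fin.predAbove (0 : Fin 2) w = v) ↔
    w = v.succ := by decide

/-- the index equivalence -/
def T1_e4 (v : Fin 2) (E : MFT A W) :
    (gr v (tl4 E)).ι ≃
      (tw (A.en (-2 * (1 - (v : ℤ)))) (tgr ((v.val + 1 : ℕ) : ZMod 3) E)).ι where
  toFun i := ⟨i.1.1.1, (T1_val_iff (E.p i.1.1.1).2 v.succ).1
    (congrArg Fin.val ((T1_pred _ v).1 ⟨i.1.2, i.2⟩))⟩
  invFun i := ⟨⟨⟨i.1, trivial⟩, ((T1_pred (⟨(E.p i.1).2.val, ZMod.val_lt _⟩ : Fin 3) v).2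
    (Fin.ext ((T1_val_iff (E.p i.1).2 v.succ).2 i.2))).1⟩,
    ((T1_pred (⟨(E.p i.1).2.val, ZMod.val_lt _⟩ : Fin 3) v).2
    (Fin.ext ((T1_val_iff (E.p i.1).2 v.succ).2 i.2))).2⟩
  left_inv _ := rfl
  right_inv _ := rfl

/-- levels of `tl4 E` -/
theorem gr_tl4 (v : Fin 2) (E : MFT A W) :
    Nonempty (gr v (tl4 E) ≅ tw (A.en (-2 * (1 - (v : ℤ)))) (tgr ((v.val + 1 : ℕ) : ZMod 3) E)) := by
  have hval : ∀ i : (gr v (tl4 E)).ι, (E.p i.1.1.1).2.val = v.val + 1 := fun i =>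
    (T1_val_iff (E.p i.1.1.1).2 v.succ).2 (T1_e4 v E i).2
  refine ⟨permIso (T1_e4 v E) ?_ ?_⟩
  · intro i
    change -A.en (-2 * (1 - (v : ℤ))) +ᵥ (E.p i.1.1.1).1 =
      A.en (2 * (2 - (((E.p i.1.1.1).2.val : ℕ) : ℤ))) +ᵥ (E.p i.1.1.1).1
    rw [hval i, ← A.en_neg]
    congr 2
    push_cast
    ring
  · intro i j
    have hi := hval i
    have hj := hval j
    change sg (A.chΓ (A.en (-2 * (1 - (v : ℤ))))) • (E.d i.1.1.1 j.1.1.1 : A.S[X]).coeff 0 =
      coeffT A (A.T.en 3 +ᵥ E.p j.1.1.1) (E.p i.1.1.1) (E.d i.1.1.1 j.1.1.1)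
    have h5 : (A.T.en 3 +ᵥ E.p j.1.1.1).2 = (E.p j.1.1.1).2 := T1_vadd_snd A 3 _
    have h6 := T1_coeffT_pos A (a := A.T.en 3 +ᵥ E.p j.1.1.1) (b := E.p i.1.1.1)
      (by rw [h5, hi, hj]) (E.d i.1.1.1 j.1.1.1)
    refine Eq.trans ?_ h6.symm
    have h7 : (A.T.en 3 +ᵥ E.p j.1.1.1).2.val - (E.p i.1.1.1).2.val = 0 := by
      rw [h5, hi, hj, Nat.sub_self]
    rw [h7, A.chΓ_en]
    have h8 : sg (-2 * (1 - (v : ℤ))) = 1 := by
      unfold sg
      rw [Int.negOnePow_even _ ⟨-(1 - (v : ℤ)), by ring⟩]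
      rfl
    rw [h8, one_smul]
    rfl

/-- central charge: the sum over the five sides -/
theorem Zf_eq_sum (E : MFT A W) : Zf E = ∑ v : ZMod 3, Zf (tgr v E) := by
  have h : ∀ v : ZMod 3, Zf (tgr v E) =
      ∑ i : E.ι, if (E.p i).2 = v then ray (-(A.T.ch (E.p i) : ℝ) / 3) else 0 := by
    intro v
    rw [← Finset.sum_filter]
    exact (Finset.sum_subtype (Finset.univ.filter fun i : E.ι => (E.p i).2 = v)
      (p := fun i => (E.p i).2 = v) (fun i => by simp)
      (fun i => ray (-(A.T.ch (E.p i) : ℝ) / 3))).symm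
  simp only [h]
  rw [Finset.sum_comm]
  refine Finset.sum_congr rfl fun i _ => ?_
  rw [Finset.sum_ite_eq, if_pos (Finset.mem_univ _)]


theorem T1_tot_levI (X : MFL A W 2) :
    Nonempty (tot ((levI A W 1).functor.obj X) ≅ tot X) :=
  ⟨permIso (E := tot ((levI A W 1).functor.obj X)) (F := tot X)
    { toFun := fun i => ⟨i.1.1, trivial⟩
      invFun := fun i => ⟨⟨i.1, trivial⟩, trivial⟩
      left_inv := fun _ => rfl
      right_inv := fun _ => rfl } (fun _ => rfl) (fun _ _ => rfl)⟩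

theorem T1_tot_lvl {k : ℕ} (v : Fin k) (G : MF A W) : Nonempty (tot (lvl v G) ≅ G) :=
  ⟨permIso (E := tot (lvl v G)) (F := G)
    { toFun := fun i => i.1.1
      invFun := fun i => ⟨⟨i, trivial⟩, trivial⟩
      left_inv := fun _ => rfl
      right_inv := fun _ => rfl } (fun _ => rfl) (fun _ _ => rfl)⟩

/-- the total object of `tl4 E` is the fifth side -/
theorem tot_tl4 (E : MFT A W) :
    Nonempty (tot (tl4 E) ≅ tw (A.en (-1)) (tgr 0 E)) := by
  obtain ⟨δ, hδ⟩ := (levGlue A W 1).tri1 (tl5 E)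
  have hT := (levTot A W 3).functor.map_distinguished _ hδ
  have hz : IsZero ((levTot A W 3).functor.mapTriangle.obj
      (Triangle.mk ((levGlue A W 1).ng.counit.app (tl5 E))
        ((levGlue A W 1).bi.unit.app (tl5 E)) δ)).obj₂ := tot_tl5 E
  have hiso := (Triangle.isZero₂_iff_isIso₃ _ hT).1 hz
  obtain ⟨e1⟩ := T1_tot_levI (tl4 E)
  obtain ⟨e2⟩ := T1_tot_lvl (0 : Fin 3) (gr (0 : Fin 3) (tl5 E))
  obtain ⟨e3⟩ := gr_tl5 (0 : Fin 3) E
  have e4 := asIso ((levTot A W 3).functor.mapTriangle.obj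
      (Triangle.mk ((levGlue A W 1).ng.counit.app (tl5 E))
        ((levGlue A W 1).bi.unit.app (tl5 E)) δ)).mor₃
  have e4' : tot ((levI A W 1).functor.obj (tl4 E)) ≅
    (tot (lvl (0 : Fin 3) (gr (0 : Fin 3) (tl5 E))))⟦(1 : ℤ)⟧ := e4
  have e5 : (tw (A.en (-2 * (2 - (((0 : Fin 3) : ℕ) : ℤ)))) (tgr (((0 : Fin 3).val : ℕ) : ZMod 3) E))⟦(1 : ℤ)⟧
      ≅ tw (A.en (-1)) (tgr (((0 : Fin 3).val : ℕ) : ZMod 3) E) :=
    (twAdd (tgr (((0 : Fin 3).val : ℕ) : ZMod 3) E) (a := A.en (-2 * (2 - (((0 : Fin 3) : ℕ) : ℤ))))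
      (b := A.en (3 * 1)) (c := A.en (-1)) (by rw [← A.en_add]; congr 1)).symm
  have e6 : tw (A.en (-1)) (tgr (((0 : Fin 3).val : ℕ) : ZMod 3) E) ≅
      tw (A.en (-1)) (tgr 0 E) := by
    have : (((0 : Fin 3).val : ℕ) : ZMod 3) = 0 := by simp
    rw [this]
  exact ⟨e1.symm ≪≫ e4' ≪≫ (shiftFunctor (MF A W) (1 : ℤ)).mapIso (e2 ≪≫ e3) ≪≫ e5 ≪≫ e6⟩

/-- the rank of a block diagonal matrix -/
theorem T1_rank_block {ι V K : Type} [Fintype ι] [DecidableEq ι] [Fintype V] [DecidableEq V]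
    [Field K] (w : ι → V) (M : Matrix ι ι K) (hM : ∀ i j, w i ≠ w j → M i j = 0) :
    M.rank = ∑ v, (M.submatrix (Subtype.val : {i // w i = v} → ι)
      (Subtype.val : {i // w i = v} → ι)).rank := by
  let Mv : ∀ v, Matrix {i // w i = v} {i // w i = v} K := fun v =>
    M.submatrix (Subtype.val : {i // w i = v} → ι) Subtype.val
  have hmul : ∀ (x : ι → K) (v : V) (i : {i // w i = v}),
      (M *ᵥ x) i.1 = (Mv v *ᵥ (fun j => x j.1)) i := by
    intro x v i
    change ∑ j, M i.1 j * x j = ∑ j : {i // w i = v}, M i.1 j.1 * x j.1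
    rw [← Finset.sum_subtype (Finset.univ.filter fun j : ι => w j = v)
      (p := fun j => w j = v) (fun j => by simp) (fun j => M i.1 j * x j)]
    rw [Finset.sum_filter]
    refine Finset.sum_congr rfl fun j _ => ?_
    by_cases h : w j = v
    · rw [if_pos h]
    · rw [if_neg h, hM i.1 j (by rw [i.2]; exact fun h' => h h'.symm), zero_mul]
  let f : LinearMap.ker M.mulVecLin →ₗ[K] (∀ v, LinearMap.ker (Mv v).mulVecLin) :=
    LinearMap.pi fun v => LinearMap.codRestrict _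
      ((LinearMap.funLeft K K (Subtype.val : {i // w i = v} → ι)).comp
        (LinearMap.ker M.mulVecLin).subtype) (by
      rintro ⟨x, hx⟩
      rw [LinearMap.mem_ker, Matrix.mulVecLin_apply] at hx ⊢
      funext i
      have := hmul x v i
      rw [hx] at this
      exact this.symm)
  have hf : Function.Bijective f := by
    constructor
    · rintro ⟨x, hx⟩ ⟨y, hy⟩ hxy
      apply Subtype.ext
      funext i
      have h1 := congrArg (fun g => (g (w i)).1 ⟨i, rfl⟩) hxy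
      exact h1
    · intro y
      refine ⟨⟨fun i => (y (w i)).1 ⟨i, rfl⟩, ?_⟩, ?_⟩
      · rw [LinearMap.mem_ker, Matrix.mulVecLin_apply]
        funext i
        have h1 := hmul (fun i => (y (w i)).1 ⟨i, rfl⟩) (w i) ⟨i, rfl⟩
        refine h1.trans ?_
        have h2 : (fun j : {j // w j = w i} => (y (w j.1)).1 ⟨j.1, rfl⟩) = (y (w i)).1 := by
          funext ⟨j, hj⟩
          have : ∀ (v : V) (hv : w j = v), (y (w j)).1 ⟨j, rfl⟩ = (y v).1 ⟨j, hv⟩ := by
            intro v hv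
            subst hv
            rfl
          exact this (w i) hj
        rw [h2]
        have h3 := (y (w i)).2
        rw [LinearMap.mem_ker, Matrix.mulVecLin_apply] at h3
        rw [h3]
        rfl
      · funext v
        apply Subtype.ext
        funext ⟨j, hj⟩
        subst hj
        rfl
  have h1 := (LinearEquiv.ofBijective f hf).finrank_eq
  rw [Module.finrank_pi_fintype] at h1
  have h2 : M.rank + Module.finrank K (LinearMap.ker M.mulVecLin) = Fintype.card ι := by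
    have := LinearMap.finrank_range_add_finrank_ker M.mulVecLin
    rw [Module.finrank_fintype_fun_eq_card] at this
    exact this
  have h3 : ∀ v, (Mv v).rank + Module.finrank K (LinearMap.ker (Mv v).mulVecLin) =
      Fintype.card {i // w i = v} := by
    intro v
    have := LinearMap.finrank_range_add_finrank_ker (Mv v).mulVecLin
    rw [Module.finrank_fintype_fun_eq_card] at this
    exact this
  have h4 : ∑ v, Fintype.card {i // w i = v} = Fintype.card ι := by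
    rw [← Fintype.card_sigma]
    exact Fintype.card_congr (Equiv.sigmaFiberEquiv w)
  have h5 : ∑ v, ((Mv v).rank + Module.finrank K (LinearMap.ker (Mv v).mulVecLin)) =
      Fintype.card ι := by
    rw [← h4]
    exact Finset.sum_congr rfl fun v _ => h3 v
  rw [Finset.sum_add_distrib, ← h1] at h5
  change M.rank = ∑ v, (Mv v).rank
  omega

/-- the potential vanishes at the origin -/
theorem T1_ev_W [GCtx.Aug A] (E : MF A W) (i : E.ι) : GCtx.Aug.ev (A := A) W = 0 := by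
  have h := ((isDeg_d E).mul (isDeg_d E) (A.en_add 3 3).symm) i i
  rw [E.sq, Matrix.smul_apply, Matrix.one_apply_eq, smul_eq_mul, mul_one] at h
  refine GCtx.Aug.ev_pos h ?_
  rw [A.ch_vadd, A.chΓ_en]
  omega

theorem T1_rank_le [GCtx.Aug A] (E : MF A W) : 2 * (dbar E).rank ≤ Fintype.card E.ι := by
  have h : dbar E * dbar E = 0 := by
    ext i j
    have h1 : dbar E * dbar E = (E.d * E.d).map (GCtx.Aug.ev (A := A)) := by
      rw [dbar, ← Matrix.map_mul]
    rw [h1, E.sq, Matrix.map_apply, Matrix.smul_apply, smul_eq_mul, map_mul, T1_ev_W E i,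
      zero_mul, Matrix.zero_apply]
  have := Matrix.rank_add_rank_le_card_of_mul_eq_zero h
  omega

/-- rank: the sum over the five sides -/
theorem rk_eq_sum [GCtx.Aug A] (E : MFT A W) : rk E = ∑ v : ZMod 3, rk (tgr v E) := by
  let w : E.ι → ZMod 3 := fun i => (E.p i).2
  have hM : ∀ i j, w i ≠ w j → dbar E i j = 0 := by
    intro i j hij
    change GCtx.Aug.ev (A := A) (Polynomial.coeff (R := A.S) (E.d i j) 0) = 0
    rcases T1_coeff A (E.deg i j) 0 with h | h
    · exfalso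
      apply hij
      have h1 := h.1
      rw [T1_vadd_snd, Nat.cast_zero, add_zero] at h1
      exact h1.symm
    · exact (congrArg (fun z : A.S => GCtx.Aug.ev (A := A) z) h).trans
        (map_zero (GCtx.Aug.ev (A := A)))
  have h1 := T1_rank_block w (dbar E) hM
  have h2 : ∀ v, ((dbar E).submatrix (Subtype.val : {i // w i = v} → E.ι)
      (Subtype.val : {i // w i = v} → E.ι)).rank =
      (dbar (tgr v E)).rank := fun v => rfl
  simp only [h2] at h1
  have h4 : ∑ v, Fintype.card (tgr v E).ι = Fintype.card E.ι := by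
    have : Fintype.card E.ι = Fintype.card (Σ v, {i // w i = v}) :=
      Fintype.card_congr (Equiv.sigmaFiberEquiv w).symm
    rw [this, Fintype.card_sigma]
    rfl
  unfold rk
  rw [h1, ← h4, Finset.mul_sum]
  rw [← Finset.sum_tsub_distrib _ fun v _ => T1_rank_le (tgr v E)]

/-- the twist action on sides -/
theorem tgr_tw (γ : A.Γ) (u v : ZMod 3) (E : MFT A W) :
    Nonempty (tgr v (tw ((γ, u) : A.Γ × ZMod 3) E) ≅ tw γ (tgr (v + u) E)) := by
  have key : ∀ i : E.ι, -u + (E.p i).2 = v ↔ (E.p i).2 = v + u := by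
    intro i
    rw [neg_add_eq_iff_eq_add, add_comm]
  refine ⟨permIso (E := tgr v (tw ((γ, u) : A.Γ × ZMod 3) E)) (F := tw γ (tgr (v + u) E))
    { toFun := fun i => ⟨i.1, (key i.1).1 i.2⟩
      invFun := fun i => ⟨i.1, (key i.1).2 i.2⟩
      left_inv := fun _ => rfl
      right_inv := fun _ => rfl } (fun _ => rfl) (fun i j => ?_)⟩
  exact (map_zsmul (Polynomial.lcoeff A.S 0).toAddMonoidHom (sg (A.chΓ γ)) (E.d i.1 j.1)).symm

end Vale.Agent.P287T.G3
end
end

section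

section

/-!
# Leveled matrix factorizations: windows, mass bound, tower
-/

open Matrix CategoryTheory CategoryTheory.Limits CategoryTheory.Pretriangulated

namespace Vale.Agent.P287T.G3

variable {A : GCtx} {W : A.S}

/-- `[n]_q = 1 + q + ... + q^{n-1}`, `q = exp(2πi/3)` -/
noncomputable def qn (n : ℕ) : ℂ := ∑ j ∈ Finset.range n, ray (2 * (j : ℝ) / 3)

/-- central charge on leveled objects -/
noncomputable def Zlev (Z : MF A W → ℂ) (k : ℕ) (E : MFL A W k) : ℂ :=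
  ∑ v : Fin k, qn (k - v) * Z (gr v E)

/-- rank function on leveled objects -/
noncomputable def rlev (r : MF A W → ℕ) (k : ℕ) (E : MFL A W k) : ℕ :=
  (∑ v : Fin k, r (gr v E)) + r (tot E)

/-- properties of the slicing on `Lev_{k+1}` maintained in the tower -/
structure LevPre (σ : Slic (MF A W)) (Z : MF A W → ℂ) (k : ℕ) (τ : Slic (MFL A W (k + 1))) :
    Prop where
  pre : PreStab τ (Zlev Z (k + 1))
  simple : ∀ (v : Fin k) (φ : ℝ) (G : MF A W), σ.P φ G →
    τ.P (φ + 2 * ((k : ℝ) - v) / 3) (sJ v G)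
  top : ∀ (φ : ℝ) (G : MF A W), σ.P φ G → τ.P φ (lvl (Fin.last k) G)
  full : ∀ (φ : ℝ) (G : MF A W), σ.P φ G → τ.P (φ + (k : ℝ) / 3) (lvl (0 : Fin (k + 1)) G)

section windows

variable {σ : Slic (MF A W)} {Z : MF A W → ℂ} {k : ℕ} {τ : Slic (MFL A W (k + 1))}

theorem LevPre.gr_U (h : LevPre σ Z k τ) (hσ : σ.HN) {φ : ℝ} {E : MFL A W (k + 1)}
    (hE : τ.U φ E) (v : Fin (k + 1)) : σ.U (φ - 2 * ((k : ℝ) - v) / 3) (gr v E) := by
  rw [Slic.HN.U_iff' σ hσ]
  intro ψ hψ G hG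
  induction v using Fin.lastCases with
  | last =>
    refine hom_to_lvl_last G E fun f => ?_
    refine τ.hom_zero' ?_ hE (h.top ψ G hG).2 f
    simpa using hψ
  | cast v =>
    refine hom_to_sJ v G E fun f => ?_
    refine τ.hom_zero' ?_ hE (h.simple v ψ G hG).2 f
    have h1 : ((v.castSucc : Fin (k + 1)) : ℕ) = (v : ℕ) := rfl
    rw [h1] at hψ
    linarith

theorem LevPre.gr_zero_V (h : LevPre σ Z k τ) (hσ : σ.HN) {φ : ℝ} {E : MFL A W (k + 1)}
    (hE : τ.Vc φ E) : σ.Vc (φ - (k : ℝ) / 3) (gr 0 E) := by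
  intro t ht
  rw [Slic.HN.V_iff' σ hσ]
  intro ψ hψ G hG
  refine hom_from_lvl_zero G E fun f => ?_
  exact τ.hom_zero' (by linarith) (h.full ψ G hG).1 hE f

theorem LevPre.gr_succ_V (h : LevPre σ Z k τ) (hσ : σ.HN) {φ : ℝ} {E : MFL A W (k + 1)}
    (hE : τ.Vc φ E) (v : Fin k) : σ.Vc (φ - 2 * ((k : ℝ) - v) / 3 + 1) (gr v.succ E) := by
  intro t ht
  have h1 : σ.V (t - 1) ((gr v.succ E)⟦(-1 : ℤ)⟧) := by
    rw [Slic.HN.V_iff' σ hσ]
    intro ψ hψ G hG
    refine hom_from_sJ v G E fun f => ?_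
    exact τ.hom_zero' (by linarith) (h.simple v ψ G hG).1 hE f
  have h2 := σ.shiftV_int t (-1) (gr v.succ E)
  have h3 : t + ((-1 : ℤ) : ℝ) = t - 1 := by push_cast; ring
  rw [h3] at h2
  exact h2.1 h1

theorem LevPre.tot_U (h : LevPre σ Z k τ) (hσ : σ.HN) {φ : ℝ} {E : MFL A W (k + 1)}
    (hE : τ.U φ E) : σ.U (φ - (k : ℝ) / 3) (tot E) := by
  rw [Slic.HN.U_iff' σ hσ]
  intro ψ hψ G hG
  refine hom_to_lvl_zero G E fun f => ?_
  exact τ.hom_zero' (by linarith) hE (h.full ψ G hG).2 f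

theorem LevPre.tot_V (h : LevPre σ Z k τ) (hσ : σ.HN) {φ : ℝ} {E : MFL A W (k + 1)}
    (hE : τ.Vc φ E) : σ.Vc φ (tot E) := by
  intro t ht
  rw [Slic.HN.V_iff' σ hσ]
  intro ψ hψ G hG
  refine hom_from_lvl_last G E fun f => ?_
  exact τ.hom_zero' (by linarith) (h.top ψ G hG).1 hE f

end windows

end Vale.Agent.P287T.G3
end
end

section

section

/-!
# Forms of degree five

Every quintic form over the complex numbers is a sum of fifth powers of linear forms, and for a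
smooth form the powers of the variables lie in the Jacobian ideal (Nullstellensatz).
-/

open MvPolynomial

namespace Vale.Agent.P287T.G3

namespace Pol

variable {n : ℕ}

/-- no common zero of the partial derivatives besides the origin -/
def Smooth (W : MvPolynomial (Fin n) ℂ) : Prop :=
  ∀ x : Fin n → ℂ, (∀ j, eval x (pderiv j W) = 0) → x = 0

theorem exists_pow_mem {W : MvPolynomial (Fin n) ℂ} (hs : Smooth W) (i : Fin n) :
    ∃ N : ℕ, (X i : MvPolynomial (Fin n) ℂ) ^ N ∈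
      Ideal.span (Set.range fun j => pderiv j W) := by
  set I := Ideal.span (Set.range fun j => pderiv j W) with hI
  have h1 : (X i : MvPolynomial (Fin n) ℂ) ∈ vanishingIdeal ℂ (zeroLocus ℂ I) := by
    intro x hx
    have h2 : x = 0 := by
      refine hs x fun j => ?_
      have h3 := hx (pderiv j W) (Ideal.subset_span ⟨j, rfl⟩)
      rwa [aeval_eq_eval] at h3
    rw [h2, aeval_X]
    rfl
  rw [vanishingIdeal_zeroLocus_eq_radical] at h1
  exact h1

/-- a common exponent -/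
theorem exists_pow_mem' {W : MvPolynomial (Fin n) ℂ} (hs : Smooth W) :
    ∃ N : ℕ, 2 ≤ N ∧ ∀ i, (X i : MvPolynomial (Fin n) ℂ) ^ N ∈
      Ideal.span (Set.range fun j => pderiv j W) := by
  choose N hN using fun i => exists_pow_mem hs i
  refine ⟨(∑ i, N i) + 2, by omega, fun i => ?_⟩
  have h1 : N i ≤ ∑ i, N i := Finset.single_le_sum (fun _ _ => Nat.zero_le _) (Finset.mem_univ i)
  exact Ideal.pow_mem_of_pow_mem _ (hN i) (h1.trans (Nat.le_add_right _ _))

section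

attribute [local instance] MvPolynomial.gradedAlgebra

theorem decompose_eq_comp (p : MvPolynomial (Fin n) ℂ) (i : ℕ) :
    (DirectSum.decompose (homogeneousSubmodule (Fin n) ℂ) p i : MvPolynomial (Fin n) ℂ) =
      homogeneousComponent i p :=
  decomposition.decompose'_apply p i

theorem homogeneousComponent_mul_right {l : MvPolynomial (Fin n) ℂ} {e : ℕ}
    (hl : l.IsHomogeneous e) (u : MvPolynomial (Fin n) ℂ) (d : ℕ) :
    homogeneousComponent (d + e) (u * l) = homogeneousComponent d u * l := by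
  rw [← decompose_eq_comp, ← decompose_eq_comp]
  exact DirectSum.coe_decompose_mul_add_of_right_mem _ hl

end

/-- homogeneous cofactors -/
theorem exists_cofactors {W : MvPolynomial (Fin n) ℂ} (hW : W.IsHomogeneous 3)
    (hs : Smooth W) : ∃ N : ℕ, 2 ≤ N ∧ ∀ i, ∃ a : Fin n → MvPolynomial (Fin n) ℂ,
      (∀ j, (a j).IsHomogeneous (N - 2)) ∧ X i ^ N = ∑ j, a j * pderiv j W := by
  obtain ⟨N, h4, hN⟩ := exists_pow_mem' hs
  refine ⟨N, h4, fun i => ?_⟩
  obtain ⟨a, ha⟩ := (Ideal.mem_span_range_iff_exists_fun).1 (hN i)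
  refine ⟨fun j => homogeneousComponent (N - 2) (a j),
    fun j => homogeneousComponent_isHomogeneous _ _, ?_⟩
  have h1 : homogeneousComponent N ((X i : MvPolynomial (Fin n) ℂ) ^ N) = X i ^ N :=
    homogeneousComponent_eq_self (isHomogeneous_X_pow i N)
  rw [← h1, ← ha, map_sum]
  refine Finset.sum_congr rfl fun j _ => ?_
  have h2 : (pderiv j W).IsHomogeneous 2 := hW.pderiv
  have h3 := homogeneousComponent_mul_right h2 (a j) (N - 2)
  rwa [Nat.sub_add_cancel h4] at h3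

/-- differentiating `d ^ 2 = W` -/
theorem deriv_sq {R S : Type*} [CommRing R] [CommRing S] [Algebra R S] (D : Derivation R S S)
    {ι : Type*} [Fintype ι] [DecidableEq ι] (d : Matrix ι ι S) (W : S)
    (h : d * d = W • (1 : Matrix ι ι S)) :
    d * d.map D + d.map D * d = D W • (1 : Matrix ι ι S) := by
  ext i k
  have h1 := congrArg D (congrFun (congrFun h i) k)
  rw [Matrix.mul_apply, map_sum] at h1
  simp only [Derivation.leibniz, smul_eq_mul] at h1
  rw [Finset.sum_add_distrib] at h1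
  rw [Matrix.add_apply, Matrix.mul_apply, Matrix.mul_apply]
  simp only [Matrix.map_apply]
  have h2 : D ((W • (1 : Matrix ι ι S)) i k) = (D W • (1 : Matrix ι ι S)) i k := by
    rw [Matrix.smul_apply, Matrix.smul_apply, smul_eq_mul, smul_eq_mul]
    by_cases hik : i = k
    · subst hik
      rw [Matrix.one_apply_eq, mul_one, mul_one]
    · rw [Matrix.one_apply_ne hik, mul_zero, mul_zero, map_zero]
  rw [h2] at h1
  rw [← h1]
  congr 1
  exact Finset.sum_congr rfl fun j _ => mul_comm _ _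

end Pol

end Vale.Agent.P287T.G3
end
end

section

section

/-!
# Strict functors from maps of contexts, and from blocks
-/

open Matrix CategoryTheory CategoryTheory.Limits CategoryTheory.Pretriangulated

namespace Vale.Agent.P287T.G3

variable {A B : GCtx} {W : A.S} {V : B.S}

section mats

variable {S R : Type} [CommRing S] [CommRing R] (φ : S →+* R) {a b : Type} [Fintype a]
  [DecidableEq a] [Fintype b] [DecidableEq b]

end mats

/-- maps of contexts -/
structure CMap (A B : GCtx) where of ::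
  φ : A.S →+* B.S
  lab : A.L → B.L
  lab_en : ∀ n a, lab (A.en n +ᵥ a) = B.en n +ᵥ lab a
  mem : ∀ {a b x}, x ∈ A.H a b → φ x ∈ B.H (lab a) (lab b)

namespace CMap

variable (Θ : CMap A B)

end CMap

end Vale.Agent.P287T.G3
end
end

section

section

/-!
# Leveled matrix factorizations: mass bound
-/

open Matrix CategoryTheory CategoryTheory.Limits CategoryTheory.Pretriangulated

namespace Vale.Agent.P287T.G3

variable {A : GCtx} {W : A.S}

theorem isRk_rlev {r : MF A W → ℕ} (hr : IsRk r) (k : ℕ) : IsRk (rlev r k) where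
  iso {X Y} e := by
    unfold rlev
    congr 1
    · exact Finset.sum_congr rfl fun v _ => hr.iso ((levGr A W k v).functor.mapIso e)
    · exact hr.iso ((levTot A W k).functor.mapIso e)
  shift X n := by
    unfold rlev
    congr 1
    · exact Finset.sum_congr rfl fun v _ =>
        (hr.iso (((levGr A W k v).functor.commShiftIso n).app X)).trans (hr.shift _ n)
    · exact (hr.iso (((levTot A W k).functor.commShiftIso n).app X)).trans (hr.shift _ n)
  sub T hT := by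
    unfold rlev
    have h1 : ∀ v, r (gr v T.obj₂) ≤ r (gr v T.obj₁) + r (gr v T.obj₃) := fun v =>
      hr.sub _ ((levGr A W k v).functor.map_distinguished T hT)
    have h2 : r (tot T.obj₂) ≤ r (tot T.obj₁) + r (tot T.obj₃) :=
      hr.sub _ ((levTot A W k).functor.map_distinguished T hT)
    have h3 := Finset.sum_le_sum fun v (_ : v ∈ (Finset.univ : Finset (Fin k))) => h1 v
    rw [Finset.sum_add_distrib] at h3
    omega
  zero X := by
    unfold rlev
    constructor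
    · intro h
      refine isZero_of_gr X fun v => ?_
      have h1 : ∑ v : Fin k, r (gr v X) = 0 := by omega
      rw [Finset.sum_eq_zero_iff] at h1
      exact (hr.zero _).1 (h1 v (Finset.mem_univ v))
    · intro h
      rw [Finset.sum_eq_zero fun v _ =>
        (hr.zero _).2 ((levGr A W k v).functor.map_isZero h),
        (hr.zero _).2 ((levTot A W k).functor.map_isZero h)]

theorem L2c_qn (n : ℕ) : (ray (2 / 3) - 1) * qn n = ray (2 * (n : ℝ) / 3) - 1 := by
  induction n with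
  | zero => simp [qn, ray_zero]
  | succ n ih =>
    have h1 : qn (n + 1) = qn n + ray (2 * (n : ℝ) / 3) := by
      unfold qn
      rw [Finset.sum_range_succ]
    have h2 : ray (2 * ((n + 1 : ℕ) : ℝ) / 3) = ray (2 / 3) * ray (2 * (n : ℝ) / 3) := by
      rw [← ray_add]
      congr 1
      push_cast
      ring
    rw [h1, mul_add, ih, h2]
    ring

theorem L2c_mu_sum (s : ℝ) {ι : Type*} (t : Finset ι) (f : ι → ℂ) :
    mu s (∑ i ∈ t, f i) = ∑ i ∈ t, mu s (f i) := by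
  simp only [mu, Finset.mul_sum, Complex.re_sum]

theorem L2c_ray : ray (2 / 3) - 1 = ((2 * Real.sin (Real.pi / 3) : ℝ) : ℂ) * ray (5 / 6) := by
  rw [ray_eq, ray_eq]
  have h1 : Real.pi * (2 / 3) = 2 * (Real.pi / 3) := by ring
  have h2 : Real.pi * (5 / 6) = Real.pi / 3 + Real.pi / 2 := by ring
  rw [h1, h2, Real.cos_add_pi_div_two, Real.sin_add_pi_div_two, Real.cos_two_mul,
    Real.sin_two_mul]
  have h3 := Real.sin_sq_add_cos_sq (Real.pi / 3)
  apply Complex.ext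
  · simp only [Complex.sub_re, Complex.one_re, Complex.re_ofReal_mul]
    nlinarith
  · simp only [Complex.sub_im, Complex.one_im, Complex.im_ofReal_mul]
    ring

/-- mass bound -/
theorem LevPre.stab {σ : Slic (MF A W)} {Z : MF A W → ℂ} {r : MF A W → ℕ} {c : ℝ} {k : ℕ}
    (hk : k ≤ 1) {τ : Slic (MFL A W (k + 1))} (h : LevPre σ Z k τ) (hσ : Stab σ Z r c) :
    Stab τ (Zlev Z (k + 1)) (rlev r (k + 1)) (c / 2) where
  hn := h.pre.hn
  add := h.pre.add
  rk := isRk_rlev hσ.rk (k + 1)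
  cpos := half_pos hσ.cpos
  ph φ E hE := by
    obtain ⟨m, hm, hZ⟩ := h.pre.ph φ E hE
    refine ⟨m, ?_, hZ⟩
    have hk' : (k : ℝ) ≤ 1 := by exact_mod_cast hk
    -- the identity for `(q - 1) Z`
    have hid : (ray (2 / 3) - 1) * Zlev Z (k + 1) E =
        (∑ v : Fin (k + 1), ray (2 * ((k : ℝ) + 1 - v) / 3) * Z (gr v E)) +
          ray 1 * Z (tot E) := by
      rw [tot_add Z hσ.add E, ray_one, neg_one_mul, ← sub_eq_add_neg, ← Finset.sum_sub_distrib]
      unfold Zlev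
      rw [Finset.mul_sum]
      refine Finset.sum_congr rfl fun v _ => ?_
      have h1 : (((k + 1 - (v : ℕ) : ℕ)) : ℝ) = (k : ℝ) + 1 - v := by
        rw [Nat.cast_sub (by omega)]
        push_cast
        ring
      rw [← mul_assoc, L2c_qn, h1]
      ring
    have hmu : mu (φ + 5 / 6) ((ray (2 / 3) - 1) * Zlev Z (k + 1) E) =
        2 * Real.sin (Real.pi / 3) * m := by
      rw [hZ, L2c_ray]
      have h1 : ((2 * Real.sin (Real.pi / 3) : ℝ) : ℂ) * ray (5 / 6) * (m * ray φ) =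
          ((2 * Real.sin (Real.pi / 3) * m : ℝ) : ℂ) * ray (φ + 5 / 6) := by
        rw [add_comm φ, ray_add]
        push_cast
        ring
      rw [h1, mu_mul_ray, sub_self, mul_zero, Real.cos_zero, mul_one]
    have hcos : Real.cos (Real.pi * (1 / 6)) = Real.sin (Real.pi / 3) := by
      rw [← Real.cos_pi_div_two_sub]
      congr 1
      ring
    have hgr : ∀ v : Fin (k + 1), c * Real.sin (Real.pi / 3) * r (gr v E) ≤
        mu (φ + 5 / 6) (ray (2 * ((k : ℝ) + 1 - v) / 3) * Z (gr v E)) := by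
      intro v
      rw [mu_ray_mul, ← hcos]
      have hU := h.gr_U hσ.hn hE.1 v
      induction v using Fin.cases with
      | zero =>
        have hV := h.gr_zero_V hσ.hn hE.2
        refine hσ.mu_ge (by norm_num) ?_ ?_ hU hV
        · linarith
        · simp only [Fin.val_zero, Nat.cast_zero]
          linarith
      | succ w =>
        have hV := h.gr_succ_V hσ.hn hE.2 w
        refine hσ.mu_ge (by norm_num) ?_ ?_ hU hV
        · linarith
        · simp only [Fin.val_succ, Nat.cast_add, Nat.cast_one]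
          linarith
    have htot : c * Real.sin (Real.pi / 3) * r (tot E) ≤ mu (φ + 5 / 6) (ray 1 * Z (tot E)) := by
      rw [mu_ray_mul, ← hcos]
      refine hσ.mu_ge (by norm_num) ?_ ?_ (h.tot_U hσ.hn hE.1) (h.tot_V hσ.hn hE.2)
      · linarith
      · linarith
    have hsum := add_le_add (Finset.sum_le_sum fun v (_ : v ∈ Finset.univ) => hgr v) htot
    rw [← L2c_mu_sum, ← mu_add, ← hid, hmu, ← Finset.mul_sum, ← mul_add] at hsum
    have hsin : 0 < Real.sin (Real.pi / 3) :=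
      Real.sin_pos_of_pos_of_lt_pi (by positivity) (by linarith [Real.pi_pos])
    have hr : ((rlev r (k + 1) E : ℕ) : ℝ) = (∑ v : Fin (k + 1), (r (gr v E) : ℝ)) + r (tot E) := by
      unfold rlev
      push_cast
      rfl
    rw [hr]
    have h5 : Real.sin (Real.pi / 3) *
        (c * ((∑ v : Fin (k + 1), (r (gr v E) : ℝ)) + r (tot E))) ≤
        Real.sin (Real.pi / 3) * (2 * m) := by linarith
    have h6 := le_of_mul_le_mul_left h5 hsin
    linarith

end Vale.Agent.P287T.G3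
end
end

section

section

/-!
# Hom-vanishing from side windows
-/

open Matrix CategoryTheory CategoryTheory.Limits CategoryTheory.Pretriangulated Polynomial

namespace Vale.Agent.P287T.G3

variable {A : GCtx} {W : A.S}

theorem T3b_B0_of_tw (γ : A.Γ) {E F : MF A W} {f : Matrix F.ι E.ι A.S}
    (hf : f ∈ B0 (tw γ E) (tw γ F)) : f ∈ B0 E F := by
  obtain ⟨h, hh, rfl⟩ := hf
  refine ⟨sg (A.chΓ γ) • h, ((isDeg_tw γ).1 hh).zsmul _, ?_⟩
  change (sg (A.chΓ γ) • F.d) * h + h * (sg (A.chΓ γ) • E.d) = _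
  simp only [Matrix.smul_mul, Matrix.mul_smul]

theorem T3b_V_tw {σ : Slic (MF A W)}
    (htw : ∀ (γ : A.Γ) (s : ℝ) (E : MF A W), σ.U s E → σ.U (s + (A.chΓ γ : ℝ) / 3) (tw γ E))
    {s : ℝ} {G : MF A W} {γ : A.Γ} (hγ : A.chΓ γ ≤ 0) (h : σ.V s G) : σ.V s (tw γ G) := by
  rw [σ.V_iff]
  intro X hX f
  have h1 : σ.U s (tw (-γ) X) := by
    refine σ.anti ?_ _ (htw (-γ) s X hX)
    rw [map_neg]
    have : (A.chΓ γ : ℝ) ≤ 0 := by exact_mod_cast hγ
    push_cast
    linarith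
  have h2 : (twF (-γ)).map f ≫ (twAdd G (a := γ) (b := -γ) (c := 0) (by simp)).inv ≫
      (twZero G rfl).hom = 0 := (σ.ts s).hom h1 h _
  have h3 : (twF (-γ)).map f = 0 := by
    have h4 := congrArg (fun z => z ≫ (twZero G rfl).inv ≫
      (twAdd G (a := γ) (b := -γ) (c := 0) (by simp)).hom) h2
    simpa using h4
  induction f using hom_ind with
  | h f hf =>
    rw [twF_map_mk, mk_eq_zero] at h3
    rw [mk_eq_zero]
    exact T3b_B0_of_tw _ h3

/-- the degree of the variable of `A.T` -/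
abbrev T3b_g (A : GCtx) : A.T.Γ := ((A.en 2, 1) : A.Γ × ZMod 3)

/-- the weight of a label -/
abbrev T3b_w {A : GCtx} (a : A.T.L) : ZMod 3 := @Prod.snd A.L (ZMod 3) a

/-- the label without weight -/
abbrev T3b_l {A : GCtx} (a : A.T.L) : A.L := @Prod.fst A.L (ZMod 3) a

theorem T3b_chg : A.T.chΓ (T3b_g A) = 2 := A.chΓ_en 2

/-- coefficients -/
noncomputable def T3b_c (A : GCtx) (n : ℕ) : A.T.S →+ A.S :=
  (Polynomial.lcoeff A.S n).toAddMonoidHom

/-- constants -/
noncomputable def T3b_C (A : GCtx) : A.S →+* A.T.S := (Polynomial.C : A.S →+* A.S[X])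

/-- the variable -/
noncomputable def T3b_X (A : GCtx) : A.T.S := (X : A.S[X])

theorem T3b_ext {s t : A.T.S} (h : ∀ n, T3b_c A n s = T3b_c A n t) : s = t :=
  Polynomial.ext h

theorem T3b_c0_mul (s t : A.T.S) : T3b_c A 0 (s * t) = T3b_c A 0 s * T3b_c A 0 t :=
  Polynomial.mul_coeff_zero (R := A.S) s t

theorem T3b_c_C (c : A.S) (n : ℕ) : T3b_c A n (T3b_C A c) = if n = 0 then c else 0 :=
  Polynomial.coeff_C

theorem T3b_c_X (s : A.T.S) (n : ℕ) : T3b_c A (n + 1) (T3b_X A * s) = T3b_c A n s :=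
  Polynomial.coeff_X_mul (R := A.S) s n

theorem T3b_c_X0 (s : A.T.S) : T3b_c A 0 (T3b_X A * s) = 0 := by
  rw [T3b_c0_mul]
  have : T3b_c A 0 (T3b_X A) = 0 := Polynomial.coeff_X_zero
  rw [this, zero_mul]

/-- division by the variable -/
noncomputable def T3b_div (s : A.T.S) : A.T.S := Polynomial.divX (R := A.S) s

theorem T3b_c_div (s : A.T.S) (n : ℕ) : T3b_c A n (T3b_div s) = T3b_c A (n + 1) s :=
  Polynomial.coeff_divX (R := A.S)

theorem T3b_X_div {s : A.T.S} (h : T3b_c A 0 s = 0) : T3b_X A * T3b_div s = s := by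
  refine T3b_ext fun n => ?_
  cases n with
  | zero => rw [T3b_c_X0, h]
  | succ n => rw [T3b_c_X, T3b_c_div]

theorem T3b_X_inj {s t : A.T.S} (h : T3b_X A * s = T3b_X A * t) : s = t := by
  refine T3b_ext fun n => ?_
  rw [← T3b_c_X s, ← T3b_c_X t, h]

theorem T3b_mem (a b : A.T.L) (f : A.T.S) : f ∈ (A.T).H a b ↔
    ∀ n : ℕ, T3b_c A n f ∈ (A.wt (ZMod 3)).H ((-(n • T3b_g A) +ᵥ a : A.T.L)) b := Iff.rfl

theorem T3b_wtH (a b : A.T.L) (s : A.S) : s ∈ (A.wt (ZMod 3)).H a b ↔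
    (T3b_w a = T3b_w b ∧ s ∈ A.H (T3b_l a) (T3b_l b)) ∨ s = 0 :=
  GCtx.wt_mem_iff A (ZMod 3) a b s

theorem T3b_vadd (γ : A.T.Γ) (a b : A.T.L) :
    (A.wt (ZMod 3)).H (γ +ᵥ a : A.T.L) (γ +ᵥ b : A.T.L) = (A.wt (ZMod 3)).H a b :=
  (A.wt (ZMod 3)).H_vadd γ a b

theorem T3b_coeff0 {a b : A.T.L} {f : A.T.S} (hf : f ∈ (A.T).H a b)
    (hab : T3b_w a ≠ T3b_w b) : T3b_c A 0 f = 0 := by
  have h1 := (T3b_mem a b f).1 hf 0
  rw [zero_smul, neg_zero, zero_vadd, T3b_wtH] at h1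
  rcases h1 with h1 | h1
  · exact absurd h1.1 hab
  · exact h1

theorem T3b_en2 (m : ℤ) (a : A.T.L) : T3b_w (A.T.en m +ᵥ a) = T3b_w a := by
  change (m • ((A.e, 0) : A.Γ × ZMod 3)).2 + T3b_w a = T3b_w a
  simp

theorem T3b_en1 (m : ℤ) (a : A.T.L) : T3b_l (A.T.en m +ᵥ a) = A.en m +ᵥ T3b_l a := by
  change (m • ((A.e, 0) : A.Γ × ZMod 3)).1 +ᵥ T3b_l a = A.en m +ᵥ T3b_l a
  rfl

theorem T3b_sum {ι M : Type} [Fintype ι] [AddCommMonoid M] {p : ι → Prop} [DecidablePred p]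
    (F : ι → M) (h : ∀ k, ¬ p k → F k = 0) : ∑ k, F k = ∑ k : {k // p k}, F k.1 := by
  rw [← Finset.sum_subtype (Finset.univ.filter p) (by simp) F]
  refine (Finset.sum_filter_of_ne fun k _ hk => ?_).symm
  by_contra hp
  exact hk (h k hp)

section step

variable {E' E : MFT A W}

/-- basis vectors of weight `v` -/
def T3b_mk (v : ZMod 3) (i : E.ι) (h : T3b_w (E.p i) = v) : (tgr v E).ι := ⟨i, h⟩

theorem T3b_sum_tgr {M : Type} [AddCommMonoid M] (v : ZMod 3) (F : E.ι → M)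
    (h : ∀ k, T3b_w (E.p k) ≠ v → F k = 0) : ∑ k, F k = ∑ k : (tgr v E).ι, F k.1 :=
  T3b_sum (p := (Tgr A W v).dom ∘ E.p) F h

/-- the constant part of a matrix with blocks `hh v` -/
noncomputable def T3b_H (hh : ∀ v : ZMod 3, Matrix (tgr v E).ι (tgr v E').ι A.S) :
    Matrix E.ι E'.ι A.T.S := fun i j =>
  if hw : T3b_w (E'.p j) = T3b_w (E.p i) then
    T3b_C A (hh (T3b_w (E.p i)) (T3b_mk _ i rfl) (T3b_mk _ j hw)) else 0

theorem T3b_H_eq (hh : ∀ v : ZMod 3, Matrix (tgr v E).ι (tgr v E').ι A.S) (v : ZMod 3)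
    (i : E.ι) (j : E'.ι) (hi : T3b_w (E.p i) = v) (hj : T3b_w (E'.p j) = v) :
    T3b_H hh i j = T3b_C A (hh v (T3b_mk v i hi) (T3b_mk v j hj)) := by
  subst hi
  unfold T3b_H
  rw [dif_pos hj]

theorem T3b_H_ne (hh : ∀ v : ZMod 3, Matrix (tgr v E).ι (tgr v E').ι A.S)
    (i : E.ι) (j : E'.ι) (h : T3b_w (E'.p j) ≠ T3b_w (E.p i)) :
    T3b_H hh i j = 0 := by
  unfold T3b_H
  rw [dif_neg h]

theorem T3b_H_deg {hh : ∀ v : ZMod 3, Matrix (tgr v E).ι (tgr v E').ι A.S}
    (hd : ∀ v, IsDeg (tgr v E') (tgr v E) (A.en (-3)) (hh v)) :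
    IsDeg E' E (A.T.en (-3)) (T3b_H hh) := by
  intro i j
  by_cases hw : T3b_w (E'.p j) = T3b_w (E.p i)
  · rw [T3b_H_eq hh _ i j rfl hw, T3b_mem]
    intro n
    rw [T3b_c_C]
    split_ifs with hn
    · subst hn
      rw [zero_smul, neg_zero, zero_vadd, T3b_wtH, T3b_en2, T3b_en1]
      exact Or.inl ⟨hw, hd _ (T3b_mk _ i rfl) (T3b_mk _ j hw)⟩
    · exact zero_mem _
  · rw [T3b_H_ne hh i j hw]
    exact zero_mem _

theorem T3b_step (hv : ∀ (v : ZMod 3) (f : tgr v E' ⟶ tgr v E), f = 0)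
    (f : Matrix E.ι E'.ι A.T.S) (hf : f ∈ Z0 E' E) :
    ∃ f1 : Matrix E.ι E'.ι A.T.S, f1 ∈ Z0 E' (tw (-T3b_g A) E) ∧
      f - T3b_X A • f1 ∈ B0 E' E := by
  have h1 : ∀ v : ZMod 3, ∃ h : Matrix (tgr v E).ι (tgr v E').ι A.S,
      IsDeg (tgr v E') (tgr v E) (A.en (-3)) h ∧
      (Tgr A W v).mat 0 E' E f = (tgr v E).d * h + h * (tgr v E').d := by
    intro v
    have h2 := hv v (mk _ ((Tgr A W v).mat_Z0 hf))
    exact (mk_eq_zero (E := tgr v E') (F := tgr v E) _).1 h2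
  choose hh hd he using h1
  set H : Matrix E.ι E'.ι A.T.S := T3b_H hh with hH
  have hHd := T3b_H_deg hd
  set r : Matrix E.ι E'.ι A.T.S := f - (E.d * H + H * E'.d) with hr
  have hB : (E.d * H + H * E'.d) ∈ B0 E' E := ⟨H, hHd, rfl⟩
  have hrZ : r ∈ Z0 E' E := sub_mem hf (B0_le_Z0 _ _ hB)
  have hEd : ∀ i k, T3b_w (E.p k) ≠ T3b_w (E.p i) → T3b_c A 0 (E.d i k) = 0 := by
    intro i k hik
    refine T3b_coeff0 (E.deg i k) ?_
    rwa [T3b_en2]
  have hEd' : ∀ i k, T3b_w (E'.p k) ≠ T3b_w (E'.p i) → T3b_c A 0 (E'.d i k) = 0 := by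
    intro i k hik
    refine T3b_coeff0 (E'.deg i k) ?_
    rwa [T3b_en2]
  have hr0 : ∀ i j, T3b_c A 0 (r i j) = 0 := by
    intro i j
    have e1 : T3b_c A 0 (r i j) = T3b_c A 0 (f i j) -
        (∑ k, T3b_c A 0 (E.d i k) * T3b_c A 0 (H k j) +
        ∑ k, T3b_c A 0 (H i k) * T3b_c A 0 (E'.d k j)) := by
      rw [hr, Matrix.sub_apply, Matrix.add_apply, Matrix.mul_apply, Matrix.mul_apply,
        map_sub, map_add, map_sum, map_sum]
      simp only [T3b_c0_mul]
    rw [e1]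
    by_cases hw : T3b_w (E'.p j) = T3b_w (E.p i)
    · have e2 := congrFun (congrFun (he (T3b_w (E.p i))) (T3b_mk _ i rfl)) (T3b_mk _ j hw)
      rw [Matrix.add_apply, Matrix.mul_apply, Matrix.mul_apply] at e2
      have e3 : T3b_c A 0 (f i j) = (Tgr A W (T3b_w (E.p i))).mat 0 E' E f (T3b_mk _ i rfl)
        (T3b_mk _ j hw) := rfl
      rw [e3, e2, sub_eq_zero]
      congr 1
      · symm
        rw [T3b_sum_tgr (E := E) (T3b_w (E.p i))]
        · refine Finset.sum_congr rfl fun k _ => ?_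
          have hk : T3b_w (E.p k.1) = T3b_w (E.p i) := k.2
          rw [hH, T3b_H_eq hh _ k.1 j hk hw, T3b_c_C, if_pos rfl]
          rfl
        · intro k hk
          rw [hEd i k hk, zero_mul]
      · symm
        rw [T3b_sum_tgr (E := E') (T3b_w (E.p i))]
        · refine Finset.sum_congr rfl fun k _ => ?_
          have hk : T3b_w (E'.p k.1) = T3b_w (E.p i) := k.2
          rw [hH, T3b_H_eq hh _ i k.1 rfl hk, T3b_c_C, if_pos rfl]
          rfl
        · intro k hk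
          rw [hH, T3b_H_ne hh i k hk, map_zero, zero_mul]
    · have e2 : T3b_c A 0 (f i j) = 0 := by
        refine T3b_coeff0 (hf.1 i j) ?_
        rwa [zero_vadd]
      rw [e2, Finset.sum_eq_zero, Finset.sum_eq_zero]
      · simp
      · intro k _
        by_cases hk : T3b_w (E'.p k) = T3b_w (E.p i)
        · rw [hEd' k j (by rw [hk]; exact hw), mul_zero]
        · rw [hH, T3b_H_ne hh i k hk, map_zero, zero_mul]
      · intro k _
        by_cases hk : T3b_w (E.p k) = T3b_w (E.p i)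
        · rw [hH, T3b_H_ne hh k j (by rw [hk]; exact hw), map_zero, mul_zero]
        · rw [hEd i k hk, zero_mul]
  set f1 : Matrix E.ι E'.ι A.T.S := fun i j => T3b_div (r i j) with hf1
  have hXf : T3b_X A • f1 = r := by
    ext1 i j
    rw [Matrix.smul_apply, smul_eq_mul]
    exact T3b_X_div (hr0 i j)
  refine ⟨f1, ⟨?_, ?_⟩, ?_⟩
  · intro i j
    rw [T3b_mem]
    intro n
    have h2 := (T3b_mem _ _ _).1 (hrZ.1 i j) (n + 1)
    rw [hf1, T3b_c_div]
    rw [← T3b_vadd (T3b_g A)] at h2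
    have e1 : T3b_g A +ᵥ (-((n + 1) • T3b_g A) +ᵥ ((0 : A.T.Γ) +ᵥ E'.p j)) =
        -(n • T3b_g A) +ᵥ ((0 : A.T.Γ) +ᵥ E'.p j) := by
      rw [vadd_vadd]
      congr 1
      rw [succ_nsmul]
      abel
    have e2 : (tw (-T3b_g A) E).p i = T3b_g A +ᵥ E.p i := by
      rw [tw_p, neg_neg]
    rw [e1] at h2
    rw [e2]
    exact h2
  · have h3 : T3b_X A • (E.d * f1) = T3b_X A • (f1 * E'.d) := by
      rw [← Matrix.mul_smul, ← Matrix.smul_mul, hXf]
      exact hrZ.2
    have h4 : sg (A.T.chΓ (-T3b_g A)) = 1 := by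
      rw [map_neg, T3b_chg, sg_neg]
      decide
    rw [tw_d, h4, one_smul]
    ext1 i j
    refine T3b_X_inj ?_
    have h5 := congrFun (congrFun h3 i) j
    rwa [Matrix.smul_apply, Matrix.smul_apply, smul_eq_mul, smul_eq_mul] at h5
  · rw [hXf, hr, sub_sub_cancel]
    exact hB

theorem T3b_XB0 {b : Matrix E.ι E'.ι A.T.S} (hb : b ∈ B0 E' (tw (-T3b_g A) E)) :
    T3b_X A • b ∈ B0 E' E := by
  obtain ⟨h, hh, rfl⟩ := hb
  have h4 : sg (A.T.chΓ (-T3b_g A)) = 1 := by
    rw [map_neg, T3b_chg, sg_neg]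
    decide
  refine ⟨T3b_X A • h, ?_, ?_⟩
  · intro i j
    rw [Matrix.smul_apply, smul_eq_mul, T3b_mem]
    intro n
    cases n with
    | zero =>
      rw [T3b_c_X0]
      exact zero_mem _
    | succ n =>
      rw [T3b_c_X]
      have h2 := (T3b_mem _ _ _).1 (hh i j) n
      have e2 : (tw (-T3b_g A) E).p i = T3b_g A +ᵥ E.p i := by
        rw [tw_p, neg_neg]
      rw [e2, ← T3b_vadd (-T3b_g A), vadd_vadd, vadd_vadd (-T3b_g A) (T3b_g A), neg_add_cancel,
        zero_vadd] at h2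
      have e1 : -T3b_g A + -(n • T3b_g A) = -((n + 1) • T3b_g A) := by
        rw [succ_nsmul]
        abel
      rwa [e1] at h2
  · rw [tw_d, h4, one_smul, smul_add, ← Matrix.mul_smul, ← Matrix.smul_mul]

/-- derivative with respect to the variable -/
noncomputable def T3b_D (A : GCtx) : A.T.S →+ A.T.S :=
  ((Polynomial.derivative : A.S[X] →ₗ[A.S] A.S[X]).toAddMonoidHom : A.S[X] →+ A.S[X])

theorem T3b_D_mul (s t : A.T.S) : T3b_D A (s * t) = T3b_D A s * t + s * T3b_D A t :=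
  Polynomial.derivative_mul (R := A.S) (f := s) (g := t)

theorem T3b_D_c (s : A.T.S) (n : ℕ) : T3b_c A n (T3b_D A s) = (n + 1) • T3b_c A (n + 1) s := by
  have h := Polynomial.coeff_derivative (R := A.S) s n
  rw [nsmul_eq_mul, mul_comm]
  push_cast
  exact h

theorem T3b_D_W : T3b_D A (WT A W) = 3 * T3b_X A ^ 2 := by
  change Polynomial.derivative (C W + X ^ 3 : A.S[X]) = (3 * X ^ 2 : A.S[X])
  rw [derivative_add, derivative_C, zero_add, derivative_X_pow]
  have h5 : (C (3 : A.S) : A.S[X]) = 3 := map_ofNat C 3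
  simp only [Nat.cast_ofNat, h5]
  rfl

theorem T3b_5g : (3 : ℕ) • T3b_g A = A.T.en 6 := by
  change (3 : ℕ) • ((A.en 2, 1) : A.Γ × ZMod 3) = (6 : ℤ) • ((A.e, 0) : A.Γ × ZMod 3)
  refine Prod.ext ?_ ?_
  · change (3 : ℕ) • ((2 : ℤ) • A.e) = (6 : ℤ) • A.e
    rw [← natCast_zsmul, smul_smul]
    norm_num
  · change (3 : ℕ) • (1 : ZMod 3) = (6 : ℤ) • (0 : ZMod 3)
    decide

theorem T3b_Dd (E : MFT A W) : E.d.map (T3b_D A) * E.d + E.d * E.d.map (T3b_D A) =
    (3 * T3b_X A ^ 2) • (1 : Matrix E.ι E.ι A.T.S) := by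
  rw [← T3b_D_W (W := W)]
  have h : (E.d * E.d).map (T3b_D A) =
      (WT A W • (1 : Matrix E.ι E.ι A.T.S)).map (T3b_D A) := by rw [E.sq]
  have h1 : (E.d * E.d).map (T3b_D A) =
      E.d.map (T3b_D A) * E.d + E.d * E.d.map (T3b_D A) := by
    ext1 i j
    rw [Matrix.map_apply, Matrix.mul_apply, map_sum, Matrix.add_apply, Matrix.mul_apply,
      Matrix.mul_apply, ← Finset.sum_add_distrib]
    refine Finset.sum_congr rfl fun k _ => ?_
    rw [T3b_D_mul, Matrix.map_apply, Matrix.map_apply]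
  rw [← h1, h]
  ext1 i j
  rw [Matrix.map_apply, Matrix.smul_apply, Matrix.smul_apply]
  by_cases hij : i = j
  · subst hij
    rw [Matrix.one_apply_eq, smul_eq_mul, smul_eq_mul, mul_one, mul_one]
  · rw [Matrix.one_apply_ne hij, smul_zero, smul_zero, map_zero]

theorem T3b_D_deg (E : MFT A W) :
    IsDeg (tw (-T3b_g A) (tw (-T3b_g A) E)) E (A.T.en (-3))
      (E.d.map (T3b_D A)) := by
  intro i j
  rw [Matrix.map_apply, T3b_mem]
  intro n
  rw [T3b_D_c]
  refine nsmul_mem ?_ _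
  have h2 := (T3b_mem _ _ _).1 (E.deg i j) (n + 1)
  rw [vadd_vadd] at h2
  rw [tw_p, tw_p, neg_neg, vadd_vadd, vadd_vadd, vadd_vadd]
  have e1 : -((n + 1) • T3b_g A) + A.T.en 3 =
      -(n • T3b_g A) + A.T.en (-3) + T3b_g A + T3b_g A := by
    have h5 := T3b_5g (A := A)
    have h6 : A.T.en 6 = A.T.en 3 + A.T.en 3 := by rw [← A.T.en_add]; rfl
    rw [h6] at h5
    have h7 : (3 : ℕ) • T3b_g A = T3b_g A + T3b_g A + T3b_g A := by
      rw [show (3 : ℕ) = 1 + 1 + 1 from rfl]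
      simp only [add_smul, one_smul]
    rw [h7] at h5
    rw [A.T.en_neg, succ_nsmul, ← sub_eq_zero]
    rw [← sub_eq_zero] at h5
    rw [← neg_eq_zero, ← h5]
    abel
  rwa [e1] at h2

theorem T3b_X4_deg {f4 : Matrix E.ι E'.ι A.T.S}
    (hf : IsDeg E' (tw (-T3b_g A) (tw (-T3b_g A) E)) 0 f4) :
    IsDeg E' E (A.T.en (-3)) (E.d.map (T3b_D A) * f4) :=
  IsDeg.mul (E := E') (F := tw (-T3b_g A) (tw (-T3b_g A) E))
    (G := E) (r := 0) (s := A.T.en (-3)) (t := A.T.en (-3)) (T3b_D_deg E) hf (add_zero _)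

theorem T3b_X4_cl {f4 : Matrix E.ι E'.ι A.T.S}
    (hf : f4 ∈ Z0 E' (tw (-T3b_g A) (tw (-T3b_g A) E))) :
    E.d * f4 = f4 * E'.d := by
  have h4 : sg (A.T.chΓ (-T3b_g A)) = 1 := by
    rw [map_neg, T3b_chg, sg_neg]
    decide
  have h5 := hf.2
  rw [tw_d, tw_d, h4, one_smul, one_smul] at h5
  exact h5

theorem T3b_X4 [GCtx.Aug A] {f4 : Matrix E.ι E'.ι A.T.S}
    (hf : f4 ∈ Z0 E' (tw (-T3b_g A) (tw (-T3b_g A) E))) :
    T3b_X A ^ 2 • f4 ∈ B0 E' E := by
  set c : A.T.S := GCtx.Aug.cst (A := A.T) (1 / 3) with hc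
  have hc5 : c * 3 = 1 := by
    have h1 : (3 : A.T.S) = GCtx.Aug.cst (A := A.T) 3 := (map_ofNat _ 3).symm
    rw [hc, h1, ← map_mul]
    norm_num
  have hcl : E.d * f4 = f4 * E'.d := T3b_X4_cl hf
  have hdeg : IsDeg E' E (A.T.en (-3)) (E.d.map (T3b_D A) * f4) := T3b_X4_deg hf.1
  refine ⟨c • (E.d.map (T3b_D A) * f4), ?_, ?_⟩
  · intro i j
    rw [Matrix.smul_apply, smul_eq_mul]
    exact A.T.mul_mem (GCtx.Aug.cst_mem (A := A.T) _ _) (hdeg i j)
  · rw [Matrix.mul_smul, Matrix.smul_mul, ← smul_add, Matrix.mul_assoc, ← hcl,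
      ← Matrix.mul_assoc, ← Matrix.mul_assoc, ← Matrix.add_mul, add_comm, T3b_Dd,
      Matrix.smul_mul, Matrix.one_mul, smul_smul, ← mul_assoc, hc5, one_mul]

theorem T3b_V1 {σ : Slic (MF A W)}
    (htw : ∀ (γ : A.Γ) (s : ℝ) (E : MF A W), σ.U s E → σ.U (s + (A.chΓ γ : ℝ) / 3) (tw γ E))
    {a : ℝ} (h : ∀ v, σ.V a (tgr v E)) (v : ZMod 3) : σ.V a (tgr v (tw (-T3b_g A) E)) := by
  obtain ⟨e⟩ := tgr_tw (-A.en 2) (-1) v E
  refine (σ.ts a).isoV e.symm (T3b_V_tw htw ?_ (h _))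
  rw [map_neg, A.chΓ_en]
  norm_num

end step

/-- Hom-vanishing from the sides: `E'` is filtered by `lvl i (gr i E')`, `Hom(lvl i G, E)` is
`Hom(G, F_i E)` with `F_i E` filtered by `gr j E`, `j ≤ i`. -/
theorem hom_zero_of_sides [GCtx.Aug A] {σ : Slic (MF A W)}
    (htw : ∀ (γ : A.Γ) (s : ℝ) (E : MF A W), σ.U s E → σ.U (s + (A.chΓ γ : ℝ) / 3) (tw γ E))
    {a : ℝ} {E' E : MFT A W} (h' : ∀ v, σ.U a (tgr v E'))
    (h : ∀ v, σ.V a (tgr v E)) : ∀ f : E' ⟶ E, f = 0 := by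
  intro f
  induction f using hom_ind with
  | h f hf =>
    rw [mk_eq_zero]
    have h1 := T3b_V1 htw h
    obtain ⟨f1, hf1, hb0⟩ := T3b_step (fun v g => (σ.ts a).hom (h' v) (h v) g) f hf
    obtain ⟨f4, hf4, hb1⟩ := T3b_step (fun v g => (σ.ts a).hom (h' v) (h1 v) g) f1 hf1
    have c0 : f - T3b_X A • T3b_X A • f4 ∈ B0 E' E := by
      have := add_mem hb0 (T3b_XB0 hb1)
      rwa [smul_sub, sub_add_sub_cancel] at this
    have c4 := T3b_X4 hf4
    have e4 : T3b_X A • T3b_X A • f4 = T3b_X A ^ 2 • f4 := by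
      simp only [smul_smul]
      congr 1
      ring
    rw [e4] at c0
    have := add_mem c0 c4
    rwa [sub_add_cancel] at this

end Vale.Agent.P287T.G3
end
end

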