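import Vale.Agent.P287T.G3.B
import Vale.Agent.P287T.G3.War

set_option linter.all false

open Vale.Agent.P294

section

section

/-!
# The gluing-and-tilting step: the slicing
-/

open CategoryTheory CategoryTheory.Pretriangulated CategoryTheory.Limits

namespace Vale.Agent.P287T.G3

universe v₁ v₂ v₃ u₁ u₂ u₃

variable {C : Type u₁} [Category.{v₁} C] [Preadditive C] [HasZeroObject C] [HasShift C ℤ]
  [∀ n : ℤ, (shiftFunctor C n).Additive] [Pretriangulated C] [IsTriangulated C]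
variable {D : Type u₂} [Category.{v₂} D] [Preadditive D] [HasZeroObject D] [HasShift D ℤ]
  [∀ n : ℤ, (shiftFunctor D n).Additive] [Pretriangulated D] [IsTriangulated D]
variable {E : Type u₃} [Category.{v₃} E] [Preadditive E] [HasZeroObject E] [HasShift E ℤ]
  [∀ n : ℤ, (shiftFunctor E n).Additive] [Pretriangulated E] [IsTriangulated E]

namespace StepHyp

/-! ### elementary facts on `lam` -/

theorem lam_formula (s : ℝ) (z : ℂ) :
    lam s z = z.im * Real.cos (Real.pi * s) - z.re * Real.sin (Real.pi * s) := by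
  have h1 : ray (-s) = ((Real.cos (Real.pi * s) : ℝ) : ℂ) -
      ((Real.sin (Real.pi * s) : ℝ) : ℂ) * Complex.I := by
    unfold ray
    rw [mul_comm, Complex.exp_mul_I]
    have e : Real.pi * -s = -(Real.pi * s) := by ring
    rw [e, Complex.ofReal_neg, Complex.cos_neg, Complex.sin_neg, Complex.ofReal_cos,
      Complex.ofReal_sin]
    ring
  unfold lam
  rw [h1]
  simp only [Complex.mul_im, Complex.sub_re, Complex.sub_im, Complex.ofReal_re,
    Complex.ofReal_im, Complex.mul_re, Complex.I_re, Complex.I_im]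
  ring

theorem lam_succ_neg (t : ℝ) (z : ℂ) : lam (t + 1) (-z) = lam t z := by
  rw [lam_formula, lam_formula, show Real.pi * (t + 1) = Real.pi * t + Real.pi by ring,
    Real.cos_add_pi, Real.sin_add_pi, Complex.neg_re, Complex.neg_im]
  ring

theorem lam_three (s t t' : ℝ) (z : ℂ) :
    lam t z * Real.sin (Real.pi * (t' - s)) =
      lam s z * Real.sin (Real.pi * (t' - t)) + lam t' z * Real.sin (Real.pi * (t - s)) := by
  rw [lam_formula, lam_formula, lam_formula]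
  rw [show Real.pi * (t' - s) = Real.pi * t' - Real.pi * s by ring,
    show Real.pi * (t' - t) = Real.pi * t' - Real.pi * t by ring,
    show Real.pi * (t - s) = Real.pi * t - Real.pi * s by ring,
    Real.sin_sub, Real.sin_sub, Real.sin_sub]
  ring

/-- positivity on an interval of length less than one -/
theorem lam_between {s t t' : ℝ} {z : ℂ} (h1 : s ≤ t) (h2 : t ≤ t') (h3 : t' < s + 1)
    (h4 : s < t') (hs : 0 ≤ lam s z) (ht : 0 ≤ lam t' z) : 0 ≤ lam t z := by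
  have hpi := Real.pi_pos
  have key := lam_three s t t' z
  have p1 : 0 < Real.sin (Real.pi * (t' - s)) := by
    apply Real.sin_pos_of_pos_of_lt_pi
    · apply mul_pos hpi; linarith
    · nlinarith
  have p2 : 0 ≤ Real.sin (Real.pi * (t' - t)) := by
    apply Real.sin_nonneg_of_nonneg_of_le_pi
    · apply mul_nonneg hpi.le; linarith
    · nlinarith
  have p3 : 0 ≤ Real.sin (Real.pi * (t - s)) := by
    apply Real.sin_nonneg_of_nonneg_of_le_pi
    · apply mul_nonneg hpi.le; linarith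
    · nlinarith
  have p4 : 0 ≤ lam t z * Real.sin (Real.pi * (t' - s)) := by
    rw [key]
    exact add_nonneg (mul_nonneg hs p2) (mul_nonneg ht p3)
  exact nonneg_of_mul_nonneg_left p4 p1

theorem lam_continuous (z : ℂ) : Continuous (fun s => lam s z) := by
  have : (fun s => lam s z) = fun s =>
      z.im * Real.cos (Real.pi * s) - z.re * Real.sin (Real.pi * s) := by
    funext s; exact lam_formula s z
  rw [this]
  fun_prop

variable {Φ : Glue C D E} {σC : Slic C} {ZC : C → ℂ} {rC : C → ℕ} {cC : ℝ}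
    {σD : Slic D} {ZD : D → ℂ} {rD : D → ℕ} {cD : ℝ} {w : ℝ}

variable (h : StepHyp Φ σC ZC rC cC σD ZD rD cD w)

/-! ### the glued family -/

theorem U'_shift_iff (t : ℝ) (Y : E) : h.U' (t + 1) (Y⟦(1 : ℤ)⟧) ↔ h.U' t Y := by
  have e1 : Φ.g.obj (Y⟦(1 : ℤ)⟧) ≅ (Φ.g.obj Y)⟦(1 : ℤ)⟧ := (Φ.g.commShiftIso (1 : ℤ)).app Y
  have e2 : Φ.b.obj (Y⟦(1 : ℤ)⟧) ≅ (Φ.b.obj Y)⟦(1 : ℤ)⟧ := (Φ.b.commShiftIso (1 : ℤ)).app Y
  constructor
  · intro hY
    refine ⟨?_, ?_⟩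
    · rw [← σC.shift]
      have := (σC.ts _).isoU e1 hY.1
      rwa [show t + 1 - w = t - w + 1 by ring] at this
    · rw [← σD.shift]
      exact (σD.ts _).isoU e2 hY.2
  · intro hY
    refine ⟨?_, ?_⟩
    · have := (σC.ts _).isoU e1.symm ((σC.shift _ _).2 hY.1)
      rwa [show t + 1 - w = t - w + 1 by ring]
    · exact (σD.ts _).isoU e2.symm ((σD.shift _ _).2 hY.2)

theorem V'_shift_iff (t : ℝ) (Y : E) : h.V' (t + 1) (Y⟦(1 : ℤ)⟧) ↔ h.V' t Y := by
  have e1 : Φ.g.obj (Y⟦(1 : ℤ)⟧) ≅ (Φ.g.obj Y)⟦(1 : ℤ)⟧ := (Φ.g.commShiftIso (1 : ℤ)).app Y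
  have e2 : Φ.x.obj (Y⟦(1 : ℤ)⟧) ≅ (Φ.x.obj Y)⟦(1 : ℤ)⟧ := (Φ.x.commShiftIso (1 : ℤ)).app Y
  constructor
  · intro hY
    refine ⟨?_, ?_⟩
    · rw [← σC.shiftV]
      have := (σC.ts _).isoV e1 hY.1
      rwa [show t + 1 - w = t - w + 1 by ring] at this
    · rw [← σD.shiftV]
      exact (σD.ts _).isoV e2 hY.2
  · intro hY
    refine ⟨?_, ?_⟩
    · have := (σC.ts _).isoV e1.symm ((σC.shiftV _ _).2 hY.1)
      rwa [show t + 1 - w = t - w + 1 by ring]
    · exact (σD.ts _).isoV e2.symm ((σD.shiftV _ _).2 hY.2)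

/-- `X ≅ X[-1][1]` -/
noncomputable def isoNP (X : E) : (X⟦(-1 : ℤ)⟧)⟦(1 : ℤ)⟧ ≅ X :=
  shiftNegShift X (1 : ℤ)

noncomputable def isoPN (X : E) : (X⟦(1 : ℤ)⟧)⟦(-1 : ℤ)⟧ ≅ X :=
  shiftShiftNeg X (1 : ℤ)

theorem V'_shift_neg (t : ℝ) (Y : E) : h.V' t (Y⟦(-1 : ℤ)⟧) ↔ h.V' (t + 1) Y := by
  rw [← h.V'_shift_iff]
  exact ⟨fun hY => (h.glued_ts _).isoV (isoNP Y) hY, fun hY => (h.glued_ts _).isoV (isoNP Y).symm hY⟩

theorem Ht'_shift (t : ℝ) (Y : E) :
    Ht (h.U' (t + 1)) (h.V' (t + 1)) (Y⟦(1 : ℤ)⟧) ↔ Ht (h.U' t) (h.V' t) Y := by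
  unfold Ht
  rw [h.U'_shift_iff, h.V'_shift_neg, h.V'_shift_neg, h.V'_shift_iff]

theorem Ht'_iso (t : ℝ) {X Y : E} (e : X ≅ Y) (hX : Ht (h.U' t) (h.V' t) X) :
    Ht (h.U' t) (h.V' t) Y :=
  ⟨(h.glued_ts t).isoU e hX.1, (h.glued_ts t).isoV ((shiftFunctor E (-1 : ℤ)).mapIso e) hX.2⟩

include h in
theorem lamZ_shift (t : ℝ) (Y : E) :
    lam (t + 1) (Φ.Z ZC ZD w (Y⟦(1 : ℤ)⟧)) = lam t (Φ.Z ZC ZD w Y) := by
  rw [h.Zadd.shiftC, lam_succ_neg]

include h in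
theorem lamZ_shift_neg (t : ℝ) (Y : E) :
    lam t (Φ.Z ZC ZD w (Y⟦(-1 : ℤ)⟧)) = lam (t + 1) (Φ.Z ZC ZD w Y) := by
  rw [← h.lamZ_shift, h.Zadd.isoC (isoNP Y)]

/-- the torsion-free class of the tilt -/
def Fg (a t : ℝ) (Y : E) : Prop :=
  tiltF (h.U' a) (h.V' a) (h.V' t) (fun Y => lam t (Φ.Z ZC ZD w Y)) Y

/-- the tilted aisle -/
def Ug (a t : ℝ) (Y : E) : Prop :=
  tiltU (h.U' a) (h.V' a) (h.V' t) (fun Y => lam t (Φ.Z ZC ZD w Y)) Y

theorem Fg_iso {a t : ℝ} {X X' : E} (e : X ≅ X') (hX : h.Fg a t X) : h.Fg a t X' := by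
  refine ⟨(h.glued_ts a).isoU e hX.1, (h.glued_ts t).isoV e hX.2.1, ?_⟩
  intro Y Z f g δ hT hY hZ h0
  refine hX.2.2 Y Z (f ≫ e.inv) (e.hom ≫ g) δ ?_ hY hZ h0
  refine isomorphic_distinguished _ hT _ ?_
  exact Triangle.isoMk _ _ (Iso.refl Y) e (Iso.refl Z)
    (by change (f ≫ e.inv) ≫ e.hom = 𝟙 Y ≫ f; simp)
    (by change (e.hom ≫ g) ≫ 𝟙 Z = e.hom ≫ g; simp)
    (by change δ ≫ (shiftFunctor E (1 : ℤ)).map (𝟙 Y) = 𝟙 Z ≫ δ; simp)

theorem Fg_shift1 {a t : ℝ} {X : E} (hX : h.Fg a t X) : h.Fg (a + 1) (t + 1) (X⟦(1 : ℤ)⟧) := by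
  refine ⟨(h.U'_shift_iff _ _).2 hX.1, (h.V'_shift_iff _ _).2 hX.2.1, ?_⟩
  intro Y Z f g δ hT hY hZ h0
  have hX' : h.Fg a t ((X⟦(1 : ℤ)⟧)⟦(-1 : ℤ)⟧) := h.Fg_iso (isoPN X).symm hX
  have hT' := Triangle.shift_distinguished _ hT (-1)
  have key := hX'.2.2 (Y⟦(-1 : ℤ)⟧) (Z⟦(-1 : ℤ)⟧) _ _ _ hT'
    ((h.Ht'_shift _ _).1 (h.Ht'_iso _ (isoNP Y).symm hY))
    ((h.Ht'_shift _ _).1 (h.Ht'_iso _ (isoNP Z).symm hZ))
    (fun hz => h0 ((isoNP Y).isZero_iff.1 ((shiftFunctor E (1 : ℤ)).map_isZero hz)))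
  show lam (t + 1) (Φ.Z ZC ZD w Y) < 0
  rw [← h.lamZ_shift_neg]
  exact key

theorem Fg_shift2 {a t : ℝ} {X : E} (hX : h.Fg (a + 1) (t + 1) (X⟦(1 : ℤ)⟧)) : h.Fg a t X := by
  refine ⟨(h.U'_shift_iff _ _).1 hX.1, (h.V'_shift_iff _ _).1 hX.2.1, ?_⟩
  intro Y Z f g δ hT hY hZ h0
  have hT' := Triangle.shift_distinguished _ hT 1
  have key := hX.2.2 (Y⟦(1 : ℤ)⟧) (Z⟦(1 : ℤ)⟧) _ _ _ hT'
    ((h.Ht'_shift _ _).2 hY) ((h.Ht'_shift _ _).2 hZ)
    (fun hz => h0 ((isoPN Y).isZero_iff.1 ((shiftFunctor E (-1 : ℤ)).map_isZero hz)))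
  show lam t (Φ.Z ZC ZD w Y) < 0
  rw [← h.lamZ_shift]
  exact key

theorem Ug_shift (a t : ℝ) (Y : E) : h.Ug (a + 1) (t + 1) (Y⟦(1 : ℤ)⟧) ↔ h.Ug a t Y := by
  constructor
  · intro hY
    refine ⟨(h.U'_shift_iff _ _).1 hY.1, ?_⟩
    intro X hX f
    have h1 := hY.2 (X⟦(1 : ℤ)⟧) (h.Fg_shift1 hX) (f⟦(1 : ℤ)⟧')
    exact (shiftFunctor E (1 : ℤ)).map_injective (by rw [h1, Functor.map_zero])
  · intro hY
    refine ⟨(h.U'_shift_iff _ _).2 hY.1, ?_⟩
    intro X hX f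
    have h1 := hY.2 (X⟦(-1 : ℤ)⟧) (h.Fg_shift2 (h.Fg_iso (isoNP X).symm hX))
      ((isoPN Y).inv ≫ f⟦(-1 : ℤ)⟧')
    have h2 : f⟦(-1 : ℤ)⟧' = 0 := by
      rw [← cancel_epi (isoPN Y).inv, h1, comp_zero]
    exact (shiftFunctor E (-1 : ℤ)).map_injective (by rw [h2, Functor.map_zero])

/-- tilted aisle `U''_t` -/
def U2 (t : ℝ) (Y : E) : Prop :=
  tiltU (h.U' (t - w)) (h.V' (t - w)) (h.V' t) (fun Y => lam t (Φ.Z ZC ZD w Y)) Y

/-- tilted co-aisle `V''_t` -/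
def V2 (t : ℝ) (Y : E) : Prop :=
  tiltV (h.U' (t - w)) (h.V' (t - w)) (h.V' t) (fun Y => lam t (Φ.Z ZC ZD w Y)) Y

theorem U2_shift (t : ℝ) (Y : E) : h.U2 (t + 1) (Y⟦(1 : ℤ)⟧) ↔ h.U2 t Y := by
  have := h.Ug_shift (t - w) t Y
  rw [show t - w + 1 = t + 1 - w by ring] at this
  exact this

theorem ts2 (t : ℝ) : IsTS (h.U2 t) (h.V2 t) := (h.tiltHyp t).isTS

theorem U2_shift_neg (t : ℝ) (Y : E) : h.U2 t (Y⟦(-1 : ℤ)⟧) ↔ h.U2 (t + 1) Y := by
  rw [← h.U2_shift]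
  exact ⟨fun hY => (h.ts2 _).isoU (isoNP Y) hY, fun hY => (h.ts2 _).isoU (isoNP Y).symm hY⟩

theorem V2_shift (t : ℝ) (Y : E) : h.V2 (t + 1) (Y⟦(1 : ℤ)⟧) ↔ h.V2 t Y := by
  rw [(h.ts2 _).V_iff, (h.ts2 _).V_iff]
  constructor
  · intro hY X hX f
    have h1 := hY (X⟦(1 : ℤ)⟧) ((h.U2_shift _ _).2 hX) (f⟦(1 : ℤ)⟧')
    exact (shiftFunctor E (1 : ℤ)).map_injective (by rw [h1, Functor.map_zero])
  · intro hY X hX f
    have h1 := hY (X⟦(-1 : ℤ)⟧) ((h.U2_shift_neg _ _).2 hX) (f⟦(-1 : ℤ)⟧' ≫ (isoPN Y).hom)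
    have h2 : f⟦(-1 : ℤ)⟧' = 0 := by
      rw [← cancel_mono (isoPN Y).hom, h1, zero_comp]
    exact (shiftFunctor E (-1 : ℤ)).map_injective (by rw [h2, Functor.map_zero])

theorem V2_shift_neg (t : ℝ) (Y : E) : h.V2 t (Y⟦(-1 : ℤ)⟧) ↔ h.V2 (t + 1) Y := by
  rw [← h.V2_shift]
  exact ⟨fun hY => (h.ts2 _).isoV (isoNP Y) hY, fun hY => (h.ts2 _).isoV (isoNP Y).symm hY⟩

theorem U2_of_U' {t : ℝ} {Y : E} (hY : h.U' t Y) : h.U2 t Y := (h.tiltHyp t).le_tiltU Y hY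

theorem U'_of_U2 {t : ℝ} {Y : E} (hY : h.U2 t Y) : h.U' (t - w) Y := hY.1

theorem V'_of_V2 {t : ℝ} {Y : E} (hY : h.V2 t Y) : h.V' t Y := (h.tiltHyp t).tiltV_le Y hY

theorem V2_of_V' {t : ℝ} {Y : E} (hY : h.V' (t - w) Y) : h.V2 t Y := (h.tiltHyp t).V0_le Y hY

/-- nonnegativity on `U''_t ∩ V''_{t+1}` -/
theorem lam2_nonneg {t : ℝ} {Y : E} (hU : h.U2 t Y) (hV : h.V2 (t + 1) Y) :
    0 ≤ lam t (Φ.Z ZC ZD w Y) :=
  (h.tiltHyp t).nonneg Y hU ((h.V2_shift_neg _ _).2 hV)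

theorem lam2_neg {t : ℝ} {Y : E} (hU : h.U' (t - w) Y) (hV : h.V2 t Y) (h0 : ¬ IsZero Y) :
    lam t (Φ.Z ZC ZD w Y) < 0 :=
  (h.tiltHyp t).neg Y hU hV h0

/-- reduction of nestedness to a vanishing statement -/
theorem anti_of_zero {t t' : ℝ} (h2 : t' ≤ t + 1 - w)
    (hz : ∀ Y, h.U2 t' Y → h.V2 t Y → IsZero Y) (Y : E) (hY : h.U2 t' Y) : h.U2 t Y := by
  obtain ⟨A, B, f, g, δ, hT, hA, hB⟩ := (h.ts2 t).tri Y
  have hA1 : h.U2 t' (A⟦(1 : ℤ)⟧) :=
    h.U2_of_U' (h.U'_anti h2 (h.U'_of_U2 ((h.U2_shift _ _).2 hA)))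
  have hB' : h.U2 t' B := (h.ts2 t').ext3U hT hY hA1
  exact (h.ts2 t).extU hT hA ((h.ts2 t).zeroU (hz B hB' hB))

/-- nestedness, wide steps -/
theorem anti_wide {t t' : ℝ} (h1 : t + w ≤ t') (Y : E) (hY : h.U2 t' Y) : h.U2 t Y :=
  h.U2_of_U' (h.U'_anti (by linarith) (h.U'_of_U2 hY))

theorem nonneg_top {t t' : ℝ} (h1 : t ≤ t') {Y : E} (hU : h.U2 t' Y) (hV : h.V2 t Y) :
    0 ≤ lam t' (Φ.Z ZC ZD w Y) := by
  refine h.lam2_nonneg hU (h.V2_of_V' (h.V'_mono ?_ (h.V'_of_V2 hV)))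
  have := h.w2
  linarith

theorem neg_bot {t t' : ℝ} (h1 : t ≤ t') {Y : E} (hU : h.U2 t' Y) (hV : h.V2 t Y)
    (h0 : ¬ IsZero Y) : lam t (Φ.Z ZC ZD w Y) < 0 :=
  h.lam2_neg (h.U'_anti (by linarith) (h.U'_of_U2 hU)) hV h0

/-- nestedness, steps between `1/3` and `2/3` -/
theorem anti_mid {t t' : ℝ} (h1 : t + 1 / 3 ≤ t') (h2 : t' ≤ t + 2 / 3) (Y : E)
    (hY : h.U2 t' Y) : h.U2 t Y := by
  have w1 := h.w1
  have w2 := h.w2
  by_cases hw : t + w ≤ t'
  · exact h.anti_wide hw Y hY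
  push Not at hw
  refine h.anti_of_zero (by linarith) ?_ Y hY
  intro Y hU hV
  by_contra h0
  have p1 := h.neg_bot (by linarith) hU hV h0
  have p2 := h.nonneg_top (by linarith) hU hV
  have p3 : 0 ≤ lam (t + w - 1) (Φ.Z ZC ZD w Y) :=
    h.star' (h.U'_of_U2 hU) (h.V'_of_V2 hV) (by linarith) (by linarith)
  have p4 := lam_between (s := t + w - 1) (t := t) (t' := t') (by linarith) (by linarith)
    (by linarith) (by linarith) p3 p2
  linarith

/-- nestedness, steps at least `1/3` -/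
theorem anti_big {t t' : ℝ} (h1 : t + 1 / 3 ≤ t') (Y : E) (hY : h.U2 t' Y) : h.U2 t Y := by
  have w1 := h.w1
  have w2 := h.w2
  by_cases hw : t + w ≤ t'
  · exact h.anti_wide hw Y hY
  push Not at hw
  by_cases h2 : t' ≤ t + 2 / 3
  · exact h.anti_mid h1 h2 Y hY
  push Not at h2
  exact h.anti_mid (t := t) (t' := (t + t') / 2) (by linarith) (by linarith) Y
    (h.anti_mid (t := (t + t') / 2) (t' := t') (by linarith) (by linarith) Y hY)

theorem U2_anti {s t : ℝ} (hst : s ≤ t) (Y : E) (hY : h.U2 t Y) : h.U2 s Y := by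
  have w1 := h.w1
  have w2 := h.w2
  by_cases hb : s + 1 / 3 ≤ t
  · exact h.anti_big hb Y hY
  push Not at hb
  refine h.anti_of_zero (by linarith) ?_ Y hY
  intro Y hU hV
  by_contra h0
  have p1 := h.neg_bot hst hU hV h0
  have p2 := h.nonneg_top hst hU hV
  have p3 : 0 ≤ lam (s - 1 / 2) (Φ.Z ZC ZD w Y) := by
    refine h.lam2_nonneg (h.anti_big (by linarith) Y hU) ?_
    rw [(h.ts2 _).V_iff] at hV ⊢
    intro X hX f
    exact hV X (h.anti_big (by linarith) X hX) f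
  have p4 := lam_between (s := s - 1 / 2) (t := s) (t' := t) (by linarith) hst
    (by linarith) (by linarith) p3 p2
  linarith

theorem V2_mono {s t : ℝ} (hst : s ≤ t) {Y : E} (hY : h.V2 s Y) : h.V2 t Y := by
  rw [(h.ts2 _).V_iff] at hY ⊢
  intro X hX f
  exact hY X (h.U2_anti hst X hX) f

theorem U'_leftc (s : ℝ) (Y : E) (hY : ∀ t < s, h.U' t Y) : h.U' s Y :=
  ⟨σC.leftc _ _ fun t ht => by
      have := (hY (t + w) (by linarith)).1
      rwa [show t + w - w = t by ring] at this,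
    σD.leftc _ _ fun t ht => (hY t ht).2⟩

theorem U2_leftc (s : ℝ) (Y : E) (hY : ∀ t < s, h.U2 t Y) : h.U2 s Y := by
  obtain ⟨A, B, f, g, δ, hT, hA, hB⟩ := (h.ts2 s).tri Y
  have hA1 : ∀ t < s, h.U2 t (A⟦(1 : ℤ)⟧) := fun t ht =>
    h.U2_anti (by linarith) _ ((h.U2_shift _ _).2 hA)
  have hB' : ∀ t < s, h.U2 t B := fun t ht => (h.ts2 t).ext3U hT (hY t ht) (hA1 t ht)
  suffices hz : IsZero B from (h.ts2 s).extU hT hA ((h.ts2 s).zeroU hz)
  by_contra h0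
  have p1 : lam s (Φ.Z ZC ZD w B) < 0 := by
    refine h.lam2_neg (h.U'_leftc _ _ fun t ht => ?_) hB h0
    have := h.U'_of_U2 (hB' (t + w) (by linarith))
    rwa [show t + w - w = t by ring] at this
  have p2 : ∀ t, t < s → s - 1 ≤ t → 0 ≤ lam t (Φ.Z ZC ZD w B) := fun t ht ht' =>
    h.lam2_nonneg (hB' t ht) (h.V2_mono (by linarith) hB)
  have hc := lam_continuous (Φ.Z ZC ZD w B)
  have hlim : Filter.Tendsto (fun n : ℕ => lam (s - 1 / ((n : ℝ) + 1)) (Φ.Z ZC ZD w B))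
      Filter.atTop (nhds (lam s (Φ.Z ZC ZD w B))) := by
    have h1 : Filter.Tendsto (fun n : ℕ => s - 1 / ((n : ℝ) + 1)) Filter.atTop (nhds (s - 0)) :=
      tendsto_const_nhds.sub tendsto_one_div_add_atTop_nhds_zero_nat
    rw [sub_zero] at h1
    exact (hc.tendsto s).comp h1
  have p3 : 0 ≤ lam s (Φ.Z ZC ZD w B) := by
    refine ge_of_tendsto' hlim fun n => ?_
    have hn : (0 : ℝ) < (n : ℝ) + 1 := by positivity
    have h2 : 1 / ((n : ℝ) + 1) ≤ 1 := by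
      rw [div_le_one hn]; linarith [(Nat.cast_nonneg n : (0 : ℝ) ≤ n)]
    have h3 : 0 < 1 / ((n : ℝ) + 1) := by positivity
    exact p2 _ (by linarith) (by linarith)
  linarith

theorem U2_bdd (Y : E) : ∃ a b : ℝ, h.U2 a Y ∧ h.V2 b Y := by
  obtain ⟨a1, b1, ha1, hb1⟩ := σC.bdd (Φ.g.obj Y)
  obtain ⟨a2, -, ha2, -⟩ := σD.bdd (Φ.b.obj Y)
  obtain ⟨-, b2, -, hb2⟩ := σD.bdd (Φ.x.obj Y)
  refine ⟨min (a1 + w) a2, max (b1 + w) b2 + w, h.U2_of_U' ⟨?_, ?_⟩, h.V2_of_V' ⟨?_, ?_⟩⟩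
  · exact σC.anti (by linarith [min_le_left (a1 + w) a2]) _ ha1
  · exact σD.anti (min_le_right _ _) _ ha2
  · exact σC.monoV (by linarith [le_max_left (b1 + w) b2]) _ hb1
  · exact σD.monoV (by linarith [le_max_right (b1 + w) b2]) _ hb2

/-- the slicing produced by the step -/
def slic : Slic E where
  U := h.U2
  V := h.V2
  ts t := (h.tiltHyp t).isTS
  anti := fun hst Y hY => h.U2_anti hst Y hY
  shift := h.U2_shift
  leftc := h.U2_leftc
  bdd := h.U2_bdd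

theorem preStab : PreStab h.slic (Φ.Z ZC ZD w) := by
  refine preStab_of_thin h.slic _ h.Zadd (fun s X hU hV => h.lam2_nonneg hU hV) (1 / 6)
    (by norm_num) ?_
  intro s
  obtain ⟨N, c, hN, hc, hb⟩ := h.exists_N s (s + 1 / 6) (by linarith)
  exact ⟨N, c, hN, hc, fun X hU hV h0 => hb X (h.U'_of_U2 hU) (h.V'_of_V2 hV) h0⟩

end StepHyp

end Vale.Agent.P287T.G3
end
end

section

section

/-!
# The gluing-and-tilting step: M3
-/

open CategoryTheory CategoryTheory.Pretriangulated CategoryTheory.Limits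

namespace Vale.Agent.P287T.G3

universe v₁ v₂ v₃ u₁ u₂ u₃

variable {C : Type u₁} [Category.{v₁} C] [Preadditive C] [HasZeroObject C] [HasShift C ℤ]
  [∀ n : ℤ, (shiftFunctor C n).Additive] [Pretriangulated C] [IsTriangulated C]
variable {D : Type u₂} [Category.{v₂} D] [Preadditive D] [HasZeroObject D] [HasShift D ℤ]
  [∀ n : ℤ, (shiftFunctor D n).Additive] [Pretriangulated D] [IsTriangulated D]
variable {E : Type u₃} [Category.{v₃} E] [Preadditive E] [HasZeroObject E] [HasShift E ℤ]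
  [∀ n : ℤ, (shiftFunctor E n).Additive] [Pretriangulated E] [IsTriangulated E]

namespace M3aux

/-- explicit formula for `lam` -/
theorem lam_eq (s : ℝ) (z : ℂ) :
    lam s z = Real.cos (Real.pi * s) * z.im - Real.sin (Real.pi * s) * z.re := by
  have h1 : (ray (-s)).re = Real.cos (Real.pi * s) := by
    unfold ray
    rw [mul_comm Complex.I, Complex.exp_ofReal_mul_I_re]
    rw [mul_neg, Real.cos_neg]
  have h2 : (ray (-s)).im = -Real.sin (Real.pi * s) := by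
    unfold ray
    rw [mul_comm Complex.I, Complex.exp_ofReal_mul_I_im]
    rw [mul_neg, Real.sin_neg]
  unfold lam
  rw [Complex.mul_im, h1, h2]
  ring

/-- the key trigonometric identity -/
theorem lam_key (w t : ℝ) (z : ℂ) :
    Real.sin (Real.pi * w) * lam t z + Real.sin (Real.pi / 3) * lam (t - w - 1 / 3) z =
      Real.sin (Real.pi * (w + 1 / 3)) * lam (t - 1 / 3) z := by
  rw [lam_eq, lam_eq, lam_eq]
  have e1 : Real.pi * (t - w - 1 / 3) = Real.pi * t - (Real.pi * w + Real.pi / 3) := by ring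
  have e2 : Real.pi * (t - 1 / 3) = Real.pi * t - Real.pi / 3 := by ring
  have e3 : Real.pi * (w + 1 / 3) = Real.pi * w + Real.pi / 3 := by ring
  rw [e1, e2, e3, Real.cos_sub, Real.sin_sub, Real.cos_sub, Real.sin_sub, Real.cos_add,
    Real.sin_add]
  generalize Real.pi * w = a
  have hp : Real.sin (Real.pi / 3) ^ 2 + Real.cos (Real.pi / 3) ^ 2 = 1 :=
    Real.sin_sq_add_cos_sq _
  generalize Real.pi / 3 = p at *
  generalize Real.pi * t = b
  have hs : Real.sin p ^ 2 = 1 - Real.cos p ^ 2 := by linarith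
  ring_nf
  rw [hs]
  ring

omit [IsTriangulated D] in
/-- changing the middle term of a distinguished triangle -/
theorem dist_iso₂ {T : Triangle D} (hT : T ∈ distTriang D) {Y : D} (e : T.obj₂ ≅ Y) :
    Triangle.mk (T.mor₁ ≫ e.hom) (e.inv ≫ T.mor₂) T.mor₃ ∈ distTriang D := by
  refine isomorphic_distinguished _ hT _ ?_
  refine Triangle.isoMk _ _ (Iso.refl _) e.symm (Iso.refl _) ?_ ?_ ?_
  · show (T.mor₁ ≫ e.hom) ≫ e.inv = 𝟙 T.obj₁ ≫ T.mor₁
    simp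
  · show (e.inv ≫ T.mor₂) ≫ 𝟙 T.obj₃ = e.inv ≫ T.mor₂
    simp
  · show T.mor₃ ≫ (shiftFunctor D 1).map (𝟙 T.obj₁) = 𝟙 T.obj₃ ≫ T.mor₃
    simp

/-- the cokernel of a composite-mono in the heart `[a, a+1)` -/
theorem mono_quot (σ : Slic D) {a : ℝ} {A I B P Q : D} (u : A ⟶ I) (m : I ⟶ B)
    {q : B ⟶ Q} {δ : Q ⟶ I⟦(1 : ℤ)⟧} (hm : Triangle.mk m q δ ∈ distTriang D)
    {v : B ⟶ P} {δ' : P ⟶ A⟦(1 : ℤ)⟧} (hu : Triangle.mk (u ≫ m) v δ' ∈ distTriang D)
    (hA : σ.U a A) (hI : σ.U a I) (hP : σ.V (a + 1) P) (hQ : σ.V (a + 1) Q) :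
    ∃ (R : D) (r : I ⟶ R) (δ₁ : R ⟶ A⟦(1 : ℤ)⟧), Triangle.mk u r δ₁ ∈ distTriang D ∧
      σ.U a R ∧ σ.V (a + 1) R := by
  obtain ⟨R, r, δ₁, hR⟩ := distinguished_cocone_triangle u
  refine ⟨R, r, δ₁, hR, ?_, ?_⟩
  · exact (σ.ts a).ext3U hR hI ((σ.ts a).shU hA)
  · have O := Triangulated.someOctahedron rfl hR hm hu
    exact (σ.ts (a + 1)).ext1V O.mem hP ((σ.ts (a + 1)).shV hQ)

omit [IsTriangulated D] in
theorem exists_Vc_of_extCl (σ : Slic D) {s t : ℝ} (hst : s < t) {X : D}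
    (hX : ExtCl (fun Y => ∃ φ, s ≤ φ ∧ φ < t ∧ σ.P φ Y) X) :
    ∃ b, b < t ∧ s ≤ b ∧ σ.Vc b X := by
  induction hX with
  | zero X hX => exact ⟨s, hst, le_refl s, fun t' _ => (σ.ts t').zeroV hX⟩
  | of X hX =>
    obtain ⟨φ, h1, h2, h3⟩ := hX
    exact ⟨φ, h2, h1, h3.2⟩
  | ext T hT _ _ h1 h3 =>
    obtain ⟨b1, l1, s1, c1⟩ := h1
    obtain ⟨b3, l3, s3, c3⟩ := h3
    refine ⟨max b1 b3, max_lt l1 l3, le_trans s1 (le_max_left _ _), fun t' ht' => ?_⟩
    exact (σ.ts t').extV hT (c1 t' (lt_of_le_of_lt (le_max_left _ _) ht'))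
      (c3 t' (lt_of_le_of_lt (le_max_right _ _) ht'))

/-- an object of a window of width one with vanishing central charge is zero -/
theorem isZero_of_window {σ : Slic D} {Z : D → ℂ} {r : D → ℕ} {c : ℝ} (h : Stab σ Z r c)
    {a : ℝ} {X : D} (hU : σ.U a X) (hV : σ.V (a + 1) X) (hZ : Z X = 0) : IsZero X := by
  obtain ⟨b, hb, hab, hc⟩ := exists_Vc_of_extCl σ (by linarith) (h.hn a (a + 1) X hU hV)
  obtain ⟨c', hc', H⟩ := h.exists_bound (a := a) (b := b) (by linarith)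
  have h1 := H X hU hc
  rw [hZ] at h1
  have h2 : mu ((a + b) / 2) 0 = 0 := by simp [mu]
  rw [h2] at h1
  have h3 : (r X : ℝ) ≤ 0 := by
    by_contra hcon
    push Not at hcon
    have := mul_pos hc' hcon
    linarith
  have h4 : r X = 0 := by
    have : (r X : ℝ) = 0 := le_antisymm h3 (Nat.cast_nonneg _)
    exact_mod_cast this
  exact (h.rk.zero X).1 h4

theorem V_of_shift (σ : Slic D) {a : ℝ} {X : D} (h : σ.V a (X⟦(-1 : ℤ)⟧)) : σ.V (a + 1) X := by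
  have := (σ.shiftV_int (a + 1) (-1) X).1
  apply this
  have e : a + 1 + ((-1 : ℤ) : ℝ) = a := by push_cast; ring
  rw [e]
  exact h

theorem shift_of_V (σ : Slic D) {a : ℝ} {X : D} (h : σ.V (a + 1) X) : σ.V a (X⟦(-1 : ℤ)⟧) := by
  have := (σ.shiftV_int (a + 1) (-1) X).2 h
  have e : a + 1 + ((-1 : ℤ) : ℝ) = a := by push_cast; ring
  rw [e] at this
  exact this

omit [IsTriangulated C] [IsTriangulated D] [IsTriangulated E] in
/-- the counit of `n ⊣ g` at `n G` is an isomorphism -/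
theorem exists_counit_iso (Φ : Glue C D E) (G : C) :
    ∃ e : Φ.n.obj (Φ.g.obj (Φ.n.obj G)) ≅ Φ.n.obj G,
      e.hom = Φ.ng.counit.app (Φ.n.obj G) := by
  have h1 := Φ.nF.full
  have h2 := Φ.nF.faithful
  have h3 : IsIso Φ.ng.unit := inferInstance
  have h4 : IsIso (Φ.n.map (Φ.ng.unit.app G)) := inferInstance
  have h5 : IsIso (Φ.ng.counit.app (Φ.n.obj G)) :=
    IsIso.of_isIso_fac_left (Φ.ng.left_triangle_components G)
  exact ⟨@asIso _ _ _ _ (Φ.ng.counit.app (Φ.n.obj G)) h5, rfl⟩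

/-- `heart_cone` with explicit morphisms -/
theorem heart_cone_mk {U V : D → Prop} (h : IsTS U V) {X Y Z : D} {f : X ⟶ Y} {g : Y ⟶ Z}
    {δ : Z ⟶ X⟦(1 : ℤ)⟧} (hT : Triangle.mk f g δ ∈ distTriang D)
    (h1 : Ht U V X) (h2 : Ht U V Y) :
    ∃ (K I Q : D) (k : K ⟶ X) (p : X ⟶ I) (m : I ⟶ Y) (q : Y ⟶ Q)
      (δ : I ⟶ K⟦(1 : ℤ)⟧) (δ' : Q ⟶ I⟦(1 : ℤ)⟧) (a : K⟦(1 : ℤ)⟧ ⟶ Z) (b : Z ⟶ Q)
      (δ'' : Q ⟶ K⟦(1 : ℤ)⟧⟦(1 : ℤ)⟧),
      Triangle.mk k p δ ∈ distTriang D ∧ Triangle.mk m q δ' ∈ distTriang D ∧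
      Triangle.mk a b δ'' ∈ distTriang D ∧
      Ht U V K ∧ Ht U V I ∧ Ht U V Q ∧ p ≫ m = f :=
  heart_cone h hT h1 h2

end M3aux


namespace StepHyp

variable {Φ : Glue C D E} {σC : Slic C} {ZC : C → ℂ} {rC : C → ℕ} {cC : ℝ}
    {σD : Slic D} {ZD : D → ℂ} {rD : D → ℕ} {cD : ℝ} {w : ℝ}

variable (h : StepHyp Φ σC ZC rC cC σD ZD rD cD w)

theorem M3key {φ t : ℝ} {G : C} (hG : σC.P φ G) (h1 : φ + w < t) (h2 : t ≤ φ + 2 * w) :
    tiltF (h.U' (t - w)) (h.V' (t - w)) (h.V' t) (fun Y => lam t (Φ.Z ZC ZD w Y))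
      (Φ.n.obj G) := by
  have w1 := h.w1
  have w2 := h.w2
  obtain ⟨eg⟩ := Φ.gn G
  have hb := Φ.bn G
  have hNG := h.hN φ G hG
  have hgn : σC.P φ (Φ.g.obj (Φ.n.obj G)) :=
    ⟨(σC.ts φ).isoU eg.symm hG.1, σC.isoVc eg.symm hG.2⟩
  refine ⟨⟨?_, (σD.ts _).zeroU hb⟩, ⟨?_, ?_⟩, ?_⟩
  · exact σC.anti (by linarith) _ hgn.1
  · exact hgn.2 _ (by linarith)
  · exact hNG.2 _ (by linarith)
  intro Y1 Y2 f g δ hT hY1 hY2 hY0
  -- windows for `g Y`
  have gY1U : σC.U (t - w - w) (Φ.g.obj Y1) := hY1.1.1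
  have gY1V : σC.V (t - w - w + 1) (Φ.g.obj Y1) := by
    apply M3aux.V_of_shift
    exact (σC.ts _).isoV ((Φ.g.commShiftIso (-1 : ℤ)).app Y1) hY1.2.1
  have gY2V : σC.V (t - w - w + 1) (Φ.g.obj Y2) := by
    apply M3aux.V_of_shift
    exact (σC.ts _).isoV ((Φ.g.commShiftIso (-1 : ℤ)).app Y2) hY2.2.1
  -- windows for `x Y`
  have xY1U : σD.U (t - w - 1 / 3) (Φ.x.obj Y1) := h.x_mem_U hY1.1
  have xY2V : σD.V (t - w + 1) (Φ.x.obj Y2) := by
    apply M3aux.V_of_shift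
    exact (σD.ts _).isoV ((Φ.x.commShiftIso (-1 : ℤ)).app Y2) hY2.2.2
  -- windows for `N g Y`
  have nY1U : σD.U (t - w - 1 / 3) (Φ.x.obj (Φ.n.obj (Φ.g.obj Y1))) := by
    have := h.N_mem_U gY1U
    have e : t - w - w + (w - 1 / 3) = t - w - 1 / 3 := by ring
    rwa [e] at this
  have nY2V : σD.V (t - w - 1 / 3 + 1) (Φ.x.obj (Φ.n.obj (Φ.g.obj Y2))) := by
    have := h.N_mem_V gY2V
    have e : t - w - w + 1 + (w - 1 / 3) = t - w - 1 / 3 + 1 := by ring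
    rwa [e] at this
  -- the triangle `x Y1 ⟶ x n G ⟶ x Y2`
  have hTx : Triangle.mk (Φ.x.map f) (Φ.x.map g)
      (Φ.x.map δ ≫ (Φ.x.commShiftIso (1 : ℤ)).hom.app Y1) ∈ distTriang D :=
    Φ.x.map_distinguished _ hT
  have xY1V : σD.V (t - w - 1 / 3 + 1) (Φ.x.obj Y1) := by
    have a1 : σD.V t (Φ.x.obj Y1) := by
      refine (σD.ts t).ext1V hTx (hNG.2 _ (by linarith)) ?_
      exact σD.monoV (by linarith) _ (M3aux.shift_of_V σD xY2V)
    exact σD.monoV (by linarith) _ a1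
  have nGU : σD.U (t - w - 1 / 3) (Φ.x.obj (Φ.n.obj G)) := σD.anti (by linarith) _ hNG.1
  have nGV : σD.V (t - w - 1 / 3 + 1) (Φ.x.obj (Φ.n.obj G)) := hNG.2 _ (by linarith)
  obtain ⟨K, I, Q, k, p, m, q, d1, d2, a, b, d3, hT1, hT2, hT3, hK, hI, hQ, hpm⟩ :=
    M3aux.heart_cone_mk (σD.ts (t - w - 1 / 3)) hTx ⟨xY1U, M3aux.shift_of_V σD xY1V⟩
      ⟨nGU, M3aux.shift_of_V σD nGV⟩
  have KV1 : σD.V (t - w - 1 / 3 + 1) K := M3aux.V_of_shift σD hK.2
  have IV1 : σD.V (t - w - 1 / 3 + 1) I := M3aux.V_of_shift σD hI.2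
  have QV1 : σD.V (t - w - 1 / 3 + 1) Q := M3aux.V_of_shift σD hQ.2
  -- `K ∈ [t-w-1/3, t-w)`
  have KV : σD.V (t - w) K := by
    refine (σD.shiftV (t - w) K).1 ?_
    refine (σD.ts (t - w + 1)).ext1V hT3 xY2V ?_
    exact σD.monoV (by linarith) _ hQ.2
  -- `I ∈ [t-w-1/3, φ+w-1/3]`
  have IVc : σD.Vc (φ + (w - 1 / 3)) I :=
    σD.sub_Vc (a := t - w - 1 / 3) hT2 hNG.2 QV1 (by linarith)
  -- the mono `N g Y1 ⟶ I`
  obtain ⟨e, he⟩ := M3aux.exists_counit_iso Φ G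
  have hT4 : Triangle.mk (Φ.x.map (Φ.n.map (Φ.g.map f))) (Φ.x.map (Φ.n.map (Φ.g.map g)))
      (Φ.x.map (Φ.n.map (Φ.g.map δ ≫ (Φ.g.commShiftIso (1 : ℤ)).hom.app Y1) ≫
        (Φ.n.commShiftIso (1 : ℤ)).hom.app _) ≫ (Φ.x.commShiftIso (1 : ℤ)).hom.app _) ∈
        distTriang D :=
    Φ.x.map_distinguished _ (Φ.n.map_distinguished _ (Φ.g.map_distinguished _ hT))
  have hT5 := M3aux.dist_iso₂ hT4 (Φ.x.mapIso e)
  have hcomp : (Φ.x.map (Φ.ng.counit.app Y1) ≫ p) ≫ m =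
      Φ.x.map (Φ.n.map (Φ.g.map f)) ≫ (Φ.x.mapIso e).hom := by
    rw [Category.assoc, hpm, Functor.mapIso_hom, he]
    have h3 := congrArg Φ.x.map (Φ.ng.counit_naturality f)
    rw [Φ.x.map_comp, Φ.x.map_comp] at h3
    exact h3.symm
  obtain ⟨R, r, d4, hT6, hRU, hRV⟩ : ∃ (R : D) (r : I ⟶ R)
      (δ₁ : R ⟶ (Φ.x.obj (Φ.n.obj (Φ.g.obj Y1)))⟦(1 : ℤ)⟧),
      Triangle.mk (Φ.x.map (Φ.ng.counit.app Y1) ≫ p) r δ₁ ∈ distTriang D ∧
      σD.U (t - w - 1 / 3) R ∧ σD.V (t - w - 1 / 3 + 1) R := by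
    refine M3aux.mono_quot σD (a := t - w - 1 / 3) (P := Φ.x.obj (Φ.n.obj (Φ.g.obj Y2)))
      (Φ.x.map (Φ.ng.counit.app Y1) ≫ p) m hT2 (v := (Φ.x.mapIso e).inv ≫
        Φ.x.map (Φ.n.map (Φ.g.map g)))
      (δ' := Φ.x.map (Φ.n.map (Φ.g.map δ ≫ (Φ.g.commShiftIso (1 : ℤ)).hom.app Y1) ≫
        (Φ.n.commShiftIso (1 : ℤ)).hom.app _) ≫ (Φ.x.commShiftIso (1 : ℤ)).hom.app _)
      ?_ nY1U hI.1 nY2V QV1
    rw [hcomp]
    exact hT5
  -- the numbers
  have e1 : ZD (Φ.x.obj Y1) = ZD K + ZD I := h.hD.add _ hT1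
  have e2 : ZD I = ZD (Φ.x.obj (Φ.n.obj (Φ.g.obj Y1))) + ZD R := h.hD.add _ hT6
  have p1 := h.sin_pos1
  have p2 := h.sin_pos2
  have p5 := sin_pos5
  have lR : 0 ≤ lam (t - w - 1 / 3) (ZD R) := h.hD.pre.lam_nonneg le_rfl le_rfl hRU hRV
  have eN : lam (t - w - 1 / 3) (ZD (Φ.x.obj (Φ.n.obj (Φ.g.obj Y1)))) =
      Real.sin (Real.pi * w) / Real.sin (Real.pi / 3) * lam (t - 2 * w) (ZC (Φ.g.obj Y1)) := by
    rw [h.hZ, mul_assoc, lam_real_mul, lam_ray_mul]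
    congr 2
    ring
  have eI : lam (t - w - 1 / 3) (ZD I) =
      Real.sin (Real.pi * w) / Real.sin (Real.pi / 3) * lam (t - 2 * w) (ZC (Φ.g.obj Y1)) +
        lam (t - w - 1 / 3) (ZD R) := by
    rw [e2, lam_add, eN]
  have eY : lam t (Φ.Z ZC ZD w Y1) =
      lam t (ZD K) + lam t (ZD I) + lam (t - 2 * w) (ZC (Φ.g.obj Y1)) := by
    show lam t (ZD (Φ.x.obj Y1) + ray (2 * w) * ZC (Φ.g.obj Y1)) = _
    rw [e1, lam_add, lam_add, lam_ray_mul]
  have hkey := M3aux.lam_key w t (ZD I)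
  have eM : Real.sin (Real.pi * w) * lam t (Φ.Z ZC ZD w Y1) =
      Real.sin (Real.pi * w) * lam t (ZD K) +
        Real.sin (Real.pi * (w + 1 / 3)) * lam (t - 1 / 3) (ZD I) -
        Real.sin (Real.pi / 3) * lam (t - w - 1 / 3) (ZD R) := by
    rw [eY, ← hkey, eI]
    field_simp
    ring
  have lK : ¬ IsZero K → lam t (ZD K) < 0 := fun h0 =>
    h.hD.lam_neg' (s := t) (a := t - w - 1 / 3) (b := t - w) (by linarith) (by linarith)
      hK.1 KV h0
  have lI : ¬ IsZero I → lam (t - 1 / 3) (ZD I) < 0 := fun h0 =>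
    h.hD.lam_neg (s := t - 1 / 3) (a := t - w - 1 / 3) (b := φ + (w - 1 / 3)) (by linarith)
      (by linarith) hI.1 IVc h0
  have lam0 : ∀ s : ℝ, lam s 0 = 0 := fun s => by unfold lam; simp
  have m5 := mul_nonneg p5.le lR
  suffices hmain : Real.sin (Real.pi * w) * lam t (Φ.Z ZC ZD w Y1) < 0 by
    by_contra hcon
    push Not at hcon
    have := mul_nonneg p1.le hcon
    linarith
  rw [eM]
  by_cases hK0 : IsZero K
  · have zK : lam t (ZD K) = 0 := by rw [h.hD.add.zeroC hK0, lam0]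
    by_cases hI0 : IsZero I
    · exfalso
      apply hY0
      have x0 : IsZero (Φ.x.obj Y1) := by
        have hr := h.hD.rk.sub _ hT1
        have hr' : rD (Φ.x.obj Y1) ≤ rD K + rD I := hr
        rw [(h.hD.rk.zero _).2 hK0, (h.hD.rk.zero _).2 hI0] at hr'
        exact (h.hD.rk.zero _).1 (Nat.le_zero.mp hr')
      have n0 : IsZero (Φ.x.obj (Φ.n.obj (Φ.g.obj Y1))) := by
        refine (σD.ts (t - w - 1 / 3)).isZero nY1U ?_
        refine (σD.ts (t - w - 1 / 3)).ext1V hT6 ((σD.ts _).zeroV hI0) ?_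
        exact M3aux.shift_of_V σD hRV
      have z0 : ZC (Φ.g.obj Y1) = 0 := by
        have z1 := h.hZ (Φ.g.obj Y1)
        rw [h.hD.add.zeroC n0] at z1
        have n1 : ((Real.sin (Real.pi * w) / Real.sin (Real.pi / 3) : ℝ) : ℂ) ≠ 0 := by
          exact_mod_cast (div_pos p1 p5).ne'
        have n2 : ray (w - 1 / 3) ≠ 0 := by
          unfold ray
          exact Complex.exp_ne_zero _
        rcases mul_eq_zero.1 z1.symm with z2 | z2
        · exact absurd z2 (mul_ne_zero n1 n2)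
        · exact z2
      exact Φ.isZero_of Y1 (M3aux.isZero_of_window h.hC gY1U gY1V z0) x0
    · have b2 := mul_neg_of_pos_of_neg p2 (lI hI0)
      rw [zK, mul_zero, zero_add]
      linarith
  · have b1 := mul_neg_of_pos_of_neg p1 (lK hK0)
    have b2 : Real.sin (Real.pi * (w + 1 / 3)) * lam (t - 1 / 3) (ZD I) ≤ 0 := by
      by_cases hI0 : IsZero I
      · rw [h.hD.add.zeroC hI0, lam0, mul_zero]
      · exact (mul_neg_of_pos_of_neg p2 (lI hI0)).le
    linarith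

/-- (M3) -/
theorem M3 {φ : ℝ} {G : C} (hG : σC.P φ G) : h.slic.P (φ + w) (Φ.n.obj G) := by
  have w1 := h.w1
  have w2 := h.w2
  obtain ⟨eg⟩ := Φ.gn G
  refine ⟨?_, ?_⟩
  · show h.U2 (φ + w) (Φ.n.obj G)
    refine h.U2_of_U' ⟨?_, (σD.ts _).zeroU (Φ.bn G)⟩
    rw [show φ + w - w = φ by ring]
    exact (σC.ts φ).isoU eg.symm hG.1
  · intro t ht
    show h.V2 t (Φ.n.obj G)
    by_cases h2 : t ≤ φ + 2 * w
    · exact (h.tiltHyp t).F_le _ (h.M3key hG ht h2)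
    · push Not at h2
      refine h.V2_mono h2.le ?_
      exact (h.tiltHyp (φ + 2 * w)).F_le _ (h.M3key hG (by linarith) le_rfl)

end StepHyp

end Vale.Agent.P287T.G3
end
end

section

section

/-!
# Forgetting the `ℤ/3`-weights and its right adjoint (induction)
-/

open Matrix CategoryTheory CategoryTheory.Limits CategoryTheory.Pretriangulated Polynomial

namespace Vale.Agent.P287T.G3

variable (A : GCtx) (W : A.S)

/-- the potential `W + y^3` on `A.P` -/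
noncomputable def WP : A.P.S := (C W + X ^ 3 : A.S[X])

variable {A} in
theorem E2a_T_mem_iff (a b : A.L × ZMod 3) (f : A.S[X]) :
    f ∈ A.T.H a b ↔ ∀ n : ℕ, (a.2 - (n : ZMod 3) = b.2 ∧
      f.coeff n ∈ A.H (-(n • A.en 2) +ᵥ a.1) b.1) ∨ f.coeff n = 0 := by
  refine forall_congr' fun n => ?_
  have h1 : (((-(n • ((A.en 2, 1) : A.Γ × ZMod 3))).1 +ᵥ a.1,
      (-(n • ((A.en 2, 1) : A.Γ × ZMod 3))).2 + a.2) : A.L × ZMod 3) =
      ((-(n • A.en 2) +ᵥ a.1, a.2 - (n : ZMod 3)) : A.L × ZMod 3) := by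
    refine Prod.ext rfl ?_
    change (-(n • ((A.en 2, 1) : A.Γ × ZMod 3))).2 + a.2 = a.2 - (n : ZMod 3)
    simp
    ring
  have h := GCtx.wt_mem_iff A (ZMod 3) ((-(n • A.en 2) +ᵥ a.1, a.2 - (n : ZMod 3)) : A.L × ZMod 3)
    b (f.coeff n)
  exact (iff_of_eq (congrArg (fun z => f.coeff n ∈ (A.wt (ZMod 3)).H z b) h1)).trans h

theorem E2a_T_to_P {a b : A.L × ZMod 3} {f : A.S[X]} (hf : f ∈ A.T.H a b) :
    f ∈ A.P.H a.1 b.1 := by
  intro n
  rcases (E2a_T_mem_iff a b f).1 hf n with h | h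
  · exact h.2
  · rw [h]; exact zero_mem _

theorem E2a_P_mem_iff (a b : A.L) (f : A.S[X]) :
    f ∈ A.P.H a b ↔ ∀ n : ℕ, f.coeff n ∈ A.H (-(n • A.en 2) +ᵥ a) b := Iff.rfl

theorem E2a_T_en (n : ℤ) : A.T.en n = ((A.en n, 0) : A.Γ × ZMod 3) := by
  change n • ((A.e, 0) : A.Γ × ZMod 3) = (n • A.e, 0)
  simp

theorem E2a_T_en_vadd (n : ℤ) (a : A.T.L) :
    (A.T.en n +ᵥ a : A.T.L) =
      ((A.en n +ᵥ (a : A.L × ZMod 3).1, (a : A.L × ZMod 3).2) : A.L × ZMod 3) := by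
  rw [E2a_T_en]
  refine Prod.ext rfl ?_
  change (0 : ZMod 3) + (a : A.L × ZMod 3).2 = (a : A.L × ZMod 3).2
  rw [zero_add]

/-- forget the weights -/
noncomputable def Fo : CHom A.T A.P (WT A W) (WP A W) where
  dom := fun _ => True
  lab := fun (a : A.L × ZMod 3) => a.1
  θ := fun _ _ => AddMonoidHom.id A.S[X]
  θ_mem := by
    intro a b s _ _ hs
    exact E2a_T_to_P A hs
  θ_one := by intro a _; rfl
  θ_mul := by intro a b c x y _ _ _ _ _; rfl
  θ_mul0 := by intro a b c x y _ hb; exact absurd trivial hb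
  dom_e := by intro n a; exact Iff.rfl
  lab_e := by
    intro n a _
    rw [E2a_T_en_vadd]
    rfl
  θ_e := by intro n a b _ _; rfl
  θ_W := by intro a _ _; rfl

variable {A W}

/-- the part of a polynomial with exponents congruent to `w` modulo `3` -/
noncomputable def wtPart {R : Type} [CommRing R] (w : ZMod 3) (f : R[X]) : R[X] :=
  ∑ n ∈ f.support.filter (fun n : ℕ => (n : ZMod 3) = w), Polynomial.monomial n (f.coeff n)

section wtPart

variable {R : Type} [CommRing R]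

theorem coeff_wtPart (w : ZMod 3) (f : R[X]) (n : ℕ) :
    (wtPart w f).coeff n = if (n : ZMod 3) = w then f.coeff n else 0 := by
  classical
  unfold wtPart
  rw [Polynomial.finsetSum_coeff]
  simp only [Polynomial.coeff_monomial]
  rw [Finset.sum_ite_eq']
  simp only [Finset.mem_filter, Polynomial.mem_support_iff]
  by_cases h1 : (n : ZMod 3) = w
  · by_cases h2 : f.coeff n = 0
    · simp [h2]
    · simp [h1, h2]
  · simp [h1]

theorem wtPart_add (w : ZMod 3) (f g : R[X]) : wtPart w (f + g) = wtPart w f + wtPart w g := by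
  ext n
  rw [Polynomial.coeff_add, coeff_wtPart, coeff_wtPart, coeff_wtPart, Polynomial.coeff_add]
  split_ifs <;> simp

theorem wtPart_zero (w : ZMod 3) : wtPart w (0 : R[X]) = 0 := by
  ext n
  rw [coeff_wtPart]; simp

/-- `wtPart` as an additive map -/
noncomputable def wtPartHom (w : ZMod 3) : R[X] →+ R[X] where
  toFun := wtPart w
  map_zero' := wtPart_zero w
  map_add' := wtPart_add w

theorem wtPart_sum {ι : Type} (s : Finset ι) (w : ZMod 3) (f : ι → R[X]) :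
    wtPart w (∑ i ∈ s, f i) = ∑ i ∈ s, wtPart w (f i) :=
  map_sum (wtPartHom w) f s

theorem sum_wtPart (w : ZMod 3) (f : R[X]) : ∑ u : ZMod 3, wtPart (w - u) f = f := by
  ext n
  rw [Polynomial.finsetSum_coeff]
  simp only [coeff_wtPart]
  have : ∀ u : ZMod 3, ((n : ZMod 3) = w - u) = (u = w - n) := by
    intro u
    refine propext ⟨fun h => ?_, fun h => ?_⟩
    · rw [h]; ring
    · rw [h]; ring
  simp only [this]
  rw [Finset.sum_ite_eq']
  simp

theorem sum_wtPart_mul (u w : ZMod 3) (f g : R[X]) :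
    ∑ v : ZMod 3, wtPart (v - u) f * wtPart (w - v) g = wtPart (w - u) (f * g) := by
  ext n
  rw [Polynomial.finsetSum_coeff, coeff_wtPart]
  simp only [Polynomial.coeff_mul, coeff_wtPart]
  rw [Finset.sum_comm]
  have key : ∀ kl ∈ Finset.HasAntidiagonal.antidiagonal n,
      (∑ v : ZMod 3, (if (kl.1 : ZMod 3) = v - u then f.coeff kl.1 else 0) *
        (if (kl.2 : ZMod 3) = w - v then g.coeff kl.2 else 0)) =
      if (n : ZMod 3) = w - u then f.coeff kl.1 * g.coeff kl.2 else 0 := by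
    intro kl hkl
    rw [Finset.HasAntidiagonal.mem_antidiagonal] at hkl
    have h1 : ∀ v : ZMod 3, ((if (kl.1 : ZMod 3) = v - u then f.coeff kl.1 else 0) *
        (if (kl.2 : ZMod 3) = w - v then g.coeff kl.2 else 0)) =
        if v = (kl.1 : ZMod 3) + u then (if (n : ZMod 3) = w - u then
          f.coeff kl.1 * g.coeff kl.2 else 0) else 0 := by
      intro v
      by_cases hv : v = (kl.1 : ZMod 3) + u
      · rw [if_pos hv, if_pos (by rw [hv]; ring)]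
        have h2 : ((kl.2 : ZMod 3) = w - v) ↔ ((n : ZMod 3) = w - u) := by
          rw [← hkl, hv]
          push_cast
          constructor
          · intro h; rw [h]; ring
          · intro h
            have : (kl.2 : ZMod 3) = (kl.1 + kl.2 : ZMod 3) - kl.1 := by ring
            rw [this, h]; ring
        by_cases h3 : (n : ZMod 3) = w - u
        · rw [if_pos h3, if_pos (h2.2 h3)]
        · rw [if_neg h3, if_neg (fun h => h3 (h2.1 h)), mul_zero]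
      · rw [if_neg hv, if_neg (by intro h; apply hv; rw [h]; ring), zero_mul]
    simp only [h1]
    rw [Finset.sum_ite_eq']
    simp
  rw [Finset.sum_congr rfl key]
  split_ifs with h
  · rfl
  · simp

theorem wtPart_mul_of (s t : ZMod 3) (f g : R[X]) (hg : ∀ l : ℕ, (l : ZMod 3) = t ∨ g.coeff l = 0) :
    wtPart s f * g = wtPart (s + t) (f * g) := by
  ext n
  rw [coeff_wtPart]
  simp only [Polynomial.coeff_mul, coeff_wtPart]
  split_ifs with h
  · refine Finset.sum_congr rfl fun kl hkl => ?_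
    rw [Finset.HasAntidiagonal.mem_antidiagonal] at hkl
    rcases hg kl.2 with h2 | h2
    · rw [if_pos]
      rw [← hkl] at h
      push_cast at h
      rw [h2] at h
      exact add_right_cancel h
    · rw [h2, mul_zero, mul_zero]
  · refine Finset.sum_eq_zero fun kl hkl => ?_
    rw [Finset.HasAntidiagonal.mem_antidiagonal] at hkl
    rcases hg kl.2 with h2 | h2
    · rw [if_neg, zero_mul]
      intro h3
      apply h
      rw [← hkl]
      push_cast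
      rw [h3, h2]
    · rw [h2, mul_zero]

theorem wtPart_of (s t : ZMod 3) (g : R[X]) (hg : ∀ l : ℕ, (l : ZMod 3) = t ∨ g.coeff l = 0) :
    wtPart s g = if s = t then g else 0 := by
  ext n
  rw [coeff_wtPart]
  rcases hg n with h | h
  · by_cases h1 : s = t
    · rw [if_pos h1, if_pos (h.trans h1.symm)]
    · rw [if_neg h1, if_neg (fun h2 => h1 (h2.symm.trans h)), Polynomial.coeff_zero]
  · rw [h]
    split_ifs <;> simp [h]

/-- all weights at once, on matrices -/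
noncomputable def indM {κ κ' : Type} (d : Matrix κ' κ R[X]) :
    Matrix (κ' × ZMod 3) (κ × ZMod 3) R[X] :=
  fun iu jv => wtPart (jv.2 - iu.2) (d iu.1 jv.1)

/-- the adjoint matrix -/
noncomputable def sharpM {κ ι : Type} (v : ι → ZMod 3) (f : Matrix κ ι R[X]) :
    Matrix (κ × ZMod 3) ι R[X] :=
  fun iu j => wtPart (v j - iu.2) (f iu.1 j)

/-- the inverse of `sharpM` -/
noncomputable def flatM {κ ι : Type} (g : Matrix (κ × ZMod 3) ι R[X]) : Matrix κ ι R[X] :=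
  fun i j => ∑ u : ZMod 3, g (i, u) j

theorem indM_mul_sharpM {κ κ' ι : Type} [Fintype κ] (v : ι → ZMod 3) (d : Matrix κ' κ R[X])
    (f : Matrix κ ι R[X]) : indM d * sharpM v f = sharpM v (d * f) := by
  ext1 iu j
  rw [Matrix.mul_apply, Fintype.sum_prod_type]
  unfold indM sharpM
  simp only [sum_wtPart_mul]
  rw [← wtPart_sum, Matrix.mul_apply]

theorem indM_mul {κ κ' κ'' : Type} [Fintype κ] (d : Matrix κ' κ R[X])
    (f : Matrix κ κ'' R[X]) : indM d * indM f = indM (d * f) := by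
  ext1 iu j
  rw [Matrix.mul_apply, Fintype.sum_prod_type]
  unfold indM
  simp only [sum_wtPart_mul]
  rw [← wtPart_sum, Matrix.mul_apply]

theorem indM_smul_one {κ : Type} [DecidableEq κ] (w : R) :
    indM ((C w + X ^ 3 : R[X]) • (1 : Matrix κ κ R[X])) =
      (C w + X ^ 3 : R[X]) • (1 : Matrix (κ × ZMod 3) (κ × ZMod 3) R[X]) := by
  ext1 iu jv
  have hw : ∀ s : ZMod 3, wtPart s (C w + X ^ 3 : R[X]) =
      if s = 0 then (C w + X ^ 3 : R[X]) else 0 := by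
    intro s
    apply wtPart_of
    intro l
    by_cases h0 : l = 0
    · left; rw [h0]; simp
    by_cases h5 : l = 3
    · left; rw [h5]; decide
    · right
      rw [Polynomial.coeff_add, Polynomial.coeff_C, Polynomial.coeff_X_pow, if_neg h0, if_neg h5,
        add_zero]
  unfold indM
  rw [Matrix.smul_apply, Matrix.smul_apply, Matrix.one_apply, Matrix.one_apply, smul_eq_mul,
    smul_eq_mul]
  by_cases h1 : iu.1 = jv.1
  · rw [if_pos h1, mul_one, hw]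
    by_cases h2 : iu.2 = jv.2
    · rw [if_pos (by rw [h2, sub_self]), if_pos (Prod.ext h1 h2), mul_one]
    · rw [if_neg (fun h => h2 (sub_eq_zero.1 h).symm), if_neg (fun h => h2 (by rw [h])), mul_zero]
  · rw [if_neg h1, mul_zero, wtPart_zero, if_neg (fun h => h1 (by rw [h])), mul_zero]

theorem sharpM_mul {κ ι ι' : Type} [Fintype ι'] (v : ι → ZMod 3) (v' : ι' → ZMod 3)
    (f : Matrix κ ι' R[X]) (g : Matrix ι' ι R[X])
    (hg : ∀ j' j, ∀ l : ℕ, (l : ZMod 3) = v j - v' j' ∨ (g j' j).coeff l = 0) :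
    sharpM v' f * g = sharpM v (f * g) := by
  ext1 iu j
  rw [Matrix.mul_apply]
  unfold sharpM
  rw [Matrix.mul_apply, wtPart_sum]
  refine Finset.sum_congr rfl fun j' _ => ?_
  rw [wtPart_mul_of _ (v j - v' j') _ _ (hg j' j)]
  congr 1
  ring

theorem flatM_sharpM {κ ι : Type} (v : ι → ZMod 3) (f : Matrix κ ι R[X]) :
    flatM (sharpM v f) = f := by
  ext1 i j
  exact sum_wtPart (v j) (f i j)

theorem sharpM_flatM {κ ι : Type} (v : ι → ZMod 3) (g : Matrix (κ × ZMod 3) ι R[X])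
    (hg : ∀ iu j, ∀ l : ℕ, (l : ZMod 3) = v j - iu.2 ∨ (g iu j).coeff l = 0) :
    sharpM v (flatM g) = g := by
  ext1 iu j
  unfold sharpM flatM
  rw [wtPart_sum]
  have : ∀ u : ZMod 3, wtPart (v j - iu.2) (g (iu.1, u) j) =
      if u = iu.2 then g (iu.1, u) j else 0 := by
    intro u
    rw [wtPart_of _ _ _ (hg (iu.1, u) j)]
    by_cases h : u = iu.2
    · rw [if_pos h, if_pos (by rw [h])]
    · rw [if_neg h, if_neg]
      intro h2
      exact h (sub_right_injective h2).symm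
  simp only [this]
  rw [Finset.sum_ite_eq']
  simp

theorem sharpM_add {κ ι : Type} (v : ι → ZMod 3) (f g : Matrix κ ι R[X]) :
    sharpM v (f + g) = sharpM v f + sharpM v g := by
  ext1 iu j
  exact wtPart_add _ _ _

theorem E2a_coeff_flatM_mem {κ ι : Type} (g : Matrix (κ × ZMod 3) ι R[X]) (i : κ) (j : ι) (k : ℕ)
    (H : AddSubgroup R) (h : ∀ u, (g (i, u) j).coeff k ∈ H) : (flatM g i j).coeff k ∈ H := by
  unfold flatM
  rw [Polynomial.finsetSum_coeff]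
  exact sum_mem fun u _ => h u

theorem E2a_reindex {κ ι ι' : Type} [Fintype ι] [Fintype {_j : ι // True}]
    (f : Matrix κ {_j : ι // True} R[X]) (f' : Matrix κ ι R[X])
    (hf : ∀ i j, f' i j = f i ⟨j, trivial⟩) (g : Matrix ι ι' R[X])
    (g' : Matrix {_j : ι // True} {_j : ι' // True} R[X]) (hg : ∀ k l, g' k l = g k.1 l.1) :
    f' * g = fun i j => (f * g') i ⟨j, trivial⟩ := by
  refine Matrix.ext fun i j => ?_
  rw [Matrix.mul_apply, Matrix.mul_apply]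
  let e : ι ≃ {_j : ι // True} := (Equiv.subtypeUnivEquiv (p := fun _ => True)
    (fun _ => trivial)).symm
  refine Fintype.sum_equiv e _ _ (fun k => ?_)
  rw [hf, hg]
  rfl

end wtPart

/-- a label of `A.T` -/
def E2a_tl (A : GCtx) (a : A.L) (v : ZMod 3) : A.T.L := ((a, v) : A.L × ZMod 3)

theorem E2a_tl_en (n : ℤ) (a : A.L) (v : ZMod 3) :
    (A.T.en n +ᵥ E2a_tl A a v : A.T.L) = E2a_tl A (A.en n +ᵥ a) v :=
  E2a_T_en_vadd A n _

theorem E2a_tl_mem (a b : A.L) (v u : ZMod 3) (f : A.S[X]) :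
    f ∈ A.T.H (E2a_tl A a v) (E2a_tl A b u) ↔ ∀ n : ℕ, (v - (n : ZMod 3) = u ∧
      f.coeff n ∈ A.H (-(n • A.en 2) +ᵥ a) b) ∨ f.coeff n = 0 :=
  E2a_T_mem_iff (a, v) (b, u) f

theorem E2a_sharp_deg {n : ℤ} {a b : A.L} {v u : ZMod 3} {f : A.S[X]}
    (hf : ∀ k : ℕ, f.coeff k ∈ A.H (-(k • A.en 2) +ᵥ (A.en n +ᵥ a)) b) :
    wtPart (v - u) f ∈ A.T.H (A.T.en n +ᵥ E2a_tl A a v) (E2a_tl A b u) := by
  rw [E2a_tl_en, E2a_tl_mem]
  intro k
  rw [coeff_wtPart]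
  split_ifs with h
  · left
    refine ⟨by rw [h]; ring, hf k⟩
  · right; rfl

/-- induction: all weights at once -/
noncomputable def IndO (Y : MF A.P (WP A W)) : MFT A W where
  ι := Y.ι × ZMod 3
  p := fun jv => ((Y.p jv.1, jv.2) : A.L × ZMod 3)
  d := (fun iv jv => wtPart (jv.2 - iv.2) (Y.d iv.1 jv.1) :
    Matrix (Y.ι × ZMod 3) (Y.ι × ZMod 3) A.S[X])
  deg i j := E2a_sharp_deg (a := (show A.L from Y.p j.1)) (b := (show A.L from Y.p i.1))
    (Y.deg i.1 j.1)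
  sq := by
    have h1 : indM (show Matrix Y.ι Y.ι A.S[X] from Y.d) *
        indM (show Matrix Y.ι Y.ι A.S[X] from Y.d) =
        indM ((C W + X ^ 3 : A.S[X]) • (1 : Matrix Y.ι Y.ι A.S[X])) := by
      rw [indM_mul]
      exact congrArg indM Y.sq
    exact h1.trans (indM_smul_one W)

/-- the weights of the basis vectors -/
def E2a_v (X : MFT A W) : X.ι → ZMod 3 := fun j => (show A.L × ZMod 3 from X.p j).2

/-- the labels (without weight) of the basis vectors -/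
def E2a_l (X : MFT A W) : X.ι → A.L := fun j => (show A.L × ZMod 3 from X.p j).1

theorem E2a_p_eq (X : MFT A W) (j : X.ι) : X.p j = E2a_tl A (E2a_l X j) (E2a_v X j) := rfl

/-- adjoint matrix -/
noncomputable def E2a_sh (X : MFT A W) (Y : MF A.P (WP A W))
    (f : Matrix Y.ι ((Fo A W).obj X).ι A.P.S) : Matrix (IndO Y).ι X.ι A.T.S :=
  sharpM (R := A.S) (κ := Y.ι) (ι := X.ι) (E2a_v X) (fun i j => f i ⟨j, trivial⟩)

/-- inverse adjoint matrix -/
noncomputable def E2a_fl (X : MFT A W) (Y : MF A.P (WP A W))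
    (g : Matrix (IndO Y).ι X.ι A.T.S) : Matrix Y.ι ((Fo A W).obj X).ι A.P.S :=
  fun i j => flatM (R := A.S) (κ := Y.ι) (ι := X.ι) g i j.1

theorem E2a_fl_sh (X : MFT A W) (Y : MF A.P (WP A W))
    (f : Matrix Y.ι ((Fo A W).obj X).ι A.P.S) : E2a_fl X Y (E2a_sh X Y f) = f := by
  have h := flatM_sharpM (R := A.S) (κ := Y.ι) (ι := X.ι) (E2a_v X) (fun i j => f i ⟨j, trivial⟩)
  refine Matrix.ext fun i j => ?_
  exact congrFun (congrFun h i) j.1

theorem E2a_isDeg_iff (X X' : MFT A W) (n : ℤ) (g : Matrix X'.ι X.ι A.T.S) :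
    IsDeg X X' (A.T.en n) g ↔ ∀ i j, ∀ k : ℕ, (E2a_v X j - (k : ZMod 3) = E2a_v X' i ∧
      (show A.S[X] from g i j).coeff k ∈
        A.H (-(k • A.en 2) +ᵥ (A.en n +ᵥ E2a_l X j)) (E2a_l X' i)) ∨
      (show A.S[X] from g i j).coeff k = 0 := by
  refine forall_congr' fun i => forall_congr' fun j => ?_
  rw [E2a_p_eq, E2a_p_eq, E2a_tl_en]
  exact E2a_tl_mem _ _ _ _ _

theorem E2a_wt_of_isDeg {X X' : MFT A W} {n : ℤ} {g : Matrix X'.ι X.ι A.T.S}
    (hg : IsDeg X X' (A.T.en n) g) (i : X'.ι) (j : X.ι) (l : ℕ) :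
    (l : ZMod 3) = E2a_v X j - E2a_v X' i ∨ (show A.S[X] from g i j).coeff l = 0 := by
  rcases (E2a_isDeg_iff X X' n g).1 hg i j l with h | h
  · left; rw [← h.1]; ring
  · right; exact h

theorem E2a_sh_fl {X : MFT A W} {Y : MF A.P (WP A W)} {n : ℤ}
    {g : Matrix (IndO Y).ι X.ι A.T.S} (hg : IsDeg X (IndO Y) (A.T.en n) g) :
    E2a_sh X Y (E2a_fl X Y g) = g :=
  sharpM_flatM (R := A.S) (κ := Y.ι) (ι := X.ι) (E2a_v X) g (fun iu j l => E2a_wt_of_isDeg hg iu j l)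

theorem E2a_sh_deg {X : MFT A W} {Y : MF A.P (WP A W)} {n : ℤ}
    {f : Matrix Y.ι ((Fo A W).obj X).ι A.P.S} (hf : IsDeg ((Fo A W).obj X) Y (A.P.en n) f) :
    IsDeg X (IndO Y) (A.T.en n) (E2a_sh X Y f) := fun iu j =>
  E2a_sharp_deg (a := E2a_l X j) (b := (show A.L from Y.p iu.1)) (hf iu.1 ⟨j, trivial⟩)

theorem E2a_fl_deg {X : MFT A W} {Y : MF A.P (WP A W)} {n : ℤ}
    {g : Matrix (IndO Y).ι X.ι A.T.S} (hg : IsDeg X (IndO Y) (A.T.en n) g) :
    IsDeg ((Fo A W).obj X) Y (A.P.en n) (E2a_fl X Y g) := by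
  intro i j
  refine (E2a_P_mem_iff A (A.en n +ᵥ E2a_l X j.1) (show A.L from Y.p i) _).2 fun k => ?_
  refine E2a_coeff_flatM_mem (R := A.S) (κ := Y.ι) (ι := X.ι) g i j.1 k _ fun u => ?_
  rcases (E2a_isDeg_iff X (IndO Y) n g).1 hg (i, u) j.1 k with h | h
  · exact h.2
  · exact (iff_of_eq (congrArg (fun z => z ∈ A.H (-(k • A.en 2) +ᵥ (A.en n +ᵥ E2a_l X j.1))
      (show A.L from Y.p i)) h)).2 (zero_mem _)

theorem E2a_sh_dmul (X : MFT A W) (Y : MF A.P (WP A W))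
    (f : Matrix Y.ι ((Fo A W).obj X).ι A.P.S) :
    (IndO Y).d * E2a_sh X Y f = E2a_sh X Y (Y.d * f) :=
  indM_mul_sharpM (R := A.S) (κ := Y.ι) (ι := X.ι) (E2a_v X) Y.d (fun i j => f i ⟨j, trivial⟩)

theorem E2a_sh_mul {X X' : MFT A W} (Y : MF A.P (WP A W)) {n : ℤ}
    (f : Matrix Y.ι ((Fo A W).obj X).ι A.P.S) {g : Matrix X.ι X'.ι A.T.S}
    (hg : IsDeg X' X (A.T.en n) g) :
    E2a_sh X Y f * g = E2a_sh X' Y (f * (show Matrix ((Fo A W).obj X).ι ((Fo A W).obj X').ι A.P.S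
      from (Fo A W).mat n X' X g)) := by
  have h := sharpM_mul (R := A.S) (κ := Y.ι) (ι := X'.ι) (ι' := X.ι) (E2a_v X') (E2a_v X)
    (fun i j => f i ⟨j, trivial⟩) g (fun j' j l => E2a_wt_of_isDeg hg j' j l)
  exact h.trans (congrArg (sharpM (R := A.S) (κ := Y.ι) (ι := X'.ι) (E2a_v X'))
    (E2a_reindex (R := A.S) (κ := Y.ι) (ι := X.ι) (ι' := X'.ι) f _ (fun _ _ => rfl) g
      ((Fo A W).mat n X' X g) (fun _ _ => rfl)))

theorem E2a_sh_add (X : MFT A W) (Y : MF A.P (WP A W))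
    (f g : Matrix Y.ι ((Fo A W).obj X).ι A.P.S) :
    E2a_sh X Y (f + g) = E2a_sh X Y f + E2a_sh X Y g :=
  sharpM_add (R := A.S) (κ := Y.ι) (ι := X.ι) (E2a_v X) _ _

theorem E2a_sh_Z0 {X : MFT A W} {Y : MF A.P (WP A W)}
    {f : Matrix Y.ι ((Fo A W).obj X).ι A.P.S} (hf : f ∈ Z0 ((Fo A W).obj X) Y) :
    E2a_sh X Y f ∈ Z0 X (IndO Y) := by
  refine ⟨?_, ?_⟩
  · have h := hf.1
    rw [← GCtx.en_zero] at h ⊢
    exact E2a_sh_deg h
  · rw [E2a_sh_dmul, hf.2, E2a_sh_mul Y f (isDeg_d X)]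
    rfl

theorem E2a_fl_Z0 {X : MFT A W} {Y : MF A.P (WP A W)}
    {g : Matrix (IndO Y).ι X.ι A.T.S} (hg : g ∈ Z0 X (IndO Y)) :
    E2a_fl X Y g ∈ Z0 ((Fo A W).obj X) Y := by
  have h := hg.1
  rw [← GCtx.en_zero] at h
  refine ⟨?_, ?_⟩
  · rw [← GCtx.en_zero]
    exact E2a_fl_deg h
  · have h1 : E2a_sh X Y (Y.d * E2a_fl X Y g) = E2a_sh X Y (E2a_fl X Y g * ((Fo A W).obj X).d) := by
      rw [← E2a_sh_dmul, E2a_sh_fl h, hg.2]
      refine Eq.trans ?_ (E2a_sh_mul Y (E2a_fl X Y g) (isDeg_d X))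
      rw [E2a_sh_fl h]
    rw [← E2a_fl_sh X Y (Y.d * E2a_fl X Y g), h1, E2a_fl_sh]

theorem E2a_sh_B0 {X : MFT A W} {Y : MF A.P (WP A W)}
    {f : Matrix Y.ι ((Fo A W).obj X).ι A.P.S} (hf : f ∈ B0 ((Fo A W).obj X) Y) :
    E2a_sh X Y f ∈ B0 X (IndO Y) := by
  obtain ⟨h, hh, rfl⟩ := hf
  refine ⟨E2a_sh X Y h, E2a_sh_deg hh, ?_⟩
  rw [E2a_sh_dmul]
  have h1 : E2a_sh X Y h * X.d = E2a_sh X Y (h * ((Fo A W).obj X).d) :=
    E2a_sh_mul Y h (isDeg_d X)
  rw [h1]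
  exact sharpM_add (R := A.S) (κ := Y.ι) (ι := X.ι) (E2a_v X) _ _

theorem E2a_fl_B0 {X : MFT A W} {Y : MF A.P (WP A W)}
    {g : Matrix (IndO Y).ι X.ι A.T.S} (hg : g ∈ B0 X (IndO Y)) :
    E2a_fl X Y g ∈ B0 ((Fo A W).obj X) Y := by
  obtain ⟨h, hh, rfl⟩ := hg
  refine ⟨E2a_fl X Y h, E2a_fl_deg hh, ?_⟩
  have h1 : E2a_sh X Y (Y.d * E2a_fl X Y h + E2a_fl X Y h * ((Fo A W).obj X).d) =
      (IndO Y).d * h + h * X.d := by
    have h2 : E2a_sh X Y (Y.d * E2a_fl X Y h + E2a_fl X Y h * ((Fo A W).obj X).d) =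
      E2a_sh X Y (Y.d * E2a_fl X Y h) + E2a_sh X Y (E2a_fl X Y h * ((Fo A W).obj X).d) :=
      sharpM_add (R := A.S) (κ := Y.ι) (ι := X.ι) (E2a_v X) _ _
    have h3 : E2a_sh X Y (E2a_fl X Y h) * X.d =
        E2a_sh X Y (E2a_fl X Y h * ((Fo A W).obj X).d) :=
      E2a_sh_mul Y (E2a_fl X Y h) (isDeg_d X)
    rw [h2, ← h3, ← E2a_sh_dmul, E2a_sh_fl hh]
  rw [← h1, E2a_fl_sh]

/-- the adjunction on homotopy classes, forward -/
noncomputable def E2a_shH (X : MFT A W) (Y : MF A.P (WP A W)) :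
    HHom ((Fo A W).obj X) Y →+ HHom X (IndO Y) :=
  QuotientAddGroup.map _ _
    (AddMonoidHom.mk' (fun f => (⟨E2a_sh X Y f.1, E2a_sh_Z0 f.2⟩ : Z0 X (IndO Y)))
      (fun f g => Subtype.ext (E2a_sh_add X Y f.1 g.1)) :
      Z0 ((Fo A W).obj X) Y →+ Z0 X (IndO Y))
    (fun f hf => by
      rw [AddSubgroup.mem_addSubgroupOf] at hf
      exact E2a_sh_B0 hf)

theorem E2a_shH_mk {X : MFT A W} {Y : MF A.P (WP A W)}
    {f : Matrix Y.ι ((Fo A W).obj X).ι A.P.S} (hf : f ∈ Z0 ((Fo A W).obj X) Y) :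
    E2a_shH X Y (HHom.mk f hf) = HHom.mk (E2a_sh X Y f) (E2a_sh_Z0 hf) := rfl

theorem E2a_shH_bij (X : MFT A W) (Y : MF A.P (WP A W)) : Function.Bijective (E2a_shH X Y) := by
  constructor
  · rw [injective_iff_map_eq_zero]
    intro x
    induction x using HHom.ind with
    | h f hf =>
      intro h0
      rw [E2a_shH_mk, HHom.mk_eq_zero] at h0
      rw [HHom.mk_eq_zero]
      have h1 := E2a_fl_B0 h0
      rw [E2a_fl_sh] at h1
      exact h1
  · intro y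
    induction y using HHom.ind with
    | h g hg =>
      refine ⟨HHom.mk (E2a_fl X Y g) (E2a_fl_Z0 hg), ?_⟩
      rw [E2a_shH_mk]
      refine HHom.mk_congr _ ?_
      have h := hg.1
      rw [← GCtx.en_zero] at h
      exact E2a_sh_fl h

/-- right adjoint of `Fo` -/
theorem Fo_adj : ∃ (R : MF A.P (WP A W) ⥤ MFT A W) (_ : (Fo A W).functor ⊣ R),
    ∀ Y, Nonempty (R.obj Y ≅ IndO Y) := by
  let e : ∀ (X : MFT A W) (Y : MF A.P (WP A W)),
      ((Fo A W).functor.obj X ⟶ Y) ≃ (X ⟶ IndO Y) :=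
    fun X Y => Equiv.ofBijective (E2a_shH X Y) (E2a_shH_bij X Y)
  have he : ∀ (X' X : MFT A W) (Y : MF A.P (WP A W)) (f : X' ⟶ X)
      (g : (Fo A W).functor.obj X ⟶ Y),
      e X' Y ((Fo A W).functor.map f ≫ g) = f ≫ e X Y g := by
    intro X' X Y f g
    induction f using hom_ind with
    | h f hf =>
    induction g using hom_ind with
    | h g hg =>
      have h := hf.1
      rw [← GCtx.en_zero] at h
      exact HHom.mk_congr (E := X') (F := IndO Y) (E2a_sh_Z0 (Z0_mul hg ((Fo A W).mat_Z0 hf)))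
        (E2a_sh_mul Y g h).symm
  exact ⟨Adjunction.rightAdjointOfEquiv e he, Adjunction.adjunctionOfEquivRight e he,
    fun Y => ⟨Iso.refl _⟩⟩

end Vale.Agent.P287T.G3
end
end

section

section

/-!
# Induction: monad, rank, central charge
-/

open Matrix CategoryTheory CategoryTheory.Limits CategoryTheory.Pretriangulated Polynomial

namespace Vale.Agent.P287T.G3

section E2gen

variable {A : GCtx} {W : A.S}

/-- two factorizations with the same labels and differentials up to reindexing are isomorphic -/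
theorem E2_reindex {E F : MF A W} (e : E.ι ≃ F.ι) (hp : ∀ i, F.p (e i) = E.p i)
    (hd : ∀ i j, F.d (e i) (e j) = E.d i j) : Nonempty (E ≅ F) := by
  have hdE : E.d = F.d.submatrix e e := by
    ext i j; exact (hd i j).symm
  have hφ : (1 : Matrix F.ι F.ι A.S).submatrix id e ∈ Z0 E F := by
    refine ⟨fun i j => ?_, ?_⟩
    · rw [Matrix.submatrix_apply, id, zero_vadd]
      by_cases h : i = e j
      · rw [h, Matrix.one_apply_eq, hp]
        exact A.one_mem _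
      · rw [Matrix.one_apply_ne h]
        exact zero_mem _
    · rw [hdE]
      have h1 : F.d * (1 : Matrix F.ι F.ι A.S).submatrix id e
          = (F.d * 1).submatrix id e :=
        Matrix.submatrix_mul_equiv F.d (1 : Matrix F.ι F.ι A.S) id (Equiv.refl _) e
      rw [h1, Matrix.submatrix_mul_equiv, Matrix.mul_one, Matrix.one_mul]
  have hψ : (1 : Matrix F.ι F.ι A.S).submatrix e id ∈ Z0 F E := by
    refine ⟨fun i j => ?_, ?_⟩
    · rw [Matrix.submatrix_apply, id, zero_vadd]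
      by_cases h : e i = j
      · rw [← h, Matrix.one_apply_eq, hp]
        exact A.one_mem _
      · rw [Matrix.one_apply_ne h]
        exact zero_mem _
    · rw [hdE]
      have h1 : (1 : Matrix F.ι F.ι A.S).submatrix e id * F.d
          = (1 * F.d).submatrix e id :=
        Matrix.submatrix_mul_equiv (1 : Matrix F.ι F.ι A.S) F.d e (Equiv.refl _) id
      rw [h1, Matrix.submatrix_mul_equiv, Matrix.mul_one, Matrix.one_mul]
  refine ⟨isoOfHtpy _ hφ _ hψ ?_ ?_⟩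
  · have h1 : (1 : Matrix F.ι F.ι A.S).submatrix e id * (1 : Matrix F.ι F.ι A.S).submatrix id e
        = (1 * 1 : Matrix F.ι F.ι A.S).submatrix e e :=
      Matrix.submatrix_mul_equiv (1 : Matrix F.ι F.ι A.S) 1 e (Equiv.refl _) e
    rw [h1, Matrix.mul_one]
    exact Matrix.submatrix_one_equiv e
  · rw [Matrix.submatrix_mul_equiv, Matrix.mul_one, Matrix.submatrix_id_id, sub_self]
    exact zero_mem _

/-- the part of `E` on the basis vectors satisfying `q` (a direct summand) -/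
noncomputable def E2_res (E : MF A W) (q : E.ι → Prop) [DecidablePred q]
    (hq : ∀ i j, E.d i j ≠ 0 → (q i ↔ q j)) : MF A W where
  ι := {i : E.ι // q i}
  p i := E.p i
  d := E.d.submatrix Subtype.val Subtype.val
  deg i j := E.deg i j
  sq := by
    ext i j
    have h := congrFun (congrFun E.sq i) j
    rw [Matrix.mul_apply] at h ⊢
    have h2 : ∑ k : {k : E.ι // q k}, E.d i k * E.d k j = ∑ k, E.d i k * E.d k j := by
      rw [← Finset.sum_subset (Finset.subset_univ (Finset.univ.filter q))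
        (fun k _ hk => ?_), Finset.sum_subtype (p := q)]
      · intro x; simp
      · have h0 : E.d i k = 0 := by
          by_contra h0
          exact hk (by simpa using (hq _ _ h0).1 i.2)
        rw [h0, zero_mul]
    refine (h2.trans h).trans ?_
    rw [Matrix.smul_apply, Matrix.smul_apply, Matrix.one_apply, Matrix.one_apply]
    simp only [Subtype.ext_iff]

theorem E2_isZero (E : MF A W) (h : IsEmpty E.ι) : IsZero E := by
  rw [isZero_iff]
  have : (1 : Matrix E.ι E.ι A.S) = 0 := by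
    ext i
    exact (h.false i).elim
  rw [this]
  exact zero_mem _

/-- splitting off one value -/
noncomputable def E2_equiv {α κ : Type} [DecidableEq κ] (f : α → κ) (a : κ) (s : Finset κ)
    (ha : a ∉ s) : {i // f i ∈ s} ⊕ {i // f i = a} ≃ {i // f i ∈ insert a s} :=
  Equiv.ofBijective (Sum.elim (fun i => ⟨i.1, Finset.mem_insert_of_mem i.2⟩)
    (fun i => ⟨i.1, by rw [i.2]; exact Finset.mem_insert_self a s⟩)) (by
    constructor
    · rintro (⟨i, hi⟩ | ⟨i, hi⟩) (⟨j, hj⟩ | ⟨j, hj⟩) h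
      · simpa using h
      · simp only [Sum.elim_inl, Sum.elim_inr, Subtype.mk.injEq] at h
        subst h
        exact absurd (hj ▸ hi) ha
      · simp only [Sum.elim_inl, Sum.elim_inr, Subtype.mk.injEq] at h
        subst h
        exact absurd (hi ▸ hj) ha
      · simpa using h
    · rintro ⟨i, hi⟩
      rcases Finset.mem_insert.1 hi with h | h
      · exact ⟨Sum.inr ⟨i, h⟩, rfl⟩
      · exact ⟨Sum.inl ⟨i, h⟩, rfl⟩)

/-- finite direct sums are iterated extensions -/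
theorem E2_ext {P : MF A W → Prop} (E : MF A W) {κ : Type} [DecidableEq κ] (f : E.ι → κ)
    (hf : ∀ i j, E.d i j ≠ 0 → f i = f j)
    (hP : ∀ a, ExtCl P (E2_res E (fun i => f i = a) (fun i j h => by rw [hf i j h])))
    (s : Finset κ) :
    ExtCl P (E2_res E (fun i => f i ∈ s) (fun i j h => by rw [hf i j h])) := by
  induction s using Finset.induction_on with
  | empty =>
    exact ExtCl.zero _ (E2_isZero _ ⟨fun i => Finset.notMem_empty _ i.2⟩)
  | insert a s ha ih =>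
    set F := E2_res E (fun i => f i ∈ s) (fun i j h => by rw [hf i j h]) with hF
    set G := E2_res E (fun i => f i = a) (fun i j h => by rw [hf i j h]) with hG
    have hG' : ExtCl P ((G⟦(-1 : ℤ)⟧)⟦(1 : ℤ)⟧) :=
      (hP a).iso ((shiftFunctorCompIsoId (MF A W) (-1 : ℤ) 1 (by norm_num)).app G).symm
    have hT := rot_of_distTriang _ (stdTri_mem (G⟦(-1 : ℤ)⟧) F 0 (zero_mem _))
    have h1 : ExtCl P (cone (G⟦(-1 : ℤ)⟧) F 0 (zero_mem _)) := ExtCl.ext (P := P) _ hT ih hG'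
    obtain ⟨e⟩ := E2_reindex (E := cone (G⟦(-1 : ℤ)⟧) F 0 (zero_mem _))
      (F := E2_res E (fun i => f i ∈ insert a s) (fun i j h => by rw [hf i j h]))
      (E2_equiv f a s ha)
      (by
        rintro (⟨i, hi⟩ | ⟨i, hi⟩)
        · rfl
        · change E.p i = -A.en 3 +ᵥ (-(A.en (3 * (-1))) +ᵥ E.p i)
          rw [vadd_vadd, ← A.en_neg, ← A.en_neg, ← A.en_add]
          norm_num [A.en_zero])
      (by
        rintro (⟨i, hi⟩ | ⟨i, hi⟩) (⟨j, hj⟩ | ⟨j, hj⟩)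
        · rfl
        · change E.d i j = 0
          by_contra h0
          exact ha (hj ▸ hf i j h0 ▸ hi)
        · change E.d i j = 0
          by_contra h0
          exact ha (hi ▸ (hf i j h0).symm ▸ hj)
        · change E.d i j = -(sg (A.chΓ (A.en (3 * (-1)))) • E.d i j)
          rw [A.chΓ_en]
          have h : sg (3 * (-1)) = -1 := by decide
          rw [h, neg_smul, one_smul, neg_neg])
    exact h1.iso e

/-- finite direct sums are iterated extensions -/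
theorem E2_ext_univ {P : MF A W → Prop} (E : MF A W) {κ : Type} [DecidableEq κ] [Fintype κ]
    (f : E.ι → κ) (hf : ∀ i j, E.d i j ≠ 0 → f i = f j)
    (hP : ∀ a, ExtCl P (E2_res E (fun i => f i = a) (fun i j h => by rw [hf i j h]))) :
    ExtCl P E := by
  obtain ⟨e⟩ := E2_reindex (E := E2_res E (fun i => f i ∈ (Finset.univ : Finset κ))
    (fun i j h => by rw [hf i j h])) (F := E)
    (Equiv.subtypeUnivEquiv fun i => Finset.mem_univ (f i)) (fun _ => rfl) (fun _ _ => rfl)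
  exact (E2_ext E f hf hP Finset.univ).iso e

end E2gen

section E2poly

theorem E2_coeff_wtPart {R : Type} [CommRing R] (w : ZMod 3) (f : R[X]) (n : ℕ) :
    (wtPart w f).coeff n = if (n : ZMod 3) = w then f.coeff n else 0 := by
  unfold wtPart
  rw [finsetSum_coeff]
  have h : ∀ b : ℕ, ((monomial b) (f.coeff b)).coeff n = if b = n then f.coeff b else 0 := by
    intro b
    exact Polynomial.coeff_monomial
  rw [Finset.sum_congr rfl (fun b _ => h b), Finset.sum_ite_eq']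
  have hm : (n ∈ f.support.filter (fun n : ℕ => (n : ZMod 3) = w)) ↔
      (f.coeff n ≠ 0 ∧ (n : ZMod 3) = w) := by
    rw [Finset.mem_filter, mem_support_iff]
  split_ifs with h1 h2 h2
  · rfl
  · exact absurd (hm.1 h1).2 h2
  · by_contra h3
    exact h1 (hm.2 ⟨fun h => h3 h.symm, h2⟩)
  · rfl

theorem E2_wtPart_zsmul {R : Type} [CommRing R] (w : ZMod 3) (n : ℤ) (f : R[X]) :
    wtPart w (n • f) = n • wtPart w f := by
  ext k
  simp only [E2_coeff_wtPart, coeff_smul]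
  split_ifs <;> simp

/-- block diagonal matrices -/
theorem E2_rank {m o : Type} [Fintype m] [Fintype o] [DecidableEq m] [DecidableEq o]
    (M : Matrix m m ℂ) (N : Matrix (m × o) (m × o) ℂ)
    (hN : ∀ i u j v, N (i, u) (j, v) = if u = v then M i j else 0) :
    N.rank = Fintype.card o * M.rank := by
  let φ : (o → LinearMap.range M.mulVecLin) →ₗ[ℂ] ((m × o) → ℂ) :=
    { toFun := fun g x => (g x.2).1 x.1
      map_add' := fun g h => by ext x; rfl
      map_smul' := fun c g => by ext x; rfl }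
  have hinj : Function.Injective φ := by
    intro g h hgh
    funext u
    apply Subtype.ext
    funext i
    exact congrFun hgh (i, u)
  have hNv : ∀ (x : m × o → ℂ) (i : m) (u : o), N.mulVec x (i, u) = M.mulVec (fun j => x (j, u)) i := by
    intro x i u
    simp only [Matrix.mulVec, dotProduct, Fintype.sum_prod_type, hN, ite_mul, zero_mul,
      Finset.sum_ite_eq, Finset.mem_univ, if_true]
  have hr : LinearMap.range φ = LinearMap.range N.mulVecLin := by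
    apply le_antisymm
    · rintro _ ⟨g, rfl⟩
      choose x hx using fun u => (g u).2
      refine ⟨fun ju => x ju.2 ju.1, ?_⟩
      ext ⟨i, u⟩
      rw [Matrix.mulVecLin_apply, hNv]
      exact congrFun (hx u) i
    · rintro _ ⟨x, rfl⟩
      refine ⟨fun u => ⟨M.mulVec (fun j => x (j, u)), ⟨_, rfl⟩⟩, ?_⟩
      ext ⟨i, u⟩
      rw [Matrix.mulVecLin_apply, hNv]
      rfl
  rw [Matrix.rank, ← hr, LinearMap.finrank_range_of_inj hinj, Module.finrank_pi_fintype,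
    Finset.sum_const, Finset.card_univ, smul_eq_mul]
  rfl

end E2poly

variable {A : GCtx} {W : A.S}

/-- exponents of an entry of a weighted polynomial matrix -/
theorem E2_wt_of_coeff {a b : A.L × ZMod 3} {f : A.S[X]}
    (hf : f ∈ A.T.H (A.T.en 3 +ᵥ (show A.T.L from a)) b) {n : ℕ} (hn : f.coeff n ≠ 0) :
    (n : ZMod 3) = a.2 - b.2 := by
  rcases (GCtx.wt_mem_iff A (ZMod 3) _ _ _).1 (hf n) with h | h
  · have h1 : -((n • ((A.en 2, 1) : A.Γ × ZMod 3)).2) + ((A.T.en 3 : A.Γ × ZMod 3).2 + a.2) = b.2 :=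
      h.1
    have h2 : (A.T.en 3 : A.Γ × ZMod 3).2 = 0 := by
      change ((3 : ℤ) • ((A.e, 0) : A.Γ × ZMod 3)).2 = 0
      rw [Prod.smul_snd, smul_zero]
    rw [h2, Prod.smul_snd, nsmul_one, zero_add] at h1
    rw [← h1]
    ring
  · exact absurd h hn

theorem E2_wtPart_eq {a b : A.L × ZMod 3} {f : A.S[X]}
    (hf : f ∈ A.T.H (A.T.en 3 +ᵥ (show A.T.L from a)) b) {w : ZMod 3} (hw : w = a.2 - b.2) :
    wtPart w f = f := by
  ext n
  rw [E2_coeff_wtPart]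
  split_ifs with h
  · rfl
  · by_contra h0
    exact h ((E2_wt_of_coeff hf (fun h1 => h0 h1.symm)).trans hw.symm)

theorem E2_wtPart_ne {a b : A.L × ZMod 3} {f : A.S[X]}
    (hf : f ∈ A.T.H (A.T.en 3 +ᵥ (show A.T.L from a)) b) {w : ZMod 3} (hw : wtPart w f ≠ 0) :
    w = a.2 - b.2 := by
  obtain ⟨n, hn⟩ : ∃ n, (wtPart w f).coeff n ≠ 0 := by
    by_contra h
    push Not at h
    exact hw (Polynomial.ext (by simpa using h))
  rw [E2_coeff_wtPart] at hn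
  split_ifs at hn with h
  · rw [← h, E2_wt_of_coeff hf hn]
  · exact absurd rfl hn

/-- `Ind Fo X` is the direct sum of the weight twists of `X` -/
theorem Fo_monad (X : MFT A W) :
    ExtCl (fun Y => ∃ v : ZMod 3, Nonempty (Y ≅ tw (((0, v) : A.Γ × ZMod 3) : A.T.Γ) X))
      (IndO ((Fo A W).functor.obj X)) := by
  have hX : ∀ (i j : X.ι), (show A.S[X] from X.d i j) ∈
      A.T.H (A.T.en 3 +ᵥ (show A.T.L from (X.p j : A.L × ZMod 3))) (X.p i) := fun i j => X.deg i j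
  refine E2_ext_univ (IndO ((Fo A W).functor.obj X))
    (fun jv => jv.2 - (show A.L × ZMod 3 from X.p jv.1.1).2) ?_ ?_
  · rintro ⟨i, u⟩ ⟨j, v⟩ h
    have h1 := E2_wtPart_ne (hX i.1 j.1) h
    change u - (show A.L × ZMod 3 from X.p i.1).2 = v - (show A.L × ZMod 3 from X.p j.1).2
    linear_combination -h1
  · intro a
    refine ExtCl.of _ ⟨-a, ?_⟩
    refine E2_reindex (E := E2_res (IndO ((Fo A W).functor.obj X))
      (fun jv => jv.2 - (show A.L × ZMod 3 from X.p jv.1.1).2 = a) _)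
      (F := tw (((0, -a) : A.Γ × ZMod 3) : A.T.Γ) X)
      { toFun := fun jv => jv.1.1.1
        invFun := fun j => ⟨(⟨j, trivial⟩, a + (show A.L × ZMod 3 from X.p j).2),
          add_sub_cancel_right _ _⟩
        left_inv := ?_
        right_inv := fun j => rfl } ?_ ?_
    · rintro ⟨⟨⟨j, hj⟩, v⟩, h⟩
      apply Subtype.ext
      apply Prod.ext
      · rfl
      · change a + (show A.L × ZMod 3 from X.p j).2 = v
        change v - (show A.L × ZMod 3 from X.p j).2 = a at h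
        rw [← h, sub_add_cancel]
    · rintro ⟨⟨⟨j, hj⟩, v⟩, h⟩
      change v - (show A.L × ZMod 3 from X.p j).2 = a at h
      change ((-(0 : A.Γ) +ᵥ (show A.L × ZMod 3 from X.p j).1,
        -(-a) + (show A.L × ZMod 3 from X.p j).2) : A.L × ZMod 3)
        = ((show A.L × ZMod 3 from X.p j).1, v)
      rw [neg_zero, zero_vadd, ← h, neg_neg, sub_add_cancel]
    · rintro ⟨⟨⟨i, hi⟩, u⟩, h⟩ ⟨⟨⟨j, hj⟩, v⟩, h'⟩
      change u - (show A.L × ZMod 3 from X.p i).2 = a at h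
      change v - (show A.L × ZMod 3 from X.p j).2 = a at h'
      change sg (A.chΓ 0) • X.d i j = wtPart (v - u) (X.d i j)
      rw [map_zero, sg_zero, one_smul]
      refine (E2_wtPart_eq (hX i j) ?_).symm
      linear_combination h' - h

theorem IndO_tw (γ : A.Γ) (Y : MF A.P (WP A W)) :
    Nonempty (IndO (tw (show A.P.Γ from γ) Y) ≅
      tw (((γ, 0) : A.Γ × ZMod 3) : A.T.Γ) (IndO Y)) := by
  refine E2_reindex (E := IndO (tw (show A.P.Γ from γ) Y))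
      (F := tw (((γ, 0) : A.Γ × ZMod 3) : A.T.Γ) (IndO Y)) (Equiv.refl _) ?_ ?_
  · rintro ⟨j, v⟩
    change ((-γ +ᵥ (show A.L from Y.p j), -0 + v) : A.L × ZMod 3) = (-γ +ᵥ (show A.L from Y.p j), v)
    rw [neg_zero, zero_add]
  · rintro ⟨i, u⟩ ⟨j, v⟩
    exact (E2_wtPart_zsmul (v - u) (sg (A.chΓ γ)) (Y.d i j)).symm

theorem E2_ev_wtPart [GCtx.Aug A] (u v : ZMod 3) (f : A.S[X]) :
    GCtx.Aug.ev (A := A) ((wtPart (v - u) f).coeff 0)
      = if u = v then GCtx.Aug.ev (A := A) (f.coeff 0) else 0 := by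
  rw [E2_coeff_wtPart]
  have h : ((0 : ℕ) : ZMod 3) = v - u ↔ u = v := by
    rw [Nat.cast_zero, eq_comm, sub_eq_zero, eq_comm]
  simp only [h]
  split_ifs
  · rfl
  · exact map_zero _

theorem E2_sum_prod {ι : Type} [Fintype ι] (g : ι → ℂ) :
    ∑ x : ι × ZMod 3, g x.1 = 3 * ∑ i, g i := by
  rw [Fintype.sum_prod_type, Finset.mul_sum]
  refine Finset.sum_congr rfl fun i _ => ?_
  change ∑ y : ZMod 3, g i = 3 * g i
  rw [Finset.sum_const, Finset.card_univ, ZMod.card, nsmul_eq_mul]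
  norm_num

theorem rk_IndO [GCtx.Aug A] (Y : MF A.P (WP A W)) : rk (IndO Y) = 3 * rk Y := by
  have h1 : (dbar (IndO Y)).rank = Fintype.card (ZMod 3) * (dbar Y).rank := by
    refine E2_rank (dbar Y) (dbar (IndO Y)) ?_
    intro i u j v
    exact E2_ev_wtPart u v (Y.d i j)
  have h2 : Fintype.card (IndO Y).ι = Fintype.card Y.ι * 3 := by
    change Fintype.card (Y.ι × ZMod 3) = _
    rw [Fintype.card_prod, ZMod.card]
  unfold rk
  rw [h1, h2, ZMod.card]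
  omega

theorem Zf_IndO (Y : MF A.P (WP A W)) : Zf (IndO Y) = 3 * Zf Y := by
  exact E2_sum_prod (fun i => ray (-(A.P.ch (Y.p i) : ℝ) / 3))

end Vale.Agent.P287T.G3
end
end

section

section

/-!
# The functor `tl4`: left adjoint
-/

open Matrix CategoryTheory CategoryTheory.Limits CategoryTheory.Pretriangulated Polynomial

namespace Vale.Agent.P287T.G3

section T2aRing

variable {R : Type} [CommRing R] {I K : Type}

/-- `Λ^{-1} d Λ` -/
noncomputable def T2a_D (u : I → ℕ) (d : Matrix I I R) : Matrix I I R[X] :=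
  Matrix.of fun i j => C (d i j) * X ^ (u j - u i)

theorem T2a_D_apply (u : I → ℕ) (d : Matrix I I R) (i j : I) :
    T2a_D u d i j = C (d i j) * X ^ (u j - u i) := rfl

variable [DecidableEq I]

/-- `Λ` -/
noncomputable def T2a_L (R : Type) [CommRing R] (u : I → ℕ) : Matrix I I R[X] :=
  Matrix.diagonal fun j => X ^ (u j)

/-- `y^3 Λ^{-1}` -/
noncomputable def T2a_M (R : Type) [CommRing R] (u : I → ℕ) : Matrix I I R[X] :=
  Matrix.diagonal fun j => X ^ (3 - u j)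

/-- the differential of the left adjoint -/
noncomputable def T2a_G (u : I → ℕ) (d : Matrix I I R) : Matrix (I ⊕ I) (I ⊕ I) R[X] :=
  Matrix.fromBlocks (T2a_D u d) (T2a_M R u) (T2a_L R u) (-(d.map C))

theorem T2a_G_11 (u : I → ℕ) (d : Matrix I I R) (i j : I) :
    T2a_G u d (Sum.inl i) (Sum.inl j) = C (d i j) * X ^ (u j - u i) := rfl

theorem T2a_G_12 (u : I → ℕ) (d : Matrix I I R) (i j : I) :
    T2a_G u d (Sum.inl i) (Sum.inr j) = if i = j then C 1 * X ^ (3 - u j) else 0 := by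
  have : T2a_G u d (Sum.inl i) (Sum.inr j) = T2a_M R u i j := rfl
  rw [this, T2a_M, C_1, one_mul]
  split_ifs with h
  · subst h; rw [Matrix.diagonal_apply_eq]
  · rw [Matrix.diagonal_apply_ne _ h]

theorem T2a_G_21 (u : I → ℕ) (d : Matrix I I R) (i j : I) :
    T2a_G u d (Sum.inr i) (Sum.inl j) = if i = j then C 1 * X ^ (u j) else 0 := by
  have : T2a_G u d (Sum.inr i) (Sum.inl j) = T2a_L R u i j := rfl
  rw [this, T2a_L, C_1, one_mul]
  split_ifs with h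
  · subst h; rw [Matrix.diagonal_apply_eq]
  · rw [Matrix.diagonal_apply_ne _ h]

theorem T2a_G_22 (u : I → ℕ) (d : Matrix I I R) (i j : I) :
    T2a_G u d (Sum.inr i) (Sum.inr j) = C (-d i j) * X ^ 0 := by
  have : T2a_G u d (Sum.inr i) (Sum.inr j) = -C (d i j) := rfl
  rw [this, C_neg, pow_zero, mul_one]

variable [Fintype I]

theorem T2a_mul_L (u : I → ℕ) (a : Matrix K I R[X]) (k : K) (j : I) :
    (a * T2a_L R u) k j = a k j * X ^ (u j) := by
  unfold T2a_L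
  rw [Matrix.mul_diagonal]

theorem T2a_L_mul (u : I → ℕ) (a : Matrix I K R[X]) (k : K) (j : I) :
    (T2a_L R u * a) j k = X ^ (u j) * a j k := by
  unfold T2a_L
  rw [Matrix.diagonal_mul]

theorem T2a_LD {u : I → ℕ} {d : Matrix I I R} (hd : ∀ i j, u j < u i → d i j = 0) :
    T2a_L R u * T2a_D u d = d.map C * T2a_L R u := by
  ext1 i j
  rw [T2a_L_mul, T2a_mul_L, Matrix.map_apply, T2a_D_apply]
  by_cases h : u j < u i
  · rw [hd i j h]; simp
  · push Not at h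
    rw [mul_left_comm, ← pow_add, Nat.add_sub_cancel' h]

theorem T2a_ML {u : I → ℕ} (hu : ∀ j, u j ≤ 3) :
    T2a_M R u * T2a_L R u = (X ^ 3 : R[X]) • (1 : Matrix I I R[X]) := by
  unfold T2a_M T2a_L
  rw [Matrix.diagonal_mul_diagonal, Matrix.smul_one_eq_diagonal]
  congr 1
  funext j
  rw [← pow_add, Nat.sub_add_cancel (hu j)]

theorem T2a_LM {u : I → ℕ} (hu : ∀ j, u j ≤ 3) :
    T2a_L R u * T2a_M R u = (X ^ 3 : R[X]) • (1 : Matrix I I R[X]) := by
  unfold T2a_M T2a_L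
  rw [Matrix.diagonal_mul_diagonal, Matrix.smul_one_eq_diagonal]
  congr 1
  funext j
  rw [← pow_add, Nat.add_sub_cancel' (hu j)]

theorem T2a_rcancel {u : I → ℕ} {a b : Matrix K I R[X]} (h : a * T2a_L R u = b * T2a_L R u) :
    a = b := by
  ext1 k j
  have h1 := congrFun (congrFun h k) j
  rw [T2a_mul_L, T2a_mul_L] at h1
  exact (Polynomial.monic_X_pow (R := R) (u j)).isRegular.right h1

theorem T2a_lcancel {u : I → ℕ} {a b : Matrix I K R[X]} (h : T2a_L R u * a = T2a_L R u * b) :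
    a = b := by
  ext1 j k
  have h1 := congrFun (congrFun h j) k
  rw [T2a_L_mul, T2a_L_mul] at h1
  exact (Polynomial.monic_X_pow (R := R) (u j)).isRegular.left h1

theorem T2a_DD {u : I → ℕ} {d : Matrix I I R} (hd : ∀ i j, u j < u i → d i j = 0) {W : R}
    (hW : d * d = W • (1 : Matrix I I R)) :
    T2a_D u d * T2a_D u d = (C W : R[X]) • (1 : Matrix I I R[X]) := by
  apply T2a_lcancel (u := u)
  rw [← Matrix.mul_assoc, T2a_LD hd, Matrix.mul_assoc, T2a_LD hd, ← Matrix.mul_assoc,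
    ← Matrix.map_mul, hW, Matrix.mul_smul, Matrix.mul_one]
  have : ((W • (1 : Matrix I I R)).map C : Matrix I I R[X]) = (C W : R[X]) • 1 := by
    ext1 i j
    by_cases h : i = j
    · subst h; simp
    · simp [Matrix.one_apply_ne h]
  rw [this, Matrix.smul_mul, Matrix.one_mul]

theorem T2a_cc {W : R} {d : Matrix I I R} (hW : d * d = W • (1 : Matrix I I R)) :
    (d.map C * d.map C : Matrix I I R[X]) = (C W : R[X]) • 1 := by
  rw [← Matrix.map_mul, hW]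
  ext1 i j
  by_cases h : i = j
  · subst h; simp
  · simp [Matrix.one_apply_ne h]

theorem T2a_DM {u : I → ℕ} (hu : ∀ j, u j ≤ 3) {d : Matrix I I R}
    (hd : ∀ i j, u j < u i → d i j = 0) :
    T2a_D u d * T2a_M R u = T2a_M R u * d.map C := by
  apply T2a_rcancel (u := u)
  rw [Matrix.mul_assoc, T2a_ML hu, Matrix.mul_assoc, ← T2a_LD hd, ← Matrix.mul_assoc, T2a_ML hu]
  rw [Matrix.mul_smul, Matrix.mul_one, Matrix.smul_mul, Matrix.one_mul]

theorem T2a_G_sq {u : I → ℕ} (hu : ∀ j, u j ≤ 3) {d : Matrix I I R}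
    (hd : ∀ i j, u j < u i → d i j = 0) {W : R} (hW : d * d = W • (1 : Matrix I I R)) :
    T2a_G u d * T2a_G u d = (C W + X ^ 3 : R[X]) • (1 : Matrix (I ⊕ I) (I ⊕ I) R[X]) := by
  unfold T2a_G
  rw [Matrix.fromBlocks_multiply, T2a_DD hd hW, T2a_ML hu, T2a_LD hd, T2a_LM hu, T2a_DM hu hd]
  rw [Matrix.mul_neg, Matrix.neg_mul, Matrix.neg_mul, Matrix.mul_neg, neg_neg, T2a_cc hW,
    add_neg_cancel, add_neg_cancel, ← add_smul, ← add_smul, add_comm (X ^ 3 : R[X]),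
    ← Matrix.fromBlocks_one, Matrix.fromBlocks_smul]
  simp only [smul_zero]

variable [Fintype K]

/-- the homotopy -/
theorem T2a_htpy {u : I → ℕ} {d : Matrix I I R}
    (hd : ∀ i j, u j < u i → d i j = 0)
    {dE : Matrix K K R[X]}
    {a b : Matrix K I R[X]} (h : dE * Matrix.fromCols (a * T2a_L R u) b =
      Matrix.fromCols (a * T2a_L R u) b * T2a_G u d) :
    Matrix.fromCols (a * T2a_L R u) b =
      dE * Matrix.fromCols (0 : Matrix K I R[X]) a + Matrix.fromCols (0 : Matrix K I R[X]) a * T2a_G u d := by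
  unfold T2a_G at h ⊢
  rw [Matrix.mul_fromCols, Matrix.fromCols_mul_fromBlocks] at h
  rw [Matrix.mul_fromCols, Matrix.fromCols_mul_fromBlocks]
  have h1 := (Matrix.fromCols_inj h).1
  have h2 : b = dE * a + a * -(d.map C) := by
    apply T2a_rcancel (u := u)
    have h3 : dE * (a * T2a_L R u) - a * T2a_L R u * T2a_D u d = b * T2a_L R u := by
      rw [h1]; abel
    rw [← h3, Matrix.mul_assoc a, T2a_LD hd, Matrix.add_mul, Matrix.mul_neg, Matrix.neg_mul,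
      Matrix.mul_assoc, Matrix.mul_assoc]
    abel
  rw [Matrix.zero_mul, Matrix.mul_zero, Matrix.zero_mul, zero_add]
  have h4 : Matrix.fromCols (0 : Matrix K I R[X]) (dE * a) +
      Matrix.fromCols (a * T2a_L R u) (a * -(d.map C)) =
      Matrix.fromCols (a * T2a_L R u) (dE * a + a * -(d.map C)) := by
    ext1 k j
    cases j <;> simp
  rw [zero_add, h4, ← h2]

variable [DecidableEq K]

/-- closedness of the lift -/
theorem T2a_closed {u : I → ℕ} (hu : ∀ j, u j ≤ 3) {d : Matrix I I R}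
    (hd : ∀ i j, u j < u i → d i j = 0) {W : R} (hW : d * d = W • (1 : Matrix I I R))
    {dE : Matrix K K R[X]} (hE : dE * dE = (C W + X ^ 3 : R[X]) • (1 : Matrix K K R[X]))
    {a ψ : Matrix K I R[X]} (h : dE * a - a * T2a_D u d = ψ * T2a_L R u) :
    dE * Matrix.fromCols a ψ = Matrix.fromCols a ψ * T2a_G u d := by
  have h1 : dE * a = a * T2a_D u d + ψ * T2a_L R u := by rw [← h]; abel
  have h2 : dE * ψ = a * T2a_M R u + ψ * -(d.map C) := by
    apply T2a_rcancel (u := u)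
    rw [Matrix.mul_assoc, ← h, Matrix.mul_sub, ← Matrix.mul_assoc, hE, ← Matrix.mul_assoc, h1,
      Matrix.add_mul, Matrix.add_mul, Matrix.mul_assoc a, T2a_DD hd hW, Matrix.mul_assoc a,
      T2a_ML hu, Matrix.mul_neg, Matrix.neg_mul, Matrix.mul_assoc ψ, Matrix.mul_assoc ψ,
      T2a_LD hd]
    rw [Matrix.smul_mul, Matrix.one_mul, Matrix.mul_smul, Matrix.mul_one, Matrix.mul_smul,
      Matrix.mul_one, add_smul]
    abel
  unfold T2a_G
  rw [Matrix.mul_fromCols, Matrix.fromCols_mul_fromBlocks, h1, h2]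

end T2aRing

variable (A : GCtx) (W : A.S)

/-- the functor `HMF(A.T, W + y^3) ⥤ Lev_4` -/
noncomputable def TL4 : MFT A W ⥤ MFL A W 2 := (TL5 A W).functor ⋙ (levB A W 1).functor

noncomputable instance : (TL4 A W).CommShift ℤ :=
  inferInstanceAs (((TL5 A W).functor ⋙ (levB A W 1).functor).CommShift ℤ)

instance : (TL4 A W).IsTriangulated :=
  inferInstanceAs (((TL5 A W).functor ⋙ (levB A W 1).functor).IsTriangulated)

variable {A : GCtx} {W : A.S}

/-- label part -/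
def T2a_l (a : A.T.L) : A.L := Prod.fst (α := A.L) (β := ZMod 3) a
/-- weight part -/
def T2a_z (a : A.T.L) : ZMod 3 := Prod.snd (α := A.L) (β := ZMod 3) a
/-- a label from its parts -/
def T2a_mk (l : A.L) (z : ZMod 3) : A.T.L := ((l, z) : A.L × ZMod 3)
/-- label part -/
def T2a_ll {k : ℕ} (a : (A.lev k).L) : A.L := Prod.fst (α := A.L) (β := Fin k) a
/-- level part -/
def T2a_lz {k : ℕ} (a : (A.lev k).L) : Fin k := Prod.snd (α := A.L) (β := Fin k) a

theorem T2a_z_mk (l : A.L) (z : ZMod 3) : T2a_z (T2a_mk l z) = z := rfl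
theorem T2a_l_mk (l : A.L) (z : ZMod 3) : T2a_l (T2a_mk l z) = l := rfl

/-- membership in `A.T.H` -/
theorem T2a_mem_T {a b : A.T.L} {f : A.S[X]} : f ∈ A.T.H a b ↔
    ∀ n : ℕ, f.coeff n = 0 ∨ (T2a_z a = T2a_z b + (n : ZMod 3) ∧
      f.coeff n ∈ A.H (A.en (-(2 * n)) +ᵥ T2a_l a) (T2a_l b)) := by
  have h0 : f ∈ A.T.H a b ↔ ∀ n : ℕ, (f.coeff n : (A.wt (ZMod 3)).S) ∈ (A.wt (ZMod 3)).H
      (((-(n • A.en 2) +ᵥ T2a_l a, -(n • (1 : ZMod 3)) + T2a_z a) : A.L × ZMod 3))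
      b :=
    Iff.rfl
  rw [h0]
  refine forall_congr' fun n => ?_
  refine (GCtx.wt_mem_iff A (ZMod 3) ((-(n • A.en 2) +ᵥ T2a_l a, -(n • (1 : ZMod 3)) + T2a_z a) :
    A.L × ZMod 3) b (f.coeff n)).trans ?_
  have h2 : -(n • A.en 2) = A.en (-(2 * n)) := by
    rw [A.en_neg, GCtx.en, GCtx.en, ← natCast_zsmul, smul_smul, mul_comm]
  have h3 : -(n • (1 : ZMod 3)) + T2a_z a = T2a_z b ↔ T2a_z a = T2a_z b + (n : ZMod 3) := by
    rw [nsmul_one]
    constructor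
    · intro h; rw [← h]; ring
    · intro h; rw [h]; ring
  dsimp only
  rw [h2, or_comm, ← h3]
  rfl

theorem T2a_z_en (n : ℤ) (a : A.T.L) : T2a_z (A.T.en n +ᵥ a) = T2a_z a := by
  have h1 : T2a_z (A.T.en n +ᵥ a) = (n • (0 : ZMod 3)) + T2a_z a := rfl
  rw [h1, smul_zero, zero_add]

theorem T2a_l_en (n : ℤ) (a : A.T.L) : T2a_l (A.T.en n +ᵥ a) = A.en n +ᵥ T2a_l a := rfl

theorem T2a_lz_en {k : ℕ} (n : ℤ) (a : (A.lev k).L) : T2a_lz ((A.lev k).en n +ᵥ a) = T2a_lz a :=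
  rfl

theorem T2a_ll_en {k : ℕ} (n : ℤ) (a : (A.lev k).L) :
    T2a_ll ((A.lev k).en n +ᵥ a) = A.en n +ᵥ T2a_ll a := rfl

theorem T2a_mem_lev {k : ℕ} {a b : (A.lev k).L} {s : A.S} : s ∈ (A.lev k).H a b ↔
    (T2a_lz b ≤ T2a_lz a ∧ s ∈ A.H (T2a_ll a) (T2a_ll b)) ∨ s = 0 :=
  GCtx.lev_mem_iff A k a b s

theorem T2a_mono_mem {a b : A.T.L} {s : A.S} {m : ℕ}
    (h : s = 0 ∨ (T2a_z a = T2a_z b + (m : ZMod 3) ∧
      s ∈ A.H (A.en (-(2 * m)) +ᵥ T2a_l a) (T2a_l b))) :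
    (C s * X ^ m : A.S[X]) ∈ A.T.H a b := by
  rw [T2a_mem_T]
  intro n
  rw [Polynomial.coeff_C_mul_X_pow]
  split_ifs with hn
  · subst hn; exact h
  · exact Or.inl rfl

theorem T2a_H_en {m n : ℤ} {a b : A.L} {s : A.S} (h : s ∈ A.H (A.en m +ᵥ a) (A.en n +ᵥ b)) (k m' n' : ℤ)
    (hm : m' = m + k) (hn : n' = n + k) : s ∈ A.H (A.en m' +ᵥ a) (A.en n' +ᵥ b) := by
  rw [hm, hn, add_comm m, add_comm n, A.en_add, A.en_add, ← vadd_vadd, ← vadd_vadd, A.H_vadd]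
  exact h

theorem T2a_H_en0 {m n : ℤ} {a b : A.L} {s : A.S} (h : s ∈ A.H (A.en m +ᵥ a) (A.en n +ᵥ b))
    {m' : ℤ} (hm : m' = m - n) : s ∈ A.H (A.en m' +ᵥ a) b := by
  have := T2a_H_en h (-n) m' 0 (by rw [hm]; ring) (by ring)
  rwa [A.en_zero, zero_vadd] at this

/-- the weight `u_j ∈ {1,..,2}` -/
def T2a_u (X : MFL A W 2) (j : X.ι) : ℕ := (T2a_lz (X.p j)).val + 1

/-- the differential, entries in `A.S` -/
def T2a_dX (X : MFL A W 2) : Matrix X.ι X.ι A.S := X.d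

theorem T2a_u_le (X : MFL A W 2) (j : X.ι) : T2a_u X j ≤ 2 := (T2a_lz (X.p j)).2

theorem T2a_dX_mem (X : MFL A W 2) (i j : X.ι) : T2a_dX X i j = 0 ∨ (T2a_u X i ≤ T2a_u X j ∧
    T2a_dX X i j ∈ A.H (A.en 3 +ᵥ T2a_ll (X.p j)) (T2a_ll (X.p i))) := by
  rcases T2a_mem_lev.1 (X.deg i j) with h | h
  · right
    refine ⟨?_, h.2⟩
    have := h.1
    rw [T2a_lz_en] at this
    exact Nat.succ_le_succ this
  · exact Or.inl h

theorem T2a_dX_zero (X : MFL A W 2) (i j : X.ι) (h : T2a_u X j < T2a_u X i) :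
    T2a_dX X i j = 0 := by
  rcases T2a_dX_mem X i j with h1 | h1
  · exact h1
  · exact absurd h1.1 (not_le.2 h)

theorem T2a_dX_sq (X : MFL A W 2) : T2a_dX X * T2a_dX X = W • (1 : Matrix X.ι X.ι A.S) := X.sq

/-- labels of the left adjoint -/
def T2a_p (X : MFL A W 2) : X.ι ⊕ X.ι → A.T.L :=
  Sum.elim (fun j => T2a_mk (A.en (2 * T2a_u X j - 4) +ᵥ T2a_ll (X.p j)) (T2a_u X j : ZMod 3))
    (fun j => T2a_mk (A.en (-1) +ᵥ T2a_ll (X.p j)) 0)

theorem T2a_en_en (m n : ℤ) (a : A.L) : A.en m +ᵥ (A.en n +ᵥ a) = A.en (m + n) +ᵥ a := by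
  rw [vadd_vadd, A.en_add]

theorem T2a_one_mem {m n : ℤ} (a : A.L) (h : m = n) : (1 : A.S) ∈ A.H (A.en m +ᵥ a) (A.en n +ᵥ a) := by
  subst h
  exact A.one_mem _

theorem T2a_p_inl (X : MFL A W 2) (j : X.ι) : T2a_p X (Sum.inl j) =
    T2a_mk (A.en (2 * T2a_u X j - 4) +ᵥ T2a_ll (X.p j)) (T2a_u X j : ZMod 3) := rfl

theorem T2a_p_inr (X : MFL A W 2) (j : X.ι) : T2a_p X (Sum.inr j) =
    T2a_mk (A.en (-1) +ᵥ T2a_ll (X.p j)) 0 := rfl

theorem T2a_zero_mem {a b : A.T.L} : (0 : A.S[X]) ∈ A.T.H a b :=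
  zero_mem (A.T.H a b)

theorem T2a_G_mem (X : MFL A W 2) (i j : X.ι ⊕ X.ι) :
    T2a_G (T2a_u X) (T2a_dX X) i j ∈ A.T.H (A.T.en 3 +ᵥ T2a_p X j) (T2a_p X i) := by
  have hu := T2a_u_le X
  rcases i with i | i <;> rcases j with j | j
  · rw [T2a_G_11]
    apply T2a_mono_mem
    rcases T2a_dX_mem X i j with h | h
    · exact Or.inl h
    · right
      rw [T2a_p_inl, T2a_p_inl, T2a_z_en, T2a_z_mk, T2a_z_mk, T2a_l_en, T2a_l_mk, T2a_l_mk,
        T2a_en_en, T2a_en_en, ← Nat.cast_add, Nat.add_sub_cancel' h.1]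
      refine ⟨rfl, T2a_H_en (n := 0) (m := 3) (by rw [A.en_zero, zero_vadd]; exact h.2)
        (2 * T2a_u X i - 4) _ _ ?_ ?_⟩
      · push_cast [Nat.cast_sub h.1]; ring
      · ring
  · rw [T2a_G_12]
    split_ifs with hij
    · subst hij
      apply T2a_mono_mem
      right
      have h5 : T2a_u X i ≤ 3 := (hu i).trans (by norm_num)
      rw [T2a_p_inl, T2a_p_inr, T2a_z_en, T2a_z_mk, T2a_z_mk, T2a_l_en, T2a_l_mk, T2a_l_mk,
        T2a_en_en, T2a_en_en, ← Nat.cast_add, Nat.add_sub_cancel' h5]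
      refine ⟨rfl, T2a_one_mem _ ?_⟩
      push_cast [Nat.cast_sub h5]; ring
    · exact T2a_zero_mem
  · rw [T2a_G_21]
    split_ifs with hij
    · subst hij
      apply T2a_mono_mem
      right
      rw [T2a_p_inl, T2a_p_inr, T2a_z_en, T2a_z_mk, T2a_z_mk, T2a_l_en, T2a_l_mk, T2a_l_mk,
        T2a_en_en, T2a_en_en, zero_add]
      refine ⟨rfl, T2a_one_mem _ ?_⟩
      ring
    · exact T2a_zero_mem
  · rw [T2a_G_22]
    apply T2a_mono_mem
    rcases T2a_dX_mem X i j with h | h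
    · left; rw [h, neg_zero]
    · right
      rw [T2a_p_inr, T2a_p_inr, T2a_z_en, T2a_z_mk, T2a_z_mk, T2a_l_en, T2a_l_mk, T2a_l_mk,
        T2a_en_en, T2a_en_en]
      refine ⟨by simp, neg_mem (T2a_H_en (n := 0) (m := 3) (by rw [A.en_zero, zero_vadd]; exact h.2)
        (-1) _ _ ?_ ?_)⟩
      · simp
      · ring

/-- the left adjoint on objects -/
noncomputable def T2a_obj (X : MFL A W 2) : MFT A W where
  ι := X.ι ⊕ X.ι
  p := T2a_p X
  d := (T2a_G (T2a_u X) (T2a_dX X) : Matrix (X.ι ⊕ X.ι) (X.ι ⊕ X.ι) A.S[X])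
  deg i j := T2a_G_mem X i j
  sq := T2a_G_sq (fun j => (T2a_u_le X j).trans (by norm_num)) (T2a_dX_zero X) (T2a_dX_sq X)

/-- weight of a basis vector, as a natural number -/
def T2a_v (E : MFT A W) (k : E.ι) : ℕ := (T2a_z (E.p k)).val

theorem T2a_v_le (E : MFT A W) (k : E.ι) : T2a_v E k ≤ 2 :=
  Nat.lt_succ_iff.1 (ZMod.val_lt (n := 3) (T2a_z (E.p k)))

/-- index set of the image under `TL4` -/
abbrev T2a_ix (E : MFT A W) : Type := ((TL4 A W).obj E).ι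

/-- underlying basis vector -/
def T2a_bx {E : MFT A W} (i : T2a_ix E) : E.ι :=
  (i : (levB A W 1).Ix ((TL5 A W).obj E)).1.1

theorem T2a_v_ne {E : MFT A W} (i : T2a_ix E) : T2a_v E (T2a_bx i) ≠ 0 := by
  intro h
  apply (i : (levB A W 1).Ix ((TL5 A W).obj E)).2
  apply Fin.ext
  exact h

/-- index of `TL4` from a basis vector of nonzero weight -/
def T2a_mi {E : MFT A W} (k : E.ι) (h : T2a_v E k ≠ 0) : T2a_ix E :=
  (⟨⟨k, trivial⟩, fun h' => h (congrArg Fin.val h')⟩ : (levB A W 1).Ix ((TL5 A W).obj E))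

theorem T2a_bx_mi {E : MFT A W} (k : E.ι) (h : T2a_v E k ≠ 0) : T2a_bx (T2a_mi k h) = k := rfl

theorem T2a_ix_ext {E : MFT A W} {i j : T2a_ix E} (h : T2a_bx i = T2a_bx j) : i = j :=
  Subtype.ext (Subtype.ext h)

/-- image of a matrix -/
def T2a_t {E F : MFT A W} (f : Matrix F.ι E.ι A.S[X]) : Matrix (T2a_ix F) (T2a_ix E) A.S :=
  Matrix.of fun i j => if T2a_v F (T2a_bx i) ≤ T2a_v E (T2a_bx j) then
    (f (T2a_bx i) (T2a_bx j)).coeff (T2a_v E (T2a_bx j) - T2a_v F (T2a_bx i)) else 0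

theorem T2a_t_apply {E F : MFT A W} (f : Matrix F.ι E.ι A.S[X]) (i : T2a_ix F) (j : T2a_ix E) :
    T2a_t f i j = if T2a_v F (T2a_bx i) ≤ T2a_v E (T2a_bx j) then
    (f (T2a_bx i) (T2a_bx j)).coeff (T2a_v E (T2a_bx j) - T2a_v F (T2a_bx i)) else 0 := rfl

theorem T2a_coeffT (a b : A.T.L) (f : A.S[X]) : coeffT A a b f =
    if (T2a_z b).val ≤ (T2a_z a).val then f.coeff ((T2a_z a).val - (T2a_z b).val) else 0 := by
  unfold coeffT
  by_cases h : (T2a_z b).val ≤ (T2a_z a).val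
  · rw [if_pos h]
    have h' : (b : A.L × ZMod 3).2.val ≤ (a : A.L × ZMod 3).2.val := h
    rw [if_pos h']
    rfl
  · rw [if_neg h]
    have h' : ¬ (b : A.L × ZMod 3).2.val ≤ (a : A.L × ZMod 3).2.val := h
    rw [if_neg h']
    rfl

theorem T2a_t_eq (n : ℤ) (E F : MFT A W) (f : Matrix F.ι E.ι A.S[X]) :
    (levB A W 1).mat n ((TL5 A W).obj E) ((TL5 A W).obj F) ((TL5 A W).mat n E F f) =
      T2a_t f := by
  ext1 i j
  have h1 : (levB A W 1).mat n ((TL5 A W).obj E) ((TL5 A W).obj F) ((TL5 A W).mat n E F f) i j =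
    coeffT A (A.T.en n +ᵥ E.p (T2a_bx j)) (F.p (T2a_bx i)) (f (T2a_bx i) (T2a_bx j)) := rfl
  rw [h1, T2a_coeffT, T2a_z_en]
  rfl

theorem T2a_t_add {E F : MFT A W} (f g : Matrix F.ι E.ι A.S[X]) :
    T2a_t (f + g) = (T2a_t f + T2a_t g : Matrix (T2a_ix F) (T2a_ix E) A.S) := by
  ext1 i j
  rw [Matrix.add_apply, T2a_t_apply, T2a_t_apply, T2a_t_apply, Matrix.add_apply]
  split_ifs
  · rw [Polynomial.coeff_add]
  · rw [add_zero]

theorem T2a_t_sub {E F : MFT A W} (f g : Matrix F.ι E.ι A.S[X]) :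
    T2a_t (f - g) = (T2a_t f - T2a_t g : Matrix (T2a_ix F) (T2a_ix E) A.S) := by
  ext1 i j
  rw [Matrix.sub_apply, T2a_t_apply, T2a_t_apply, T2a_t_apply, Matrix.sub_apply]
  split_ifs
  · rw [Polynomial.coeff_sub]
  · rw [sub_zero]

theorem T2a_t_mul {E F G : MFT A W} {m n k : ℤ} (hk : k = m + n) {f : Matrix F.ι E.ι A.S[X]}
    {g : Matrix G.ι F.ι A.S[X]} (hf : IsDeg E F (A.T.en n) f) (hg : IsDeg F G (A.T.en m) g) :
    T2a_t (g * f) = (T2a_t g * T2a_t f : Matrix (T2a_ix G) (T2a_ix E) A.S) := by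
  rw [← T2a_t_eq n E F, ← T2a_t_eq m F G, ← T2a_t_eq k E G]
  have h1 : (TL5 A W).mat k E G (g * f) = (TL5 A W).mat m F G g * (TL5 A W).mat n E F f :=
    (TL5 A W).mat_mul hk hf hg
  have h2 := (levB A W 1).mat_mul hk ((TL5 A W).mat_isDeg hf) ((TL5 A W).mat_isDeg hg)
  rw [h1]
  exact h2

theorem T2a_t_d (E : MFT A W) : T2a_t (E := E) (F := E) E.d = ((TL4 A W).obj E).d :=
  (T2a_t_eq 3 E E E.d).symm

theorem T2a_t_Z0 {E F : MFT A W} {f : Matrix F.ι E.ι A.S[X]} (hf : f ∈ Z0 E F) :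
    T2a_t f ∈ Z0 ((TL4 A W).obj E) ((TL4 A W).obj F) := by
  rw [← T2a_t_eq 0 E F]
  exact (levB A W 1).mat_Z0 ((TL5 A W).mat_Z0 hf)

theorem T2a_map_mk {E F : MFT A W} {f : Matrix F.ι E.ι A.S[X]} (hf : f ∈ Z0 E F) :
    (TL4 A W).map (mk f hf) = mk (E := (TL4 A W).obj E) (F := (TL4 A W).obj F) (T2a_t f)
      (T2a_t_Z0 hf) := by
  have h1 : (TL4 A W).map (mk f hf) = mk (E := (TL4 A W).obj E) (F := (TL4 A W).obj F)
      ((levB A W 1).mat 0 ((TL5 A W).obj E) ((TL5 A W).obj F) ((TL5 A W).mat 0 E F f))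
      ((levB A W 1).mat_Z0 ((TL5 A W).mat_Z0 hf)) := rfl
  rw [h1]
  exact mk_congr _ (T2a_t_eq 0 E F f)

theorem T2a_lz_TL4 {E : MFT A W} (j : T2a_ix E) :
    (T2a_lz (((TL4 A W).obj E).p j)).val + 1 = T2a_v E (T2a_bx j) := by
  have key : ∀ x : Fin 3, x.val ≠ 0 → (Fin.predAbove 0 x : Fin 2).val + 1 = x.val := by decide
  exact key ⟨T2a_v E (T2a_bx j), Nat.lt_succ_iff.2 (T2a_v_le E _)⟩ (T2a_v_ne j)

theorem T2a_ll_TL4 {E : MFT A W} (j : T2a_ix E) :
    T2a_ll (((TL4 A W).obj E).p j) = A.en (2 * (2 - (T2a_v E (T2a_bx j) : ℤ))) +ᵥ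
      T2a_l (E.p (T2a_bx j)) := rfl

theorem T2a_t_mem {E F : MFT A W} {n : ℤ} {φ : Matrix (T2a_ix F) (T2a_ix E) A.S}
    (h : IsDeg ((TL4 A W).obj E) ((TL4 A W).obj F) ((A.lev 2).en n) φ) (i : T2a_ix F)
    (j : T2a_ix E) : φ i j = 0 ∨ (T2a_v F (T2a_bx i) ≤ T2a_v E (T2a_bx j) ∧
      φ i j ∈ A.H (A.en (n + 2 * (2 - (T2a_v E (T2a_bx j) : ℤ))) +ᵥ T2a_l (E.p (T2a_bx j)))
        (A.en (2 * (2 - (T2a_v F (T2a_bx i) : ℤ))) +ᵥ T2a_l (F.p (T2a_bx i)))) := by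
  rcases T2a_mem_lev.1 (h i j) with h1 | h1
  · right
    obtain ⟨h2, h3⟩ := h1
    rw [T2a_lz_en] at h2
    rw [T2a_ll_en, T2a_ll_TL4, T2a_ll_TL4, T2a_en_en] at h3
    refine ⟨?_, h3⟩
    rw [← T2a_lz_TL4, ← T2a_lz_TL4]
    exact Nat.succ_le_succ h2
  · exact Or.inl h1

/-- left basis vectors -/
noncomputable def T2a_il (X : MFL A W 2) (j : X.ι) : (T2a_obj X).ι := (Sum.inl j : X.ι ⊕ X.ι)
/-- right basis vectors -/
noncomputable def T2a_ir (X : MFL A W 2) (j : X.ι) : (T2a_obj X).ι := (Sum.inr j : X.ι ⊕ X.ι)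

theorem T2a_cases (X : MFL A W 2) (i : (T2a_obj X).ι) :
    (∃ j, T2a_il X j = i) ∨ (∃ j, T2a_ir X j = i) := by
  change X.ι ⊕ X.ι at i
  rcases i with j | j
  · exact Or.inl ⟨j, rfl⟩
  · exact Or.inr ⟨j, rfl⟩

theorem T2a_l_il (X : MFL A W 2) (j : X.ι) : T2a_l ((T2a_obj X).p (T2a_il X j)) =
    A.en (2 * T2a_u X j - 4) +ᵥ T2a_ll (X.p j) := rfl

theorem T2a_l_ir (X : MFL A W 2) (j : X.ι) : T2a_l ((T2a_obj X).p (T2a_ir X j)) =
    A.en (-1) +ᵥ T2a_ll (X.p j) := rfl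

theorem T2a_v_inl (X : MFL A W 2) (j : X.ι) :
    T2a_v (T2a_obj X) (T2a_il X j) = T2a_u X j := by
  have h1 : T2a_v (T2a_obj X) (T2a_il X j) = ((T2a_u X j : ZMod 3)).val := rfl
  rw [h1, ZMod.val_natCast_of_lt (Nat.lt_succ_iff.2 (T2a_u_le X j))]

theorem T2a_v_inr (X : MFL A W 2) (j : X.ι) :
    T2a_v (T2a_obj X) (T2a_ir X j) = 0 := rfl

/-- the index of `TL4` of the left adjoint -/
noncomputable def T2a_emb (X : MFL A W 2) (j : X.ι) : T2a_ix (T2a_obj X) :=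
  T2a_mi (E := T2a_obj X) (T2a_il X j) (by
    rw [T2a_v_inl]; exact Nat.succ_ne_zero _)

theorem T2a_bx_emb (X : MFL A W 2) (j : X.ι) :
    T2a_bx (T2a_emb X j) = (T2a_il X j) := rfl

theorem T2a_emb_surj (X : MFL A W 2) (i : T2a_ix (T2a_obj X)) : ∃ j, T2a_emb X j = i := by
  have h0 := T2a_v_ne i
  rcases T2a_cases X (T2a_bx i) with ⟨j, hj⟩ | ⟨j, hj⟩
  · exact ⟨j, T2a_ix_ext ((T2a_bx_emb X j).trans hj)⟩
  · rw [← hj] at h0
    exact absurd (T2a_v_inr X j) h0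

/-- lifting a matrix along `TL4` -/
noncomputable def T2a_lift {X : MFL A W 2} {E : MFT A W}
    (φ : Matrix (T2a_ix E) (T2a_ix (T2a_obj X)) A.S) : Matrix E.ι X.ι A.S[X] :=
  Matrix.of fun k j => if h : T2a_v E k ≠ 0 then
    C (φ (T2a_mi k h) (T2a_emb X j)) * Polynomial.X ^ (T2a_u X j - T2a_v E k) else 0

theorem T2a_lift_apply {X : MFL A W 2} {E : MFT A W}
    (φ : Matrix (T2a_ix E) (T2a_ix (T2a_obj X)) A.S) (k : E.ι) (j : X.ι) :
    T2a_lift φ k j = if h : T2a_v E k ≠ 0 then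
    C (φ (T2a_mi k h) (T2a_emb X j)) * Polynomial.X ^ (T2a_u X j - T2a_v E k) else 0 := rfl

/-- the lift as a matrix from the left adjoint -/
noncomputable def T2a_lf {X : MFL A W 2} {E : MFT A W} (a b : Matrix E.ι X.ι A.S[X]) :
    Matrix E.ι (T2a_obj X).ι A.S[X] := (Matrix.fromCols a b : Matrix E.ι (X.ι ⊕ X.ι) A.S[X])

theorem T2a_lf_inl {X : MFL A W 2} {E : MFT A W} (a b : Matrix E.ι X.ι A.S[X]) (k : E.ι)
    (j : X.ι) : T2a_lf a b k (T2a_il X j) = a k j := rfl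

theorem T2a_lf_inr {X : MFL A W 2} {E : MFT A W} (a b : Matrix E.ι X.ι A.S[X]) (k : E.ι)
    (j : X.ι) : T2a_lf a b k (T2a_ir X j) = b k j := rfl

theorem T2a_z_val (E : MFT A W) (k : E.ι) : T2a_z (E.p k) = (T2a_v E k : ZMod 3) :=
  (ZMod.natCast_zmod_val _).symm

theorem T2a_lift_deg {X : MFL A W 2} {E : MFT A W} {n : ℤ}
    {φ : Matrix (T2a_ix E) (T2a_ix (T2a_obj X)) A.S}
    (h : IsDeg ((TL4 A W).obj (T2a_obj X)) ((TL4 A W).obj E) ((A.lev 2).en n) φ) :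
    IsDeg (T2a_obj X) E (A.T.en n) (T2a_lf (T2a_lift φ) 0) := by
  intro k j
  rcases T2a_cases X j with ⟨j, rfl⟩ | ⟨j, rfl⟩
  · rw [T2a_lf_inl, T2a_lift_apply]
    by_cases hk : T2a_v E k ≠ 0
    · rw [dif_pos hk]
      apply T2a_mono_mem
      rcases T2a_t_mem h (T2a_mi k hk) (T2a_emb X j) with h1 | h1
      · exact Or.inl h1
      · right
        rw [T2a_bx_mi, T2a_bx_emb, T2a_v_inl] at h1
        obtain ⟨h1, h2⟩ := h1
        rw [T2a_z_en, T2a_l_en, T2a_z_val, T2a_z_val, T2a_en_en, T2a_v_inl, ← Nat.cast_add,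
          Nat.add_sub_cancel' h1]
        refine ⟨rfl, T2a_H_en0 h2 ?_⟩
        push_cast [Nat.cast_sub h1]; ring
    · rw [dif_neg hk]
      exact T2a_zero_mem
  · exact T2a_zero_mem

theorem T2a_lift_t {X : MFL A W 2} {E : MFT A W} {n : ℤ}
    {φ : Matrix (T2a_ix E) (T2a_ix (T2a_obj X)) A.S}
    (h : IsDeg ((TL4 A W).obj (T2a_obj X)) ((TL4 A W).obj E) ((A.lev 2).en n) φ) :
    T2a_t (T2a_lf (T2a_lift φ) 0) = φ := by
  ext1 i j
  obtain ⟨j, rfl⟩ := T2a_emb_surj X j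
  rw [T2a_t_apply]
  rcases T2a_t_mem h i (T2a_emb X j) with h1 | h1
  · rw [h1]
    split_ifs with h2
    · rw [T2a_bx_emb, T2a_lf_inl, T2a_lift_apply, dif_pos (T2a_v_ne i), Polynomial.coeff_C_mul_X_pow]
      have h3 : T2a_mi (T2a_bx i) (T2a_v_ne i) = i := T2a_ix_ext rfl
      rw [h3, h1, ite_self]
    · rfl
  · rw [if_pos h1.1, T2a_bx_emb, T2a_lf_inl, T2a_lift_apply, dif_pos (T2a_v_ne i),
      Polynomial.coeff_C_mul_X_pow, T2a_v_inl, if_pos rfl]
    have h3 : T2a_mi (T2a_bx i) (T2a_v_ne i) = i := T2a_ix_ext rfl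
    rw [h3]

theorem T2a_t_inr {X : MFL A W 2} {E : MFT A W} (b : Matrix E.ι X.ι A.S[X]) :
    T2a_t (T2a_lf (0 : Matrix E.ι X.ι A.S[X]) b) =
      (0 : Matrix (T2a_ix E) (T2a_ix (T2a_obj X)) A.S) := by
  ext1 i j
  obtain ⟨j, rfl⟩ := T2a_emb_surj X j
  rw [T2a_t_apply, T2a_bx_emb, T2a_lf_inl]
  simp

theorem T2a_lf_add {X : MFL A W 2} {E : MFT A W} (a b a' b' : Matrix E.ι X.ι A.S[X]) :
    T2a_lf (a + a') (b + b') = T2a_lf a b + T2a_lf a' b' := by
  ext1 k j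
  rcases T2a_cases X j with ⟨j, rfl⟩ | ⟨j, rfl⟩
  · rw [Matrix.add_apply, T2a_lf_inl, T2a_lf_inl, T2a_lf_inl, Matrix.add_apply]
  · rw [Matrix.add_apply, T2a_lf_inr, T2a_lf_inr, T2a_lf_inr, Matrix.add_apply]

theorem T2a_lf_surj {X : MFL A W 2} {E : MFT A W} (f : Matrix E.ι (T2a_obj X).ι A.S[X]) :
    ∃ a b, T2a_lf a b = f :=
  ⟨Matrix.toCols₁ (f : Matrix E.ι (X.ι ⊕ X.ι) A.S[X]),
    Matrix.toCols₂ (f : Matrix E.ι (X.ι ⊕ X.ι) A.S[X]), Matrix.fromCols_toCols _⟩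

/-- divisibility by `Λ` -/
theorem T2a_divis {X : MFL A W 2} {E : MFT A W} {n : ℤ} {a b : Matrix E.ι X.ι A.S[X]}
    (h : IsDeg (T2a_obj X) E (A.T.en n) (T2a_lf a b))
    (h0 : T2a_t (T2a_lf a b) = (0 : Matrix (T2a_ix E) (T2a_ix (T2a_obj X)) A.S)) :
    ∃ c : Matrix E.ι X.ι A.S[X], a = c * T2a_L A.S (T2a_u X) ∧
      IsDeg (T2a_obj X) E (A.T.en (n - 3)) (T2a_lf 0 c) := by
  have h1 : ∀ k j m, (a k j).coeff m = 0 ∨ ((T2a_u X j : ZMod 3) = (T2a_v E k : ZMod 3) + (m : ZMod 3) ∧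
      (a k j).coeff m ∈ A.H (A.en (-(2 * m)) +ᵥ (A.en n +ᵥ (A.en (2 * T2a_u X j - 4) +ᵥ T2a_ll (X.p j))))
        (T2a_l (E.p k))) := by
    intro k j m
    have h2 := h k (T2a_il X j)
    rw [T2a_lf_inl] at h2
    have h3 := T2a_mem_T.1 h2 m
    rw [T2a_z_en, T2a_z_val, T2a_z_val, T2a_v_inl, T2a_l_en, T2a_l_il] at h3
    exact h3
  have h2 : ∀ k j, ∀ m < T2a_u X j, (a k j).coeff m = 0 := by
    intro k j m hm
    by_contra hne
    rcases h1 k j m with h3 | h3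
    · exact hne h3
    · have h4 := h3.1
      rw [← Nat.cast_add, ZMod.natCast_eq_natCast_iff'] at h4
      have h5 := T2a_u_le X j
      have h6 := T2a_v_le E k
      have h7 : m = T2a_u X j - T2a_v E k := by omega
      have h8 : T2a_v E k ≤ T2a_u X j := by omega
      have h9 : T2a_v E k ≠ 0 := by omega
      have h10 := congrFun (congrFun h0 (T2a_mi k h9)) (T2a_emb X j)
      rw [T2a_t_apply, T2a_bx_mi, T2a_bx_emb, T2a_v_inl, if_pos h8, T2a_lf_inl, ← h7] at h10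
      exact hne h10
  have h3 : ∀ k j, ∃ c, a k j = c * Polynomial.X ^ (T2a_u X j) := by
    intro k j
    obtain ⟨c, hc⟩ := Polynomial.X_pow_dvd_iff.2 (h2 k j)
    exact ⟨c, by rw [hc, mul_comm]⟩
  choose c hc using h3
  refine ⟨Matrix.of c, ?_, ?_⟩
  · ext1 k j
    rw [T2a_mul_L, hc]
    rfl
  · intro k j
    rcases T2a_cases X j with ⟨j, rfl⟩ | ⟨j, rfl⟩
    · exact T2a_zero_mem
    · rw [T2a_lf_inr]
      refine T2a_mem_T.2 fun m => ?_
      have h4 : (a k j).coeff (m + T2a_u X j) = (Matrix.of c k j).coeff m := by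
        rw [hc, Polynomial.coeff_mul_X_pow]
        rfl
      have h5 := h1 k j (m + T2a_u X j)
      rw [h4] at h5
      rcases h5 with h5 | ⟨h5, h6⟩
      · exact Or.inl h5
      · right
        rw [T2a_z_en, T2a_l_en, T2a_l_ir, T2a_z_val E]
        rw [T2a_en_en, T2a_en_en] at h6 ⊢
        have h7 : T2a_z ((T2a_obj X).p (T2a_ir X j)) = 0 := rfl
        refine ⟨?_, ?_⟩
        · rw [h7]
          push_cast at h5
          linear_combination h5
        · have h8 : (-(2 * ((m + T2a_u X j : ℕ) : ℤ)) + n + (2 * (T2a_u X j : ℤ) - 4)) =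
              -(2 * (m : ℤ)) + (n - 3) + -1 := by
            push_cast; ring
          rw [h8] at h6
          exact h6

/-- the differential, with polynomial entries -/
def T2a_dE (E : MFT A W) : Matrix E.ι E.ι A.S[X] := E.d

theorem T2a_dE_deg (E : MFT A W) : IsDeg E E (A.T.en 3) (T2a_dE E) := isDeg_d E

theorem T2a_dE_sq (E : MFT A W) :
    T2a_dE E * T2a_dE E = (C W + Polynomial.X ^ 3 : A.S[X]) • (1 : Matrix E.ι E.ι A.S[X]) := E.sq

theorem T2a_t_dE (E : MFT A W) : T2a_t (T2a_dE E) = T2a_dX ((TL4 A W).obj E) := T2a_t_d E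

theorem T2a_deg_mul {E F G : MFT A W} {m n k : ℤ} (hk : k = m + n) {f : Matrix F.ι E.ι A.S[X]}
    {g : Matrix G.ι F.ι A.S[X]} (hf : IsDeg E F (A.T.en n) f) (hg : IsDeg F G (A.T.en m) g) :
    IsDeg E G (A.T.en k) (g * f : Matrix G.ι E.ι A.S[X]) :=
  hg.mul hf (by rw [← GCtx.en_add, hk])

theorem T2a_mem_Z0 {E F : MFT A W} {f : Matrix F.ι E.ι A.S[X]} :
    f ∈ Z0 E F ↔ IsDeg E F (A.T.en 0) f ∧ T2a_dE F * f = f * T2a_dE E := by
  rw [GCtx.en_zero]
  exact Iff.rfl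

theorem T2a_mem_B0 {E F : MFT A W} {f : Matrix F.ι E.ι A.S[X]} :
    f ∈ B0 E F ↔ ∃ h : Matrix F.ι E.ι A.S[X], IsDeg E F (A.T.en (-3)) h ∧
      f = T2a_dE F * h + h * T2a_dE E := Iff.rfl

theorem T2a_mem_Z0' {E F : MFL A W 2} {f : Matrix F.ι E.ι A.S} :
    f ∈ Z0 E F ↔ IsDeg E F ((A.lev 2).en 0) f ∧
      T2a_dX F * f = f * T2a_dX E := by
  rw [GCtx.en_zero]
  exact Iff.rfl

theorem T2a_lf_mul_d (X : MFL A W 2) (E : MFT A W) (a b : Matrix E.ι X.ι A.S[X]) :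
    T2a_lf a b * T2a_dE (T2a_obj X) = T2a_lf (a * T2a_D (T2a_u X) (T2a_dX X) +
      b * T2a_L A.S (T2a_u X)) (a * T2a_M A.S (T2a_u X) + b * -((T2a_dX X).map C)) :=
  Matrix.fromCols_mul_fromBlocks _ _ _ _ _ _

theorem T2a_d_mul_lf (X : MFL A W 2) (E : MFT A W) (a b : Matrix E.ι X.ι A.S[X]) :
    T2a_dE E * T2a_lf a b = T2a_lf (T2a_dE E * a) (T2a_dE E * b) :=
  Matrix.mul_fromCols _ _ _

theorem T2a_dd (X : MFL A W 2) (E : MFT A W) {a ψ : Matrix E.ι X.ι A.S[X]}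
    (h : T2a_dE E * a - a * T2a_D (T2a_u X) (T2a_dX X) = ψ * T2a_L A.S (T2a_u X)) :
    T2a_dE E * T2a_lf a ψ = T2a_lf a ψ * T2a_dE (T2a_obj X) :=
  T2a_closed (fun j => (T2a_u_le X j).trans (by norm_num)) (T2a_dX_zero X) (T2a_dX_sq X)
    (T2a_dE_sq E) h

theorem T2a_lf_sub {X : MFL A W 2} {E : MFT A W} (a b a' b' : Matrix E.ι X.ι A.S[X]) :
    T2a_lf (a - a') (b - b') = T2a_lf a b - T2a_lf a' b' := by
  ext1 k j
  rcases T2a_cases X j with ⟨j, rfl⟩ | ⟨j, rfl⟩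
  · rw [Matrix.sub_apply, T2a_lf_inl, T2a_lf_inl, T2a_lf_inl, Matrix.sub_apply]
  · rw [Matrix.sub_apply, T2a_lf_inr, T2a_lf_inr, T2a_lf_inr, Matrix.sub_apply]

theorem T2a_surj {X : MFL A W 2} {E : MFT A W}
    {φ : Matrix (T2a_ix E) (T2a_ix (T2a_obj X)) A.S}
    (h : φ ∈ Z0 ((TL4 A W).obj (T2a_obj X)) ((TL4 A W).obj E)) :
    ∃ F : Matrix E.ι (T2a_obj X).ι A.S[X], F ∈ Z0 (T2a_obj X) E ∧ T2a_t F = φ := by
  obtain ⟨hφ, hc⟩ := T2a_mem_Z0'.1 h
  have h1 := T2a_lift_deg hφ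
  have h2 := T2a_lift_t hφ
  have h3 : IsDeg (T2a_obj X) E (A.T.en 3) (T2a_dE E * T2a_lf (T2a_lift φ) 0) :=
    T2a_deg_mul (by norm_num) h1 (T2a_dE_deg E)
  have h4 : IsDeg (T2a_obj X) E (A.T.en 3) (T2a_lf (T2a_lift φ) 0 * T2a_dE (T2a_obj X)) :=
    T2a_deg_mul (by norm_num) (T2a_dE_deg _) h1
  have h5 : T2a_t (T2a_dE E * T2a_lf (T2a_lift φ) 0 - T2a_lf (T2a_lift φ) 0 * T2a_dE (T2a_obj X)) =
      (0 : Matrix (T2a_ix E) (T2a_ix (T2a_obj X)) A.S) := by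
    rw [T2a_t_sub, T2a_t_mul (k := 3) (m := 3) (n := 0) (by norm_num) h1 (T2a_dE_deg E),
      T2a_t_mul (k := 3) (m := 0) (n := 3) (by norm_num) (T2a_dE_deg _) h1, h2, T2a_t_dE, T2a_t_dE,
      sub_eq_zero]
    exact hc
  have h6 : IsDeg (T2a_obj X) E (A.T.en 3)
      (T2a_dE E * T2a_lf (T2a_lift φ) 0 - T2a_lf (T2a_lift φ) 0 * T2a_dE (T2a_obj X) :
        Matrix E.ι (T2a_obj X).ι A.S[X]) := h3.sub h4
  rw [T2a_lf_mul_d, T2a_d_mul_lf, ← T2a_lf_sub, Matrix.zero_mul, add_zero] at h5 h6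
  obtain ⟨ψ, hψ, hd⟩ := T2a_divis h6 h5
  refine ⟨T2a_lf (T2a_lift φ) ψ, T2a_mem_Z0.2 ⟨?_, T2a_dd X E hψ⟩, ?_⟩
  · have h7 : T2a_lf (T2a_lift φ) ψ = T2a_lf (T2a_lift φ) 0 + T2a_lf 0 ψ := by
      rw [← T2a_lf_add, add_zero, zero_add]
    rw [h7]
    have h8 : IsDeg (T2a_obj X) E (A.T.en 0) (T2a_lf 0 ψ) := hd
    exact h1.add h8
  · have h7 : T2a_lf (T2a_lift φ) ψ = T2a_lf (T2a_lift φ) 0 + T2a_lf 0 ψ := by
      rw [← T2a_lf_add, add_zero, zero_add]
    rw [h7, T2a_t_add, h2, T2a_t_inr, add_zero]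

theorem T2a_mem_B0' {E F : MFL A W 2} {f : Matrix F.ι E.ι A.S} :
    f ∈ B0 E F ↔ ∃ h : Matrix F.ι E.ι A.S, IsDeg E F ((A.lev 2).en (-3)) h ∧
      f = T2a_dX F * h + h * T2a_dX E := Iff.rfl

theorem T2a_inj {X : MFL A W 2} {E : MFT A W} {F : Matrix E.ι (T2a_obj X).ι A.S[X]}
    (hF : F ∈ Z0 (T2a_obj X) E)
    (h : T2a_t F ∈ B0 ((TL4 A W).obj (T2a_obj X)) ((TL4 A W).obj E)) :
    F ∈ B0 (T2a_obj X) E := by
  obtain ⟨η, hη, hc⟩ := T2a_mem_B0'.1 h
  have h1 := T2a_lift_deg hη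
  have h2 := T2a_lift_t hη
  have h3 : IsDeg (T2a_obj X) E (A.T.en 0) (T2a_dE E * T2a_lf (T2a_lift η) 0) :=
    T2a_deg_mul (by norm_num) h1 (T2a_dE_deg E)
  have h4 : IsDeg (T2a_obj X) E (A.T.en 0) (T2a_lf (T2a_lift η) 0 * T2a_dE (T2a_obj X)) :=
    T2a_deg_mul (by norm_num) (T2a_dE_deg _) h1
  have h0 : T2a_dE E * T2a_lf (T2a_lift η) 0 + T2a_lf (T2a_lift η) 0 * T2a_dE (T2a_obj X) ∈
      B0 (T2a_obj X) E := T2a_mem_B0.2 ⟨_, h1, rfl⟩
  have h5 : F - (T2a_dE E * T2a_lf (T2a_lift η) 0 + T2a_lf (T2a_lift η) 0 * T2a_dE (T2a_obj X)) ∈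
      Z0 (T2a_obj X) E := sub_mem hF (B0_le_Z0 _ _ h0)
  have h6 : T2a_t (F - (T2a_dE E * T2a_lf (T2a_lift η) 0 +
      T2a_lf (T2a_lift η) 0 * T2a_dE (T2a_obj X))) =
      (0 : Matrix (T2a_ix E) (T2a_ix (T2a_obj X)) A.S) := by
    rw [T2a_t_sub, T2a_t_add, T2a_t_mul (k := 0) (m := 3) (n := -3) (by norm_num) h1 (T2a_dE_deg E),
      T2a_t_mul (k := 0) (m := -3) (n := 3) (by norm_num) (T2a_dE_deg _) h1, h2, T2a_t_dE, T2a_t_dE,
      sub_eq_zero]
    exact hc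
  obtain ⟨a, b, hab⟩ := T2a_lf_surj
    (F - (T2a_dE E * T2a_lf (T2a_lift η) 0 + T2a_lf (T2a_lift η) 0 * T2a_dE (T2a_obj X)))
  rw [← hab] at h5 h6
  obtain ⟨h7, h8⟩ := T2a_mem_Z0.1 h5
  obtain ⟨c, rfl, hd⟩ := T2a_divis h7 h6
  have h9 : T2a_lf (c * T2a_L A.S (T2a_u X)) b ∈ B0 (T2a_obj X) E :=
    T2a_mem_B0.2 ⟨T2a_lf 0 c, hd, T2a_htpy (T2a_dX_zero X) h8⟩
  rw [hab] at h9
  have e : F = (F - (T2a_dE E * T2a_lf (T2a_lift η) 0 +
      T2a_lf (T2a_lift η) 0 * T2a_dE (T2a_obj X))) +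
      (T2a_dE E * T2a_lf (T2a_lift η) 0 + T2a_lf (T2a_lift η) 0 * T2a_dE (T2a_obj X)) :=
    (sub_add_cancel _ _).symm
  exact Eq.mpr (congrArg (· ∈ B0 (T2a_obj X) E) e) (add_mem h9 h0)

instance T2a_additive : (TL4 A W).Additive :=
  inferInstanceAs (((TL5 A W).functor ⋙ (levB A W 1).functor).Additive)

theorem T2a_inj' {X : MFL A W 2} {E : MFT A W} (f : T2a_obj X ⟶ E) (h : (TL4 A W).map f = 0) :
    f = 0 := by
  induction f using hom_ind with
  | h f hf =>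
    have h' := (T2a_map_mk hf).symm.trans h
    exact (mk_eq_zero hf).2 (T2a_inj hf ((mk_eq_zero _).1 h'))

section T2aIso

variable {B : GCtx} {V : B.S}

/-- permutation matrix -/
def T2a_perm {ι κ : Type} [DecidableEq κ] (S : Type) [CommRing S] (e : ι → κ) : Matrix κ ι S :=
  Matrix.of fun i j => if i = e j then 1 else 0

theorem T2a_mul_perm {ι κ μ : Type} [Fintype κ] [DecidableEq κ] {S : Type} [CommRing S]
    (e : ι → κ) (M : Matrix μ κ S) (i : μ) (j : ι) : (M * T2a_perm S e) i j = M i (e j) := by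
  rw [Matrix.mul_apply, Finset.sum_eq_single (e j)]
  · simp [T2a_perm]
  · intro b _ hb
    simp [T2a_perm, hb]
  · intro h
    exact absurd (Finset.mem_univ _) h

theorem T2a_perm_mul {ι κ μ : Type} [Fintype ι] [DecidableEq κ] {S : Type}
    [CommRing S] (e : ι → κ) (he : Function.Injective e) (M : Matrix ι μ S) (i : ι) (j : μ) :
    (T2a_perm S e * M) (e i) j = M i j := by
  classical
  rw [Matrix.mul_apply, Finset.sum_eq_single i]
  · simp [T2a_perm]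
  · intro b _ hb
    have : e i ≠ e b := fun h => hb (he h).symm
    simp [T2a_perm, this]
  · intro h
    exact absurd (Finset.mem_univ _) h

theorem T2a_perm_Z0 {E F : MF B V} (e : E.ι → F.ι) (he : Function.Bijective e)
    (hp : ∀ i, F.p (e i) = E.p i) (hd : ∀ i j, F.d (e i) (e j) = E.d i j) :
    T2a_perm B.S e ∈ Z0 E F := by
  constructor
  · intro i j
    change (if i = e j then (1 : B.S) else 0) ∈ _
    split_ifs with h
    · rw [h, hp, zero_vadd]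
      exact B.one_mem _
    · exact zero_mem _
  · ext1 i j
    obtain ⟨i, rfl⟩ := he.2 i
    rw [T2a_mul_perm, T2a_perm_mul _ he.1, hd]

theorem T2a_perm_comp {ι κ μ : Type} [Fintype κ] [DecidableEq κ] [DecidableEq μ] {S : Type}
    [CommRing S] (e : ι → κ) (g : κ → μ) : T2a_perm S g * T2a_perm S e = T2a_perm S (g ∘ e) := by
  ext1 i j
  rw [T2a_mul_perm]
  rfl

theorem T2a_perm_id {ι : Type} [DecidableEq ι] {S : Type} [CommRing S] :
    T2a_perm S (id : ι → ι) = 1 := by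
  ext1 i j
  change (if i = j then (1 : S) else 0) = (1 : Matrix ι ι S) i j
  rw [Matrix.one_apply]

/-- objects with the same data up to a bijection of the index sets are isomorphic -/
noncomputable def T2a_iso {E F : MF B V} (e : E.ι ≃ F.ι)
    (hp : ∀ i, F.p (e i) = E.p i) (hd : ∀ i j, F.d (e i) (e j) = E.d i j) : E ≅ F where
  hom := mk (T2a_perm B.S e) (T2a_perm_Z0 e e.bijective hp hd)
  inv := mk (T2a_perm B.S e.symm) (T2a_perm_Z0 e.symm e.symm.bijective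
    (fun i => by rw [← hp, e.apply_symm_apply])
    (fun i j => by rw [← hd, e.apply_symm_apply, e.apply_symm_apply]))
  hom_inv_id := by
    rw [mk_comp_mk]
    exact mk_congr _ (by rw [T2a_perm_comp, e.symm_comp_self, T2a_perm_id])
  inv_hom_id := by
    rw [mk_comp_mk]
    exact mk_congr _ (by rw [T2a_perm_comp, e.self_comp_symm, T2a_perm_id])

end T2aIso

theorem T2a_emb_inj (X : MFL A W 2) : Function.Injective (T2a_emb X) := by
  intro i j h
  have h1 : T2a_il X i = T2a_il X j := congrArg T2a_bx h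
  exact Sum.inl_injective h1

theorem T2a_emb_p (X : MFL A W 2) (j : X.ι) :
    ((TL4 A W).obj (T2a_obj X)).p (T2a_emb X j) = X.p j := by
  have h1 := T2a_lz_TL4 (T2a_emb X j)
  have h2 := T2a_ll_TL4 (T2a_emb X j)
  rw [T2a_bx_emb, T2a_v_inl] at h1 h2
  rw [T2a_l_il, T2a_en_en] at h2
  have h3 : (2 * (2 - (T2a_u X j : ℤ)) + (2 * (T2a_u X j : ℤ) - 4)) = 0 := by ring
  rw [h3, A.en_zero, zero_vadd] at h2
  exact Prod.ext h2 (Fin.ext (Nat.succ_injective h1))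

theorem T2a_emb_d (X : MFL A W 2) (i j : X.ι) :
    ((TL4 A W).obj (T2a_obj X)).d (T2a_emb X i) (T2a_emb X j) = X.d i j := by
  have h1 : ((TL4 A W).obj (T2a_obj X)).d (T2a_emb X i) (T2a_emb X j) =
    T2a_t (T2a_dE (T2a_obj X)) (T2a_emb X i) (T2a_emb X j) := by rw [T2a_t_dE]; rfl
  have h2 : T2a_dE (T2a_obj X) (T2a_il X i) (T2a_il X j) =
    C (T2a_dX X i j) * Polynomial.X ^ (T2a_u X j - T2a_u X i) := rfl
  rw [h1, T2a_t_apply, T2a_bx_emb, T2a_bx_emb, T2a_v_inl, T2a_v_inl, h2,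
    Polynomial.coeff_C_mul_X_pow, if_pos rfl]
  split_ifs with h
  · rfl
  · exact (T2a_dX_zero X i j (not_le.1 h)).symm

/-- the unit -/
noncomputable def T2a_unit (X : MFL A W 2) : X ≅ (TL4 A W).obj (T2a_obj X) :=
  T2a_iso (F := (TL4 A W).obj (T2a_obj X))
    (Equiv.ofBijective (T2a_emb X) ⟨T2a_emb_inj X, T2a_emb_surj X⟩)
    (fun j => T2a_emb_p X j) (fun i j => T2a_emb_d X i j)

theorem T2a_bij (X : MFL A W 2) (E : MFT A W) :
    Function.Bijective (fun f : T2a_obj X ⟶ E => (TL4 A W).map f) := by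
  constructor
  · intro f g hfg
    rw [← sub_eq_zero]
    apply T2a_inj'
    rw [Functor.map_sub, sub_eq_zero]
    exact hfg
  · intro φ
    induction φ using hom_ind with
    | h φ hφ =>
      obtain ⟨F, hF, hFφ⟩ := T2a_surj hφ
      exact ⟨mk F hF, (T2a_map_mk hF).trans (mk_congr _ hFφ)⟩

variable (A W) in
/-- objectwise left adjoint, with invertible unit: for a leveled `X` with differential `d` and
weights `u_j ∈ {1,..,2}` the object is `[[Λ^{-1} d Λ, y^3 Λ^{-1}], [Λ, -d]]`, `Λ = diag (y^{u_j})`. -/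
theorem TL4_left (X : MFL A W 2) : ∃ (G : MFT A W) (η : X ≅ (TL4 A W).obj G),
    ∀ (E : MFT A W) (f : X ⟶ (TL4 A W).obj E), ∃! f' : G ⟶ E, η.hom ≫ (TL4 A W).map f' = f := by
  refine ⟨T2a_obj X, T2a_unit X, fun E f => ?_⟩
  obtain ⟨f', hf'⟩ := (T2a_bij X E).2 ((T2a_unit X).inv ≫ f)
  refine ⟨f', ?_, fun g hg => ?_⟩
  · have h1 : (TL4 A W).map f' = (T2a_unit X).inv ≫ f := hf'
    change (T2a_unit X).hom ≫ (TL4 A W).map f' = f
    rw [h1, Iso.hom_inv_id_assoc]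
  · apply (T2a_bij X E).1
    change (TL4 A W).map g = (TL4 A W).map f'
    have h1 : (TL4 A W).map f' = (T2a_unit X).inv ≫ f := hf'
    rw [h1, ← hg, Iso.inv_hom_id_assoc]

end Vale.Agent.P287T.G3
end
end

section

section

/-!
# The functor `tl4` is an equivalence
-/

open Matrix CategoryTheory CategoryTheory.Limits CategoryTheory.Pretriangulated Polynomial

namespace Vale.Agent.P287T.G3

/-- block diagonal contraction -/
theorem t2_block {R ι κ : Type} [CommRing R] [Fintype ι] [DecidableEq ι] [DecidableEq κ]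
    (w : ι → κ) (d : Matrix ι ι R) (hd : ∀ i j, w i ≠ w j → d i j = 0)
    (h : ∀ v, Matrix {i // w i = v} {i // w i = v} R)
    (hh : ∀ v, (1 : Matrix {i // w i = v} {i // w i = v} R) =
      (Matrix.of fun i j => d i.1 j.1) * h v + h v * (Matrix.of fun i j => d i.1 j.1)) :
    (1 : Matrix ι ι R) =
      d * (Matrix.of fun i j => if hij : w i = w j then h (w j) ⟨i, hij⟩ ⟨j, rfl⟩ else 0) +
      (Matrix.of fun i j => if hij : w i = w j then h (w j) ⟨i, hij⟩ ⟨j, rfl⟩ else 0) * d := by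
  ext1 i j
  have sub : ∀ (v : κ) (f : ι → R), (∀ k, w k ≠ v → f k = 0) →
      ∑ k, f k = ∑ k : {k // w k = v}, f k.1 := by
    intro v f hf
    rw [← Finset.sum_subtype (Finset.univ.filter fun k => w k = v) (by simp) f]
    symm
    refine Finset.sum_subset (Finset.filter_subset _ _) fun k _ hk => hf k ?_
    simpa using hk
  rw [Matrix.add_apply, Matrix.mul_apply, Matrix.mul_apply]
  by_cases hij : w i = w j
  · rw [sub (w j) (fun k => d i k * _), sub (w j) (fun k => _ * d k j)]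
    · have h1 := congrFun (congrFun (hh (w j)) ⟨i, hij⟩) ⟨j, rfl⟩
      rw [Matrix.add_apply, Matrix.mul_apply, Matrix.mul_apply] at h1
      have e1 : (1 : Matrix {i // w i = w j} {i // w i = w j} R) ⟨i, hij⟩ ⟨j, rfl⟩ =
          (1 : Matrix ι ι R) i j := by
        rw [Matrix.one_apply, Matrix.one_apply]
        simp
      rw [e1] at h1
      rw [h1]
      congr 1
      · refine Finset.sum_congr rfl fun k _ => ?_
        simp only [Matrix.of_apply]
        rw [dif_pos k.2]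
      · refine Finset.sum_congr rfl fun k _ => ?_
        simp only [Matrix.of_apply]
        rw [dif_pos (hij.trans k.2.symm)]
        congr 1
        obtain ⟨k, hk⟩ := k
        have gen : ∀ (v : κ) (hv : v = w j) (hi : w i = v) (hk' : w k = v),
            h v ⟨i, hi⟩ ⟨k, hk'⟩ = h (w j) ⟨i, hij⟩ ⟨k, hk⟩ := by
          intro v hv hi hk'
          subst hv
          rfl
        exact (gen (w k) hk _ rfl).symm
    · intro k hk
      rw [hd k j hk, mul_zero]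
    · intro k hk
      simp only [Matrix.of_apply]
      rw [dif_neg hk, mul_zero]
  · rw [Matrix.one_apply_ne (fun h => hij (by rw [h]))]
    rw [Finset.sum_eq_zero, Finset.sum_eq_zero, add_zero]
    · intro k _
      by_cases hk : w i = w k
      · rw [hd k j (fun h => hij (hk.trans h)), mul_zero]
      · simp only [Matrix.of_apply]
        rw [dif_neg hk, zero_mul]
    · intro k _
      by_cases hk : w i = w k
      · simp only [Matrix.of_apply]
        rw [dif_neg (fun h => hij (hk.trans h)), mul_zero]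
      · rw [hd i k hk, zero_mul]

theorem t2_lift {R ι : Type} [CommRing R] [Fintype ι] [DecidableEq ι] (D : Matrix ι ι R[X])
    (H : Matrix ι ι R) (h : (1 : Matrix ι ι R) = (Matrix.of fun i j => (D i j).coeff 0) * H +
      H * (Matrix.of fun i j => (D i j).coeff 0)) :
    ∃ g : Matrix ι ι R[X], D * H.map C + H.map C * D = 1 + (X : R[X]) • g := by
  refine ⟨Matrix.of fun i j => divX ((D * H.map C + H.map C * D - 1) i j), ?_⟩
  rw [← sub_eq_iff_eq_add']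
  ext1 i j
  rw [Matrix.smul_apply, Matrix.of_apply, smul_eq_mul]
  have h0 : ((D * H.map C + H.map C * D - 1) i j).coeff 0 = 0 := by
    rw [Matrix.sub_apply, Matrix.add_apply, Matrix.mul_apply, Matrix.mul_apply, coeff_sub,
      coeff_add, finsetSum_coeff, finsetSum_coeff]
    have h1 := congrFun (congrFun h i) j
    rw [Matrix.add_apply, Matrix.mul_apply, Matrix.mul_apply] at h1
    have h2 : ((1 : Matrix ι ι R[X]) i j).coeff 0 = (1 : Matrix ι ι R) i j := by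
      rw [Matrix.one_apply, Matrix.one_apply]
      split_ifs <;> simp
    rw [h2, h1, sub_eq_zero]
    congr 1
    · refine Finset.sum_congr rfl fun k _ => ?_
      simp [mul_coeff_zero]
    · refine Finset.sum_congr rfl fun k _ => ?_
      simp [mul_coeff_zero]
  conv_lhs => rw [← X_mul_divX_add ((D * H.map C + H.map C * D - 1) i j), h0]
  simp

theorem t2_contract {M : Type} [Ring M] {D K n w : M} (hw : Commute w K) (hD : D * D = w)
    (hU : D * K + K * D = 1 + n) {N : ℕ} (hn : n ^ N = 0) :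
    (1 : M) = D * ((∑ k ∈ Finset.range N, (-n) ^ k) * K) +
      ((∑ k ∈ Finset.range N, (-n) ^ k) * K) * D := by
  have hc : Commute D n := by
    have : n = D * K + K * D - 1 := by rw [hU]; abel
    rw [this]
    refine Commute.sub_right ?_ (Commute.one_right D)
    change D * (D * K + K * D) = (D * K + K * D) * D
    rw [mul_add, add_mul, ← mul_assoc D D K, hD, mul_assoc K D D, hD, hw.eq, ← mul_assoc,
      mul_assoc]
    abel
  have hv : Commute D (∑ k ∈ Finset.range N, (-n) ^ k) :=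
    Commute.sum_right _ _ _ fun k _ => (hc.neg_right).pow_right k
  have h1 : (∑ k ∈ Finset.range N, (-n) ^ k) * (1 + n) = 1 := by
    have := geom_sum_mul_neg (-n) N
    rw [sub_neg_eq_add, neg_pow, hn, mul_zero, sub_zero] at this
    exact this
  rw [← hU, mul_add] at h1
  rw [← mul_assoc, hv.eq, mul_assoc, mul_assoc, h1]

variable (A : GCtx) (W : A.S)

theorem t2_nsmul_en (n : ℕ) : n • A.en 2 = A.en (2 * n) := by
  simp only [GCtx.en]
  rw [← natCast_zsmul, smul_smul, mul_comm]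

/-- membership in the entries of `A.T` -/
theorem t2_mem_iff (a b : A.L × ZMod 3) (f : A.S[X]) :
    f ∈ A.T.H a b ↔ ∀ n : ℕ, (a.2 = b.2 + n ∧ f.coeff n ∈ A.H (-A.en (2 * n) +ᵥ a.1) b.1) ∨
      f.coeff n = 0 := by
  refine (GCtx.poly_mem_iff (A.wt (ZMod 3)) _ a b f).trans (forall_congr' fun n => ?_)
  refine (GCtx.wt_mem_iff A (ZMod 3) (-(n • A.en 2) +ᵥ a.1, -(n • (1 : ZMod 3)) + a.2) b
    (f.coeff n)).trans ?_
  rw [t2_nsmul_en]
  have h4 : -(n • (1 : ZMod 3)) + a.2 = b.2 ↔ a.2 = b.2 + n := by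
    rw [nsmul_eq_mul, mul_one, neg_add_eq_iff_eq_add, add_comm b.2]
  change (-(n • (1 : ZMod 3)) + a.2 = b.2 ∧ f.coeff n ∈ A.H (-A.en (2 * n) +ᵥ a.1) b.1) ∨
    f.coeff n = 0 ↔ _
  rw [h4]

theorem t2_en (n : ℤ) : A.T.en n = ((A.en n, 0) : A.Γ × ZMod 3) := by
  change n • ((A.e, 0) : A.Γ × ZMod 3) = _
  simp [GCtx.en]

variable {A W} in
/-- the labels of `E` -/
def t2p (E : MFT A W) (i : E.ι) : A.L × ZMod 3 := E.p i

variable {A W} in
/-- the differential of `E` -/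
def t2d (E : MFT A W) : Matrix E.ι E.ι A.S[X] := E.d

variable {A W}

/-- degrees of matrices over `A.T` -/
theorem t2_isDeg_iff (E F : MFT A W) (γ : A.Γ) (v : ZMod 3) (f : Matrix F.ι E.ι A.S[X]) :
    IsDeg E F (show A.T.Γ from (γ, v)) f ↔ ∀ i j, ∀ n : ℕ,
      (v + (t2p E j).2 = (t2p F i).2 + n ∧
        (f i j).coeff n ∈ A.H ((γ - A.en (2 * n)) +ᵥ (t2p E j).1) (t2p F i).1) ∨
          (f i j).coeff n = 0 := by
  refine forall_congr' fun i => forall_congr' fun j => ?_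
  refine (t2_mem_iff A (γ +ᵥ (t2p E j).1, v + (t2p E j).2) (t2p F i) (f i j)).trans ?_
  refine forall_congr' fun n => ?_
  rw [vadd_vadd, neg_add_eq_sub]

theorem t2_deg_d (E : MFT A W) (i j : E.ι) (n : ℕ) :
    ((t2p E j).2 = (t2p E i).2 + n ∧
        (t2d E i j).coeff n ∈ A.H ((A.en 3 - A.en (2 * n)) +ᵥ (t2p E j).1) (t2p E i).1) ∨
          (t2d E i j).coeff n = 0 := by
  have h := isDeg_d E
  rw [t2_en] at h
  have h1 := (t2_isDeg_iff E E (A.en 3) 0 (t2d E)).1 h i j n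
  rwa [zero_add] at h1

theorem t2_sq (E : MFT A W) :
    t2d E * t2d E = (C W + X ^ 3 : A.S[X]) • (1 : Matrix E.ι E.ι A.S[X]) := E.sq

variable (A W)

theorem t2_isZero_tw {B : GCtx} {V : B.S} (γ : B.Γ) {E : MF B V} (h : IsZero (tw γ E)) :
    IsZero E := by
  have h1 : IsZero ((twF (-γ) : MF B V ⥤ MF B V).obj (tw γ E)) := Functor.map_isZero _ h
  have e1 : tw (0 : B.Γ) E ≅ tw (-γ) (tw γ E) := twAdd E (by simp)
  exact (h1.of_iso e1).of_iso (twZero E rfl).symm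

theorem t2_sides (E : MFT A W) (h : IsZero ((TL4 A W).obj E)) (v : ZMod 3) :
    IsZero (tgr v E) := by
  have hgr : ∀ v : Fin 2, IsZero (tgr ((v.val + 1 : ℕ) : ZMod 3) E) := by
    intro v
    obtain ⟨e⟩ := gr_tl4 v E
    have h1 : IsZero (gr v (tl4 E)) := Functor.map_isZero (levGr A W 2 v).functor h
    exact t2_isZero_tw _ (h1.of_iso e.symm)
  have h0 : IsZero (tgr 0 E) := by
    obtain ⟨e⟩ := tot_tl4 E
    have h1 : IsZero (tot (tl4 E)) := Functor.map_isZero (levTot A W 2).functor h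
    exact t2_isZero_tw _ (h1.of_iso e.symm)
  have hv : v = 0 ∨ ∃ w : Fin 2, v = ((w.val + 1 : ℕ) : ZMod 3) := by
    revert v
    decide
  rcases hv with rfl | ⟨w, rfl⟩
  · exact h0
  · exact hgr w

theorem t2_isDeg_pow {B : GCtx} {V : B.S} {E : MF B V} {f : Matrix E.ι E.ι B.S}
    (hf : IsDeg E E 0 f) (n : ℕ) : IsDeg E E 0 (f ^ n) := by
  induction n with
  | zero => rw [pow_zero]; exact IsDeg.one E
  | succ n ih => rw [pow_succ]; exact ih.mul hf (add_zero 0)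

theorem t2_isDeg_sum {B : GCtx} {V : B.S} {E : MF B V} {f : ℕ → Matrix E.ι E.ι B.S}
    (hf : ∀ n, IsDeg E E 0 (f n)) (n : ℕ) : IsDeg E E 0 (∑ k ∈ Finset.range n, f k) := by
  induction n with
  | zero => rw [Finset.sum_range_zero]; exact IsDeg.zero E E 0
  | succ n ih => rw [Finset.sum_range_succ]; exact ih.add (hf n)

theorem t2_nilp [GCtx.Aug A] (E : MFT A W) (g : Matrix E.ι E.ι A.S[X])
    (hg : IsDeg E E 0 ((X : A.S[X]) • g)) : ∃ N, ((X : A.S[X]) • g) ^ N = 0 := by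
  set B : ℤ := 2 * ∑ k, |A.ch (t2p E k).1| with hB
  have hB1 : ∀ i j, A.ch (t2p E j).1 - A.ch (t2p E i).1 ≤ B := by
    intro i j
    have h1 : ∀ k, |A.ch (t2p E k).1| ≤ ∑ k, |A.ch (t2p E k).1| := fun k =>
      Finset.single_le_sum (f := fun k => |A.ch (t2p E k).1|) (fun _ _ => abs_nonneg _)
        (Finset.mem_univ k)
    have h2 := h1 i
    have h3 := h1 j
    have h4 := neg_abs_le (A.ch (t2p E i).1)
    have h5 := le_abs_self (A.ch (t2p E j).1)
    linarith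
  have hB0 : 0 ≤ B := by positivity
  refine ⟨B.toNat + 1, ?_⟩
  have h1 : IsDeg E E (show A.T.Γ from ((0 : A.Γ), (0 : ZMod 3)))
      (((X : A.S[X]) • g) ^ (B.toNat + 1)) := t2_isDeg_pow hg _
  have h2 := (t2_isDeg_iff E E 0 0 (((X : A.S[X]) • g) ^ (B.toNat + 1))).1 h1
  ext1 i j
  refine Polynomial.ext fun n => ?_
  rw [Matrix.zero_apply, coeff_zero]
  by_cases hn : n < B.toNat + 1
  · rw [_root_.smul_pow, Matrix.smul_apply, smul_eq_mul, coeff_X_pow_mul']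
    rw [if_neg (not_le.2 hn)]
  · rcases h2 i j n with ⟨-, h3⟩ | h3
    · by_contra h4
      have h5 := GCtx.Aug.pos h3 h4
      rw [A.ch_vadd, zero_sub, map_neg, A.chΓ_en] at h5
      have h6 := hB1 i j
      omega
    · exact h3

/-- `tl4` is conservative -/
theorem TL4_cons [GCtx.Aug A] (E : MFT A W) (h : IsZero ((TL4 A W).obj E)) : IsZero E := by
  have hs := t2_sides A W E h
  have hs' : ∀ v : ZMod 3, ∃ k : Matrix {i // (t2p E i).2 = v} {i // (t2p E i).2 = v} A.S,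
      IsDeg (tgr v E) (tgr v E) (A.en (-3)) k ∧
      (1 : Matrix {i // (t2p E i).2 = v} {i // (t2p E i).2 = v} A.S) =
        (Matrix.of fun i j => (Matrix.of fun i j => (t2d E i j).coeff 0) i.1 j.1) * k +
        k * (Matrix.of fun i j => (Matrix.of fun i j => (t2d E i j).coeff 0) i.1 j.1) :=
    fun v => mem_B0.1 ((isZero_iff _).1 (hs v))
  choose k hk hk1 using hs'
  have h1 := t2_block (fun i => (t2p E i).2) (Matrix.of fun i j => (t2d E i j).coeff 0)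
    (fun i j hij => by
      rcases t2_deg_d E i j 0 with ⟨h1, -⟩ | h1
      · rw [Nat.cast_zero, add_zero] at h1
        exact absurd h1.symm hij
      · exact h1) k (fun v => hk1 v)
  obtain ⟨g, hg⟩ := t2_lift (t2d E) _ h1
  set K : Matrix E.ι E.ι A.S := (Matrix.of fun i j =>
    if hij : (t2p E i).2 = (t2p E j).2 then k (t2p E j).2 ⟨i, hij⟩ ⟨j, rfl⟩ else 0) with hK
  have hKd : IsDeg E E (A.T.en (-3)) (K.map (C : A.S → A.S[X])) := by
    rw [t2_en]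
    refine (t2_isDeg_iff E E (A.en (-3)) 0 _).2 fun i j n => ?_
    suffices hs : (0 + (t2p E j).2 = (t2p E i).2 + n ∧ (C (K i j) : A.S[X]).coeff n ∈
      A.H ((A.en (-3) - A.en (2 * n)) +ᵥ (t2p E j).1) (t2p E i).1) ∨
      (C (K i j) : A.S[X]).coeff n = 0 from hs
    rw [coeff_C]
    by_cases hn : n = 0
    · subst hn
      rw [if_pos rfl, Nat.cast_zero, add_zero, zero_add, Nat.cast_zero, mul_zero, A.en_zero,
        sub_zero]
      by_cases hij : (t2p E i).2 = (t2p E j).2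
      · left
        refine ⟨hij.symm, ?_⟩
        rw [hK, Matrix.of_apply, dif_pos hij]
        exact hk (t2p E j).2 ⟨i, hij⟩ ⟨j, rfl⟩
      · right
        rw [hK, Matrix.of_apply, dif_neg hij]
    · right
      rw [if_neg hn]
  have hgd : IsDeg E E 0 ((X : A.S[X]) • g) := by
    have e : (X : A.S[X]) • g = t2d E * K.map (C : A.S → A.S[X]) +
        K.map (C : A.S → A.S[X]) * t2d E - 1 := by
      rw [hg]; abel
    rw [e]
    refine IsDeg.sub (IsDeg.add (IsDeg.mul (isDeg_d E) hKd ?_) (IsDeg.mul hKd (isDeg_d E) ?_))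
      (IsDeg.one E)
    · rw [← A.T.en_add]; exact A.T.en_zero
    · rw [← A.T.en_add]; exact A.T.en_zero
  obtain ⟨N, hN⟩ := t2_nilp A W E g hgd
  refine (isZero_iff E).2 (mem_B0.2 ⟨_, ?_, t2_contract (D := t2d E) (K := K.map C)
    (w := (C W + X ^ 3 : A.S[X]) • (1 : Matrix E.ι E.ι A.S[X])) ?_ (t2_sq E) hg hN⟩)
  · refine IsDeg.mul (t2_isDeg_sum (fun n => t2_isDeg_pow hgd.neg n) N) hKd (zero_add _)
  · rw [commute_iff_eq, Matrix.smul_mul, Matrix.mul_smul, Matrix.one_mul, Matrix.mul_one]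

theorem t2_isIso [GCtx.Aug A] {E F : MFT A W} (f : E ⟶ F) [IsIso ((TL4 A W).map f)] : IsIso f := by
  obtain ⟨G, g, h, hT⟩ := distinguished_cocone_triangle f
  have h1 := (TL4 A W).map_distinguished _ hT
  have h2 : IsZero ((TL4 A W).obj G) := by
    have := Triangle.isZero₃_of_isIso₁ _ h1 (by
      change IsIso ((TL4 A W).map f)
      infer_instance)
    exact this
  exact (Triangle.isZero₃_iff_isIso₁ _ hT).1 (TL4_cons A W G h2)

theorem TL4_equiv [GCtx.Aug A] : (TL4 A W).IsEquivalence := by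
  have key : ∀ E : MFT A W, ∃ (G : MFT A W) (η : (TL4 A W).obj E ≅ (TL4 A W).obj G) (p : G ⟶ E),
      IsIso p ∧ η.hom ≫ (TL4 A W).map p = 𝟙 _ ∧
      ∀ (E' : MFT A W) (f : (TL4 A W).obj E ⟶ (TL4 A W).obj E'),
        ∃! f' : G ⟶ E', η.hom ≫ (TL4 A W).map f' = f := by
    intro E
    obtain ⟨G, η, hη⟩ := TL4_left A W ((TL4 A W).obj E)
    obtain ⟨p, hp, -⟩ := hη E (𝟙 _)
    have hp' : (TL4 A W).map p = η.inv := by
      rw [← cancel_epi η.hom, hp, Iso.hom_inv_id]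
    have : IsIso ((TL4 A W).map p) := by rw [hp']; infer_instance
    exact ⟨G, η, p, t2_isIso A W p, hp, hη⟩
  refine { faithful := ⟨fun {E E'} a b hab => ?_⟩, full := ⟨fun {E E'} f => ?_⟩,
           essSurj := ⟨fun X => ?_⟩ }
  · obtain ⟨G, η, p, hpi, hp, hη⟩ := key E
    obtain ⟨f', -, hu⟩ := hη E' (η.hom ≫ (TL4 A W).map (p ≫ a))
    rw [← cancel_epi p]
    exact (hu (p ≫ a) rfl).trans (hu (p ≫ b) (by
      dsimp only
      rw [Functor.map_comp, Functor.map_comp, hab])).symm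
  · obtain ⟨G, η, p, hpi, hp, hη⟩ := key E
    obtain ⟨g, hg, -⟩ := hη E' f
    refine ⟨inv p ≫ g, ?_⟩
    rw [Functor.map_comp, Functor.map_inv, IsIso.inv_comp_eq, ← cancel_epi η.hom, hg,
      reassoc_of% hp]
  · obtain ⟨G, η, -⟩ := TL4_left A W X
    exact ⟨G, ⟨η.symm⟩⟩

end Vale.Agent.P287T.G3
end
end

section

section

/-!
# `rk` is a rank function
-/

open Matrix CategoryTheory CategoryTheory.Limits CategoryTheory.Pretriangulated

namespace Vale.Agent.P287T.G3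

section la

open Module
variable {ι κ m : Type} [Fintype ι] [Fintype κ] [Fintype m]

/-- the range of a square zero matrix is contained in its kernel -/
theorem k1c_range_le_ker {d : Matrix ι ι ℂ} (hd : d * d = 0) :
    LinearMap.range d.mulVecLin ≤ LinearMap.ker d.mulVecLin := by
  rintro _ ⟨v, rfl⟩
  rw [LinearMap.mem_ker, mulVecLin_apply, mulVecLin_apply, mulVec_mulVec, hd, zero_mulVec]

omit [Fintype κ] in
theorem k1c_ker_add (M : Matrix κ ι ℂ) :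
    finrank ℂ (LinearMap.ker M.mulVecLin) + M.rank = Fintype.card ι := by
  have h := LinearMap.finrank_range_add_finrank_ker M.mulVecLin
  rw [finrank_pi] at h
  unfold Matrix.rank
  omega

theorem k1c_two_rank_le {d : Matrix ι ι ℂ} (hd : d * d = 0) : 2 * d.rank ≤ Fintype.card ι := by
  have h1 := Submodule.finrank_mono (k1c_range_le_ker hd)
  have h2 := k1c_ker_add d
  unfold Matrix.rank at *
  omega

/-- maps of complexes injective in homology -/
theorem k1c_h_le {d : Matrix ι ι ℂ} {d' : Matrix κ κ ℂ} (hd : d * d = 0) (hd' : d' * d' = 0)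
    {f : Matrix κ ι ℂ} (hf : d' * f = f * d)
    (hinj : ∀ v, d *ᵥ v = 0 → (∃ w, d' *ᵥ w = f *ᵥ v) → ∃ u, d *ᵥ u = v) :
    Fintype.card ι - 2 * d.rank ≤ Fintype.card κ - 2 * d'.rank := by
  set D := d.mulVecLin with hD
  set D' := d'.mulVecLin with hD'
  set R := LinearMap.range D' with hR
  set φ : LinearMap.ker D →ₗ[ℂ] (κ → ℂ) ⧸ R :=
    R.mkQ ∘ₗ f.mulVecLin ∘ₗ (LinearMap.ker D).subtype with hφ
  have e1 := LinearMap.finrank_range_add_finrank_ker φ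
  have e2 : finrank ℂ (LinearMap.ker D) + d.rank = Fintype.card ι := k1c_ker_add d
  have e3 : finrank ℂ (LinearMap.ker D') + d'.rank = Fintype.card κ := k1c_ker_add d'
  have e4 := k1c_two_rank_le hd
  have e5 := k1c_two_rank_le hd'
  -- kernel of φ
  have h1 : finrank ℂ (LinearMap.ker φ) ≤ d.rank := by
    rw [← Submodule.finrank_map_subtype_eq (LinearMap.ker D) (LinearMap.ker φ)]
    refine Submodule.finrank_mono ?_
    rintro _ ⟨⟨v, hv⟩, hv2, rfl⟩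
    have h2 : R.mkQ (f *ᵥ v) = 0 := hv2
    rw [Submodule.mkQ_apply, Submodule.Quotient.mk_eq_zero] at h2
    obtain ⟨w, hw⟩ := h2
    obtain ⟨u, hu⟩ := hinj v hv ⟨w, hw⟩
    exact ⟨u, hu⟩
  -- range of φ
  set θ : LinearMap.ker D' →ₗ[ℂ] (κ → ℂ) ⧸ R := R.mkQ ∘ₗ (LinearMap.ker D').subtype with hθ
  have h2 : LinearMap.range φ ≤ LinearMap.range θ := by
    rintro _ ⟨⟨v, hv⟩, rfl⟩
    refine ⟨⟨f *ᵥ v, ?_⟩, rfl⟩
    rw [LinearMap.mem_ker] at hv ⊢
    change d' *ᵥ (f *ᵥ v) = 0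
    change d *ᵥ v = 0 at hv
    rw [mulVec_mulVec, hf, ← mulVec_mulVec, hv, mulVec_zero]
  have e6 := LinearMap.finrank_range_add_finrank_ker θ
  have h3 : LinearMap.ker θ = Submodule.comap (LinearMap.ker D').subtype R := by
    rw [hθ, LinearMap.ker_comp, Submodule.ker_mkQ]
  have h4 : finrank ℂ (LinearMap.ker θ) = d'.rank := by
    rw [h3]
    exact (Submodule.comapSubtypeEquivOfLe (k1c_range_le_ker hd')).finrank_eq
  have h5 := Submodule.finrank_mono h2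
  omega

omit [Fintype m] in
theorem k1c_rank_cols {a b : Type} [Fintype a] [Fintype b] (P : Matrix m a ℂ) (Q : Matrix m b ℂ)
    (e : Matrix b b ℂ) (f : Matrix a b ℂ) (h : Q * e = P * f) :
    (Matrix.fromCols P Q).rank + e.rank ≤ P.rank + Fintype.card b := by
  set R := LinearMap.range P.mulVecLin with hR
  set ψ : (b → ℂ) →ₗ[ℂ] (m → ℂ) ⧸ R := R.mkQ ∘ₗ Q.mulVecLin with hψ
  set S := LinearMap.range (Matrix.fromCols P Q).mulVecLin with hS
  have e1 := LinearMap.finrank_range_add_finrank_ker ψ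
  rw [finrank_pi] at e1
  have h1 : LinearMap.range e.mulVecLin ≤ LinearMap.ker ψ := by
    rintro _ ⟨v, rfl⟩
    rw [LinearMap.mem_ker]
    change R.mkQ (Q *ᵥ (e *ᵥ v)) = 0
    rw [mulVec_mulVec, h, ← mulVec_mulVec, Submodule.mkQ_apply, Submodule.Quotient.mk_eq_zero]
    exact ⟨_, rfl⟩
  have h2 := Submodule.finrank_mono h1
  set θ : S →ₗ[ℂ] (m → ℂ) ⧸ R := R.mkQ ∘ₗ S.subtype with hθ
  have e2 := LinearMap.finrank_range_add_finrank_ker θ
  have h3 : LinearMap.range θ ≤ LinearMap.range ψ := by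
    rintro _ ⟨⟨_, ⟨v, rfl⟩⟩, rfl⟩
    refine ⟨v ∘ Sum.inr, ?_⟩
    change R.mkQ (Q *ᵥ (v ∘ Sum.inr)) = R.mkQ (Matrix.fromCols P Q *ᵥ v)
    rw [Matrix.fromCols_mulVec, map_add]
    have h4 : R.mkQ (P *ᵥ (v ∘ Sum.inl)) = 0 := by
      rw [Submodule.mkQ_apply, Submodule.Quotient.mk_eq_zero]
      exact ⟨_, rfl⟩
    rw [h4, zero_add]
  have h4 := Submodule.finrank_mono h3
  have h5 : finrank ℂ (LinearMap.ker θ) ≤ P.rank := by
    rw [← Submodule.finrank_map_subtype_eq S (LinearMap.ker θ)]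
    refine Submodule.finrank_mono ?_
    rintro _ ⟨⟨v, hv⟩, hv2, rfl⟩
    have h6 : R.mkQ v = 0 := hv2
    rw [Submodule.mkQ_apply, Submodule.Quotient.mk_eq_zero] at h6
    exact h6
  have h6 : (Matrix.fromCols P Q).rank = finrank ℂ S := rfl
  have h7 : e.rank = finrank ℂ (LinearMap.range e.mulVecLin) := rfl
  omega

end la

variable {A : GCtx} {W : A.S}

section
variable [GCtx.Aug A]

/-- reduction modulo the augmentation ideal -/
noncomputable def k1cBar {ι κ : Type} (f : Matrix κ ι A.S) : Matrix κ ι ℂ :=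
  f.map (GCtx.Aug.ev (A := A))

theorem k1cBar_mul {ι κ m : Type} [Fintype κ] (f : Matrix m κ A.S) (g : Matrix κ ι A.S) :
    k1cBar (f * g) = k1cBar f * k1cBar g := Matrix.map_mul

theorem k1cBar_add {ι κ : Type} (f g : Matrix κ ι A.S) :
    k1cBar (f + g) = k1cBar f + k1cBar g := Matrix.map_add _ (map_add _) _ _

theorem k1cBar_one {ι : Type} [DecidableEq ι] : k1cBar (1 : Matrix ι ι A.S) = 1 :=
  Matrix.map_one _ (map_zero _) (map_one _)

theorem k1cBar_d (E : MF A W) : k1cBar E.d = dbar E := rfl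

theorem k1c_dbar_sq (hW : GCtx.Aug.ev W = 0) (E : MF A W) : dbar E * dbar E = 0 := by
  rw [← k1cBar_d, ← k1cBar_mul, E.sq]
  ext i j
  change GCtx.Aug.ev (A := A) (W * (1 : Matrix E.ι E.ι A.S) i j) = 0
  rw [map_mul, hW, zero_mul]

theorem k1c_rk_le (hW : GCtx.Aug.ev W = 0) {E F : MF A W} {f : Matrix F.ι E.ι A.S}
    {g : Matrix E.ι F.ι A.S} (hf : f ∈ Z0 E F) (hg : g ∈ Z0 F E) (h : g * f - 1 ∈ B0 E E) :
    rk E ≤ rk F := by
  obtain ⟨k, -, hk⟩ := h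
  have hf2 : dbar F * k1cBar f = k1cBar f * dbar E := by
    rw [← k1cBar_d, ← k1cBar_d, ← k1cBar_mul, ← k1cBar_mul, hf.2]
  have hg2 : dbar E * k1cBar g = k1cBar g * dbar F := by
    rw [← k1cBar_d, ← k1cBar_d, ← k1cBar_mul, ← k1cBar_mul, hg.2]
  have hk2 : k1cBar g * k1cBar f = (dbar E * k1cBar k + k1cBar k * dbar E) + 1 := by
    rw [← k1cBar_d, ← k1cBar_mul, ← k1cBar_mul, ← k1cBar_mul, ← k1cBar_add,
      ← k1cBar_one (A := A), ← k1cBar_add, ← hk, sub_add_cancel]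
  refine k1c_h_le (k1c_dbar_sq hW E) (k1c_dbar_sq hW F) hf2 ?_
  rintro v hv ⟨w, hw⟩
  refine ⟨k1cBar g *ᵥ w - k1cBar k *ᵥ v, ?_⟩
  have h1 : k1cBar g *ᵥ (k1cBar f *ᵥ v) =
      (dbar E * k1cBar k + k1cBar k * dbar E + 1) *ᵥ v := by
    rw [mulVec_mulVec, hk2]
  rw [add_mulVec, add_mulVec, one_mulVec, ← mulVec_mulVec, ← mulVec_mulVec, hv, mulVec_zero,
    add_zero, ← hw] at h1
  rw [mulVec_sub, mulVec_mulVec, hg2, ← mulVec_mulVec, h1]
  abel

theorem k1c_rk_iso (hW : GCtx.Aug.ev W = 0) {E F : MF A W} (e : E ≅ F) : rk E = rk F := by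
  obtain ⟨a, b, hab, hba⟩ := e
  induction a using hom_ind with
  | h f hf =>
  induction b using hom_ind with
  | h g hg =>
  rw [mk_comp_mk, ← mk_one, mk_eq_mk] at hab hba
  exact le_antisymm (k1c_rk_le hW hf hg hab) (k1c_rk_le hW hg hf hba)

theorem k1c_rk_tw (γ : A.Γ) (E : MF A W) : rk (tw γ E) = rk E := by
  have h1 : dbar (tw γ E) = ((sg (A.chΓ γ) : ℤ) : ℂ) • dbar E := by
    ext i j
    change GCtx.Aug.ev (A := A) (sg (A.chΓ γ) • E.d i j) =
      ((sg (A.chΓ γ) : ℤ) : ℂ) * GCtx.Aug.ev (A := A) (E.d i j)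
    rw [map_zsmul, zsmul_eq_mul]
  have h2 : (dbar (tw γ E)).rank = (dbar E).rank := by
    rw [h1]
    refine Matrix.rank_smul_of_mem_nonZeroDivisors _ ?_
    rw [mem_nonZeroDivisors_iff_ne_zero]
    intro h
    have h3 := sg_mul_self (A.chΓ γ)
    have h4 : ((sg (A.chΓ γ) : ℤ) : ℂ) * ((sg (A.chΓ γ) : ℤ) : ℂ) = 1 := by
      rw [← Int.cast_mul, h3, Int.cast_one]
    rw [h, zero_mul] at h4
    exact zero_ne_one h4
  unfold rk
  rw [h2]

theorem k1c_rk_cone (hW : GCtx.Aug.ev W = 0) (E F : MF A W) (f : Matrix F.ι E.ι A.S)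
    (hf : f ∈ Z0 E F) : rk F ≤ rk E + rk (cone E F f hf) := by
  have h1 : dbar (cone E F f hf) = Matrix.fromCols (Matrix.fromRows (dbar F) 0)
      (Matrix.fromRows (k1cBar f) (-dbar E)) := by
    rw [Matrix.fromCols_fromRows_eq_fromBlocks]
    ext i j
    rcases i with i | i <;> rcases j with j | j
    · rfl
    · rfl
    · exact map_zero (GCtx.Aug.ev (A := A))
    · exact map_neg (GCtx.Aug.ev (A := A)) _
  have hf2 : dbar F * k1cBar f = k1cBar f * dbar E := by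
    rw [← k1cBar_d, ← k1cBar_d, ← k1cBar_mul, ← k1cBar_mul, hf.2]
  have h2 := k1c_rank_cols (Matrix.fromRows (dbar F) (0 : Matrix E.ι F.ι ℂ))
    (Matrix.fromRows (k1cBar f) (-dbar E)) (dbar E) (k1cBar f) (by
      rw [Matrix.fromRows_mul, Matrix.fromRows_mul, hf2, Matrix.neg_mul, k1c_dbar_sq hW,
        Matrix.zero_mul, neg_zero])
  have h3 : (Matrix.fromRows (dbar F) (0 : Matrix E.ι F.ι ℂ)).rank ≤ (dbar F).rank := by
    have h4 : Matrix.fromRows (dbar F) (0 : Matrix E.ι F.ι ℂ) =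
        Matrix.fromRows (1 : Matrix F.ι F.ι ℂ) (0 : Matrix E.ι F.ι ℂ) * dbar F := by
      rw [Matrix.fromRows_mul, Matrix.one_mul, Matrix.zero_mul]
    rw [h4]
    exact Matrix.rank_mul_le_right _ _
  have h4 := k1c_two_rank_le (k1c_dbar_sq hW E)
  have h5 := k1c_two_rank_le (k1c_dbar_sq hW F)
  have h6 := k1c_two_rank_le (k1c_dbar_sq hW (cone E F f hf))
  have h7 : Fintype.card (cone E F f hf).ι = Fintype.card F.ι + Fintype.card E.ι :=
    Fintype.card_sum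
  have h8 : (dbar (cone E F f hf)).rank + (dbar E).rank ≤ (dbar F).rank + Fintype.card E.ι := by
    rw [h1]
    exact h2.trans (Nat.add_le_add_right h3 _)
  unfold rk
  omega

end

/-- `rk` is a rank function -/
theorem isRk_rk [GCtx.Aug A] (hW : GCtx.Aug.ev W = 0) : IsRk (rk : MF A W → ℕ) where
  iso e := k1c_rk_iso hW e
  shift X n := k1c_rk_tw (A.en (3 * n)) X
  sub T hT := by
    obtain ⟨E, F, f, hf, ⟨e⟩⟩ := (mem_dist_iff T).1 hT
    have h1 : rk T.obj₁ = rk E := k1c_rk_iso hW (Triangle.π₁.mapIso e)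
    have h2 : rk T.obj₂ = rk F := k1c_rk_iso hW (Triangle.π₂.mapIso e)
    have h3 : rk T.obj₃ = rk (cone E F f hf) := k1c_rk_iso hW (Triangle.π₃.mapIso e)
    rw [h1, h2, h3]
    exact k1c_rk_cone hW E F f hf
  zero X := by
    constructor
    · intro h
      obtain ⟨E', ⟨e⟩, hE'⟩ := exists_minimal hW X
      rw [k1c_rk_iso hW e, rk_of_minimal hE'] at h
      have h2 : IsEmpty E'.ι := Fintype.card_eq_zero_iff.1 h
      refine IsZero.of_iso ?_ e
      rw [isZero_iff]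
      have h3 : (1 : Matrix E'.ι E'.ι A.S) = 0 := by
        ext i
        exact (h2.false i).elim
      rw [h3]
      exact zero_mem _
    · intro h
      rw [k1c_rk_iso hW (h.iso (isZero_zeroMF (A := A) (W := W)))]
      unfold rk
      have h2 : Fintype.card (zeroMF A W).ι = 0 := Fintype.card_empty
      rw [h2, Nat.zero_sub]

end Vale.Agent.P287T.G3
end
end

section

section

/-!
# The polynomial ring `ℂ[x_0..x_4]`, smooth quintics, nilpotency of the variables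
-/

open Matrix CategoryTheory CategoryTheory.Limits CategoryTheory.Pretriangulated

namespace Vale.Agent.P287T.G3

theorem N1_weight {n : ℕ} (d : Fin n →₀ ℕ) :
    Finsupp.weight (fun _ => (2 : ℤ)) d = 2 * (d.degree : ℤ) := by
  rw [Finsupp.weight_eq_sum, Finsupp.degree_eq_sum]
  push_cast
  rw [Finset.mul_sum]
  refine Finset.sum_congr rfl fun i _ => ?_
  rw [nsmul_eq_mul, mul_comm]

/-- `ℂ[x_1..x_n]` graded with `deg x_i = 2`, labels `ℤ`. -/
noncomputable def mvCtx (n : ℕ) : GCtx where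
  S := MvPolynomial (Fin n) ℂ
  Γ := ℤ
  L := ℤ
  chΓ := AddMonoidHom.id ℤ
  e := 1
  ch_e := rfl
  ch := id
  ch_vadd := fun _ _ => rfl
  H a b :=
    { carrier := {f | MvPolynomial.IsWeightedHomogeneous (fun _ => (2 : ℤ)) f (a - b)}
      zero_mem' := MvPolynomial.isWeightedHomogeneous_zero _ _ _
      add_mem' := fun hf hg => hf.add hg
      neg_mem' := fun {f} hf => by
        exact MvPolynomial.IsWeightedHomogeneous.neg hf }
  H_vadd γ a b := by
    ext f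
    change MvPolynomial.IsWeightedHomogeneous (fun _ => (2 : ℤ)) f (γ + a - (γ + b)) ↔
      MvPolynomial.IsWeightedHomogeneous (fun _ => (2 : ℤ)) f (a - b)
    rw [add_sub_add_left_eq_sub]
  one_mem a := by
    change MvPolynomial.IsWeightedHomogeneous (fun _ => (2 : ℤ)) (1 : MvPolynomial (Fin n) ℂ) (a - a)
    rw [sub_self]
    exact MvPolynomial.isWeightedHomogeneous_one _ _
  mul_mem := by
    intro a b c x y hx hy
    change MvPolynomial.IsWeightedHomogeneous (fun _ => (2 : ℤ)) (x * y) (a - c)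
    have h1 : MvPolynomial.IsWeightedHomogeneous (fun _ => (2 : ℤ)) x (b - c) := hx
    have h2 : MvPolynomial.IsWeightedHomogeneous (fun _ => (2 : ℤ)) y (a - b) := hy
    have h3 := h1.mul h2
    have h4 : b - c + (a - b) = a - c := by ring
    rwa [h4] at h3

theorem mv_mem_iff {n : ℕ} (a b : ℤ) (f : MvPolynomial (Fin n) ℂ) :
    f ∈ (mvCtx n).H a b ↔ MvPolynomial.IsWeightedHomogeneous (fun _ => (2 : ℤ)) f (a - b) :=
  Iff.rfl

theorem N1_pos {n : ℕ} {a b : ℤ} {s : MvPolynomial (Fin n) ℂ}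
    (hs : MvPolynomial.IsWeightedHomogeneous (fun _ => (2 : ℤ)) s (a - b)) (h0 : s ≠ 0) :
    b ≤ a := by
  obtain ⟨d, hd⟩ := MvPolynomial.ne_zero_iff.1 h0
  have h1 := hs hd
  rw [N1_weight] at h1
  have h2 : (0 : ℤ) ≤ (d.degree : ℤ) := Int.natCast_nonneg _
  linarith

theorem N1_conn {n : ℕ} {s : MvPolynomial (Fin n) ℂ}
    (hs : MvPolynomial.IsWeightedHomogeneous (fun _ => (2 : ℤ)) s 0) :
    s = MvPolynomial.C (MvPolynomial.constantCoeff s) := by
  ext d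
  rw [MvPolynomial.coeff_C]
  by_cases hd : 0 = d
  · rw [if_pos hd, ← hd]
    rfl
  · rw [if_neg hd]
    by_contra hne
    have h1 := hs hne
    rw [N1_weight] at h1
    have h2 : (d.degree : ℤ) = 0 := by linarith
    have h3 : d.degree = 0 := by exact_mod_cast h2
    rw [Finsupp.degree_eq_zero_iff] at h3
    exact hd h3.symm

theorem N1_evpos {n : ℕ} {m : ℤ} {s : MvPolynomial (Fin n) ℂ}
    (hs : MvPolynomial.IsWeightedHomogeneous (fun _ => (2 : ℤ)) s m) (hm : m ≠ 0) :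
    MvPolynomial.constantCoeff s = 0 := by
  by_contra hne
  have h1 : MvPolynomial.coeff 0 s ≠ 0 := hne
  have h2 := hs h1
  rw [map_zero] at h2
  exact hm h2.symm

noncomputable instance augMv (n : ℕ) : GCtx.Aug (mvCtx n) where
  ev := MvPolynomial.constantCoeff
  cst := MvPolynomial.C
  ev_cst z := by
    exact MvPolynomial.constantCoeff_C _ z
  cst_mem a z := by
    change MvPolynomial.IsWeightedHomogeneous (fun _ => (2 : ℤ))
      (MvPolynomial.C z : MvPolynomial (Fin n) ℂ) ((show ℤ from a) - (show ℤ from a))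
    rw [sub_self]
    exact MvPolynomial.isWeightedHomogeneous_C _ z
  pos := by
    intro a b s hs h0
    exact N1_pos hs h0
  conn := by
    intro a b s hs h0 hab
    have hab' : a = b := hab
    subst hab'
    refine ⟨rfl, ?_⟩
    have h1 : MvPolynomial.IsWeightedHomogeneous (fun _ => (2 : ℤ))
      (show MvPolynomial (Fin n) ℂ from s) ((show ℤ from a) - (show ℤ from a)) := hs
    rw [sub_self] at h1
    exact N1_conn h1
  ev_pos := by
    intro a b s hs hab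
    have hab' : (show ℤ from b) < (show ℤ from a) := hab
    exact N1_evpos (m := (show ℤ from a) - (show ℤ from b)) hs (sub_ne_zero.2 hab'.ne')

/-- a homogeneous polynomial of degree `d` is an entry of charge `2d` -/
theorem mem_of_isHomogeneous {n d : ℕ} {f : MvPolynomial (Fin n) ℂ} (hf : f.IsHomogeneous d)
    (a b : ℤ) (hab : b = a + 2 * d) : f ∈ (mvCtx n).H b a := by
  rw [mv_mem_iff, hab]
  intro m hm
  rw [N1_weight]
  have h1 : m.degree = d := by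
    have h2 := hf hm
    rw [← h2, Finsupp.degree_eq_weight_one]
    rfl
  rw [h1]
  ring

/-- smoothness: the partial derivatives have no common zero except the origin -/
def SmoothForm {n : ℕ} (W : MvPolynomial (Fin n) ℂ) : Prop :=
  ∀ x : Fin n → ℂ, (∀ i, MvPolynomial.eval x (MvPolynomial.pderiv i W) = 0) → x = 0

theorem N1_NH_of_deriv {A : GCtx} {W : A.S} (E : MF A W) (γ : A.Γ) (D : Derivation ℤ A.S A.S)
    (hD : ∀ (a b : A.L) (s : A.S), s ∈ A.H (A.en 3 +ᵥ a) b → D s ∈ A.H ((γ - A.en 3) +ᵥ a) b) :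
    NH E (D W) γ :=
  ⟨E.d.map D, fun i j => hD _ _ _ (E.deg i j), (Pol.deriv_sq D E.d W E.sq).symm⟩

theorem N1_NH_mul {A : GCtx} {W : A.S} {E : MF A W} {γ δ : A.Γ} {s a : A.S} (h : NH E s γ)
    (ha : ∀ b : A.L, a ∈ A.H (δ +ᵥ b) b) : NH E (a * s) (γ + δ) := by
  obtain ⟨g, hg, hg'⟩ := h
  refine ⟨a • g, ?_, ?_⟩
  · intro i j
    rw [Matrix.smul_apply, smul_eq_mul]
    refine A.mul_mem (ha _) ?_
    have h1 : γ + δ - A.en 3 = δ + (γ - A.en 3) := by abel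
    rw [h1, ← vadd_vadd, A.H_vadd]
    exact hg i j
  · rw [Matrix.mul_smul, Matrix.smul_mul, ← smul_add, ← hg', smul_smul]

theorem N1_NH_sum {A : GCtx} {W : A.S} {E : MF A W} {γ : A.Γ} {J : Type} (t : Finset J)
    (s : J → A.S) (h : ∀ j, NH E (s j) γ) : NH E (∑ j ∈ t, s j) γ := by
  choose g hg hg' using h
  refine ⟨∑ j ∈ t, g j, ?_, ?_⟩
  · intro k l
    rw [Matrix.sum_apply]
    exact sum_mem fun j _ => hg j k l
  · rw [Matrix.mul_sum, Matrix.sum_mul, ← Finset.sum_add_distrib, Finset.sum_smul]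
    exact Finset.sum_congr rfl fun j _ => hg' j

/-- partial derivatives of `W` are null-homotopic -/
theorem NH_pderiv {n : ℕ} {W : MvPolynomial (Fin n) ℂ} (E : MF (mvCtx n) W) (j : Fin n) :
    NH E (show (mvCtx n).S from MvPolynomial.pderiv j W) ((mvCtx n).en 4) := by
  have hD : ∃ D : Derivation ℤ (MvPolynomial (Fin n) ℂ) (MvPolynomial (Fin n) ℂ),
      ∀ f, D f = MvPolynomial.pderiv j f :=
    ⟨Derivation.restrictScalars ℤ (MvPolynomial.pderiv j :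
      Derivation ℂ (MvPolynomial (Fin n) ℂ) (MvPolynomial (Fin n) ℂ)), fun f => rfl⟩
  obtain ⟨D, hD⟩ := hD
  have key := N1_NH_of_deriv (A := mvCtx n) E ((mvCtx n).en 4) D ?_
  · have h1 : (D (show MvPolynomial (Fin n) ℂ from W)) = MvPolynomial.pderiv j W := hD W
    rw [← h1]
    exact key
  intro a b s hs
  have h1 : MvPolynomial.IsWeightedHomogeneous (fun _ => (2 : ℤ))
    (show MvPolynomial (Fin n) ℂ from s)
      ((3 : ℤ) • (1 : ℤ) + (show ℤ from a) - (show ℤ from b)) := hs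
  change MvPolynomial.IsWeightedHomogeneous (fun _ => (2 : ℤ))
    (D (show MvPolynomial (Fin n) ℂ from s))
      ((4 : ℤ) • (1 : ℤ) - (3 : ℤ) • (1 : ℤ) + (show ℤ from a) - (show ℤ from b))
  rw [hD]
  refine MvPolynomial.IsWeightedHomogeneous.pderiv h1 ?_
  have h3 : ∀ x y : ℤ, (4 : ℤ) • (1 : ℤ) - (3 : ℤ) • (1 : ℤ) + x - y + 2 =
      (3 : ℤ) • (1 : ℤ) + x - y := by
    intro x y
    simp only [smul_eq_mul]
    ring
  exact h3 _ _

/-- the variables are nilpotent on `HMF(W)`, `W` a smooth quintic -/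
theorem nilp_of_smooth {n : ℕ} {W : MvPolynomial (Fin n) ℂ} (hW : W.IsHomogeneous 3)
    (h : SmoothForm W) : ∃ N : ℕ, 1 ≤ N ∧
      Nilp (mvCtx n) W (Set.range fun i => (MvPolynomial.X i : MvPolynomial (Fin n) ℂ)) N := by
  obtain ⟨N, h4, hN⟩ := Pol.exists_cofactors hW h
  refine ⟨N, by omega, ⟨?_⟩⟩
  rintro E s ⟨i, rfl⟩
  obtain ⟨a, ha, hs⟩ := hN i
  have key : ∀ j : Fin n, NH E (show (mvCtx n).S from a j * MvPolynomial.pderiv j W)
      ((mvCtx n).en (2 * N)) := by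
    intro j
    have h1 := N1_NH_mul (A := mvCtx n) (a := a j) (δ := (mvCtx n).en (2 * ((N - 2 : ℕ) : ℤ)))
      (NH_pderiv E j) (fun b => by
        refine mem_of_isHomogeneous (ha j) (show ℤ from b) _ ?_
        change (2 * ((N - 2 : ℕ) : ℤ)) • (1 : ℤ) + (show ℤ from b) =
          (show ℤ from b) + 2 * ((N - 2 : ℕ) : ℤ)
        rw [smul_eq_mul, mul_one, add_comm])
    have h2 : (mvCtx n).en 4 + (mvCtx n).en (2 * ((N - 2 : ℕ) : ℤ)) = (mvCtx n).en (2 * N) := by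
      rw [← GCtx.en_add, Nat.cast_sub h4]
      congr 1
      push_cast
      ring
    rwa [h2] at h1
  have h3 := N1_NH_sum (A := mvCtx n) Finset.univ _ key
  have h4 : (show (mvCtx n).S from (MvPolynomial.X i : MvPolynomial (Fin n) ℂ) ^ N) =
      ∑ j, (show (mvCtx n).S from a j * MvPolynomial.pderiv j W) := hs
  rw [← h4] at h3
  exact h3

end Vale.Agent.P287T.G3
end
end

section

section

/-!
# The gluing-and-tilting step: M1, M2
-/

open CategoryTheory CategoryTheory.Pretriangulated CategoryTheory.Limits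

namespace Vale.Agent.P287T.G3

universe v₁ v₂ v₃ u₁ u₂ u₃

variable {C : Type u₁} [Category.{v₁} C] [Preadditive C] [HasZeroObject C] [HasShift C ℤ]
  [∀ n : ℤ, (shiftFunctor C n).Additive] [Pretriangulated C] [IsTriangulated C]
variable {D : Type u₂} [Category.{v₂} D] [Preadditive D] [HasZeroObject D] [HasShift D ℤ]
  [∀ n : ℤ, (shiftFunctor D n).Additive] [Pretriangulated D] [IsTriangulated D]
variable {E : Type u₃} [Category.{v₃} E] [Preadditive E] [HasZeroObject E] [HasShift E ℤ]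
  [∀ n : ℤ, (shiftFunctor E n).Additive] [Pretriangulated E] [IsTriangulated E]

section aux

set_option linter.unusedSectionVars false

theorem Slic.a5c_V_of_shift_neg (σ : Slic C) {s : ℝ} {X : C} (h : σ.V s (X⟦(-1 : ℤ)⟧)) :
    σ.V (s + 1) X := by
  have h2 := σ.shiftV_int (s + 1) (-1) X
  rw [show (s + 1 + ((-1 : ℤ) : ℝ)) = s by push_cast; ring] at h2
  exact h2.1 h

theorem Slic.a5c_V_shift_neg (σ : Slic C) {s : ℝ} {X : C} (h : σ.V (s + 1) X) :
    σ.V s (X⟦(-1 : ℤ)⟧) := by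
  have h2 := σ.shiftV_int (s + 1) (-1) X
  rw [show (s + 1 + ((-1 : ℤ) : ℝ)) = s by push_cast; ring] at h2
  exact h2.2 h

/-- transport of `V`-membership through a functor commuting with shifts -/
theorem Slic.a5c_V_of_map_shift_neg (σ : Slic C) (F : E ⥤ C) [F.CommShift ℤ] {s : ℝ} {Y : E}
    (h : σ.V s (F.obj (Y⟦(-1 : ℤ)⟧))) : σ.V (s + 1) (F.obj Y) :=
  σ.a5c_V_of_shift_neg ((σ.ts s).isoV ((F.commShiftIso (-1 : ℤ)).app Y) h)

theorem Slic.a5c_V_map_shift_neg (σ : Slic C) (F : E ⥤ C) [F.CommShift ℤ] {s : ℝ} {Y : E}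
    (h : σ.V (s + 1) (F.obj Y)) : σ.V s (F.obj (Y⟦(-1 : ℤ)⟧)) :=
  (σ.ts s).isoV ((F.commShiftIso (-1 : ℤ)).app Y).symm (σ.a5c_V_shift_neg h)

/-- in a distinguished triangle with zero middle term, the third term is the shift of the first -/
theorem a5c_iso_of_zero₂ {T : Triangle C} (hT : T ∈ distTriang C) (h : IsZero T.obj₂) :
    Nonempty (T.obj₃ ≅ T.obj₁⟦(1 : ℤ)⟧) := by
  have h1 : IsIso T.mor₃ := (Triangle.isZero₂_iff_isIso₃ T hT).1 h
  exact ⟨asIso T.mor₃⟩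

theorem a5c_isZero_of_shift {X : C} (n : ℤ) (h : IsZero (X⟦n⟧)) : IsZero X := by
  have h2 : IsZero ((X⟦n⟧)⟦-n⟧) := (shiftFunctor C (-n)).map_isZero h
  exact h2.of_iso (shiftShiftNeg X n).symm

theorem PreStab.a5c_Zzero {σ : Slic C} {Z : C → ℂ} (h : PreStab σ Z) {X : C} (hX : IsZero X) :
    Z X = 0 := h.add.zeroC hX

end aux

namespace StepHyp

variable {Φ : Glue C D E} {σC : Slic C} {ZC : C → ℂ} {rC : C → ℕ} {cC : ℝ}
    {σD : Slic D} {ZD : D → ℂ} {rD : D → ℕ} {cD : ℝ} {w : ℝ}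

variable (h : StepHyp Φ σC ZC rC cC σD ZD rD cD w)

theorem a5c_U2_of_U' {t : ℝ} {Y : E} (hY : h.U' t Y) : h.U2 t Y :=
  (h.tiltHyp t).le_tiltU Y hY

theorem a5c_V2_of_V' {t : ℝ} {Y : E} (hY : h.V' (t - w) Y) : h.V2 t Y :=
  (h.tiltHyp t).V0_le Y hY

/-- (M1) -/
theorem M1 {φ : ℝ} {X : D} (hX : σD.P φ X) : h.slic.P φ (Φ.i.obj X) := by
  have hw1 := h.w1
  have hw2 := h.w2
  obtain ⟨eb⟩ := Φ.bi' X
  obtain ⟨ex⟩ := Φ.xi X
  have hg0 : IsZero (Φ.g.obj (Φ.i.obj X)) := Φ.gi X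
  refine ⟨?_, ?_⟩
  · refine h.a5c_U2_of_U' ⟨(σC.ts _).zeroU hg0, (σD.ts _).isoU eb.symm hX.1⟩
  · have key : ∀ t, φ < t → t ≤ φ + w → h.V2 t (Φ.i.obj X) := by
      intro t h1 h2
      refine (h.tiltHyp t).F_le _ ⟨⟨(σC.ts _).zeroU hg0, ?_⟩, ⟨(σC.ts _).zeroV hg0, ?_⟩, ?_⟩
      · exact (σD.ts _).isoU eb.symm (σD.anti (by linarith) _ hX.1)
      · exact (σD.ts _).isoV ex.symm (hX.2 t h1)
      · intro Y Z f g δ hT hY hZ hY0
        -- the `C`-parts vanish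
        have hTg := Φ.g.map_distinguished _ hT
        obtain ⟨e⟩ := a5c_iso_of_zero₂ hTg hg0
        have hgZ : IsZero (Φ.g.obj Z) := by
          refine (σC.ts (t - w - w + 1)).isZero ?_ ?_
          · refine (σC.ts _).isoU e.symm ?_
            exact (σC.shift _ _).2 hY.1.1
          · exact σC.a5c_V_of_map_shift_neg Φ.g hZ.2.1
        have hgY : IsZero (Φ.g.obj Y) := by
          refine a5c_isZero_of_shift 1 ?_
          exact hgZ.of_iso e.symm
        obtain ⟨-, ⟨ebx⟩⟩ := Φ.of_g_zero Y hgY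
        -- the `D`-part
        have hTx := Φ.x.map_distinguished _ hT
        have hxU : σD.U (t - w) (Φ.x.obj Y) := (σD.ts _).isoU ebx hY.1.2
        have hxV : σD.Vc φ (Φ.x.obj Y) := by
          refine σD.sub_Vc hTx (φ := φ) (a := t - w) ?_ ?_ (by linarith)
          · exact σD.isoVc ex.symm hX.2
          · exact σD.a5c_V_of_map_shift_neg Φ.x hZ.2.2
        have hx0 : ¬ IsZero (Φ.x.obj Y) := fun h0 => hY0 (Φ.isZero_of Y hgY h0)
        have := h.hD.lam_neg (s := t) (a := t - w) (b := φ) (by linarith) h1 hxU hxV hx0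
        change lam t (Φ.Z ZC ZD w Y) < 0
        unfold Glue.Z
        rw [h.hC.pre.a5c_Zzero hgY, mul_zero, add_zero]
        exact this
    intro t ht
    rcases le_or_gt t (φ + w) with h1 | h1
    · exact key t ht h1
    · exact h.slic.monoV h1.le _ (key (φ + w) (by linarith) le_rfl)

/-- (M2) -/
theorem M2 {φ : ℝ} {G : C} (hG : σC.P φ G) : h.slic.P (φ + 2 * w) (Φ.J G) := by
  have hw1 := h.w1
  have hw2 := h.w2
  have eg := Φ.ε G
  have hx0 : IsZero (Φ.x.obj (Φ.J G)) := Φ.xJ G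
  refine ⟨?_, ?_⟩
  · -- membership in the aisle
    have hU' : h.U' (φ + 2 * w - w) (Φ.J G) := by
      refine ⟨?_, ?_⟩
      · refine (σC.ts _).isoU eg.symm ?_
        exact σC.anti (by linarith) _ hG.1
      · obtain ⟨f, δ, hT⟩ := Φ.tri3 (Φ.J G)
        obtain ⟨e⟩ := a5c_iso_of_zero₂ hT hx0
        refine (σD.ts _).isoU e.symm ?_
        have h1 : σD.U (φ + (w - 1 / 3)) (Φ.x.obj (Φ.n.obj (Φ.g.obj (Φ.J G)))) :=
          (h.hN φ _ ⟨(σC.ts _).isoU eg.symm hG.1, σC.isoVc eg.symm hG.2⟩).1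
        have h2 := (σD.shift _ _).2 h1
        exact σD.anti (by linarith) _ h2
    have hV' : h.V' (φ + 2 * w - w) ((Φ.J G)⟦(-1 : ℤ)⟧) := by
      refine ⟨?_, ?_⟩
      · refine σC.a5c_V_map_shift_neg Φ.g ?_
        refine (σC.ts _).isoV eg.symm ?_
        exact hG.2 _ (by linarith)
      · refine σD.a5c_V_map_shift_neg Φ.x ?_
        exact (σD.ts _).zeroV hx0
    refine ⟨hU', ?_⟩
    intro Y hY f
    have tH := h.tiltHyp (φ + 2 * w)
    have hYV : h.V' (φ + 2 * w - w) (Y⟦(-1 : ℤ)⟧) := by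
      refine ⟨σC.a5c_V_map_shift_neg Φ.g ?_, σD.a5c_V_map_shift_neg Φ.x ?_⟩
      · exact σC.monoV (by linarith) _ hY.2.1.1
      · exact σD.monoV (by linarith) _ hY.2.1.2
    obtain ⟨K, I, Q, k, p, m, q, δ, δ', hT1, hT2, hK, hI, hQ, hpm⟩ :=
      heart_factor tH.t0 ⟨hU', hV'⟩ ⟨hY.1, hYV⟩ f
    by_cases hI0 : IsZero I
    · rw [← hpm, hI0.eq_zero_of_tgt p, zero_comp]
    exfalso
    have hneg := hY.2.2 I Q m q δ' hT2 hI hQ hI0
    -- `x I = 0`
    have hTx := Φ.x.map_distinguished _ hT1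
    obtain ⟨e⟩ := a5c_iso_of_zero₂ hTx hx0
    have hxI : IsZero (Φ.x.obj I) := by
      refine (σD.ts (φ + 2 * w)).isZero ?_ ?_
      · have h1 : σD.U (φ + 2 * w - w - 1 / 3) (Φ.x.obj K) := h.x_mem_U hK.1
        have h2 := (σD.shift _ _).2 h1
        refine σD.anti (by linarith) _ ((σD.ts _).isoU e.symm h2)
      · have hQ' : h.V' (φ + 2 * w) (Q⟦(-1 : ℤ)⟧) :=
          ⟨σC.monoV (by linarith) _ hQ.2.1, σD.monoV (by linarith) _ hQ.2.2⟩
        have hI' : h.V' (φ + 2 * w) I := tH.t1.ext1V hT2 hY.2.1 hQ'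
        exact hI'.2
    have h1 : σC.U φ (Φ.g.obj I) := σC.anti (by linarith) _ hI.1.1
    have h2 : σC.V (φ + 1) (Φ.g.obj I) :=
      σC.monoV (by linarith) _ (σC.a5c_V_of_map_shift_neg Φ.g hI.2.1)
    have h3 := h.hC.pre.lam_nonneg (s := φ) (a := φ) (b := φ + 1) le_rfl le_rfl h1 h2
    change lam (φ + 2 * w) (Φ.Z ZC ZD w I) < 0 at hneg
    unfold Glue.Z at hneg
    rw [h.hD.pre.a5c_Zzero hxI, zero_add, lam_ray_mul, show φ + 2 * w - 2 * w = φ by ring] at hneg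
    linarith
  · intro t ht
    refine h.a5c_V2_of_V' ⟨?_, ?_⟩
    · refine (σC.ts _).isoV eg.symm ?_
      exact hG.2 _ (by linarith)
    · exact (σD.ts _).zeroV hx0

end StepHyp

end Vale.Agent.P287T.G3
end
end

section

section

/-!
# Base case: the point
-/

open Matrix CategoryTheory CategoryTheory.Limits CategoryTheory.Pretriangulated

namespace Vale.Agent.P287T.G3

/-- matrix factorizations over the point -/
abbrev F0Pt : Type 1 := MF GCtx.pt (show GCtx.pt.S from (0 : ℂ))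

/-- the phase of a basis vector -/
noncomputable def F0ph (E : F0Pt) (i : E.ι) : ℝ := -(GCtx.pt.ch (E.p i) : ℝ) / 3

theorem F0_ev : GCtx.Aug.ev (show GCtx.pt.S from (0 : ℂ)) = 0 := rfl

theorem F0_min (E : F0Pt) : ∃ E' : F0Pt, Nonempty (E ≅ E') ∧ E'.d = 0 := by
  obtain ⟨E', h1, h2⟩ := exists_minimal (A := GCtx.pt) F0_ev E
  refine ⟨E', h1, ?_⟩
  ext i j
  have h3 := congrFun (congrFun h2 i) j
  exact h3

theorem F0_dbar {E : F0Pt} (h : E.d = 0) : dbar E = 0 := by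
  unfold dbar
  rw [h]
  ext i j
  rfl

theorem F0_entry {E F : F0Pt} {f : Matrix F.ι E.ι GCtx.pt.S} (hf : IsDeg E F 0 f) {i : F.ι}
    {j : E.ι} (h : f i j ≠ 0) : GCtx.pt.ch (E.p j) = GCtx.pt.ch (F.p i) := by
  have h1 := hf i j
  rw [zero_vadd] at h1
  rcases (GCtx.pt_mem_iff _ _ _).1 h1 with h2 | h2
  · exact h2
  · exact absurd h2 h

theorem F0_B0 {E F : F0Pt} (hE : E.d = 0) (hF : F.d = 0) {f : Matrix F.ι E.ι GCtx.pt.S}
    (hf : f ∈ B0 E F) : f = 0 := by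
  obtain ⟨h, -, rfl⟩ := hf
  rw [hE, hF, Matrix.zero_mul, Matrix.mul_zero, add_zero]

/-- isomorphic objects with zero differential have the same labels -/
theorem F0_lab {E F : F0Pt} (hE : E.d = 0) (e : E ≅ F) (i : E.ι) :
    ∃ k, F0ph F k = F0ph E i := by
  obtain ⟨f, hf⟩ : ∃ f, e.hom = f := ⟨_, rfl⟩
  obtain ⟨g, hg⟩ : ∃ g, e.inv = g := ⟨_, rfl⟩
  have h1 : f ≫ g = 𝟙 E := by rw [← hf, ← hg]; exact e.hom_inv_id
  clear hf hg
  induction f using hom_ind with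
  | h f hf =>
  induction g using hom_ind with
  | h g hg =>
    rw [mk_comp_mk, ← mk_one, mk_eq_mk] at h1
    have h2 := F0_B0 hE hE h1
    rw [sub_eq_zero] at h2
    have h3 : ∑ k, g i k * f k i = 1 := by
      rw [← Matrix.mul_apply, h2, Matrix.one_apply_eq]
    have h4 : ∃ k, g i k * f k i ≠ 0 := by
      by_contra hcon
      push Not at hcon
      rw [Finset.sum_eq_zero (fun k _ => hcon k)] at h3
      exact (zero_ne_one : (0 : ℂ) ≠ 1) h3
    obtain ⟨k, hk⟩ := h4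
    refine ⟨k, ?_⟩
    have h5 : f k i ≠ 0 := fun h => hk (by rw [h, mul_zero])
    have h6 := F0_entry hf.1 h5
    unfold F0ph
    rw [h6]

/-- objects with phases `≥ s` -/
def F0U (s : ℝ) (E : F0Pt) : Prop :=
  ∃ E' : F0Pt, Nonempty (E ≅ E') ∧ E'.d = 0 ∧ ∀ i, s ≤ F0ph E' i

/-- objects with phases `< s` -/
def F0V (s : ℝ) (E : F0Pt) : Prop :=
  ∃ E' : F0Pt, Nonempty (E ≅ E') ∧ E'.d = 0 ∧ ∀ i, F0ph E' i < s

theorem F0U.all {s : ℝ} {E : F0Pt} (h : F0U s E) {E' : F0Pt} (e : E ≅ E') (hd : E'.d = 0)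
    (i : E'.ι) : s ≤ F0ph E' i := by
  obtain ⟨E'', ⟨e''⟩, hd'', h''⟩ := h
  obtain ⟨k, hk⟩ := F0_lab hd (e.symm ≪≫ e'') i
  rw [← hk]
  exact h'' k

theorem F0V.all {s : ℝ} {E : F0Pt} (h : F0V s E) {E' : F0Pt} (e : E ≅ E') (hd : E'.d = 0)
    (i : E'.ι) : F0ph E' i < s := by
  obtain ⟨E'', ⟨e''⟩, hd'', h''⟩ := h
  obtain ⟨k, hk⟩ := F0_lab hd (e.symm ≪≫ e'') i
  rw [← hk]
  exact h'' k

theorem F0ph_tw (γ : GCtx.pt.Γ) (E : F0Pt) (i : E.ι) :
    F0ph (tw γ E) i = F0ph E i + (GCtx.pt.chΓ γ : ℝ) / 3 := by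
  change -((GCtx.pt.ch (-γ +ᵥ E.p i) : ℤ) : ℝ) / 3 = -(GCtx.pt.ch (E.p i) : ℝ) / 3 + _
  rw [GCtx.pt.ch_vadd, map_neg]
  push_cast
  ring

theorem F0_tw_d {γ : GCtx.pt.Γ} {E : F0Pt} (h : E.d = 0) : (tw γ E).d = 0 := by
  rw [tw_d, h, smul_zero]

theorem F0U_tw {s : ℝ} {E : F0Pt} (h : F0U s E) (γ : GCtx.pt.Γ) :
    F0U (s + (GCtx.pt.chΓ γ : ℝ) / 3) (tw γ E) := by
  obtain ⟨E', ⟨e⟩, hd, h'⟩ := h
  refine ⟨tw γ E', ⟨(twF γ).mapIso e⟩, F0_tw_d hd, fun i => ?_⟩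
  rw [F0ph_tw]
  linarith [h' i]

theorem F0V_tw {s : ℝ} {E : F0Pt} (h : F0V s E) (γ : GCtx.pt.Γ) :
    F0V (s + (GCtx.pt.chΓ γ : ℝ) / 3) (tw γ E) := by
  obtain ⟨E', ⟨e⟩, hd, h'⟩ := h
  refine ⟨tw γ E', ⟨(twF γ).mapIso e⟩, F0_tw_d hd, fun i => ?_⟩
  rw [F0ph_tw]
  linarith [h' i]

theorem F0U_shift {s : ℝ} {E : F0Pt} (h : F0U s E) (n : ℤ) : F0U (s + n) (E⟦n⟧) := by
  have h1 := F0U_tw h (GCtx.pt.en (3 * n))
  rw [GCtx.pt.chΓ_en] at h1
  have h2 : s + ((3 * n : ℤ) : ℝ) / 3 = s + n := by push_cast; ring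
  rw [h2] at h1
  exact h1

theorem F0V_shift {s : ℝ} {E : F0Pt} (h : F0V s E) (n : ℤ) : F0V (s + n) (E⟦n⟧) := by
  have h1 := F0V_tw h (GCtx.pt.en (3 * n))
  rw [GCtx.pt.chΓ_en] at h1
  have h2 : s + ((3 * n : ℤ) : ℝ) / 3 = s + n := by push_cast; ring
  rw [h2] at h1
  exact h1

theorem F0U_iso {s : ℝ} {E F : F0Pt} (e : E ≅ F) (h : F0U s E) : F0U s F := by
  obtain ⟨E', ⟨e'⟩, hd, h'⟩ := h
  exact ⟨E', ⟨e.symm ≪≫ e'⟩, hd, h'⟩

theorem F0V_iso {s : ℝ} {E F : F0Pt} (e : E ≅ F) (h : F0V s E) : F0V s F := by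
  obtain ⟨E', ⟨e'⟩, hd, h'⟩ := h
  exact ⟨E', ⟨e.symm ≪≫ e'⟩, hd, h'⟩

theorem F0_hom {s : ℝ} {X Y : F0Pt} (hX : F0U s X) (hY : F0V s Y) (f : X ⟶ Y) : f = 0 := by
  obtain ⟨X', ⟨eX⟩, hdX, hX'⟩ := hX
  obtain ⟨Y', ⟨eY⟩, hdY, hY'⟩ := hY
  have key : ∀ g : X' ⟶ Y', g = 0 := by
    intro g
    induction g using hom_ind with
    | h g hg =>
      rw [mk_eq_zero]
      have h0 : g = 0 := by
        ext i j
        by_contra hne
        have h1 := F0_entry hg.1 hne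
        have h2 : F0ph X' j = F0ph Y' i := by
          unfold F0ph
          rw [h1]
        have h3 := hX' j
        have h4 := hY' i
        rw [← h2] at h4
        exact absurd h3 (not_le.2 h4)
      rw [h0]
      exact zero_mem _
  have h1 : f = eX.hom ≫ (eX.inv ≫ f ≫ eY.hom) ≫ eY.inv := by simp
  rw [h1, key (eX.inv ≫ f ≫ eY.hom)]
  simp

/-- splitting of an object with zero differential -/
theorem F0_split {E' : F0Pt} (hd : E'.d = 0) (P : E'.ι → Prop) [DecidablePred P] :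
    ∃ (Lo Hi : F0Pt) (e₁ : Lo.ι ≃ {i // P i}) (e₂ : Hi.ι ≃ {i // ¬ P i})
      (f : Lo ⟶ E') (g : E' ⟶ Hi) (δ : Hi ⟶ Lo⟦(1 : ℤ)⟧),
      Triangle.mk f g δ ∈ distTriang F0Pt ∧ Lo.d = 0 ∧ Hi.d = 0 ∧
      (∀ i, F0ph Lo i = F0ph E' (e₁ i)) ∧ (∀ i, F0ph Hi i = F0ph E' (e₂ i)) := by
  obtain ⟨Lo, Hi, e₁, e₂, f, g, δ, hT, h1, h2, h3, h4⟩ :=
    sub_quot E' P (fun i j _ _ => by rw [hd]; rfl)
  refine ⟨Lo, Hi, e₁, e₂, f, g, δ, hT, ?_, ?_, ?_, ?_⟩
  · ext i j
    rw [h3, hd]; rfl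
  · ext i j
    rw [h4, hd]; rfl
  · intro i
    unfold F0ph
    rw [h1]
  · intro i
    unfold F0ph
    rw [h2]

theorem F0_tri (s : ℝ) (E : F0Pt) :
    ∃ (X Y : F0Pt) (f : X ⟶ E) (g : E ⟶ Y) (h : Y ⟶ X⟦(1 : ℤ)⟧),
    Triangle.mk f g h ∈ distTriang F0Pt ∧ F0U s X ∧ F0V s Y := by
  classical
  obtain ⟨E', ⟨e⟩, hd⟩ := F0_min E
  obtain ⟨Lo, Hi, e₁, e₂, f, g, δ, hT, h1, h2, h3, h4⟩ :=
    F0_split hd (fun i => s ≤ F0ph E' i)
  refine ⟨Lo, Hi, f ≫ e.inv, e.hom ≫ g, δ, triIso2 hT e.symm, ?_, ?_⟩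
  · refine ⟨Lo, ⟨Iso.refl _⟩, h1, fun i => ?_⟩
    rw [h3]
    exact (e₁ i).2
  · refine ⟨Hi, ⟨Iso.refl _⟩, h2, fun i => ?_⟩
    rw [h4]
    exact not_le.1 (e₂ i).2

theorem F0_ts (s : ℝ) : IsTS (C := F0Pt) (F0U s) (F0V s) where
  isoU e h := F0U_iso e h
  isoV e h := F0V_iso e h
  hom hX hY f := F0_hom hX hY f
  shU {X} h := by
    have h1 := F0U_shift h 1
    obtain ⟨E', e, hd, h'⟩ := h1
    refine ⟨E', e, hd, fun i => ?_⟩
    have := h' i
    push_cast at this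
    linarith
  shV {X} h := by
    have h1 := F0V_shift h (-1)
    obtain ⟨E', e, hd, h'⟩ := h1
    refine ⟨E', e, hd, fun i => ?_⟩
    have := h' i
    push_cast at this
    linarith
  tri E := F0_tri s E

/-- the slicing on the point -/
noncomputable def F0sl : Slic F0Pt where
  U := F0U
  V := F0V
  ts := F0_ts
  anti {s t} hst X h := by
    obtain ⟨E', e, hd, h'⟩ := h
    exact ⟨E', e, hd, fun i => hst.trans (h' i)⟩
  shift s X := by
    constructor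
    · intro h
      have h1 := F0U_shift h (-1)
      have h2 : s + 1 + ((-1 : ℤ) : ℝ) = s := by push_cast; ring
      rw [h2] at h1
      exact F0U_iso ((shiftFunctorCompIsoId F0Pt (1 : ℤ) (-1) (by norm_num)).app X) h1
    · intro h
      have h1 := F0U_shift h 1
      have h2 : s + ((1 : ℤ) : ℝ) = s + 1 := by push_cast; ring
      rw [h2] at h1
      exact h1
  leftc s X h := by
    obtain ⟨E', ⟨e⟩, hd⟩ := F0_min X
    refine ⟨E', ⟨e⟩, hd, fun i => ?_⟩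
    refine le_of_forall_lt fun t ht => ?_
    obtain ⟨u, hu1, hu2⟩ := exists_between ht
    exact lt_of_lt_of_le hu1 ((h u hu2).all e hd i)
  bdd X := by
    obtain ⟨E', ⟨e⟩, hd⟩ := F0_min X
    obtain ⟨a, ha⟩ := (Set.finite_range (F0ph E')).bddBelow
    obtain ⟨b, hb⟩ := (Set.finite_range (F0ph E')).bddAbove
    refine ⟨a, b + 1, ⟨E', ⟨e⟩, hd, fun i => ha ⟨i, rfl⟩⟩, ⟨E', ⟨e⟩, hd, fun i => ?_⟩⟩
    have := hb ⟨i, rfl⟩
    linarith

theorem F0_P {φ : ℝ} {E : F0Pt} (hd : E.d = 0) (h : ∀ i, F0ph E i = φ) : F0sl.P φ E :=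
  ⟨⟨E, ⟨Iso.refl _⟩, hd, fun i => (h i).ge⟩,
    fun t ht => ⟨E, ⟨Iso.refl _⟩, hd, fun i => by rw [h i]; exact ht⟩⟩

theorem F0_hn_aux (s t : ℝ) (n : ℕ) : ∀ E : F0Pt, Fintype.card E.ι = n → E.d = 0 →
    (∀ i, s ≤ F0ph E i) → (∀ i, F0ph E i < t) →
    ExtCl (fun Y => ∃ φ, s ≤ φ ∧ φ < t ∧ F0sl.P φ Y) E := by
  induction n with
  | zero =>
    intro E hn hd _ _
    refine ExtCl.zero _ ?_
    have : IsEmpty E.ι := Fintype.card_eq_zero_iff.1 hn
    rw [isZero_iff]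
    have h1 : (1 : Matrix E.ι E.ι GCtx.pt.S) = 0 := Subsingleton.elim _ _
    rw [h1]
    exact zero_mem _
  | succ n ih =>
    intro E hn hd h1 h2
    classical
    have hne : Nonempty E.ι := Fintype.card_pos_iff.1 (by omega)
    obtain ⟨i0⟩ := hne
    obtain ⟨Lo, Hi, e₁, e₂, f, g, δ, hT, hLo, hHi, h3, h4⟩ := F0_split hd (fun i => i = i0)
    refine ExtCl.ext (Triangle.mk f g δ) hT ?_ ?_
    · refine ExtCl.of _ ⟨F0ph E i0, h1 i0, h2 i0, F0_P hLo fun i => ?_⟩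
      exact (h3 i).trans (congrArg (F0ph E) (e₁ i).2)
    · refine ih Hi ?_ hHi ?_ ?_
      · have h5 : Fintype.card Hi.ι = Fintype.card {i : E.ι // ¬ i = i0} :=
          Fintype.card_congr e₂
        rw [h5, Fintype.card_subtype_compl]
        simp [hn]
      · intro i
        rw [h4]
        exact h1 _
      · intro i
        rw [h4]
        exact h2 _

theorem F0_HN : F0sl.HN := by
  intro s t X hU hV
  obtain ⟨E', ⟨e⟩, hd, h⟩ := hU
  refine ExtCl.iso (F0_hn_aux s t _ E' rfl hd h (fun i => ?_)) e.symm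
  exact F0V.all hV e hd i

/-- Gepner-type stability on the point: objects are direct sums of rank one objects of label `p`,
of phase `-p/3`. -/
theorem gep_pt : Gep GCtx.pt (show GCtx.pt.S from (0 : ℂ)) := by
  refine ⟨F0sl, 1, 1, one_ne_zero, ?_, ?_⟩
  · have hZ : AddTri (Zf : F0Pt → ℂ) := Zf_add
    have hrk : IsRk (rk : F0Pt → ℕ) := isRk_rk F0_ev
    refine ⟨F0_HN, ?_, hrk, one_pos, ?_⟩
    · intro T hT
      change (1 : ℂ) * Zf T.obj₂ = 1 * Zf T.obj₁ + 1 * Zf T.obj₃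
      rw [one_mul, one_mul, one_mul]
      exact hZ T hT
    · intro φ X hP
      obtain ⟨E', ⟨e⟩, hd, h⟩ := hP.1
      have h2 : ∀ i, F0ph E' i = φ := by
        intro i
        refine le_antisymm ?_ (h i)
        refine le_of_forall_gt_imp_ge_of_dense fun t ht => ?_
        exact (F0V.all (hP.2 t ht) e hd i).le
      refine ⟨(Fintype.card E'.ι : ℝ), ?_, ?_⟩
      · rw [one_mul, hrk.iso e, rk_of_minimal (F0_dbar hd)]
      · rw [one_mul, hZ.isoC e]
        have h3 : Zf E' = ∑ _i : E'.ι, ray φ := by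
          unfold Zf
          refine Finset.sum_congr rfl fun i _ => ?_
          rw [← h2 i]
          rfl
        rw [h3, Finset.sum_const, nsmul_eq_mul, Finset.card_univ]
        push_cast
        rfl
  · intro γ s E h
    exact F0U_tw h γ

end Vale.Agent.P287T.G3
end
end

section

section

/-!
# The Koszul construction `K(E)`
-/

open Matrix CategoryTheory CategoryTheory.Limits CategoryTheory.Pretriangulated

namespace Vale.Agent.P287T.G3

/-- a class of objects closed under isomorphisms, extensions and retracts -/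
structure IsThickHalf {C : Type 1} [Category.{0} C] [Preadditive C] [HasZeroObject C]
    [HasShift C ℤ] [∀ n : ℤ, (shiftFunctor C n).Additive] [Pretriangulated C]
    (Q : C → Prop) : Prop where
  iso : ∀ {X Y : C}, (X ≅ Y) → Q X → Q Y
  zero : ∀ {X : C}, IsZero X → Q X
  ext : ∀ T ∈ distTriang C, Q T.obj₁ → Q T.obj₃ → Q T.obj₂
  ret : ∀ {X Y : C} (i : X ⟶ Y) (p : Y ⟶ X), i ≫ p = 𝟙 X → Q Y → Q X

/-- properties of the Koszul construction -/
structure KosData (n : ℕ) (W : (co n).S) (O : MF (co n) W) (K : MF (co n) W → MF (co n) W) :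
    Prop where
  nz : ¬ IsZero O
  /-- `K E` is an iterated extension of `tw (3j) E`, `0 ≤ j ≤ n` -/
  ext : ∀ E, ExtCl (fun Y => ∃ j : ℕ, j ≤ n ∧ Nonempty (Y ≅ tw ((co n).en (1 * j)) E)) (K E)
  /-- for minimal `E`, `K E` is an iterated extension of `tw (-p_i) O` -/
  dec : ∀ E, dbar E = 0 →
    ExtCl (fun Y => ∃ i, Nonempty (Y ≅ tw ((co n).en (-(co n).ch (E.p i))) O)) (K E)
  /-- and each of them is a retract -/
  ret : ∀ E, dbar E = 0 → ∀ i, ∃ (a : tw ((co n).en (-(co n).ch (E.p i))) O ⟶ K E)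
    (b : K E ⟶ tw ((co n).en (-(co n).ch (E.p i))) O), a ≫ b = 𝟙 _
  /-- additive invariants -/
  add : ∀ (Z : MF (co n) W → ℂ) (_ : AddTri Z) (ω : ℂ) (_ : ∀ (m : ℤ) (E : MF (co n) W),
    Z (tw ((co n).en m) E) = ω ^ m * Z E) (E : MF (co n) W),
    Z (K E) = (1 + ω ^ (1 : ℤ)) ^ n * Z E
  addO : ∀ (Z : MF (co n) W → ℂ) (_ : AddTri Z) (ω : ℂ) (_ : ∀ (m : ℤ) (E : MF (co n) W),
    Z (tw ((co n).en m) E) = ω ^ m * Z E) (E : MF (co n) W), dbar E = 0 →
    Z (K E) = (∑ i, ω ^ (-(co n).ch (E.p i))) * Z O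
  /-- nilpotency of the variables recovers `E` from `K E` -/
  nil : ∀ (N : ℕ) (E : MF (co n) W), 1 ≤ N → (∀ s ∈ vars n, NH E (s ^ N) ((co n).en (2 * N))) →
    ∀ Q : MF (co n) W → Prop, IsThickHalf Q →
      (∀ m : ℕ, m ≤ n * (N - 1) → Q (tw ((co n).en (-2 * m)) (K E))) → Q E

section abstract

universe v₁ v₂ u₁ u₂

variable {C : Type u₁} [Category.{v₁} C] [Preadditive C] [HasZeroObject C] [HasShift C ℤ]
  [∀ n : ℤ, (shiftFunctor C n).Additive] [Pretriangulated C]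
variable {D : Type u₂} [Category.{v₂} D] [Preadditive D] [HasZeroObject D] [HasShift D ℤ]
  [∀ n : ℤ, (shiftFunctor D n).Additive] [Pretriangulated D]

theorem K2_extCl_map (F : C ⥤ D) [F.CommShift ℤ] [F.IsTriangulated] {P : C → Prop}
    {Q : D → Prop} (h : ∀ Y, P Y → ExtCl Q (F.obj Y)) {X : C} (hX : ExtCl P X) :
    ExtCl Q (F.obj X) := by
  induction hX with
  | zero X h0 => exact ExtCl.zero _ (F.map_isZero h0)
  | of X hX => exact h X hX
  | ext T hT _ _ h1 h3 => exact ExtCl.ext (F.mapTriangle.obj T) (F.map_distinguished T hT) h1 h3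

theorem k2_retr {C : Type u₁} [Category.{v₁} C] {D : Type u₂} [Category.{v₂} D] (F : C ⥤ D)
    {X Y : C} {X' Y' : D} (a : X ⟶ Y) (b : Y ⟶ X) (hab : a ≫ b = 𝟙 X) (eX : F.obj X ≅ X')
    (eY : F.obj Y ≅ Y') : ∃ (a' : X' ⟶ Y') (b' : Y' ⟶ X'), a' ≫ b' = 𝟙 X' := by
  refine ⟨eX.inv ≫ F.map a ≫ eY.hom, eY.inv ≫ F.map b ≫ eX.hom, ?_⟩
  have h1 : F.map a ≫ F.map b = 𝟙 _ := by rw [← F.map_comp, hab, F.map_id]
  calc (eX.inv ≫ F.map a ≫ eY.hom) ≫ (eY.inv ≫ F.map b ≫ eX.hom)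
      = eX.inv ≫ (F.map a ≫ F.map b) ≫ eX.hom := by simp
    _ = 𝟙 _ := by rw [h1, Category.id_comp, eX.inv_hom_id]

/-- composing an additive function with a triangulated functor -/
theorem K2_addTri_comp (F : C ⥤ D) [F.CommShift ℤ] [F.IsTriangulated] {M : Type} [Add M]
    {Z : D → M} (hZ : AddTri Z) : AddTri (fun X => Z (F.obj X)) := fun T hT =>
  hZ (F.mapTriangle.obj T) (F.map_distinguished T hT)

end abstract

section half

variable {C D : Type 1} [Category.{0} C] [Preadditive C] [HasZeroObject C]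
    [HasShift C ℤ] [∀ n : ℤ, (shiftFunctor C n).Additive] [Pretriangulated C]
    [Category.{0} D] [Preadditive D] [HasZeroObject D]
    [HasShift D ℤ] [∀ n : ℤ, (shiftFunctor D n).Additive] [Pretriangulated D]

theorem IsThickHalf.of_extCl {Q : C → Prop} (hQ : IsThickHalf Q) {P : C → Prop}
    (h : ∀ Y, P Y → Q Y) {X : C} (hX : ExtCl P X) : Q X := by
  induction hX with
  | zero X h0 => exact hQ.zero h0
  | of X hX => exact h X hX
  | ext T hT _ _ h1 h3 => exact hQ.ext T hT h1 h3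

theorem IsThickHalf.comap {Q : D → Prop} (hQ : IsThickHalf Q) (F : C ⥤ D) [F.CommShift ℤ]
    [F.IsTriangulated] : IsThickHalf (fun X => Q (F.obj X)) where
  iso e h := hQ.iso (F.mapIso e) h
  zero h := hQ.zero (F.map_isZero h)
  ext T hT h1 h3 := hQ.ext (F.mapTriangle.obj T) (F.map_distinguished T hT) h1 h3
  ret i p hip h := hQ.ret (F.map i) (F.map p) (by rw [← F.map_comp, hip, F.map_id]) h

theorem IsThickHalf.forall {ι : Type} {Q : ι → C → Prop} (hQ : ∀ i, IsThickHalf (Q i)) :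
    IsThickHalf (fun X => ∀ i, Q i X) where
  iso e h i := (hQ i).iso e (h i)
  zero h i := (hQ i).zero h
  ext T hT h1 h3 i := (hQ i).ext T hT (h1 i) (h3 i)
  ret a p hip h i := (hQ i).ret a p hip (h i)

end half

/-- properties of the Koszul construction, general context -/
structure KD (A : GCtx) [GCtx.Aug A] (n : ℕ) (vs : Set A.S) (W : A.S) (O : MF A W)
    (K : MF A W → MF A W) : Prop where
  nz : ¬ IsZero O
  ext : ∀ E, ExtCl (fun Y => ∃ j : ℕ, j ≤ n ∧ Nonempty (Y ≅ tw (A.en (1 * j)) E)) (K E)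
  dec : ∀ E, dbar E = 0 →
    ExtCl (fun Y => ∃ i, Nonempty (Y ≅ tw (A.en (-A.ch (E.p i))) O)) (K E)
  ret : ∀ E, dbar E = 0 → ∀ i, ∃ (a : tw (A.en (-A.ch (E.p i))) O ⟶ K E)
    (b : K E ⟶ tw (A.en (-A.ch (E.p i))) O), a ≫ b = 𝟙 _
  add : ∀ (Z : MF A W → ℂ) (_ : AddTri Z) (ω : ℂ) (_ : ∀ (m : ℤ) (E : MF A W),
    Z (tw (A.en m) E) = ω ^ m * Z E) (E : MF A W),
    Z (K E) = (1 + ω ^ (1 : ℤ)) ^ n * Z E
  addO : ∀ (Z : MF A W → ℂ) (_ : AddTri Z) (ω : ℂ) (_ : ∀ (m : ℤ) (E : MF A W),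
    Z (tw (A.en m) E) = ω ^ m * Z E) (E : MF A W), dbar E = 0 →
    Z (K E) = (∑ i, ω ^ (-A.ch (E.p i))) * Z O
  nil : ∀ (N : ℕ) (E : MF A W), 1 ≤ N → (∀ s ∈ vs, NH E (s ^ N) (A.en (2 * N))) →
    ∀ Q : MF A W → Prop, IsThickHalf Q →
      (∀ m : ℕ, m ≤ n * (N - 1) → Q (tw (A.en (-2 * m)) (K E))) → Q E

/-! ### the point -/

/-- the rank one object over the point -/
noncomputable def k2O : MF GCtx.pt (0 : GCtx.pt.S) where
  ι := Unit
  p := fun _ => (0 : ℤ)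
  d := (0 : Matrix Unit Unit GCtx.pt.S)
  deg _ _ := zero_mem _
  sq := by
    rw [Matrix.mul_zero, zero_smul]

theorem k2_lab (q : GCtx.pt.L) : (-(GCtx.pt.en (-GCtx.pt.ch q)) +ᵥ
    (show GCtx.pt.L from (0 : ℤ))) = q := by
  change -((-(show ℤ from q)) • (1 : ℤ)) + 0 = (show ℤ from q)
  simp only [smul_eq_mul, mul_one, add_zero]
  exact neg_neg (show ℤ from q)

theorem k2_isZero_of_isEmpty {A : GCtx} {W : A.S} (E : MF A W) [IsEmpty E.ι] : IsZero E := by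
  rw [isZero_iff]
  exact ⟨0, IsDeg.zero _ _ _, by ext i; exact isEmptyElim i⟩

/-- rank one objects -/
noncomputable def k2Iso {E : MF GCtx.pt (0 : GCtx.pt.S)} (e : E.ι ≃ Unit) (q : GCtx.pt.L)
    (hp : ∀ i, E.p i = q) (hd : ∀ i j, E.d i j = 0) :
    E ≅ tw (GCtx.pt.en (-GCtx.pt.ch q)) k2O :=
  permIso (F := tw (GCtx.pt.en (-GCtx.pt.ch q)) k2O) e
    (fun i => by
      rw [hp]
      exact k2_lab q)
    (fun i j => by
      rw [hd]
      change (sg _ • (0 : Matrix Unit Unit GCtx.pt.S)) _ _ = 0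
      rw [smul_zero]
      rfl)

theorem k2_pt_ind (n : ℕ) : ∀ (E : MF GCtx.pt (0 : GCtx.pt.S)), Fintype.card E.ι = n →
    (∀ i j, E.d i j = 0) →
    ExtCl (fun Y => ∃ i, Nonempty (Y ≅ tw (GCtx.pt.en (-GCtx.pt.ch (E.p i))) k2O)) E ∧
    ∀ (Z : MF GCtx.pt (0 : GCtx.pt.S) → ℂ) (_ : AddTri Z) (ω : ℂ)
      (_ : ∀ (m : ℤ) (E : MF GCtx.pt (0 : GCtx.pt.S)), Z (tw (GCtx.pt.en m) E) = ω ^ m * Z E),
      Z E = (∑ i, ω ^ (-GCtx.pt.ch (E.p i))) * Z k2O := by
  induction n with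
  | zero =>
    intro E hE hd
    have : IsEmpty E.ι := Fintype.card_eq_zero_iff.1 hE
    have h0 : IsZero E := k2_isZero_of_isEmpty E
    refine ⟨ExtCl.zero _ h0, fun Z hZ ω hω => ?_⟩
    rw [hZ.zeroC h0, Finset.univ_eq_empty, Finset.sum_empty, zero_mul]
  | succ n ih =>
    intro E hE hd
    have : Nonempty E.ι := Fintype.card_pos_iff.1 (by omega)
    obtain ⟨i₀⟩ := this
    obtain ⟨Lo, Hi, e₁, e₂, f, g, δ, hT, hpL, hpH, hdL, hdH⟩ :=
      sub_quot E (fun i => i = i₀) (fun i j _ _ => hd i j)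
    have isoL : Lo ≅ tw (GCtx.pt.en (-GCtx.pt.ch (E.p i₀))) k2O :=
      k2Iso (e₁.trans (Equiv.ofUnique _ _)) (E.p i₀)
        (fun i => by rw [hpL, (e₁ i).2]) (fun i j => by rw [hdL, hd])
    have hcard : Fintype.card Hi.ι = n := by
      rw [Fintype.card_congr e₂, Fintype.card_subtype_compl]
      simp [hE]
    obtain ⟨h1, h2⟩ := ih Hi hcard (fun i j => by rw [hdH, hd])
    constructor
    · refine ExtCl.ext (Triangle.mk f g δ) hT (ExtCl.of _ ⟨i₀, ⟨isoL⟩⟩) ?_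
      refine ExtCl.mono ?_ h1
      rintro Y ⟨i, ⟨e⟩⟩
      refine ⟨(e₂ i).1, ⟨?_⟩⟩
      rw [← hpH]
      exact e
    · intro Z hZ ω hω
      have h3 := hZ _ hT
      simp only [Triangle.mk_obj₁, Triangle.mk_obj₂, Triangle.mk_obj₃] at h3
      rw [h3, hZ.isoC isoL, hω, h2 Z hZ ω hω, ← add_mul]
      congr 1
      rw [← Fintype.sum_subtype_add_sum_subtype (fun i => i = i₀)]
      congr 1
      · refine (Finset.sum_eq_single (f := fun x : {i // i = i₀} =>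
          ω ^ (-GCtx.pt.ch (E.p x.1))) (⟨i₀, rfl⟩ : {i // i = i₀})
          (fun x _ hx => absurd (Subtype.ext x.2) hx) (fun h => ?_)).symm
        exact absurd (@Finset.mem_univ _ (Subtype.fintype fun i => i = i₀) _) h
      · rw [← Equiv.sum_comp e₂]
        exact Finset.sum_congr rfl fun i _ => by rw [hpH]

theorem k2_dbar {E : MF GCtx.pt (0 : GCtx.pt.S)} (h : dbar E = 0) (i j : E.ι) : E.d i j = 0 := by
  have := congrFun (congrFun h i) j
  exact this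

theorem k2_nz : ¬ IsZero k2O := by
  rw [isZero_iff]
  rintro ⟨h, -, hh⟩
  have h' : (1 : Matrix Unit Unit GCtx.pt.S) = 0 := by
    refine hh.trans ?_
    change (0 : Matrix Unit Unit GCtx.pt.S) * (show Matrix Unit Unit GCtx.pt.S from h) +
      (show Matrix Unit Unit GCtx.pt.S from h) * (0 : Matrix Unit Unit GCtx.pt.S) = 0
    rw [Matrix.zero_mul, Matrix.mul_zero, add_zero]
  have := congrFun (congrFun h' ()) ()
  rw [Matrix.one_apply_eq, Matrix.zero_apply] at this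
  exact one_ne_zero (α := ℂ) this

theorem k2_ret {E : MF GCtx.pt (0 : GCtx.pt.S)} (hd : ∀ i j, E.d i j = 0) (i : E.ι) :
    ∃ (a : tw (GCtx.pt.en (-GCtx.pt.ch (E.p i))) k2O ⟶ E)
      (b : E ⟶ tw (GCtx.pt.en (-GCtx.pt.ch (E.p i))) k2O), a ≫ b = 𝟙 _ := by
  have hd' : E.d = 0 := by ext x y; exact hd x y
  have hlab : ((tw (GCtx.pt.en (-GCtx.pt.ch (E.p i))) k2O).p () : GCtx.pt.L) = E.p i := by
    exact k2_lab (E.p i)
  have hd0 : (tw (GCtx.pt.en (-GCtx.pt.ch (E.p i))) k2O).d =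
      (0 : Matrix Unit Unit GCtx.pt.S) := by
    change (sg _ • (0 : Matrix Unit Unit GCtx.pt.S)) = 0
    rw [smul_zero]
  let a : Matrix E.ι Unit GCtx.pt.S := fun x _ => if x = i then 1 else 0
  let b : Matrix Unit E.ι GCtx.pt.S := fun _ x => if x = i then 1 else 0
  have ha : a ∈ Z0 (tw (GCtx.pt.en (-GCtx.pt.ch (E.p i))) k2O) E := by
    refine ⟨fun x y => ?_, ?_⟩
    · by_cases h : x = i
      · subst h
        rw [zero_vadd, show y = () from rfl, hlab]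
        exact (GCtx.pt_mem_iff _ _ _).2 (Or.inl rfl)
      · have : a x y = 0 := by simp [a, h]
        rw [this]; exact zero_mem _
    · rw [hd', hd0]
      refine (Matrix.zero_mul a).trans (Matrix.mul_zero a).symm
  have hb : b ∈ Z0 E (tw (GCtx.pt.en (-GCtx.pt.ch (E.p i))) k2O) := by
    refine ⟨fun x y => ?_, ?_⟩
    · by_cases h : y = i
      · subst h
        rw [zero_vadd, show x = () from rfl, hlab]
        exact (GCtx.pt_mem_iff _ _ _).2 (Or.inl rfl)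
      · have : b x y = 0 := by simp [b, h]
        rw [this]; exact zero_mem _
    · rw [hd', hd0]
      refine (Matrix.zero_mul b).trans (Matrix.mul_zero b).symm
  have hba : b * a = (1 : Matrix Unit Unit GCtx.pt.S) := by
    ext x y
    rw [Subsingleton.elim x y, Matrix.one_apply_eq, Matrix.mul_apply]
    simp [a, b]
  refine ⟨mk a ha, mk b hb, (mk_comp_mk ha hb).trans ?_⟩
  refine mk_congr (E := tw (GCtx.pt.en (-GCtx.pt.ch (E.p i))) k2O)
    (F := tw (GCtx.pt.en (-GCtx.pt.ch (E.p i))) k2O) _ hba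

theorem k2_base (W : GCtx.pt.S) (hW : GCtx.pt.IsPot W) :
    ∃ O K, KD GCtx.pt 0 ∅ W O K := by
  have h0 : W = (0 : GCtx.pt.S) := by
    rcases (GCtx.pt_mem_iff _ _ _).1 (hW (0 : ℤ)) with h | h
    · exfalso
      have h' : (6 : ℤ) • (1 : ℤ) + (0 : ℤ) = 0 := h
      simp at h'
    · exact h
  subst h0
  refine ⟨k2O, id, ?_⟩
  constructor
  · exact k2_nz
  · intro E
    exact ExtCl.of _ ⟨0, le_rfl, ⟨(twZero E (by simp [GCtx.en])).symm⟩⟩
  · intro E hE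
    exact (k2_pt_ind _ E rfl (k2_dbar hE)).1
  · intro E hE i
    exact k2_ret (k2_dbar hE) i
  · intro Z hZ ω hω E
    simp
  · intro Z hZ ω hω E hE
    exact (k2_pt_ind _ E rfl (k2_dbar hE)).2 Z hZ ω hω
  · intro N E hN _ Q hQ h
    exact hQ.iso (twZero E (by simp [GCtx.en])) (h 0 (Nat.zero_le _))

/-! ### the inductive step -/

section step

variable {A : GCtx}

theorem k2_hl (a : A.L) : (0 : A.S) ∈ A.H (A.en 2 +ᵥ a) a := zero_mem _

/-- evaluation at `0` -/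
noncomputable abbrev k2Ev (Wt : Polynomial A.S) : CHom A.P A (inP A Wt) (evW A Wt 0) :=
  Ev A Wt 0 k2_hl

/-- `Ev_0` -/
noncomputable abbrev k2G (Wt : Polynomial A.S) : MF A.P (inP A Wt) ⥤ MF A (evW A Wt 0) :=
  (k2Ev Wt).functor

variable {Wt : Polynomial A.S} (hW : ∀ a, (inP A Wt) ∈ A.P.H (A.P.en 6 +ᵥ a) a)

/-- the right adjoint of `Ev_0` on objects -/
noncomputable abbrev k2R (Y : MF A (evW A Wt 0)) : MF A.P (inP A Wt) := EvR k2_hl hW Y

theorem k2_exists_R : ∃ (R : MF A (evW A Wt 0) ⥤ MF A.P (inP A Wt)) (_ : R.CommShift ℤ)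
    (_ : R.IsTriangulated), ∀ Y, Nonempty (R.obj Y ≅ k2R hW Y) := by
  obtain ⟨R, adj, h⟩ := Ev_adj (A := A) (Wt := Wt) (l := 0) k2_hl hW
  let cs := adj.rightAdjointCommShift ℤ
  have := adj.commShift_of_leftAdjoint ℤ
  exact ⟨R, cs, adj.isTriangulated_rightAdjoint, h⟩

theorem k2_pre {C : Type 1} [Category.{0} C] [Preadditive C] [HasZeroObject C]
    [HasShift C ℤ] [∀ n : ℤ, (shiftFunctor C n).Additive] [Pretriangulated C] {T : Triangle C}
    (hT : T ∈ distTriang C) {X : C} (e : X ≅ T.obj₁) :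
    Triangle.mk (e.hom ≫ T.mor₁) T.mor₂ (T.mor₃ ≫ e.inv⟦(1 : ℤ)⟧') ∈ distTriang C := by
  refine isomorphic_distinguished _ hT _ (Triangle.isoMk _ _ e (Iso.refl _) (Iso.refl _) ?_ ?_ ?_)
  · exact Category.comp_id _
  · exact (Category.comp_id _).trans (Category.id_comp _).symm
  · refine (Category.assoc _ _ _).trans ?_
    refine (congrArg (fun t => T.mor₃ ≫ t) (((shiftFunctor C (1 : ℤ)).map_comp _ _).symm.trans
      ((congrArg (shiftFunctor C (1 : ℤ)).map e.inv_hom_id).trans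
        ((shiftFunctor C (1 : ℤ)).map_id _)))).trans ?_
    exact (Category.comp_id _).trans (Category.id_comp _).symm

/-- isomorphic twists -/
theorem k2_tw_add {W : A.S} (E : MF A W) {a b c : ℤ} (h : c = a + b) :
    Nonempty (tw (A.en c) E ≅ tw (A.en b) (tw (A.en a) E)) :=
  ⟨twAdd E (by rw [h, A.en_add])⟩

theorem k2_R_tw (m : ℤ) (Y : MF A (evW A Wt 0)) :
    Nonempty (k2R hW (tw (A.en m) Y) ≅ tw (A.P.en m) (k2R hW Y)) :=
  EvR_tw k2_hl hW (A.en m) Y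

theorem k2_dbarG [GCtx.Aug A] {E : MF A.P (inP A Wt)} (h : dbar E = 0) :
    dbar ((k2G Wt).obj E) = 0 := by
  ext i j
  have h1 := congrFun (congrFun h i.1) j.1
  exact (congrArg (GCtx.Aug.ev (A := A)) (Polynomial.coeff_zero_eq_eval_zero _).symm).trans h1

theorem k2_NH {E : MF A.P (inP A Wt)} {s : A.S} {N : ℕ}
    (h : NH E ((show A.P.S from Polynomial.C s) ^ N) (A.P.en (2 * N))) :
    NH ((k2G Wt).obj E) (s ^ N) (A.en (2 * N)) := by
  obtain ⟨k, hk, hk2⟩ := h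
  have e1 : A.P.en (2 * N) - A.P.en 3 = A.P.en (2 * N - 3) := by
    rw [sub_eq_add_neg, ← A.P.en_neg, ← A.P.en_add]; rfl
  rw [e1] at hk
  refine ⟨(k2Ev Wt).mat (2 * N - 3) E E k, ?_, ?_⟩
  · have e2 : A.en (2 * N) - A.en 3 = A.en (2 * N - 3) := by
      rw [sub_eq_add_neg, ← A.en_neg, ← A.en_add]; rfl
    rw [e2]
    exact (k2Ev Wt).mat_isDeg hk
  · have h3 := congrArg ((k2Ev Wt).mat (2 * N) E E) hk2
    rw [(k2Ev Wt).mat_add, (k2Ev Wt).mat_mul (m := 3) (n := 2 * N - 3) (by ring) hk E.deg,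
      (k2Ev Wt).mat_mul (m := 2 * N - 3) (n := 3) (by ring) E.deg hk] at h3
    refine Eq.trans ?_ h3
    ext i j
    change s ^ N * (1 : Matrix _ _ A.S) i j =
      Polynomial.eval 0 ((Polynomial.C s) ^ N * (1 : Matrix E.ι E.ι (Polynomial A.S)) i.1 j.1)
    by_cases hij : i = j
    · subst hij
      rw [Matrix.one_apply_eq, Matrix.one_apply_eq]
      simp
    · have : i.1 ≠ j.1 := fun h' => hij (Subtype.ext h')
      rw [Matrix.one_apply_ne hij, Matrix.one_apply_ne this]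
      simp

/-- `X ^ k` as an element -/
noncomputable def k2x (A : GCtx) (k : ℕ) : A.P.S := (show A.P.S from (Polynomial.X : Polynomial A.S)) ^ k

theorem k2_nsmul_en (n : ℕ) (m : ℤ) : n • A.en m = A.en (n * m) := by
  unfold GCtx.en
  rw [← natCast_zsmul, smul_smul]

theorem k2x_mem (k : ℕ) (a : A.P.L) : k2x A k ∈ A.P.H (-(A.P.en (-2 * k)) +ᵥ a) a := by
  intro n
  change ((Polynomial.X : Polynomial A.S) ^ k).coeff n ∈
    A.H (-(n • A.en 2) +ᵥ (-(A.en (-2 * k)) +ᵥ (show A.L from a))) (show A.L from a)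
  rw [Polynomial.coeff_X_pow]
  split_ifs with h
  · subst h
    have : -(n • A.en 2) + -(A.en (-2 * n)) = 0 := by
      rw [k2_nsmul_en, ← A.en_neg, ← A.en_neg, ← A.en_add,
        show -((n : ℤ) * 2) + -(-2 * (n : ℤ)) = 0 by ring, A.en_zero]
    rw [vadd_vadd, this, zero_vadd]
    exact A.one_mem _
  · exact zero_mem _

theorem k2_sg (k : ℤ) : sg (-2 * k) = 1 := by
  have : -2 * k = -k + -k := by ring
  rw [this, sg_add, sg_mul_self]

theorem k2X_mem (E : MF A.P (inP A Wt)) (k : ℕ) :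
    k2x A k • (1 : Matrix E.ι E.ι A.P.S) ∈ Z0 (tw (A.P.en (-2 * k)) E) E := by
  refine ⟨fun i j => ?_, ?_⟩
  · by_cases h : i = j
    · subst h
      rw [zero_vadd, Matrix.smul_apply, Matrix.one_apply_eq, smul_eq_mul, mul_one]
      exact k2x_mem k _
    · rw [Matrix.smul_apply, Matrix.one_apply_ne h, smul_zero]
      exact zero_mem _
  · rw [tw_d, A.P.chΓ_en, k2_sg, one_smul, Matrix.mul_smul, Matrix.mul_one, Matrix.smul_mul,
      Matrix.one_mul]

/-- multiplication by `X ^ k` -/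
noncomputable def k2X (E : MF A.P (inP A Wt)) (k : ℕ) : tw (A.P.en (-2 * k)) E ⟶ E :=
  mk (E := tw (A.P.en (-2 * k)) E) (F := E) _ (k2X_mem E k)

theorem k2X_zero (E : MF A.P (inP A Wt)) : IsIso (k2X E 0) := by
  have h0 : A.P.en (-2 * (0 : ℕ)) = 0 := by simp [GCtx.en]
  obtain ⟨hm, he⟩ := twZero_hom E h0
  have : k2X E 0 = (twZero E h0).hom := by
    rw [he]
    refine mk_congr _ ?_
    rw [show k2x A 0 = 1 from pow_zero _, one_smul]
  rw [this]
  infer_instance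

theorem k2_mat_aux {ι : Type} [Fintype ι] [DecidableEq ι] (k : ℕ) :
    k2x A k • (1 : Matrix ι ι A.P.S) *
      (inP A (Polynomial.X - Polynomial.C 0) • (1 : Matrix ι ι A.P.S)) =
      k2x A (k + 1) • (1 : Matrix ι ι A.P.S) := by
  have h : inP A (Polynomial.X - Polynomial.C 0) =
      (show A.P.S from (Polynomial.X : Polynomial A.S)) := by
    rw [Polynomial.C_0, sub_zero]; rfl
  rw [h, Matrix.smul_mul, Matrix.one_mul, smul_smul]
  exact congrArg (fun t : A.P.S => t • (1 : Matrix ι ι A.P.S)) (pow_succ _ k).symm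

theorem k2_mk3 {B : GCtx} {V : B.S} {E : MF B V} {a b c : B.Γ} (h : c = a + b)
    {s t u : Matrix E.ι E.ι B.S} (hs : s ∈ Z0 (tw a E) E) (ht : t ∈ Z0 (tw b E) E)
    (hu : u ∈ Z0 (tw c E) E) (heq : t * s = u) :
    ((twAdd E h).hom ≫ (twF b).map (mk (E := tw a E) (F := E) s hs)) ≫
      mk (E := tw b E) (F := E) t ht = mk (E := tw c E) (F := E) u hu := by
  obtain ⟨hm', e1⟩ := twAdd_hom E h
  rw [e1]
  refine (congrArg (fun r => r ≫ mk (E := tw b E) (F := E) t ht) (mk_comp_mk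
    (E := tw c E) (F := tw b (tw a E)) (G := tw b E) hm' (tw_mem_Z0 _ hs))).trans ?_
  refine (mk_comp_mk (E := tw c E) (F := tw b E) (G := E) _ ht).trans ?_
  refine mk_congr (E := tw c E) (F := E) _ ?_
  exact (congrArg (fun r : Matrix E.ι E.ι B.S => t * r) (Matrix.mul_one s)).trans heq

theorem k2_comm (E : MF A.P (inP A Wt)) (k : ℕ)
    (hm : ((inP A (Polynomial.X - Polynomial.C 0)) • (1 : Matrix E.ι E.ι A.P.S)) ∈
        Z0 (tw (A.P.en (-2)) E) E)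
    (ha : A.P.en (-2 * ((k + 1 : ℕ) : ℤ)) = A.P.en (-2) + A.P.en (-2 * k)) :
    ((twAdd E ha).hom ≫ (twF (A.P.en (-2 * k))).map
      (mk (E := tw (A.P.en (-2)) E) (F := E) _ hm)) ≫ k2X E k = k2X E (k + 1) :=
  k2_mk3 ha hm (k2X_mem E k) (k2X_mem E (k + 1)) (k2_mat_aux k)

theorem k2_tower (E : MF A.P (inP A Wt)) (k : ℕ) : ∀ (C : MF A.P (inP A Wt)) (g : E ⟶ C)
    (h : C ⟶ (tw (A.P.en (-2 * k)) E)⟦(1 : ℤ)⟧), Triangle.mk (k2X E k) g h ∈ distTriang _ →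
    ExtCl (fun Y => ∃ m : ℕ, m < k ∧
      Nonempty (Y ≅ tw (A.P.en (-2 * m)) (k2R hW ((k2G Wt).obj E)))) C := by
  induction k with
  | zero =>
    intro C g h hT
    exact ExtCl.zero _ ((Triangle.isZero₃_iff_isIso₁ _ hT).2 (k2X_zero E))
  | succ k ih =>
    intro C g h hT
    obtain ⟨hm, g0, h0, hT0⟩ := Ev_cone (A := A) (Wt := Wt) (l := 0) k2_hl hW E
    have hT1 := (twF (A.P.en (-2 * k))).map_distinguished _ hT0
    have ha : A.P.en (-2 * ((k + 1 : ℕ) : ℤ)) = A.P.en (-2) + A.P.en (-2 * k) := by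
      rw [← A.P.en_add]; congr 1; push_cast; ring
    have hT2 := k2_pre hT1 (twAdd E ha)
    obtain ⟨Ck, gk, hk, hTk⟩ := distinguished_cocone_triangle (k2X E k)
    have comm := k2_comm E k hm ha
    have oct := Triangulated.someOctahedron comm hT2 hTk hT
    have h3 := oct.mem
    refine ExtCl.ext _ h3 (ExtCl.of _ ⟨k, Nat.lt_succ_self k, ⟨Iso.refl _⟩⟩) ?_
    refine ExtCl.mono ?_ (ih _ _ _ hTk)
    rintro Y ⟨m, hm1, e⟩
    exact ⟨m, hm1.trans (Nat.lt_succ_self k), e⟩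

theorem k2_null {E : MF A.P (inP A Wt)} {N : ℕ}
    (h : NH E ((show A.P.S from (Polynomial.X : Polynomial A.S)) ^ N) (A.P.en (2 * N))) :
    k2X E N = 0 := by
  obtain ⟨k, hk, hk2⟩ := h
  refine (mk_eq_zero (E := tw (A.P.en (-2 * N)) E) (F := E) (k2X_mem E N)).2 ⟨k, ?_, ?_⟩
  · intro i j
    have h1 := hk i j
    have e1 : A.P.en (-3) + -(A.P.en (-2 * N)) = A.P.en (2 * N) - A.P.en 3 := by
      rw [← A.P.en_neg, sub_eq_add_neg, ← A.P.en_neg, ← A.P.en_add, ← A.P.en_add]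
      congr 1; ring
    change k i j ∈ A.P.H (A.P.en (-3) +ᵥ (-(A.P.en (-2 * N)) +ᵥ E.p j)) (E.p i)
    rw [vadd_vadd, e1]
    exact h1
  · refine hk2.trans ?_
    have e2 : (tw (A.P.en (-2 * N)) E).d = E.d := by
      rw [tw_d, A.P.chΓ_en, k2_sg, one_smul]
    exact congrArg (fun r : Matrix E.ι E.ι A.P.S => E.d * k + k * r) e2.symm

theorem k2_Q {E : MF A.P (inP A Wt)} {N : ℕ}
    (h : NH E ((show A.P.S from (Polynomial.X : Polynomial A.S)) ^ N) (A.P.en (2 * N)))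
    {Q : MF A.P (inP A Wt) → Prop} (hQ : IsThickHalf Q)
    (hm : ∀ m : ℕ, m < N → Q (tw (A.P.en (-2 * m)) (k2R hW ((k2G Wt).obj E)))) : Q E := by
  obtain ⟨C, g, δ, hT⟩ := distinguished_cocone_triangle (k2X E N)
  have h1 : Q C := by
    refine hQ.of_extCl ?_ (k2_tower hW E N C g δ hT)
    rintro Y ⟨m, hm1, ⟨e⟩⟩
    exact hQ.iso e.symm (hm m hm1)
  obtain ⟨r, hr⟩ := Triangle.yoneda_exact₂ _ hT (𝟙 E) (by
    change k2X E N ≫ 𝟙 E = 0
    rw [k2_null h, zero_comp])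
  exact hQ.ret g r hr.symm h1

theorem k2_sum {Z : Type} [AddCommMonoid Z] (E : MF A.P (inP A Wt)) (f : A.L → Z) :
    ∑ i, f (((k2G Wt).obj E).p i) = ∑ i, f (E.p i) :=
  Fintype.sum_equiv (Equiv.subtypeUnivEquiv fun _ => trivial) _ _ fun _ => rfl

theorem k2_step [GCtx.Aug A] {n : ℕ} {vs : Set A.S} {O' : MF A (evW A Wt 0)}
    {K' : MF A (evW A Wt 0) → MF A (evW A Wt 0)} (D : KD A n vs (evW A Wt 0) O' K')
    (hev1 : GCtx.Aug.ev (evW A Wt 0) = 0) (hev2 : GCtx.Aug.ev (inP A Wt) = 0) :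
    KD A.P (n + 1) (insert (show A.P.S from (Polynomial.X : Polynomial A.S))
      ((fun s => (show A.P.S from (Polynomial.C s : Polynomial A.S))) '' vs)) (inP A Wt)
      (k2R hW O') (fun E => k2R hW (K' ((k2G Wt).obj E))) := by
  obtain ⟨R, cs, tr, hR⟩ := k2_exists_R hW
  have hRtw : ∀ (m : ℤ) (Y : MF A (evW A Wt 0)),
      Nonempty (R.obj (tw (A.en m) Y) ≅ tw (A.P.en m) (R.obj Y)) := by
    intro m Y
    obtain ⟨e1⟩ := hR (tw (A.en m) Y)
    obtain ⟨e2⟩ := k2_R_tw hW m Y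
    obtain ⟨e3⟩ := hR Y
    exact ⟨e1 ≪≫ e2 ≪≫ ((twF (A.P.en m)).mapIso e3).symm⟩
  constructor
  · -- nz
    intro h
    have h1 : rk (k2R hW O') = 0 := ((isRk_rk hev2).zero _).2 h
    rw [rk_EvR] at h1
    exact D.nz (((isRk_rk hev1).zero _).1 (by omega))
  · -- ext
    intro E
    obtain ⟨e0⟩ := hR (K' ((k2G Wt).obj E))
    refine ExtCl.iso ?_ e0
    refine K2_extCl_map R ?_ (D.ext ((k2G Wt).obj E))
    rintro Y ⟨j, hj, ⟨e⟩⟩
    obtain ⟨e1⟩ := hRtw (1 * j) ((k2G Wt).obj E)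
    obtain ⟨e2⟩ := hR ((k2G Wt).obj E)
    refine ExtCl.iso ?_ (R.mapIso e ≪≫ e1 ≪≫ (twF (A.P.en (1 * j))).mapIso e2).symm
    obtain ⟨f, g, h, hT⟩ := Ev_monad (A := A) (Wt := Wt) (l := 0) k2_hl hW E
    refine ExtCl.ext _ ((twF (A.P.en (1 * j))).map_distinguished _ hT) ?_ ?_
    · exact ExtCl.of _ ⟨j, hj.trans (Nat.le_succ n), ⟨Iso.refl _⟩⟩
    · obtain ⟨e4⟩ := k2_tw_add E (a := 1) (b := 1 * j) (c := 1 * ((j + 1 : ℕ) : ℤ))
        (by push_cast; ring)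
      exact ExtCl.of _ ⟨j + 1, Nat.succ_le_succ hj, ⟨e4.symm⟩⟩
  · -- dec
    intro E hE
    obtain ⟨e0⟩ := hR (K' ((k2G Wt).obj E))
    refine ExtCl.iso ?_ e0
    refine K2_extCl_map R ?_ (D.dec _ (k2_dbarG hE))
    rintro Y ⟨i, ⟨e⟩⟩
    obtain ⟨e1⟩ := hRtw (-A.ch (((k2G Wt).obj E).p i)) O'
    obtain ⟨e2⟩ := hR O'
    refine ExtCl.of _ ⟨i.1, ⟨R.mapIso e ≪≫ e1 ≪≫ (twF _).mapIso e2⟩⟩
  · -- ret
    intro E hE i
    obtain ⟨e0⟩ := hR (K' ((k2G Wt).obj E))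
    obtain ⟨a, b, hab⟩ := D.ret _ (k2_dbarG hE) ⟨i, trivial⟩
    obtain ⟨e1⟩ := hRtw (-A.ch (E.p i)) O'
    obtain ⟨e2⟩ := hR O'
    exact k2_retr R a b hab (e1 ≪≫ (twF _).mapIso e2) e0
  · -- add
    intro Z hZ ω hω E
    obtain ⟨e0⟩ := hR (K' ((k2G Wt).obj E))
    obtain ⟨e2⟩ := hR ((k2G Wt).obj E)
    have h1 := D.add (fun Y => Z (R.obj Y)) (K2_addTri_comp R hZ) ω (fun m Y => by
      obtain ⟨e⟩ := hRtw m Y
      rw [hZ.isoC e, hω]) ((k2G Wt).obj E)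
    obtain ⟨f, g, h, hT⟩ := Ev_monad (A := A) (Wt := Wt) (l := 0) k2_hl hW E
    have h2 := hZ _ hT
    simp only [Triangle.mk_obj₁, Triangle.mk_obj₂, Triangle.mk_obj₃] at h2
    rw [← hZ.isoC e0]
    refine h1.trans ?_
    rw [hZ.isoC e2]
    refine (congrArg (fun r => _ * r) h2).trans ?_
    rw [hω]
    ring
  · -- addO
    intro Z hZ ω hω E hE
    obtain ⟨e0⟩ := hR (K' ((k2G Wt).obj E))
    obtain ⟨e2⟩ := hR O'
    have h1 := D.addO (fun Y => Z (R.obj Y)) (K2_addTri_comp R hZ) ω (fun m Y => by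
      obtain ⟨e⟩ := hRtw m Y
      rw [hZ.isoC e, hω]) _ (k2_dbarG hE)
    rw [← hZ.isoC e0]
    refine h1.trans ?_
    rw [hZ.isoC e2, k2_sum E (fun l => ω ^ (-A.ch l))]
    rfl
  · -- nil
    intro N E hN hNH Q hQ hm
    refine k2_Q hW (hNH _ (Set.mem_insert _ _)) hQ ?_
    have hQ' : IsThickHalf (fun Y : MF A (evW A Wt 0) => ∀ m : {m : ℕ // m < N},
        Q ((twF (A.P.en (-2 * (m : ℕ)))).obj (R.obj Y))) :=
      IsThickHalf.forall fun m => (hQ.comap (twF (A.P.en (-2 * ((m : ℕ) : ℤ))))).comap R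
    have h1 := D.nil N ((k2G Wt).obj E) hN (fun s hs => k2_NH (hNH _
      (Set.mem_insert_of_mem _ (Set.mem_image_of_mem _ hs)))) _ hQ' ?_
    · intro m hmN
      obtain ⟨e⟩ := hR ((k2G Wt).obj E)
      exact hQ.iso ((twF (A.P.en (-2 * (m : ℤ)))).mapIso e) (h1 ⟨m, hmN⟩)
    · rintro m' hm' ⟨m, hmN⟩
      obtain ⟨e1⟩ := hRtw (-2 * m') (K' ((k2G Wt).obj E))
      obtain ⟨e2⟩ := hR (K' ((k2G Wt).obj E))
      obtain ⟨e3⟩ := k2_tw_add (k2R hW (K' ((k2G Wt).obj E))) (a := -2 * m') (b := -2 * m)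
        (c := -2 * ((m' + m : ℕ) : ℤ)) (by push_cast; ring)
      refine hQ.iso (e3 ≪≫ ((twF (A.P.en (-2 * m))).mapIso (e1 ≪≫
        (twF (A.P.en (-2 * m'))).mapIso e2)).symm) (hm (m' + m) ?_)
      have : m ≤ N - 1 := by omega
      calc m' + m ≤ n * (N - 1) + (N - 1) := Nat.add_le_add hm' this
        _ = (n + 1) * (N - 1) := by ring

end step

theorem k2_isPot {A : GCtx} (Wt : A.P.S) (hW : A.P.IsPot Wt) : A.IsPot (evW A Wt 0) := by
  intro a
  have h : (show Polynomial A.S from Wt).coeff 0 ∈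
      A.H (-((0 : ℕ) • A.en 2) +ᵥ (A.en 6 +ᵥ a)) a := hW a 0
  rw [zero_smul, neg_zero, zero_vadd] at h
  change (Polynomial.eval 0 (show Polynomial A.S from Wt)) ∈ _
  rw [← Polynomial.coeff_zero_eq_eval_zero]
  exact h

theorem k2_nonempty : ∀ n, Nonempty (co n).L
  | 0 => ⟨(0 : ℤ)⟩
  | n + 1 => k2_nonempty n

theorem k2_exists (n : ℕ) : ∀ (W : (co n).S), (co n).IsPot W →
    ∃ O K, KD (co n) n (vars n) W O K := by
  induction n with
  | zero => exact k2_base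
  | succ n ih =>
    intro W hW
    have hW0 : (co n).IsPot (evW (co n) W 0) := k2_isPot W hW
    obtain ⟨O', K', D⟩ := ih (evW (co n) W 0) hW0
    have := k2_nonempty n
    have hev1 : GCtx.Aug.ev (evW (co n) W 0) = 0 := ev_pot hW0
    have : Nonempty (co n).P.L := k2_nonempty n
    exact ⟨_, _, k2_step (A := co n) (Wt := W) hW D hev1 (ev_pot (A := (co n).P) hW)⟩

theorem exists_kos (n : ℕ) (W : (co n).S) (hW : (co n).IsPot W) :
    ∃ O K, KosData n W O K := by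
  obtain ⟨O, K, D⟩ := k2_exists n W hW
  exact ⟨O, K, ⟨D.nz, D.ext, D.dec, D.ret, D.add, D.addO, D.nil⟩⟩

end Vale.Agent.P287T.G3
end
end

section

section

/-!
# Descent data: elementary steps
-/

open Matrix CategoryTheory CategoryTheory.Limits CategoryTheory.Pretriangulated Polynomial

namespace Vale.Agent.P287T.G3

/-- `rk` is invariant under isomorphisms, without hypothesis on the potential -/
theorem e3_rk_iso {A : GCtx} [GCtx.Aug A] {W : A.S} {E F : MF A W} (e : E ≅ F) :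
    rk E = rk F := by
  by_cases hW : GCtx.Aug.ev W = 0
  · exact (isRk_rk hW).iso e
  · have key : ∀ E : MF A W, rk E = 0 := by
      intro E
      have h1 : dbar E * dbar E = GCtx.Aug.ev (A := A) W • (1 : Matrix E.ι E.ι ℂ) := by
        rw [dbar, ← Matrix.map_mul, E.sq]
        ext i j
        rw [Matrix.map_apply, Matrix.smul_apply, Matrix.smul_apply, smul_eq_mul, smul_eq_mul,
          map_mul, Matrix.one_apply, Matrix.one_apply]
        split_ifs <;> simp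
      have h2 : (dbar E).rank = Fintype.card E.ι := by
        apply Matrix.rank_of_isUnit
        refine IsUnit.of_mul_eq_one ((GCtx.Aug.ev (A := A) W)⁻¹ • dbar E) ?_
        rw [Matrix.mul_smul, h1, smul_smul, inv_mul_cancel₀ hW, one_smul]
      rw [rk, h2]
      omega
    rw [key, key]

/-- composing descent data with an adjunction -/
theorem e3_comp {B : GCtx} [GCtx.Aug B] {V : B.S} {σ : Slic (MF B V)}
    {A A' : GCtx} [GCtx.Aug A] [GCtx.Aug A'] {W : A.S} {W' : A'.S}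
    (D : Desc B V σ A W) (L : MF A W ⥤ MF A' W') [L.CommShift ℤ] [L.IsTriangulated]
    (R : MF A' W' ⥤ MF A W) (adj : L ⊣ R)
    (htw : ∀ γ : A'.Γ, ∃ γ' : A.Γ, A.chΓ γ' = A'.chΓ γ ∧
      ∀ X : MF A' W', Nonempty (R.obj (tw γ X) ≅ tw γ' (R.obj X)))
    (hmon : ∀ (s : ℝ) (Y : MF A W), σ.U s (D.F.obj Y) → σ.U s (D.F.obj (R.obj (L.obj Y))))
    (hrk : ∀ X, rk X ≤ rk (R.obj X))
    (hZ : ∃ κ : ℂ, κ ≠ 0 ∧ ∀ X, Zf (R.obj X) = κ * Zf X) :
    Nonempty (Desc B V σ A' W') := by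
  let _ := adj.rightAdjointCommShift ℤ
  have := adj.commShift_of_leftAdjoint ℤ
  have : R.IsTriangulated := adj.isTriangulated_rightAdjoint
  refine ⟨{ F := R ⋙ D.F, G := D.G ⋙ L, adj := D.adj.comp adj, tw := ?_, mon := ?_,
            rk_le := ?_, Z := ?_ }⟩
  · intro γ
    obtain ⟨γ₁, h1, h2⟩ := htw γ
    obtain ⟨γ₂, h3, h4⟩ := D.tw γ₁
    refine ⟨γ₂, h3.trans h1, fun X => ?_⟩
    obtain ⟨e1⟩ := h2 X
    obtain ⟨e2⟩ := h4 (R.obj X)
    exact ⟨(D.F.mapIso e1).trans e2⟩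
  · intro s Y hY
    exact hmon s (D.G.obj Y) (D.mon s Y hY)
  · intro X
    exact (hrk X).trans (D.rk_le (R.obj X))
  · obtain ⟨κ, h1, h2⟩ := hZ
    obtain ⟨κ', h3, h4⟩ := D.Z
    refine ⟨κ' * κ, mul_ne_zero h3 h1, fun X => ?_⟩
    change Zf (D.F.obj (R.obj X)) = _
    rw [h4, h2, mul_assoc]

/-- the aisles are closed under extensions, also after a triangulated functor -/
theorem e3_extCl {B : GCtx} {V : B.S} {σ : Slic (MF B V)} {A : GCtx} {W : A.S}
    (F : MF A W ⥤ MF B V) [F.CommShift ℤ] [F.IsTriangulated] (s : ℝ)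
    {P : MF A W → Prop} (hP : ∀ Y, P Y → σ.U s (F.obj Y)) {X : MF A W} (hX : ExtCl P X) :
    σ.U s (F.obj X) := by
  induction hX with
  | zero _ h => exact (σ.ts s).zeroU (F.map_isZero h)
  | of X h => exact hP X h
  | ext T hT h1 h3 ih1 ih3 =>
    exact (σ.ts s).extU (F.map_distinguished T hT) ih1 ih3

variable {B : GCtx} [GCtx.Aug B] {V : B.S} {σ : Slic (MF B V)}

theorem desc_refl : Nonempty (Desc B V σ B V) :=
  ⟨{ F := 𝟭 _
     G := 𝟭 _
     adj := Adjunction.id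
     tw := fun γ => ⟨γ, rfl, fun _ => ⟨Iso.refl _⟩⟩
     mon := fun _ _ h => h
     rk_le := fun _ => le_rfl
     Z := ⟨1, one_ne_zero, fun X => (one_mul _).symm⟩ }⟩

/-- `(A.T, W + y^3)` to `(A.P, W + y^3)` -/
theorem desc_Fo {A : GCtx} [GCtx.Aug A] {W : A.S}
    (htw : ∀ (γ : B.Γ) (s : ℝ) (E : MF B V), σ.U s E → σ.U (s + (B.chΓ γ : ℝ) / 3) (tw γ E))
    (h : Nonempty (Desc B V σ A.T (WT A W))) : Nonempty (Desc B V σ A.P (WP A W)) := by
  obtain ⟨D⟩ := h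
  obtain ⟨R, adj, hR⟩ := Fo_adj (A := A) (W := W)
  refine e3_comp D (Fo A W).functor R adj ?_ ?_ ?_ ?_
  · intro γ
    refine ⟨((γ, 0) : A.Γ × ZMod 3), rfl, fun X => ?_⟩
    obtain ⟨e1⟩ := hR (tw γ X)
    obtain ⟨e2⟩ := IndO_tw (A := A) (W := W) γ X
    obtain ⟨e3⟩ := hR X
    exact ⟨e1.trans (e2.trans ((twF (A := A.T) (W := WT A W)
      (((γ, 0) : A.Γ × ZMod 3) : A.T.Γ)).mapIso e3.symm))⟩
  · intro s Y hY
    obtain ⟨e1⟩ := hR ((Fo A W).functor.obj Y)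
    refine (σ.ts s).isoU (D.F.mapIso e1).symm ?_
    refine e3_extCl D.F s ?_ (Fo_monad Y)
    rintro Z ⟨v, ⟨e2⟩⟩
    refine (σ.ts s).isoU (D.F.mapIso e2).symm ?_
    obtain ⟨γ', h1, h2⟩ := D.tw (((0, v) : A.Γ × ZMod 3) : A.T.Γ)
    obtain ⟨e3⟩ := h2 Y
    refine (σ.ts s).isoU e3.symm ?_
    have h3 := htw γ' s _ hY
    have h4 : B.chΓ γ' = 0 := h1.trans (map_zero A.chΓ)
    rw [h4, Int.cast_zero, zero_div, add_zero] at h3
    exact h3
  · intro X
    obtain ⟨e1⟩ := hR X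
    rw [e3_rk_iso e1, rk_IndO]
    omega
  · refine ⟨3, by norm_num, fun X => ?_⟩
    obtain ⟨e1⟩ := hR X
    rw [(Zf_add (A := A.T) (W := WT A W)).isoC e1, Zf_IndO]

theorem e3_ray_ne : (1 : ℂ) + ray (1 / 3) ≠ 0 := by
  intro h
  have h1 := congrArg Complex.im h
  rw [ray_eq] at h1
  simp only [Complex.add_im, Complex.one_im, Complex.zero_im, zero_add] at h1
  have h2 : 0 < Real.sin (Real.pi * (1 / 3)) := by
    apply Real.sin_pos_of_pos_of_lt_pi
    · positivity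
    · have := Real.pi_pos
      linarith
  exact h2.ne' h1

/-- `(A.P, Wt)` to `(A, Wt(l))` -/
theorem desc_Ev {A : GCtx} [GCtx.Aug A] {Wt : A.S[X]} {l : A.S}
    (htw : ∀ (γ : B.Γ) (s : ℝ) (E : MF B V), σ.U s E → σ.U (s + (B.chΓ γ : ℝ) / 3) (tw γ E))
    (hl : ∀ a, l ∈ A.H (A.en 2 +ᵥ a) a)
    (hW : ∀ a, (inP A Wt) ∈ A.P.H (A.P.en 6 +ᵥ a) a)
    (h : Nonempty (Desc B V σ A.P (inP A Wt))) : Nonempty (Desc B V σ A (evW A Wt l)) := by
  obtain ⟨D⟩ := h
  obtain ⟨R, adj, hR⟩ := Ev_adj hl hW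
  refine e3_comp D (Ev A Wt l hl).functor R adj ?_ ?_ ?_ ?_
  · intro γ
    refine ⟨(show A.P.Γ from γ), rfl, fun X => ?_⟩
    obtain ⟨e1⟩ := hR (tw γ X)
    obtain ⟨e2⟩ := EvR_tw hl hW γ X
    obtain ⟨e3⟩ := hR X
    exact ⟨e1.trans (e2.trans ((twF (A := A.P) (W := inP A Wt)
      (show A.P.Γ from γ)).mapIso e3.symm))⟩
  · intro s Y hY
    obtain ⟨e1⟩ := hR ((Ev A Wt l hl).functor.obj Y)
    refine (σ.ts s).isoU (D.F.mapIso e1).symm ?_
    obtain ⟨f, g, δ, hT⟩ := Ev_monad hl hW Y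
    refine (σ.ts s).extU (D.F.map_distinguished _ hT) hY ?_
    obtain ⟨γ', h1, h2⟩ := D.tw (A.P.en 1)
    obtain ⟨e3⟩ := h2 Y
    refine (σ.ts s).isoU e3.symm ?_
    have h3 := htw γ' s _ hY
    refine σ.anti ?_ _ h3
    rw [h1, GCtx.chΓ_en]
    norm_num
  · intro X
    obtain ⟨e1⟩ := hR X
    rw [e3_rk_iso e1, rk_EvR]
    omega
  · refine ⟨1 + ray (1 / 3), e3_ray_ne, fun X => ?_⟩
    obtain ⟨e1⟩ := hR X
    rw [(Zf_add (A := A.P) (W := inP A Wt)).isoC e1, Zf_EvR]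

theorem e3_poly_mem_C {A : GCtx} {η : A.Γ} {a b : A.L} {s : A.S} (hs : s ∈ A.H a b) :
    (C s : A.S[X]) ∈ (A.poly η).H a b := by
  refine (GCtx.poly_mem_iff A η a b _).2 (fun n => ?_)
  rw [coeff_C]
  split_ifs with h
  · subst h
    rw [zero_smul, neg_zero, zero_vadd]
    exact hs
  · exact zero_mem _

theorem e3_poly_mem_X {A : GCtx} {η : A.Γ} {a b : A.L} (k : ℕ) (h : -(k • η) +ᵥ a = b) :
    (X ^ k : A.S[X]) ∈ (A.poly η).H a b := by
  refine (GCtx.poly_mem_iff A η a b _).2 (fun n => ?_)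
  rw [coeff_X_pow]
  split_ifs with h'
  · subst h'
    rw [h]
    exact A.one_mem b
  · exact zero_mem _

theorem e3_five {A : GCtx} : -(3 • A.en 2) + A.en 6 = 0 := by
  rw [GCtx.en, GCtx.en, ← natCast_zsmul, smul_smul]
  norm_num

theorem e3_P_mem {A : GCtx} {W : A.S} (hW : ∀ a, W ∈ A.H (A.en 6 +ᵥ a) a) (a : A.P.L) :
    WP A W ∈ A.P.H (A.P.en 6 +ᵥ a) a := by
  refine add_mem (e3_poly_mem_C (A := A) (η := A.en 2) (hW a)) ?_
  refine e3_poly_mem_X (A := A) (η := A.en 2) (a := A.en 6 +ᵥ (show A.L from a)) (b := a) 3 ?_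
  rw [vadd_vadd, e3_five, zero_vadd]

theorem e3_T_en {A : GCtx} (k : ℤ) : A.T.en k = ((A.en k, 0) : A.Γ × ZMod 3) := by
  change k • ((A.e, 0) : A.Γ × ZMod 3) = ((A.en k, 0) : A.Γ × ZMod 3)
  rw [Prod.smul_mk, smul_zero]
  rfl

theorem e3_T_mem_C {A : GCtx} {s : A.S} {k : ℤ} (hs : ∀ a, s ∈ A.H (A.en k +ᵥ a) a)
    (a : A.T.L) : (C s : A.S[X]) ∈ A.T.H (A.T.en k +ᵥ a) a := by
  rw [e3_T_en]
  refine e3_poly_mem_C (A := A.wt (ZMod 3)) (η := ((A.en 2, 1) : A.Γ × ZMod 3))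
    (a := (show (A.wt (ZMod 3)).Γ from ((A.en k, 0) : A.Γ × ZMod 3)) +ᵥ
      (show (A.wt (ZMod 3)).L from a)) (b := a) ?_
  refine (GCtx.wt_mem_iff A (ZMod 3) _ _ _).2 (Or.inl ⟨?_, ?_⟩)
  · change (0 : ZMod 3) + a.2 = a.2
    rw [zero_add]
  · exact hs a.1

theorem e3_T_mem_X {A : GCtx} (a : A.T.L) :
    (X ^ 3 : A.S[X]) ∈ A.T.H (A.T.en 6 +ᵥ a) a := by
  rw [e3_T_en]
  refine e3_poly_mem_X (A := A.wt (ZMod 3)) (η := ((A.en 2, 1) : A.Γ × ZMod 3))
    (a := (show (A.wt (ZMod 3)).Γ from ((A.en 6, 0) : A.Γ × ZMod 3)) +ᵥ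
      (show (A.wt (ZMod 3)).L from a)) (b := a) 3 ?_
  rw [vadd_vadd]
  have h1 : -(3 • ((A.en 2, 1) : A.Γ × ZMod 3)) + ((A.en 6, 0) : A.Γ × ZMod 3) = 0 := by
    refine Prod.ext ?_ ?_
    · change -(3 • A.en 2) + A.en 6 = 0
      exact e3_five
    · change -(3 • (1 : ZMod 3)) + 0 = 0
      decide
  exact (congrArg (fun g : (A.wt (ZMod 3)).Γ => g +ᵥ (show (A.wt (ZMod 3)).L from a)) h1).trans
    (zero_vadd (A.wt (ZMod 3)).Γ _)

theorem e3_TTC_mem {A : GCtx} {s : A.S} {k : ℤ} (hs : ∀ a, s ∈ A.H (A.en k +ᵥ a) a) :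
    ∀ (m : ℕ) (a : (TT A m).L), TTC A m s ∈ (TT A m).H ((TT A m).en k +ᵥ a) a
  | 0, a => hs a
  | m + 1, a => e3_T_mem_C (A := TT A m) (e3_TTC_mem hs m) a

theorem e3_TTW_mem {A : GCtx} {W : A.S} (hW : ∀ a, W ∈ A.H (A.en 6 +ᵥ a) a) :
    ∀ (m : ℕ) (a : (TT A m).L), TTW A W m ∈ (TT A m).H ((TT A m).en 6 +ᵥ a) a
  | 0, a => hW a
  | m + 1, a => add_mem (e3_T_mem_C (A := TT A m) (e3_TTW_mem hW m) a)
      (e3_T_mem_X (A := TT A m) a)

theorem e3_TTW_add {A : GCtx} (W s : A.S) : ∀ m, TTW A (W + s) m = TTW A W m + TTC A m s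
  | 0 => rfl
  | m + 1 => by
    change (C (TTW A (W + s) m) + X ^ 3 : (TT A m).S[X]) =
      (C (TTW A W m) + X ^ 3 : (TT A m).S[X]) + C (TTC A m s)
    rw [e3_TTW_add W s m, map_add]
    ring

/-- iterate: from `(TT A m, W + y_1^3 + ... + y_m^3)` to `(A, W + l_1^3 + ... + l_m^3)`. -/
theorem desc_list {A : GCtx} [GCtx.Aug A]
    (htw : ∀ (γ : B.Γ) (s : ℝ) (E : MF B V), σ.U s E → σ.U (s + (B.chΓ γ : ℝ) / 3) (tw γ E)) :
    ∀ (ls : List A.S) (W : A.S), (∀ a, W ∈ A.H (A.en 6 +ᵥ a) a) →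
      (∀ l ∈ ls, ∀ a, l ∈ A.H (A.en 2 +ᵥ a) a) →
      Nonempty (Desc B V σ (TT A ls.length) (TTW A W ls.length)) →
      Nonempty (Desc B V σ A (W + (ls.map (· ^ 3)).sum)) := by
  intro ls
  induction ls with
  | nil =>
    intro W _ _ h
    have h1 : W + (([] : List A.S).map (· ^ 3)).sum = W := by simp
    rw [h1]
    exact h
  | cons l ls ih =>
    intro W hW hl h
    set m := ls.length with hm
    have hl' : ∀ a, l ∈ A.H (A.en 2 +ᵥ a) a := hl l (by simp)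
    have h1 : Nonempty (Desc B V σ (TT A m).T (WT (TT A m) (TTW A W m))) := h
    have h2 : Nonempty (Desc B V σ (TT A m).P
        (inP (TT A m) (C (TTW A W m) + X ^ 3 : (TT A m).S[X]))) := desc_Fo htw h1
    have h3 := desc_Ev (l := TTC A m l) htw (e3_TTC_mem hl' m)
      (fun a => e3_P_mem (e3_TTW_mem hW m) a) h2
    have h4 : evW (TT A m) (C (TTW A W m) + X ^ 3 : (TT A m).S[X]) (TTC A m l) =
        TTW A (W + l ^ 3) m := by
      rw [e3_TTW_add, map_pow, evW]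
      simp
    rw [h4] at h3
    have hl5 : ∀ a, l ^ 3 ∈ A.H (A.en 6 +ᵥ a) a := by
      intro a
      have key : ∀ k : ℕ, ∀ a, l ^ k ∈ A.H (A.en (2 * k) +ᵥ a) a := by
        intro k
        induction k with
        | zero =>
          intro a
          rw [pow_zero, Nat.cast_zero, mul_zero, A.en_zero, zero_vadd]
          exact A.one_mem a
        | succ k ihk =>
          intro a
          rw [pow_succ']
          refine A.mul_mem (hl' a) ?_
          have e1 : A.en (2 * ((k + 1 : ℕ) : ℤ)) = A.en (2 * k) + A.en 2 := by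
            rw [← A.en_add]
            congr 1
          rw [e1, ← vadd_vadd]
          exact ihk _
      exact key 3 a
    have h5 := ih (W + l ^ 3) (fun a => add_mem (hW a) (hl5 a))
      (fun l' hl'' => hl l' (List.mem_cons_of_mem _ hl'')) h3
    have h6 : W + ((l :: ls).map (· ^ 3)).sum = W + l ^ 3 + (ls.map (· ^ 3)).sum := by
      rw [List.map_cons, List.sum_cons, add_assoc]
    rw [h6]
    exact h5

end Vale.Agent.P287T.G3
end
end

section

section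

/-!
# Descent: the hypotheses of the lifting lemma
-/

open Matrix CategoryTheory CategoryTheory.Limits CategoryTheory.Pretriangulated

namespace Vale.Agent.P287T.G3

variable {B : GCtx} [GCtx.Aug B] {V : B.S} {σ : Slic (MF B V)} {n : ℕ} {W : (co n).S}

section K3a_gen

variable {C : Type 1} [Category.{0} C] [Preadditive C] [HasZeroObject C]
    [HasShift C ℤ] [∀ n : ℤ, (shiftFunctor C n).Additive] [Pretriangulated C]

theorem K3a_extCl_le {P Q : C → Prop} (hz : ∀ X, IsZero X → Q X) (hP : ∀ X, P X → Q X)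
    (hext : ∀ T ∈ distTriang C, Q T.obj₁ → Q T.obj₃ → Q T.obj₂) {X : C} (h : ExtCl P X) :
    Q X := by
  induction h with
  | zero X h => exact hz X h
  | of X h => exact hP X h
  | ext T hT _ _ h1 h3 => exact hext T hT h1 h3

theorem K3a_zero (σ : Slic C) (s t : ℝ) {X : C} (hX : IsZero X) :
    ObjectProperty.extensionProduct (fun X : C => σ.U t X) (fun X : C => σ.V s X) X :=
  ⟨_, _, _, _, _, contractible_distinguished X, (σ.ts t).zeroU hX,
    (σ.ts s).zeroV (isZero_zero C)⟩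

theorem K3a_swap [IsTriangulated C] (σ : Slic C) {s t : ℝ} (hst : s + 1 ≤ t) {X : C}
    (hX : ObjectProperty.extensionProduct (fun X : C => σ.V s X) (fun X : C => σ.U t X) X) :
    ObjectProperty.extensionProduct (fun X : C => σ.U t X) (fun X : C => σ.V s X) X := by
  obtain ⟨Y, Z, f, g, h, hT, hY, hZ⟩ := hX
  have h0 : h = 0 := σ.hom_zero hst hZ ((σ.shiftV s Y).2 hY) h
  obtain ⟨e, -, -⟩ := exists_iso_binaryBiproduct_of_distTriang _ hT h0
  refine ObjectProperty.prop_of_iso _ ((e ≪≫ biprod.braiding Y Z).symm : Z ⊞ Y ≅ X) ?_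
  exact ⟨_, _, _, _, _, binaryBiproductTriangle_distinguished Z Y, hZ, hY⟩

end K3a_gen

/-- extension closure of a class with a gap: if `b ≥ a + 1` then `U_b * V_a` is closed under
extensions -/
theorem star_closed {C : Type 1} [Category.{0} C] [Preadditive C] [HasZeroObject C]
    [HasShift C ℤ] [∀ n : ℤ, (shiftFunctor C n).Additive] [Pretriangulated C] [IsTriangulated C]
    (σ : Slic C) {s t : ℝ} (hst : s + 1 ≤ t) {X : C}
    (hX : ExtCl (ObjectProperty.extensionProduct (fun X : C => σ.U t X) (fun X : C => σ.V s X)) X) :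
    ObjectProperty.extensionProduct (fun X : C => σ.U t X) (fun X : C => σ.V s X) X := by
  refine K3a_extCl_le (fun X hX => K3a_zero σ s t hX) (fun X hX => hX) ?_ hX
  intro T hT h1 h3
  set P : ObjectProperty C := fun X : C => σ.U t X
  set Q : ObjectProperty C := fun X : C => σ.V s X
  have hPP : P.extensionProduct P ≤ P := by
    rintro X ⟨Y, Z, f, g, h, hT, hY, hZ⟩
    exact (σ.ts t).extU hT hY hZ
  have hQQ : Q.extensionProduct Q ≤ Q := by
    rintro X ⟨Y, Z, f, g, h, hT, hY, hZ⟩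
    exact (σ.ts s).extV hT hY hZ
  have hQP : Q.extensionProduct P ≤ P.extensionProduct Q := fun X hX => K3a_swap σ hst hX
  have h2 : (P.extensionProduct Q).extensionProduct (P.extensionProduct Q) T.obj₂ :=
    ⟨T.obj₁, T.obj₃, T.mor₁, T.mor₂, T.mor₃, hT, h1, h3⟩
  rw [ObjectProperty.extensionProduct_assoc, ← ObjectProperty.extensionProduct_assoc Q P Q] at h2
  have h4 := ObjectProperty.monotone_extensionProduct_right (P := P)
    (ObjectProperty.monotone_extensionProduct_left (Q := Q) hQP) _ h2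
  rw [ObjectProperty.extensionProduct_assoc, ← ObjectProperty.extensionProduct_assoc P P] at h4
  exact ObjectProperty.monotone_extensionProduct_right (P := P) hQQ _
    (ObjectProperty.monotone_extensionProduct_left (Q := Q.extensionProduct Q) hPP _ h4)

section K3a_tw

theorem K3a_twIso {A : GCtx} {W : A.S} (γ : A.Γ) (X : MF A W) :
    Nonempty (X ≅ tw (-γ) (tw γ X)) :=
  ⟨(twZero X (γ := 0) rfl).symm ≪≫ twAdd X (a := γ) (b := -γ) (by simp)⟩

theorem K3a_tw_faithful {A : GCtx} {W : A.S} (γ : A.Γ) {X Y : MF A W} (f : X ⟶ Y)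
    (h : (twF γ).map f = 0) : f = 0 := by
  have h1 := twAdd_nat f (a := γ) (b := -γ) (c := 0) (by simp)
  rw [h, Functor.map_zero, comp_zero] at h1
  have h2 : (twF 0).map f = 0 := by
    rw [← cancel_mono (twAdd Y (a := γ) (b := -γ) (c := 0) (by simp)).hom, h1, zero_comp]
  have h3 := twZero_nat f (γ := 0) rfl
  rw [h2, zero_comp] at h3
  rw [← cancel_epi (twZero X (γ := 0) rfl).hom, ← h3, comp_zero]

theorem K3a_htwV (htw : ∀ (γ : B.Γ) (s : ℝ) (E : MF B V), σ.U s E →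
    σ.U (s + (B.chΓ γ : ℝ) / 3) (tw γ E)) (γ : B.Γ) (s : ℝ) (E : MF B V) (hE : σ.V s E) :
    σ.V (s + (B.chΓ γ : ℝ) / 3) (tw γ E) := by
  rw [σ.V_iff]
  intro X hX f
  refine K3a_tw_faithful (-γ) f ?_
  have h1 := htw (-γ) _ X hX
  obtain ⟨e⟩ := K3a_twIso γ E
  rw [← cancel_mono e.inv, zero_comp]
  refine (σ.ts s).hom ?_ hE _
  have : s + (B.chΓ γ : ℝ) / 3 + (B.chΓ (-γ) : ℝ) / 3 = s := by
    rw [map_neg]; push_cast; ring
  rwa [this] at h1

theorem K3a_tw_star (htw : ∀ (γ : B.Γ) (s : ℝ) (E : MF B V), σ.U s E →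
    σ.U (s + (B.chΓ γ : ℝ) / 3) (tw γ E)) (γ : B.Γ) {s t : ℝ} {X : MF B V}
    (h : ObjectProperty.extensionProduct (fun X : MF B V => σ.U t X)
      (fun X : MF B V => σ.V s X) X) :
    ObjectProperty.extensionProduct (fun X : MF B V => σ.U (t + (B.chΓ γ : ℝ) / 3) X)
      (fun X : MF B V => σ.V (s + (B.chΓ γ : ℝ) / 3) X) (tw γ X) := by
  obtain ⟨Y, Z, f, g, k, hT, hY, hZ⟩ := h
  obtain ⟨E, F, q, hq, ⟨e⟩⟩ := (mem_dist_iff _).1 hT
  have hm : (1 : Matrix E.ι E.ι B.S) ∈ Z0 (tw γ (tw (B.en (3 * 1)) E))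
      (tw (B.en (3 * 1)) (tw γ E)) := by
    refine idMat_mem ?_ ?_
    · funext i
      rw [tw_p, tw_p, vadd_vadd, vadd_vadd, add_comm]
    · rw [tw_d, tw_d, smul_smul, smul_smul, mul_comm (sg (B.chΓ γ))]
  have h1 := tw_stdTri γ E F q hq (mk (E := tw γ (tw (B.en (3 * 1)) E))
    (F := tw (B.en (3 * 1)) (tw γ E)) (1 : Matrix E.ι E.ι B.S) hm) ⟨hm, rfl⟩
  have e1 : Y ≅ E := Triangle.π₁.mapIso e
  have e2 : X ≅ F := Triangle.π₂.mapIso e
  have e3 : Z ≅ cone E F q hq := Triangle.π₃.mapIso e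
  refine ObjectProperty.prop_of_iso _ ((twF γ).mapIso e2.symm) ?_
  refine ⟨tw γ E, tw γ (cone E F q hq), _, _, _, h1, ?_, ?_⟩
  · exact (σ.ts _).isoU ((twF γ).mapIso e1) (htw γ t Y hY)
  · exact (σ.ts _).isoV ((twF γ).mapIso e3) (K3a_htwV htw γ s Z hZ)

theorem K3a_ev_pot {A : GCtx} [GCtx.Aug A] {W : A.S} (E : MF A W) (i : E.ι) :
    GCtx.Aug.ev W = 0 := by
  have h1 := (isDeg_d E).mul (isDeg_d E) (t := A.en 6) (by rw [← A.en_add]; rfl) i i
  rw [E.sq, Matrix.smul_apply, Matrix.one_apply_eq, smul_eq_mul, mul_one] at h1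
  refine ev_eq_zero h1 fun h => ?_
  have h2 := congrArg A.ch h
  rw [A.ch_vadd, A.chΓ_en] at h2
  omega

theorem K3a_cons (D : Desc B V σ (co n) W) (hV : GCtx.Aug.ev V = 0) (X : MF (co n) W)
    (hX : IsZero (D.F.obj X)) : IsZero X := by
  by_cases hι : Nonempty X.ι
  · obtain ⟨i⟩ := hι
    have hW := K3a_ev_pot X i
    have h1 : rk (D.F.obj X) = 0 := ((isRk_rk hV).zero _).2 hX
    have h2 := D.rk_le X
    rw [h1] at h2
    exact ((isRk_rk hW).zero X).1 (Nat.le_zero.1 h2)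
  · rw [isZero_iff]
    refine ⟨0, IsDeg.zero _ _ _, ?_⟩
    ext i
    exact (hι ⟨i⟩).elim

variable (htw : ∀ (γ : B.Γ) (s : ℝ) (E : MF B V), σ.U s E → σ.U (s + (B.chΓ γ : ℝ) / 3) (tw γ E))
  (D : Desc B V σ (co n) W)

include htw

theorem K3a_U (γ : (co n).Γ) {s : ℝ} {X : MF (co n) W} (h : σ.U s (D.F.obj X)) :
    σ.U (s + ((co n).chΓ γ : ℝ) / 3) (D.F.obj (tw γ X)) := by
  obtain ⟨γ', h1, h2⟩ := D.tw γ
  obtain ⟨e⟩ := h2 X
  rw [← h1]
  exact (σ.ts _).isoU e.symm (htw γ' s _ h)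

theorem K3a_V (γ : (co n).Γ) {s : ℝ} {X : MF (co n) W} (h : σ.V s (D.F.obj X)) :
    σ.V (s + ((co n).chΓ γ : ℝ) / 3) (D.F.obj (tw γ X)) := by
  obtain ⟨γ', h1, h2⟩ := D.tw γ
  obtain ⟨e⟩ := h2 X
  rw [← h1]
  exact (σ.ts _).isoV e.symm (K3a_htwV htw γ' s _ h)

theorem K3a_U' (γ : (co n).Γ) {s : ℝ} {X : MF (co n) W} (h : σ.U s (D.F.obj (tw γ X))) :
    σ.U (s - ((co n).chΓ γ : ℝ) / 3) (D.F.obj X) := by
  obtain ⟨e⟩ := K3a_twIso γ X
  have h1 := K3a_U htw D (-γ) h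
  have : s + ((co n).chΓ (-γ) : ℝ) / 3 = s - ((co n).chΓ γ : ℝ) / 3 := by
    rw [map_neg]; push_cast; ring
  rw [this] at h1
  exact (σ.ts _).isoU (D.F.mapIso e.symm) h1

theorem K3a_V' (γ : (co n).Γ) {s : ℝ} {X : MF (co n) W} (h : σ.V s (D.F.obj (tw γ X))) :
    σ.V (s - ((co n).chΓ γ : ℝ) / 3) (D.F.obj X) := by
  obtain ⟨e⟩ := K3a_twIso γ X
  have h1 := K3a_V htw D (-γ) h
  have : s + ((co n).chΓ (-γ) : ℝ) / 3 = s - ((co n).chΓ γ : ℝ) / 3 := by
    rw [map_neg]; push_cast; ring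
  rw [this] at h1
  exact (σ.ts _).isoV (D.F.mapIso e.symm) h1

omit htw in
theorem K3a_extU {P : MF (co n) W → Prop} {s : ℝ} (h : ∀ X, P X → σ.U s (D.F.obj X))
    {X : MF (co n) W} (hX : ExtCl P X) : σ.U s (D.F.obj X) :=
  K3a_extCl_le (Q := fun X => σ.U s (D.F.obj X))
    (fun X hX => (σ.ts s).zeroU (D.F.map_isZero hX)) h
    (fun T hT h1 h3 => (σ.ts s).extU (D.F.map_distinguished T hT) h1 h3) hX

omit htw in
theorem K3a_extV {P : MF (co n) W → Prop} {s : ℝ} (h : ∀ X, P X → σ.V s (D.F.obj X))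
    {X : MF (co n) W} (hX : ExtCl P X) : σ.V s (D.F.obj X) :=
  K3a_extCl_le (Q := fun X => σ.V s (D.F.obj X))
    (fun X hX => (σ.ts s).zeroV (D.F.map_isZero hX)) h
    (fun T hT h1 h3 => (σ.ts s).extV (D.F.map_distinguished T hT) h1 h3) hX

end K3a_tw

section bounds

variable (htw : ∀ (γ : B.Γ) (s : ℝ) (E : MF B V), σ.U s E → σ.U (s + (B.chΓ γ : ℝ) / 3) (tw γ E))
  (D : Desc B V σ (co n) W) {O : MF (co n) W} {K : MF (co n) W → MF (co n) W}
  (hK : KosData n W O K) {a b : ℝ} (hO : σ.U a (D.F.obj O) ∧ σ.V b (D.F.obj O))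
  (hV : GCtx.Aug.ev V = 0)

include htw hK hO hV

/-- (R1): if `F E ∈ U_s` then the charges of a minimal `E` are `< 3 (b - s)` -/
theorem ch_lt_of_U {E : MF (co n) W} (hE : dbar E = 0) {s : ℝ} (h : σ.U s (D.F.obj E)) (i : E.ι) :
    ((co n).ch (E.p i) : ℝ) < 3 * (b - s) := by
  by_contra hle
  rw [not_lt] at hle
  refine hK.nz (K3a_cons D hV O ?_)
  have h1 : σ.U s (D.F.obj (K E)) := by
    refine K3a_extU D ?_ (hK.ext E)
    rintro Y ⟨j, -, ⟨e⟩⟩
    refine (σ.ts s).isoU (D.F.mapIso e.symm) ?_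
    refine σ.anti ?_ _ (K3a_U htw D ((co n).en (1 * j)) h)
    rw [GCtx.chΓ_en]
    have : (0 : ℝ) ≤ ((1 * j : ℤ) : ℝ) / 3 := by positivity
    push_cast at this ⊢
    linarith
  obtain ⟨α, β, hαβ⟩ := hK.ret E hE i
  have h2 : σ.U s (D.F.obj (tw ((co n).en (-(co n).ch (E.p i))) O)) :=
    (σ.ts s).retU (D.F.map α) (D.F.map β) (by rw [← D.F.map_comp, hαβ, D.F.map_id]) h1
  have h3 := K3a_U' htw D _ h2
  rw [GCtx.chΓ_en] at h3
  push_cast at h3
  refine σ.isZero_of (s := s - -((co n).ch (E.p i) : ℝ) / 3) (t := b) ?_ h3 hO.2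
  linarith

/-- (R2): if `F E ∈ V_s` then the charges of a minimal `E` are `> 3 (a - s - n)` -/
theorem lt_ch_of_V {E : MF (co n) W} (hE : dbar E = 0) {s : ℝ}
    (h : σ.V s (D.F.obj E)) (i : E.ι) : 3 * (a - s - n) < ((co n).ch (E.p i) : ℝ) := by
  by_contra hle
  rw [not_lt] at hle
  refine hK.nz (K3a_cons D hV O ?_)
  have h1 : σ.V (s + n) (D.F.obj (K E)) := by
    refine K3a_extV D ?_ (hK.ext E)
    rintro Y ⟨j, hj, ⟨e⟩⟩
    refine (σ.ts _).isoV (D.F.mapIso e.symm) ?_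
    refine σ.monoV ?_ _ (K3a_V htw D ((co n).en (1 * j)) h)
    rw [GCtx.chΓ_en]
    have : (j : ℝ) ≤ n := by exact_mod_cast hj
    have h0 : (0 : ℝ) ≤ j := by positivity
    push_cast
    linarith
  obtain ⟨α, β, hαβ⟩ := hK.ret E hE i
  have h2 : σ.V (s + n) (D.F.obj (tw ((co n).en (-(co n).ch (E.p i))) O)) :=
    (σ.ts _).retV (D.F.map α) (D.F.map β) (by rw [← D.F.map_comp, hαβ, D.F.map_id]) h1
  have h3 := K3a_V' htw D _ h2
  rw [GCtx.chΓ_en] at h3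
  push_cast at h3
  refine σ.isZero_of (s := a) (t := s + n - -((co n).ch (E.p i) : ℝ) / 3) ?_ hO.1 h3
  linarith

/-- (R3) -/
theorem U_of_ch {N : ℕ} (hN : 1 ≤ N) {E : MF (co n) W} (hE : dbar E = 0)
    (hnil : ∀ s ∈ vars n, NH E (s ^ N) ((co n).en (2 * N))) {p : ℝ}
    (h : ∀ i, ((co n).ch (E.p i) : ℝ) ≤ p) :
    σ.U (a - p / 3 - 2 * (n * (N - 1) : ℕ) / 3) (D.F.obj E) := by
  have h1 : σ.U (a - p / 3) (D.F.obj (K E)) := by
    refine K3a_extU D ?_ (hK.dec E hE)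
    rintro Y ⟨i, ⟨e⟩⟩
    refine (σ.ts _).isoU (D.F.mapIso e.symm) ?_
    refine σ.anti ?_ _ (K3a_U htw D ((co n).en (-(co n).ch (E.p i))) hO.1)
    rw [GCtx.chΓ_en]
    push_cast
    linarith [h i]
  refine hK.nil N E hN hnil (fun X => σ.U (a - p / 3 - 2 * (n * (N - 1) : ℕ) / 3) (D.F.obj X))
    ⟨fun e hX => (σ.ts _).isoU (D.F.mapIso e) hX, fun hX => (σ.ts _).zeroU (D.F.map_isZero hX),
      fun T hT h1 h3 => (σ.ts _).extU (D.F.map_distinguished T hT) h1 h3,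
      fun i p hip hY => (σ.ts _).retU (D.F.map i) (D.F.map p)
        (by rw [← D.F.map_comp, hip, D.F.map_id]) hY⟩ ?_
  intro m hm
  refine σ.anti ?_ _ (K3a_U htw D ((co n).en (-2 * m)) h1)
  rw [GCtx.chΓ_en]
  have : (m : ℝ) ≤ ((n * (N - 1) : ℕ) : ℝ) := by exact_mod_cast hm
  push_cast at this ⊢
  linarith

/-- (R4) -/
theorem V_of_ch {N : ℕ} (hN : 1 ≤ N) {E : MF (co n) W} (hE : dbar E = 0)
    (hnil : ∀ s ∈ vars n, NH E (s ^ N) ((co n).en (2 * N))) {p : ℝ}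
    (h : ∀ i, p ≤ ((co n).ch (E.p i) : ℝ)) : σ.V (b - p / 3) (D.F.obj E) := by
  have h1 : σ.V (b - p / 3) (D.F.obj (K E)) := by
    refine K3a_extV D ?_ (hK.dec E hE)
    rintro Y ⟨i, ⟨e⟩⟩
    refine (σ.ts _).isoV (D.F.mapIso e.symm) ?_
    refine σ.monoV ?_ _ (K3a_V htw D ((co n).en (-(co n).ch (E.p i))) hO.2)
    rw [GCtx.chΓ_en]
    push_cast
    linarith [h i]
  refine hK.nil N E hN hnil (fun X => σ.V (b - p / 3) (D.F.obj X))
    ⟨fun e hX => (σ.ts _).isoV (D.F.mapIso e) hX, fun hX => (σ.ts _).zeroV (D.F.map_isZero hX),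
      fun T hT h1 h3 => (σ.ts _).extV (D.F.map_distinguished T hT) h1 h3,
      fun i p hip hY => (σ.ts _).retV (D.F.map i) (D.F.map p)
        (by rw [← D.F.map_comp, hip, D.F.map_id]) hY⟩ ?_
  intro m hm
  refine σ.monoV ?_ _ (K3a_V htw D ((co n).en (-2 * m)) h1)
  rw [GCtx.chΓ_en]
  have : (0 : ℝ) ≤ (m : ℝ) := by positivity
  push_cast
  linarith

/-- if `F E` has a large gap in its phases then `E` (minimal) has a gap in its charges -/
theorem ch_gap {E : MF (co n) W} (hE : dbar E = 0) {s R : ℝ} (hR : b - a + n + 1 ≤ R)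
    (h : ObjectProperty.extensionProduct (fun X : MF B V => σ.U (s + R) X)
      (fun X : MF B V => σ.V s X) (D.F.obj E)) (i : E.ι) :
    ((co n).ch (E.p i) : ℝ) < 3 * (b - s - R) ∨ 3 * (a - s - n) < ((co n).ch (E.p i) : ℝ) := by
  by_contra hcon
  rw [not_or, not_lt, not_lt] at hcon
  obtain ⟨hc1, hc2⟩ := hcon
  have hab : a < b := by
    by_contra hab
    rw [not_lt] at hab
    exact hK.nz (K3a_cons D hV O (σ.isZero_of hab hO.1 hO.2))
  have hst : s + n + 1 ≤ s + R := by linarith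
  -- `F (K E)` has the same kind of gap
  have h1 : ObjectProperty.extensionProduct (fun X : MF B V => σ.U (s + R) X)
      (fun X : MF B V => σ.V (s + n) X) (D.F.obj (K E)) := by
    refine star_closed σ hst ?_
    refine K3a_extCl_le (P := fun Y => ∃ j : ℕ, j ≤ n ∧ Nonempty (Y ≅ tw ((co n).en (1 * j)) E))
      (Q := fun X => ExtCl (ObjectProperty.extensionProduct (fun X : MF B V => σ.U (s + R) X)
      (fun X : MF B V => σ.V (s + n) X)) (D.F.obj X)) (fun X hX => ?_) (fun X hX => ?_)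
      (fun T hT h1 h3 => ?_) (hK.ext E)
    · exact ExtCl.zero _ (D.F.map_isZero hX)
    · obtain ⟨j, hj, ⟨e⟩⟩ := hX
      refine ExtCl.of _ ?_
      obtain ⟨γ', hγ1, hγ2⟩ := D.tw ((co n).en (1 * j))
      obtain ⟨e2⟩ := hγ2 E
      refine ObjectProperty.prop_of_iso _ ((D.F.mapIso e ≪≫ e2).symm) ?_
      obtain ⟨Y, Z, f, g, k, hT, hY, hZ⟩ := K3a_tw_star htw γ' h
      have hch : (B.chΓ γ' : ℝ) = 1 * j := by
        rw [hγ1, GCtx.chΓ_en]; push_cast; rfl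
      have hj5 : (j : ℝ) ≤ n := by exact_mod_cast hj
      have hj0 : (0 : ℝ) ≤ (j : ℝ) := by positivity
      exact ⟨Y, Z, f, g, k, hT, σ.anti (by rw [hch]; linarith) _ hY,
        σ.monoV (by rw [hch]; linarith) _ hZ⟩
    · exact ExtCl.ext _ (D.F.map_distinguished T hT) h1 h3
  obtain ⟨Y, Z, f, g, k, hT, hY, hZ⟩ := h1
  have hr := hK.ret E hE i
  obtain ⟨c, hc⟩ : ∃ c : ℤ, c = (co n).ch (E.p i) := ⟨_, rfl⟩
  rw [← hc] at hc1 hc2 hr
  obtain ⟨α, β, hαβ⟩ := hr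
  have h2 : D.F.map α ≫ D.F.map β = 𝟙 _ := by rw [← D.F.map_comp, hαβ, D.F.map_id]
  have hYU : σ.U (s + n) (D.F.obj (tw ((co n).en (-c)) O)) := by
    refine σ.anti ?_ _ (K3a_U htw D ((co n).en (-c)) hO.1)
    rw [GCtx.chΓ_en]
    push_cast
    linarith
  have hYV : σ.V (s + R) (D.F.obj (tw ((co n).en (-c)) O)) := by
    refine σ.monoV ?_ _ (K3a_V htw D ((co n).en (-c)) hO.2)
    rw [GCtx.chΓ_en]
    push_cast
    linarith
  obtain ⟨δ, hδ⟩ : ∃ δ : D.F.obj (tw ((co n).en (-c)) O) ⟶ Y, D.F.map α = δ ≫ f :=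
    Triangle.coyoneda_exact₂ _ hT (D.F.map α) ((σ.ts (s + n)).hom hYU hZ _)
  have h3 : f ≫ D.F.map β = 0 := (σ.ts (s + R)).hom hY hYV _
  rw [hδ, Category.assoc, h3, comp_zero] at h2
  have h4 : IsZero (D.F.obj (tw ((co n).en (-c)) O)) := by
    rw [IsZero.iff_id_eq_zero, ← h2]
  have h5 : IsZero (tw ((co n).en (-c)) O) := K3a_cons D hV _ h4
  refine hK.nz ?_
  obtain ⟨e⟩ := K3a_twIso ((co n).en (-c)) O
  exact IsZero.of_iso ((twF (-(co n).en (-c))).map_isZero h5) e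

end bounds

end Vale.Agent.P287T.G3
end
end

section

section

/-!
# Descent of Gepner-type stability
-/

open Matrix CategoryTheory CategoryTheory.Limits CategoryTheory.Pretriangulated

namespace Vale.Agent.P287T.G3

variable {B : GCtx} [GCtx.Aug B] {V : B.S} {σ : Slic (MF B V)} {n : ℕ} {W : (co n).S}

theorem K3_nonempty_L : ∀ n : ℕ, Nonempty (co n).L
  | 0 => ⟨(0 : ℤ)⟩
  | n + 1 => K3_nonempty_L n

theorem K3_ev (hW : (co n).IsPot W) : GCtx.Aug.ev W = 0 := by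
  have := K3_nonempty_L n
  exact ev_pot hW

theorem K3_cons (hW : (co n).IsPot W) (hV : GCtx.Aug.ev V = 0) (D : Desc B V σ (co n) W)
    (X : MF (co n) W) (hX : IsZero (D.F.obj X)) : IsZero X := by
  have h1 : rk (D.F.obj X) = 0 := ((isRk_rk hV).zero _).2 hX
  have h2 : rk X = 0 := Nat.le_zero.1 (h1 ▸ D.rk_le X)
  exact ((isRk_rk (K3_ev hW)).zero _).1 h2

/-- the hypotheses of the lifting lemma -/
theorem liftHyp_of_desc (hW : (co n).IsPot W) {N : ℕ} (hN : 1 ≤ N)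
    (hnil : Nilp (co n) W (vars n) N)
    (htw : ∀ (γ : B.Γ) (s : ℝ) (E : MF B V), σ.U s E → σ.U (s + (B.chΓ γ : ℝ) / 3) (tw γ E))
    (hV : GCtx.Aug.ev V = 0) (D : Desc B V σ (co n) W) :
    ∃ R : ℝ, LiftHyp D.F D.G σ R := by
  obtain ⟨O, K, hK⟩ := exists_kos n W hW
  obtain ⟨a, b0, ha, hb0⟩ := σ.bdd (D.F.obj O)
  obtain ⟨b, hab, hb⟩ : ∃ b : ℝ, a ≤ b ∧ σ.V b (D.F.obj O) :=
    ⟨max a b0, le_max_left _ _, σ.monoV (le_max_right _ _) _ hb0⟩
  have hO : σ.U a (D.F.obj O) ∧ σ.V b (D.F.obj O) := ⟨ha, hb⟩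
  have hM : (0 : ℝ) ≤ 2 * ((n * (N - 1) : ℕ) : ℝ) / 3 := by positivity
  set M : ℝ := 2 * ((n * (N - 1) : ℕ) : ℝ) / 3 with hMdef
  refine ⟨n + 2 + 2 * (b - a) + M, ?_⟩
  have hev := K3_ev hW
  have hn0 : (0 : ℝ) ≤ n := Nat.cast_nonneg n
  constructor
  · linarith
  · exact K3_cons hW hV D
  · exact D.mon
  · intro s X Y hX hY f
    obtain ⟨X', ⟨eX⟩, hX'⟩ := exists_minimal hev X
    obtain ⟨Y', ⟨eY⟩, hY'⟩ := exists_minimal hev Y
    have h1 : σ.U (s + (n + 2 + 2 * (b - a) + M)) (D.F.obj X') :=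
      (σ.ts _).isoU (D.F.mapIso eX) hX
    have h2 : σ.V s (D.F.obj Y') := (σ.ts _).isoV (D.F.mapIso eY) hY
    have h3 := ch_lt_of_U htw D hK hO hV hX' h1
    have h4 := lt_ch_of_V htw D hK hO hV hY' h2
    have h5 : eX.inv ≫ f ≫ eY.hom = 0 := by
      refine hom_zero_of_ch (fun i j => ?_) _
      have h6 := h3 j
      have h7 := h4 i
      have h8 : (((co n).ch (X'.p j) : ℤ) : ℝ) < (((co n).ch (Y'.p i) : ℤ) : ℝ) := by
        linarith
      exact_mod_cast h8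
    have h6 : f = eX.hom ≫ (eX.inv ≫ f ≫ eY.hom) ≫ eY.inv := by simp
    rw [h6, h5]
    simp
  · intro s X W₁ V₀ f g h hT hW₁ hV₀
    obtain ⟨X', ⟨eX⟩, hX'⟩ := exists_minimal hev X
    have hext : ObjectProperty.extensionProduct
        (fun X : MF B V => σ.U (s + (n + 2 + 2 * (b - a) + M)) X)
        (fun X : MF B V => σ.V s X) (D.F.obj X') :=
      ⟨_, _, _, _, _, triIso2 hT (D.F.mapIso eX), hW₁, hV₀⟩
    have hgap := ch_gap htw D hK hO hV hX' (by linarith) hext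
    set q : ℤ := ⌈3 * (b - s - (n + 2 + 2 * (b - a) + M))⌉ with hq
    have hq1 : 3 * (b - s - (n + 2 + 2 * (b - a) + M)) ≤ (q : ℝ) := Int.le_ceil _
    have hq2 : (q : ℝ) < 3 * (b - s - (n + 2 + 2 * (b - a) + M)) + 1 := Int.ceil_lt_add_one _
    obtain ⟨Lo, Hi, u, v, w, hT', hLo, hHi, hLo', hHi'⟩ := gap_split X' hX' q (by
      intro i
      rcases hgap i with h1 | h1
      · left
        have : (((co n).ch (X'.p i) : ℤ) : ℝ) < (q : ℝ) := lt_of_lt_of_le h1 hq1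
        exact_mod_cast this
      · right
        have : ((q + 3 : ℤ) : ℝ) < (((co n).ch (X'.p i) : ℤ) : ℝ) := by
          push_cast
          linarith
        exact_mod_cast this)
    have hLoU : σ.U (s + n + b - a) (D.F.obj Lo) := by
      have h1 := U_of_ch htw D hK hO hV hN hLo (fun t ht => hnil.nh Lo t ht)
        (p := 3 * (b - s - (n + 2 + 2 * (b - a) + M))) (by
          intro i
          obtain ⟨h1, j, hj⟩ := hLo' i
          rcases hgap j with h2 | h2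
          · rw [hj] at h2
            exact h2.le
          · rw [hj] at h2
            exfalso
            have h3 : (((co n).ch (Lo.p i) : ℤ) : ℝ) < (q : ℝ) := by exact_mod_cast h1
            linarith)
      refine σ.anti ?_ _ h1
      rw [← hMdef]
      linarith
    have hHiV : σ.V (s + n + b - a) (D.F.obj Hi) := by
      have h1 := V_of_ch htw D hK hO hV hN hHi (fun t ht => hnil.nh Hi t ht)
        (p := 3 * (a - s - n)) (by
          intro i
          obtain ⟨h1, j, hj⟩ := hHi' i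
          rcases hgap j with h2 | h2
          · rw [hj] at h2
            exfalso
            have h3 : ((q + 3 : ℤ) : ℝ) < (((co n).ch (Hi.p i) : ℤ) : ℝ) := by exact_mod_cast h1
            push_cast at h3
            linarith
          · rw [hj] at h2
            exact h2.le)
      refine σ.monoV ?_ _ h1
      linarith
    have hT'' := triIso2 hT' eX.symm
    exact ⟨Lo, Hi, _, _, _, s + n + b - a, hT'', by linarith, by linarith, hLoU, hHiV⟩

/-- Descent of Gepner-type stability -/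
theorem gep_of_desc (hW : (co n).IsPot W) {N : ℕ} (hN : 1 ≤ N)
    (hnil : Nilp (co n) W (vars n) N) (hV : GCtx.Aug.ev V = 0)
    {κ : ℂ} {c : ℝ} (hκ : κ ≠ 0) (hσ : Stab σ (fun E => κ * Zf E) rk c)
    (htw : ∀ (γ : B.Γ) (s : ℝ) (E : MF B V), σ.U s E → σ.U (s + (B.chΓ γ : ℝ) / 3) (tw γ E))
    (D : Nonempty (Desc B V σ (co n) W)) : Gep (co n) W := by
  obtain ⟨D⟩ := D
  obtain ⟨R, hR⟩ := liftHyp_of_desc hW hN hnil htw hV D
  obtain ⟨κ', hκ', hZ⟩ := D.Z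
  refine ⟨liftSlic D.adj hR, κ * κ', c, mul_ne_zero hκ hκ', ?_, ?_⟩
  · have h1 := lift_stab D.adj hR hσ rk (isRk_rk (K3_ev hW)) D.rk_le
    have h2 : (fun X : MF (co n) W => κ * Zf (D.F.obj X)) = fun X => κ * κ' * Zf X := by
      funext X
      rw [hZ X]
      ring
    rw [h2] at h1
    exact h1
  · intro γ s E hE
    obtain ⟨γ', h1, h2⟩ := D.tw γ
    obtain ⟨e⟩ := h2 E
    have h3 : σ.U (s + (B.chΓ γ' : ℝ) / 3) (tw γ' (D.F.obj E)) := htw γ' s _ hE
    rw [h1] at h3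
    exact (σ.ts _).isoU e.symm h3

end Vale.Agent.P287T.G3
end
end

section

section

/-!
# The iterated polynomial ring
-/

open Matrix CategoryTheory CategoryTheory.Limits CategoryTheory.Pretriangulated

namespace Vale.Agent.P287T.G3

/-- weight of a monomial with one more variable -/
theorem N2_weight_cons {n : ℕ} (i : ℕ) (m : Fin n →₀ ℕ) :
    Finsupp.weight (fun _ : Fin (n + 1) => (2 : ℤ)) (m.cons i) =
      2 * i + Finsupp.weight (fun _ : Fin n => (2 : ℤ)) m := by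
  rw [Finsupp.weight_apply, Finsupp.weight_apply, Finsupp.sum_fintype _ _ (by simp),
    Finsupp.sum_fintype _ _ (by simp), Fin.sum_univ_succ]
  simp only [Finsupp.cons_zero, Finsupp.cons_succ, nsmul_eq_mul]
  ring

/-- homogeneity in terms of the coefficients of `finSuccEquiv` -/
theorem N2_homog {n : ℕ} (f : MvPolynomial (Fin (n + 1)) ℂ) (d : ℤ) :
    MvPolynomial.IsWeightedHomogeneous (fun _ => (2 : ℤ)) f d ↔
      ∀ i : ℕ, MvPolynomial.IsWeightedHomogeneous (fun _ => (2 : ℤ))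
        (Polynomial.coeff (MvPolynomial.finSuccEquiv ℂ n f) i) (d - 2 * i) := by
  constructor
  · intro h i m hm
    rw [MvPolynomial.finSuccEquiv_coeff_coeff] at hm
    have h1 := h hm
    rw [N2_weight_cons] at h1
    linarith
  · intro h m hm
    have h1 := Finsupp.cons_tail m
    have h2 : MvPolynomial.coeff m.tail (Polynomial.coeff (MvPolynomial.finSuccEquiv ℂ n f) (m 0))
        ≠ 0 := by
      rw [MvPolynomial.finSuccEquiv_coeff_coeff, h1]
      exact hm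
    have h3 := h (m 0) h2
    rw [← h1, N2_weight_cons]
    rw [h3]
    simp

/-- the ring isomorphism in the induction step -/
noncomputable def N2_phi {n : ℕ} {R : Type} [CommRing R] (φ : MvPolynomial (Fin n) ℂ ≃+* R) :
    MvPolynomial (Fin (n + 1)) ℂ ≃+* Polynomial R :=
  (MvPolynomial.finSuccEquiv ℂ n).toRingEquiv.trans (Polynomial.mapEquiv φ)

theorem N2_phi_coeff {n : ℕ} {R : Type} [CommRing R] (φ : MvPolynomial (Fin n) ℂ ≃+* R)
    (f : MvPolynomial (Fin (n + 1)) ℂ) (i : ℕ) :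
    (N2_phi φ f).coeff i = φ (Polynomial.coeff (MvPolynomial.finSuccEquiv ℂ n f) i) := by
  unfold N2_phi
  simp

theorem N2_phi_X_zero {n : ℕ} {R : Type} [CommRing R] (φ : MvPolynomial (Fin n) ℂ ≃+* R) :
    N2_phi φ (MvPolynomial.X 0) = Polynomial.X := by
  unfold N2_phi
  simp [MvPolynomial.finSuccEquiv_X_zero]

theorem N2_phi_X_succ {n : ℕ} {R : Type} [CommRing R] (φ : MvPolynomial (Fin n) ℂ ≃+* R)
    (i : Fin n) : N2_phi φ (MvPolynomial.X i.succ) = Polynomial.C (φ (MvPolynomial.X i)) := by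
  unfold N2_phi
  simp [MvPolynomial.finSuccEquiv_X_succ]

theorem N2_vars {n : ℕ} {R : Type} [CommRing R] (φ : MvPolynomial (Fin n) ℂ ≃+* R) (S : Set R)
    (h : (φ '' Set.range fun i => (MvPolynomial.X i : MvPolynomial (Fin n) ℂ)) = S) :
    (N2_phi φ '' Set.range fun i => (MvPolynomial.X i : MvPolynomial (Fin (n + 1)) ℂ)) =
      insert Polynomial.X ((fun s => Polynomial.C s) '' S) := by
  rw [← h]
  ext y
  constructor
  · rintro ⟨_, ⟨i, rfl⟩, rfl⟩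
    refine Fin.cases ?_ (fun j => ?_) i
    · exact Or.inl (N2_phi_X_zero φ)
    · exact Or.inr ⟨_, ⟨_, ⟨j, rfl⟩, rfl⟩, (N2_phi_X_succ φ j).symm⟩
  · rintro (rfl | ⟨_, ⟨_, ⟨j, rfl⟩, rfl⟩, rfl⟩)
    · exact ⟨_, ⟨0, rfl⟩, N2_phi_X_zero φ⟩
    · exact ⟨_, ⟨j.succ, rfl⟩, N2_phi_X_succ φ j⟩

theorem N2_fer {n : ℕ} {R : Type} [CommRing R] (φ : MvPolynomial (Fin n) ℂ ≃+* R) (F : R)
    (h : φ (∑ i, MvPolynomial.X i ^ 3) = F) :
    N2_phi φ (∑ i, MvPolynomial.X i ^ 3) = Polynomial.C F + Polynomial.X ^ 3 := by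
  rw [Fin.sum_univ_succ, map_add, map_pow, N2_phi_X_zero, map_sum, ← h, add_comm]
  congr 1
  rw [map_sum, map_sum]
  refine Finset.sum_congr rfl fun i _ => ?_
  rw [map_pow, N2_phi_X_succ, map_pow, map_pow]

theorem N2_ev {n : ℕ} {R : Type} [CommRing R] (φ : MvPolynomial (Fin n) ℂ ≃+* R) (ev : R →+* ℂ)
    (h : ∀ s, ev (φ s) = MvPolynomial.constantCoeff s) (s : MvPolynomial (Fin (n + 1)) ℂ) :
    ev ((N2_phi φ s).coeff 0) = MvPolynomial.constantCoeff s := by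
  rw [N2_phi_coeff, h, MvPolynomial.constantCoeff_eq, MvPolynomial.constantCoeff_eq,
    MvPolynomial.finSuccEquiv_coeff_coeff]
  congr 1
  ext i
  refine Fin.cases ?_ (fun j => ?_) i
  · simp
  · simp

theorem N2_psi_en {A B : GCtx} (I : CIso A B) (z : ℤ) : I.ψ (A.en z) = B.en z := by
  unfold GCtx.en
  rw [map_zsmul, I.e]

theorem N2_lab {n : ℕ} (I : CIso (mvCtx n) (co n)) (i : ℕ) (a c : ℤ) (hc : c = a - 2 * i) :
    -(i • (co n).en 2) +ᵥ I.lab a = I.lab c := by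
  have h2 := I.vadd (-(i • (mvCtx n).en 2)) a
  rw [map_neg, map_nsmul, N2_psi_en] at h2
  rw [← h2]
  congr 1
  subst hc
  change -(i • ((2 : ℤ) • (1 : ℤ))) + (a : ℤ) = a - 2 * i
  simp
  ring

theorem N2_H {n : ℕ} (I : CIso (mvCtx n) (co n)) (a b : ℤ)
    (s : MvPolynomial (Fin (n + 1)) ℂ) :
    MvPolynomial.IsWeightedHomogeneous (fun _ => (2 : ℤ)) s (a - b) ↔
      ∀ i : ℕ, (N2_phi I.φ s).coeff i ∈ (co n).H (-(i • (co n).en 2) +ᵥ I.lab a) (I.lab b) := by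
  rw [N2_homog]
  refine forall_congr' fun i => ?_
  have h1 := N2_lab I i a (a - 2 * i) rfl
  rw [h1]
  have h3 := I.H (a - 2 * i : ℤ) b
    (Polynomial.coeff (MvPolynomial.finSuccEquiv ℂ n s) i)
  have h4 : (a - b - 2 * i : ℤ) = (a - 2 * i - b : ℤ) := by ring
  rw [h4]
  have h5 := N2_phi_coeff I.φ s i
  rw [h5]
  exact h3

/-- the induction step -/
noncomputable def N2_step {n : ℕ} (I : CIso (mvCtx n) (co n)) :
    CIso (mvCtx (n + 1)) (co (n + 1)) where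
  φ := N2_phi I.φ
  lab := I.lab
  ψ := I.ψ
  e := I.e
  chΓ := I.chΓ
  ch := I.ch
  vadd := I.vadd
  H a b s := N2_H I a b s

theorem N2_base_H (a b : ℤ) (s : MvPolynomial (Fin 0) ℂ) :
    MvPolynomial.IsWeightedHomogeneous (fun _ => (2 : ℤ)) s (a - b) ↔
      MvPolynomial.isEmptyRingEquiv ℂ (Fin 0) s ∈ GCtx.pt.H a b := by
  refine Iff.trans ?_ (GCtx.pt_mem_iff a b _).symm
  rw [MvPolynomial.isEmptyRingEquiv_eq_coeff_zero]
  constructor
  · intro h
    by_cases h0 : MvPolynomial.coeff 0 s = 0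
    · exact Or.inr h0
    · have h1 := h h0
      rw [map_zero] at h1
      exact Or.inl (by linarith)
  · rintro (rfl | h0)
    · intro d _
      rw [Subsingleton.elim d 0, map_zero, sub_self]
    · have hs := MvPolynomial.eq_C_of_isEmpty s
      rw [h0, map_zero] at hs
      rw [hs]
      exact MvPolynomial.isWeightedHomogeneous_zero _ _ _

/-- the base of the induction -/
noncomputable def N2_base : CIso (mvCtx 0) (co 0) where
  φ := MvPolynomial.isEmptyRingEquiv ℂ (Fin 0)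
  lab := Equiv.refl ℤ
  ψ := AddEquiv.refl ℤ
  e := rfl
  chΓ := fun _ => rfl
  ch := fun _ => rfl
  vadd := fun _ _ => rfl
  H a b s := N2_base_H a b s

theorem N2_base_vars : (MvPolynomial.isEmptyRingEquiv ℂ (Fin 0) ''
    Set.range fun i => (MvPolynomial.X i : MvPolynomial (Fin 0) ℂ)) = ∅ := by
  rw [Set.range_eq_empty, Set.image_empty]

theorem N2_base_fer : MvPolynomial.isEmptyRingEquiv ℂ (Fin 0) (∑ i, MvPolynomial.X i ^ 3) = 0 := by
  rw [Fin.sum_univ_zero, map_zero]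

theorem N2_base_ev (s : MvPolynomial (Fin 0) ℂ) :
    MvPolynomial.isEmptyRingEquiv ℂ (Fin 0) s = MvPolynomial.constantCoeff s := by
  rw [MvPolynomial.isEmptyRingEquiv_eq_coeff_zero, MvPolynomial.constantCoeff_eq]

/-- `ℂ[x_1..x_n]` is isomorphic to the iterated polynomial ring, as a graded context -/
theorem exists_mvIso (n : ℕ) : ∃ I : CIso (mvCtx n) (co n),
    (I.φ '' (Set.range fun i => (MvPolynomial.X i : MvPolynomial (Fin n) ℂ)) = vars n) ∧
    I.φ (show (mvCtx n).S from (∑ i, MvPolynomial.X i ^ 3 : MvPolynomial (Fin n) ℂ)) = Fer n ∧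
    (∀ s, GCtx.Aug.ev (I.φ s) = GCtx.Aug.ev s) := by
  induction n with
  | zero => exact ⟨N2_base, N2_base_vars, N2_base_fer, N2_base_ev⟩
  | succ n ih =>
    obtain ⟨I, h1, h2, h3⟩ := ih
    exact ⟨N2_step I, N2_vars I.φ (vars n) h1, N2_fer I.φ (Fer n) h2,
      N2_ev I.φ (GCtx.Aug.ev (A := co n)) h3⟩

end Vale.Agent.P287T.G3
end
end

section

section

/-!
# The tower of leveled matrix factorizations
-/

open Matrix CategoryTheory CategoryTheory.Limits CategoryTheory.Pretriangulated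

namespace Vale.Agent.P287T.G3

variable {A : GCtx} {W : A.S}

/-- semistability is invariant under isomorphism -/
theorem L2d_P_iso {σ : Slic (MF A W)} {φ : ℝ} {X Y : MF A W} (e : X ≅ Y) (h : σ.P φ X) :
    σ.P φ Y := ⟨(σ.ts φ).isoU e h.1, σ.isoVc e h.2⟩

/-- objects with the same basis up to a bijection are isomorphic -/
theorem L2d_iso_of_equiv {E F : MF A W} (e : E.ι ≃ F.ι) (hp : ∀ i, F.p (e i) = E.p i)
    (hd : E.d = F.d.submatrix e e) : Nonempty (E ≅ F) := by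
  have hp' : ∀ i, E.p (e.symm i) = F.p i := fun i => by rw [← hp, Equiv.apply_symm_apply]
  have h1 : (1 : Matrix F.ι F.ι A.S).submatrix id e ∈ Z0 E F := by
    refine ⟨?_, ?_⟩
    · intro i j
      rw [Matrix.submatrix_apply, ← hp j]
      exact IsDeg.one F i (e j)
    · rw [hd, Matrix.submatrix_mul_equiv, Matrix.one_mul]
      have := Matrix.submatrix_mul_equiv F.d (1 : Matrix F.ι F.ι A.S) id (Equiv.refl _) e
      rw [Matrix.mul_one] at this
      exact this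
  have h2 : (1 : Matrix F.ι F.ι A.S).submatrix e id ∈ Z0 F E := by
    refine ⟨?_, ?_⟩
    · intro i j
      rw [Matrix.submatrix_apply, ← hp i]
      exact IsDeg.one F (e i) j
    · rw [hd, Matrix.submatrix_mul_equiv, Matrix.mul_one]
      have := Matrix.submatrix_mul_equiv (1 : Matrix F.ι F.ι A.S) F.d e (Equiv.refl _) id
      rw [Matrix.one_mul] at this
      exact this.symm
  refine ⟨⟨mk _ h1, mk _ h2, ?_, ?_⟩⟩
  · rw [mk_comp_mk, ← mk_one]
    refine mk_congr _ ?_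
    have := Matrix.submatrix_mul_equiv (1 : Matrix F.ι F.ι A.S) (1 : Matrix F.ι F.ι A.S) e
      (Equiv.refl _) e
    rw [Matrix.one_mul, Matrix.submatrix_one_equiv] at this
    exact this
  · rw [mk_comp_mk, ← mk_one]
    refine mk_congr _ ?_
    rw [Matrix.submatrix_mul_equiv, Matrix.one_mul, Matrix.submatrix_id_id]

/-- `tot` of an object of level `v` -/
theorem L2d_tot_lvl {k : ℕ} (v : Fin k) (G : MF A W) : Nonempty (tot (lvl v G) ≅ G) := by
  refine L2d_iso_of_equiv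
    ({ toFun := fun i => i.1.1
       invFun := fun i => ⟨⟨i, trivial⟩, trivial⟩
       left_inv := fun i => rfl
       right_inv := fun i => rfl } : (tot (lvl v G)).ι ≃ G.ι) (fun i => rfl) rfl

/-- product formula for `[n]_q` -/
theorem L2d_qn (n : ℕ) : ((Real.sin (Real.pi / 3) : ℝ) : ℂ) * qn n =
    ((Real.sin (Real.pi * ((n : ℝ) / 3)) : ℝ) : ℂ) * ray (((n : ℝ) - 1) / 3) := by
  induction n with
  | zero => simp [qn]
  | succ n ih =>
    have h1 : qn (n + 1) = qn n + ray (2 * (n : ℝ) / 3) := by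
      unfold qn
      rw [Finset.sum_range_succ]
    rw [h1, mul_add, ih]
    have h2 := StepHyp.key_ray ((n : ℝ) / 3)
    have h3 : ray (2 * (n : ℝ) / 3) = ray ((n : ℝ) / 3 + 1 / 3) * ray (((n : ℝ) - 1) / 3) := by
      rw [← ray_add]
      congr 1
      ring
    have h4 : ray ((((n + 1 : ℕ) : ℝ) - 1) / 3) = ray (1 / 3) * ray (((n : ℝ) - 1) / 3) := by
      rw [← ray_add]
      congr 1
      push_cast
      ring
    have h5 : Real.pi * (((n + 1 : ℕ) : ℝ) / 3) = Real.pi * ((n : ℝ) / 3 + 1 / 3) := by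
      push_cast
      ring
    rw [h3, h4, h5]
    linear_combination ray (((n : ℝ) - 1) / 3) * h2

theorem L2d_qn_succ (n : ℕ) : qn (n + 1) = qn n + ray (2 * (n : ℝ) / 3) := by
  unfold qn
  rw [Finset.sum_range_succ]

theorem L2d_qn_one : qn 1 = 1 := by
  simp [qn, ray_zero]

/-- central charge of an object of level `0` -/
theorem L2d_Zlev_lvl {Z : MF A W → ℂ} (hZ : AddTri Z) (k : ℕ) (G : MF A W) :
    Zlev Z (k + 1) (lvl 0 G) = qn (k + 1) * Z G := by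
  unfold Zlev
  rw [Fin.sum_univ_succ]
  have h0 : ∑ v : Fin k, qn (k + 1 - (v.succ : Fin (k + 1))) *
      Z (gr v.succ (lvl (0 : Fin (k + 1)) G)) = 0 := by
    refine Finset.sum_eq_zero fun v _ => ?_
    rw [hZ.zeroC (gr_lvl_ne (Fin.succ_ne_zero v) G), mul_zero]
  rw [h0, add_zero]
  obtain ⟨e⟩ := gr_lvl_self (0 : Fin (k + 1)) G
  rw [hZ.isoC e]
  rfl

/-- recursion of the central charge -/
theorem L2d_Zlev_succ {Z : MF A W → ℂ} (hZ : AddTri Z) (k : ℕ) (Y : MFL A W (k + 2)) :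
    Zlev Z (k + 2) Y = Zlev Z (k + 1) ((levX A W k).functor.obj Y) +
      ray (2 * ((k + 1 : ℕ) : ℝ) / 3) * Z (gr 0 Y) := by
  unfold Zlev
  rw [Fin.sum_univ_succ, Fin.sum_univ_succ, Fin.sum_univ_succ (n := k), gr_levX_zero Z hZ Y]
  have h1 : ∀ v : Fin k, Z (gr v.succ ((levX A W k).functor.obj Y)) = Z (gr v.succ.succ Y) := by
    intro v
    obtain ⟨e⟩ := gr_levX_succ v Y
    exact hZ.isoC e
  simp only [h1]
  have h2 : k + 2 - ((0 : Fin (k + 2)) : ℕ) = (k + 1) + 1 := rfl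
  have h3 : k + 2 - (((0 : Fin (k + 1)).succ : Fin (k + 2)) : ℕ) = k + 1 := by simp
  have h4 : k + 1 - ((0 : Fin (k + 1)) : ℕ) = k + 1 := rfl
  have h5 : ∀ v : Fin k, k + 2 - ((v.succ.succ : Fin (k + 2)) : ℕ) =
      k + 1 - ((v.succ : Fin (k + 1)) : ℕ) := by
    intro v
    simp only [Fin.val_succ]
    omega
  simp only [h5]
  rw [h2, h3, h4, L2d_qn_succ (k + 1)]
  have h6 : ((0 : Fin (k + 1)).succ : Fin (k + 2)) = 1 := rfl
  rw [h6]
  ring

/-- base of the tower -/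
theorem LevPre.base {σ : Slic (MF A W)} {Z : MF A W → ℂ} {r : MF A W → ℕ} {c : ℝ}
    (hσ : Stab σ Z r c) : ∃ τ : Slic (MFL A W 1), LevPre σ Z 0 τ := by
  have : (levTot A W 1).functor.IsEquivalence := levTot_one_equiv
  obtain ⟨τ, hU, hV, hτ⟩ := transport_stab (levTot A W 1).functor hσ
  have hP : ∀ (φ : ℝ) (G : MF A W), σ.P φ G → τ.P φ (lvl (0 : Fin 1) G) := by
    intro φ G hG
    obtain ⟨e⟩ := L2d_tot_lvl (0 : Fin 1) G
    have h1 : σ.P φ (tot (lvl (0 : Fin 1) G)) := L2d_P_iso e.symm hG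
    exact ⟨(hU _ _).2 h1.1, fun t ht => (hV _ _).2 (h1.2 t ht)⟩
  refine ⟨τ, ?_, fun v => v.elim0, ?_, ?_⟩
  · have h1 : Zlev Z (0 + 1) = fun X : MFL A W 1 => Z ((levTot A W 1).functor.obj X) := by
      funext X
      have h2 := tot_add Z hσ.add X
      rw [Fin.sum_univ_one] at h2
      unfold Zlev
      rw [Fin.sum_univ_one, ← h2]
      change qn 1 * _ = _
      rw [L2d_qn_one, one_mul]
    rw [h1]
    exact hτ.pre
  · exact hP
  · intro φ G hG
    have := hP φ G hG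
    simpa using this

/-- the hypotheses of the step theorem -/
theorem L2d_stepHyp {σ : Slic (MF A W)} {Z : MF A W → ℂ} {r : MF A W → ℕ} {c : ℝ} {k : ℕ}
    (hk : k ≤ 0) {τ : Slic (MFL A W (k + 1))} (h : LevPre σ Z k τ) (hσ : Stab σ Z r c) :
    StepHyp (levGlue A W k) σ Z r c τ (Zlev Z (k + 1)) (rlev r (k + 1)) (c / 2)
      (((k : ℝ) + 1) / 3) := by
  have hD := h.stab (by omega) hσ
  have hk' : (k : ℝ) ≤ 0 := by exact_mod_cast hk
  have hk0 : (0 : ℝ) ≤ k := Nat.cast_nonneg k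
  have e : ∀ G : MF A W, Nonempty ((levGlue A W k).x.obj ((levGlue A W k).n.obj G) ≅
      lvl (0 : Fin (k + 1)) G) := fun G => levX_lvl_zero G
  refine ⟨hσ, hD, by linarith, by linarith, ?_, ?_⟩
  · intro φ G hG
    obtain ⟨e⟩ := e G
    have h1 := h.full φ G hG
    have h2 : φ + (((k : ℝ) + 1) / 3 - 1 / 3) = φ + (k : ℝ) / 3 := by ring
    rw [h2]
    exact L2d_P_iso e.symm h1
  · intro G
    obtain ⟨e⟩ := e G
    rw [hD.add.isoC e, L2d_Zlev_lvl hσ.add]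
    have h1 := L2d_qn (k + 1)
    have h5 : ((Real.sin (Real.pi / 3) : ℝ) : ℂ) ≠ 0 := by
      exact_mod_cast StepHyp.sin_pos5.ne'
    have h2 : Real.pi * ((((k + 1 : ℕ) : ℝ)) / 3) = Real.pi * (((k : ℝ) + 1) / 3) := by
      push_cast; ring
    have h3 : ((((k + 1 : ℕ) : ℝ)) - 1) / 3 = ((k : ℝ) + 1) / 3 - 1 / 3 := by
      push_cast; ring
    rw [h2, h3] at h1
    push_cast at h1 ⊢
    rw [div_mul_eq_mul_div, ← h1]
    push_cast at h5
    field_simp

/-- step of the tower -/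
theorem LevPre.step {σ : Slic (MF A W)} {Z : MF A W → ℂ} {r : MF A W → ℕ} {c : ℝ} {k : ℕ}
    (hk : k ≤ 0) {τ : Slic (MFL A W (k + 1))} (h : LevPre σ Z k τ) (hσ : Stab σ Z r c) :
    ∃ τ' : Slic (MFL A W (k + 2)), LevPre σ Z (k + 1) τ' := by
  have H := L2d_stepHyp hk h hσ
  refine ⟨H.slic, ?_, ?_, ?_, ?_⟩
  · have h1 : Zlev Z (k + 1 + 1) = (levGlue A W k).Z Z (Zlev Z (k + 1)) (((k : ℝ) + 1) / 3) := by
      funext Y
      have h2 := L2d_Zlev_succ hσ.add k Y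
      have h3 : 2 * ((k + 1 : ℕ) : ℝ) / 3 = 2 * (((k : ℝ) + 1) / 3) := by push_cast; ring
      rw [h3] at h2
      exact h2
    rw [h1]
    exact H.preStab
  · intro v φ G hG
    refine Fin.cases ?_ (fun v => ?_) v
    · have h1 := H.M2 hG
      have h2 : φ + 2 * (((k + 1 : ℕ) : ℝ) - ((0 : Fin (k + 1)) : ℕ)) / 3 =
          φ + 2 * (((k : ℝ) + 1) / 3) := by
        push_cast; simp; ring
      rw [h2]
      exact h1
    · have h1 := H.M1 (h.simple v φ G hG)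
      obtain ⟨e⟩ := levI_sJ v G
      have h2 : φ + 2 * (((k + 1 : ℕ) : ℝ) - ((v.succ : Fin (k + 1)) : ℕ)) / 3 =
          φ + 2 * ((k : ℝ) - v) / 3 := by
        simp only [Fin.val_succ]
        push_cast; ring
      rw [h2]
      exact L2d_P_iso e h1
  · intro φ G hG
    have h1 := H.M1 (h.top φ G hG)
    obtain ⟨e⟩ := levI_lvl (Fin.last k) G
    exact L2d_P_iso e h1
  · intro φ G hG
    have h1 := H.M3 hG
    have h2 : φ + ((k + 1 : ℕ) : ℝ) / 3 = φ + (((k : ℝ) + 1) / 3) := by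
      push_cast; ring
    rw [h2]
    exact h1

/-- the top of the tower -/
theorem lev_four {σ : Slic (MF A W)} {Z : MF A W → ℂ} {r : MF A W → ℕ} {c : ℝ}
    (hσ : Stab σ Z r c) : ∃ τ : Slic (MFL A W 2), LevPre σ Z 1 τ ∧
      Stab τ (Zlev Z 2) (rlev r 2) (c / 2) := by
  obtain ⟨τ₁, h₁⟩ := LevPre.base hσ
  obtain ⟨τ₂, h₂⟩ := h₁.step (by norm_num) hσ
  exact ⟨τ₂, h₂, h₂.stab (by norm_num) hσ⟩

end Vale.Agent.P287T.G3
end
end

section

section

/-!
# Stability on `A.T` with side windows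
-/

open Matrix CategoryTheory CategoryTheory.Limits CategoryTheory.Pretriangulated Polynomial

namespace Vale.Agent.P287T.G3

variable {A : GCtx} {W : A.S}

/-- isomorphism `tw (-γ) (tw γ E) ≅ E` in the form needed here -/
noncomputable def T3a_twNeg (E : MF A W) {a b : A.Γ} (h : a + b = 0) : tw b (tw a E) ≅ E :=
  (twAdd E (show (0 : A.Γ) = a + b from h.symm)).symm ≪≫ twZero E rfl

/-- twisting raises `V` -/
theorem T3a_V {σ : Slic (MF A W)}
    (htw : ∀ (γ : A.Γ) (s : ℝ) (E : MF A W), σ.U s E → σ.U (s + (A.chΓ γ : ℝ) / 3) (tw γ E))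
    (γ : A.Γ) (s : ℝ) (E : MF A W) (h : σ.V s E) :
    σ.V (s + (A.chΓ γ : ℝ) / 3) (tw γ E) := by
  rw [σ.V_iff]
  intro X hX f
  have hX' : σ.U s (tw (-γ) X) := by
    have h1 := htw (-γ) _ _ hX
    have h2 : s + (A.chΓ γ : ℝ) / 3 + (A.chΓ (-γ) : ℝ) / 3 = s := by
      rw [map_neg]; push_cast; ring
    rwa [h2] at h1
  -- transport `f` to a map `tw (-γ) X ⟶ E`
  let e : tw (-γ) (tw γ E) ≅ E := T3a_twNeg E (add_neg_cancel γ)
  have h3 : (twF (-γ)).map f ≫ e.hom = 0 := (σ.ts s).hom hX' h _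
  have h4 : (twF (-γ)).map f = 0 := by
    rw [← cancel_mono e.hom, h3, Limits.zero_comp]
  have h5 : (twF γ).map ((twF (-γ)).map f) = 0 := by rw [h4, Functor.map_zero]
  -- naturality of `twAdd` and `twZero`
  have h6 := twAdd_nat f (show (0 : A.Γ) = -γ + γ by rw [neg_add_cancel])
  rw [h5, Limits.comp_zero] at h6
  have h7 : (twF (0 : A.Γ)).map f = 0 := by
    rw [← cancel_mono (twAdd (tw γ E) (show (0 : A.Γ) = -γ + γ by rw [neg_add_cancel])).hom, h6,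
      Limits.zero_comp]
  have h8 := twZero_nat f (show (0 : A.Γ) = 0 from rfl)
  rw [h7, Limits.zero_comp] at h8
  rw [← cancel_epi (twZero X (show (0 : A.Γ) = 0 from rfl)).hom, ← h8, Limits.comp_zero]

theorem T3a_Vc {σ : Slic (MF A W)}
    (htw : ∀ (γ : A.Γ) (s : ℝ) (E : MF A W), σ.U s E → σ.U (s + (A.chΓ γ : ℝ) / 3) (tw γ E))
    (γ : A.Γ) (s : ℝ) (E : MF A W) (h : σ.Vc s E) :
    σ.Vc (s + (A.chΓ γ : ℝ) / 3) (tw γ E) := by
  intro t ht
  have h1 := h (t - (A.chΓ γ : ℝ) / 3) (by linarith)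
  have h2 := T3a_V htw γ _ E h1
  have h3 : t - (A.chΓ γ : ℝ) / 3 + (A.chΓ γ : ℝ) / 3 = t := by ring
  rwa [h3] at h2

/-- from a twisted isomorphism back to the object -/
theorem T3a_back_U {σ : Slic (MF A W)}
    (htw : ∀ (γ : A.Γ) (s : ℝ) (E : MF A W), σ.U s E → σ.U (s + (A.chΓ γ : ℝ) / 3) (tw γ E))
    {G E : MF A W} {n : ℤ} (e : Nonempty (G ≅ tw (A.en n) E)) {s t : ℝ} (h : σ.U s G)
    (ht : t = s - (n : ℝ) / 3) : σ.U t E := by
  obtain ⟨e⟩ := e
  have h1 := htw (A.en (-n)) s _ ((σ.ts s).isoU e h)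
  rw [A.chΓ_en] at h1
  have h2 : s + ((-n : ℤ) : ℝ) / 3 = t := by rw [ht]; push_cast; ring
  rw [h2] at h1
  exact (σ.ts t).isoU (T3a_twNeg E (by rw [← A.en_add, add_neg_cancel, A.en_zero])) h1

theorem T3a_back_Vc {σ : Slic (MF A W)}
    (htw : ∀ (γ : A.Γ) (s : ℝ) (E : MF A W), σ.U s E → σ.U (s + (A.chΓ γ : ℝ) / 3) (tw γ E))
    {G E : MF A W} {n : ℤ} (e : Nonempty (G ≅ tw (A.en n) E)) {s t : ℝ} (h : σ.Vc s G)
    (ht : t = s - (n : ℝ) / 3) : σ.Vc t E := by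
  obtain ⟨e⟩ := e
  have h1 := T3a_Vc htw (A.en (-n)) s _ (σ.isoVc e h)
  rw [A.chΓ_en] at h1
  have h2 : s + ((-n : ℤ) : ℝ) / 3 = t := by rw [ht]; push_cast; ring
  rw [h2] at h1
  exact σ.isoVc (T3a_twNeg E (by rw [← A.en_add, add_neg_cancel, A.en_zero])) h1

/-- central charge of a twisted isomorphic object -/
theorem T3a_Z {κ : ℂ} (hadd : AddTri (fun E : MF A W => κ * Zf E)) {G E : MF A W} {n : ℤ}
    (e : Nonempty (G ≅ tw (A.en n) E)) : κ * Zf G = ray ((n : ℝ) / 3) * (κ * Zf E) := by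
  obtain ⟨e⟩ := e
  have h1 : κ * Zf G = κ * Zf (tw (A.en n) E) := hadd.isoC e
  rw [h1, Zf_tw, A.chΓ_en]
  ring

theorem T3a_ray_pow (a : ℝ) (n : ℕ) : ray (n * a) = ray a ^ n := by
  induction n with
  | zero => simp [ray_zero]
  | succ n ih =>
    rw [pow_succ, ← ih, ← ray_add]
    congr 1
    push_cast
    ring

theorem T3a_forall {P : ZMod 3 → Prop} (h0 : P 0) (h1 : P 1) (h2 : P 2) :
    ∀ v, P v := by
  intro v
  fin_cases v
  exacts [h0, h1, h2]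

theorem T3a_sum {M : Type} [AddCommMonoid M] (f : ZMod 3 → M) :
    ∑ v, f v = f 0 + f 1 + f 2 :=
  Fin.sum_univ_three (f : Fin 3 → M)

theorem T3a_q_ne : ray (2 / 3) ≠ 1 := by
  intro h
  rw [ray_eq] at h
  have h1 : Real.cos (Real.pi * (2 / 3)) = 1 := by
    have := congrArg Complex.re h
    simpa using this
  have h2 : Real.cos (Real.pi * (2 / 3)) < Real.cos 0 :=
    Real.cos_lt_cos_of_nonneg_of_le_pi le_rfl
      (by have := Real.pi_pos; linarith) (by have := Real.pi_pos; positivity)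
  rw [Real.cos_zero] at h2
  linarith

/-- the algebraic identity behind the central charge -/
theorem T3a_alg {q p x₀ x₁ x₂ : ℂ} (hq : q ≠ 1) (hpq : p * q = 1) (hp : p ^ 2 = q)
    (h : p ^ 2 * x₀ + p * x₁ + x₂ = 0) :
    (1 + q) * (p * x₁) + x₂ = q / (q - 1) * (x₀ + x₁ + x₂) := by
  have hq1 : q - 1 ≠ 0 := sub_ne_zero.2 hq
  rw [div_mul_eq_mul_div, eq_div_iff hq1]
  rw [hp] at h
  linear_combination (q * x₁) * hpq - h

theorem T3a_rk [GCtx.Aug A] (hrk : IsRk (rk : MF A W → ℕ)) {G E : MF A W} {n : ℤ}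
    (e : Nonempty (G ≅ tw (A.en n) E)) : rk G = rk E := by
  obtain ⟨e⟩ := e
  rw [hrk.iso e, rk_tw]

theorem T3a_qn (n : ℕ) : qn n = ∑ j ∈ Finset.range n, ray (2 / 3) ^ j := by
  unfold qn
  refine Finset.sum_congr rfl fun j _ => ?_
  rw [← T3a_ray_pow]
  congr 1
  ring

/-- central charge of `tl4 E` -/
theorem T3a_Zlev {κ : ℂ} (hadd : AddTri (fun E : MF A W => κ * Zf E)) (E : MFT A W) :
    Zlev (fun E : MF A W => κ * Zf E) 2 (tl4 E) =
      κ * (ray (2 / 3) / (ray (2 / 3) - 1)) * Zf E := by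
  have hq : ray (2 / 3) ≠ 1 := T3a_q_ne
  have hpq : ray (-2 / 3) * ray (2 / 3) = 1 := by
    rw [← ray_add, ← ray_zero]; congr 1; ring
  have hray2 : ray 2 = 1 := by
    have : (2 : ℝ) = 1 + 1 := by norm_num
    rw [this, ray_add, ray_one]; norm_num
  have hp : ray (-2 / 3) ^ 2 = ray (2 / 3) := by
    rw [← T3a_ray_pow]
    have : ((2 : ℕ) : ℝ) * (-2 / 3) + 2 = 2 / 3 := by norm_num
    rw [← this, ray_add, hray2, mul_one]
  have hray : ∀ (n : ℕ) (z : ℤ), z = -2 * (n : ℤ) → ray ((z : ℝ) / 3) = ray (-2 / 3) ^ n := by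
    intro n z hz
    rw [← T3a_ray_pow, hz]
    congr 1
    push_cast
    ring
  have h5 : ∀ (v : Fin 3) (n : ℕ) (u : ZMod 3), -2 * (2 - ((v : ℕ) : ℤ)) = -2 * (n : ℤ) →
      ((v.val : ℕ) : ZMod 3) = u →
      κ * Zf (gr v (tl5 E)) = ray (-2 / 3) ^ n * (κ * Zf (tgr u E)) := by
    intro v n u hn hu
    rw [← hu, ← hray n _ hn]
    exact T3a_Z hadd (gr_tl5 v E)
  have h4 : ∀ (v : Fin 2) (n : ℕ) (u : ZMod 3), -2 * (1 - ((v : ℕ) : ℤ)) = -2 * (n : ℤ) →
      ((v.val + 1 : ℕ) : ZMod 3) = u →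
      κ * Zf (gr v (tl4 E)) = ray (-2 / 3) ^ n * (κ * Zf (tgr u E)) := by
    intro v n u hn hu
    rw [← hu, ← hray n _ hn]
    exact T3a_Z hadd (gr_tl4 v E)
  -- the fifth side
  have h0 : κ * Zf (tot (tl5 E)) = 0 := hadd.zeroC (tot_tl5 E)
  have h1 : κ * Zf (tot (tl5 E)) = ∑ v : Fin 3, κ * Zf (gr v (tl5 E)) :=
    tot_add (fun E : MF A W => κ * Zf E) hadd (tl5 E)
  rw [h0, Fin.sum_univ_three, h5 0 2 0 (by decide) (by decide), h5 1 1 1 (by decide) (by decide),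
    h5 2 0 2 (by decide) (by decide), pow_zero, one_mul, pow_one] at h1
  have h2 : Zlev (fun E : MF A W => κ * Zf E) 2 (tl4 E) =
      ∑ v : Fin 2, qn (2 - v) * (κ * Zf (gr v (tl4 E))) := rfl
  rw [h2, Fin.sum_univ_two, h4 0 1 1 (by decide) (by decide), h4 1 0 2 (by decide) (by decide),
    pow_zero, one_mul, pow_one]
  have q2 : qn (2 - ((0 : Fin 2) : ℕ)) = 1 + ray (2 / 3) := by
    rw [T3a_qn]
    change ∑ j ∈ Finset.range 2, ray (2 / 3) ^ j = _
    simp only [Finset.sum_range_succ, Finset.sum_range_zero, pow_zero, pow_one, zero_add]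
  have q1 : qn (2 - ((1 : Fin 2) : ℕ)) = 1 := by
    rw [T3a_qn]
    change ∑ j ∈ Finset.range 1, ray (2 / 3) ^ j = _
    simp only [Finset.sum_range_succ, Finset.sum_range_zero, pow_zero, zero_add]
  rw [q2, q1, one_mul, T3a_alg hq hpq hp h1.symm, Zf_eq_sum, T3a_sum]
  ring

/-- rank of `tl4 E` -/
theorem T3a_rlev [GCtx.Aug A] (hrk : IsRk (rk : MF A W → ℕ)) (E : MFT A W) :
    rlev rk 2 (tl4 E) = rk E := by
  have h2 : rlev rk 2 (tl4 E) = (∑ v : Fin 2, rk (gr v (tl4 E))) + rk (tot (tl4 E)) := rfl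
  have h4 : ∀ (v : Fin 2) (u : ZMod 3), ((v.val + 1 : ℕ) : ZMod 3) = u →
      rk (gr v (tl4 E)) = rk (tgr u E) := by
    intro v u hu
    rw [← hu]
    exact T3a_rk hrk (gr_tl4 v E)
  rw [h2, Fin.sum_univ_two, h4 0 1 (by decide), h4 1 2 (by decide), T3a_rk hrk (tot_tl4 E), rk_eq_sum, T3a_sum]
  omega

/-- stability on `A.T` together with the three windows `[φ, φ + 1/3]` for the sides -/
theorem T_windows [GCtx.Aug A] {σ : Slic (MF A W)} {κ : ℂ} {c : ℝ}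
    (hσ : Stab σ (fun E => κ * Zf E) rk c) (hκ : κ ≠ 0)
    (htw : ∀ (γ : A.Γ) (s : ℝ) (E : MF A W), σ.U s E → σ.U (s + (A.chΓ γ : ℝ) / 3) (tw γ E)) :
    ∃ (τ : Slic (MFT A W)) (κ' : ℂ) (c' : ℝ), κ' ≠ 0 ∧
      Stab τ (fun E => κ' * Zf E) rk c' ∧
      (∀ (φ : ℝ) (E : MFT A W), τ.U φ E → ∀ v, σ.U φ (tgr v E)) ∧
      (∀ (φ : ℝ) (E : MFT A W), τ.Vc φ E → ∀ v, σ.Vc (φ + 1 / 3) (tgr v E)) := by
  obtain ⟨τ₄, hpre, hst⟩ := lev_four hσ
  have := TL4_equiv A W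
  obtain ⟨τ, hU, hV, hτ⟩ := transport_stab (TL4 A W) hst
  have hVc : ∀ s X, τ.Vc s X → τ₄.Vc s (tl4 X) := fun s X h t ht => (hV t X).1 (h t ht)
  have hZ : (fun X : MFT A W => Zlev (fun E : MF A W => κ * Zf E) 2 ((TL4 A W).obj X)) =
      fun X => κ * (ray (2 / 3) / (ray (2 / 3) - 1)) * Zf X :=
    funext fun X => T3a_Zlev hσ.add X
  have hr : (fun X : MFT A W => rlev rk 2 ((TL4 A W).obj X)) = rk :=
    funext fun X => T3a_rlev hσ.rk X
  rw [hZ, hr] at hτ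
  refine ⟨τ, κ * (ray (2 / 3) / (ray (2 / 3) - 1)), c / 2, ?_, hτ, ?_, ?_⟩
  · exact mul_ne_zero hκ (div_ne_zero (ray_ne_zero _) (sub_ne_zero.2 T3a_q_ne))
  · intro φ E hE
    have hE' : τ₄.U φ (tl4 E) := (hU φ E).1 hE
    have h4 : ∀ (v : Fin 2) (u : ZMod 3), ((v.val + 1 : ℕ) : ZMod 3) = u →
        σ.U φ (tgr u E) := by
      intro v u hu
      rw [← hu]
      refine T3a_back_U htw (gr_tl4 v E) (hpre.gr_U hσ.hn hE' v) ?_
      push_cast
      ring
    have h0 : σ.U φ (tgr 0 E) := by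
      refine T3a_back_U htw (tot_tl4 E) (hpre.tot_U hσ.hn hE') ?_
      push_cast
      ring
    exact T3a_forall h0 (h4 0 1 (by decide)) (h4 1 2 (by decide))
  · intro φ E hE
    have hE' : τ₄.Vc φ (tl4 E) := hVc φ E hE
    have h4 : ∀ (v : Fin 1) (u : ZMod 3), ((v.val + 2 : ℕ) : ZMod 3) = u →
        σ.Vc (φ + 1 / 3) (tgr u E) := by
      intro v u hu
      rw [← hu]
      refine T3a_back_Vc htw (gr_tl4 v.succ E) (hpre.gr_succ_V hσ.hn hE' v) ?_
      simp only [Fin.val_succ]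
      push_cast
      ring
    have h1 : σ.Vc (φ + 1 / 3) (tgr 1 E) := by
      refine T3a_back_Vc htw (gr_tl4 0 E) (hpre.gr_zero_V hσ.hn hE') ?_
      simp only [Fin.val_zero]
      push_cast
      ring
    have h0 : σ.Vc (φ + 1 / 3) (tgr 0 E) := by
      refine T3a_back_Vc htw (tot_tl4 E) (hpre.tot_V hσ.hn hE') ?_
      push_cast
      ring
    exact T3a_forall h0 h1 (h4 0 2 (by decide))

end Vale.Agent.P287T.G3
end
end

section

section

/-!
# Gepner-type stability passes from `(A, W)` to `(A.T, W + y^3)`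
-/

open Matrix CategoryTheory CategoryTheory.Limits CategoryTheory.Pretriangulated Polynomial

namespace Vale.Agent.P287T.G3

variable {A : GCtx} {W : A.S}

/-- the twist action on the aisles can be undone -/
theorem T3_untw {σ : Slic (MF A W)}
    (htw : ∀ (γ : A.Γ) (s : ℝ) (E : MF A W), σ.U s E → σ.U (s + (A.chΓ γ : ℝ) / 3) (tw γ E))
    (γ : A.Γ) {s : ℝ} {E : MF A W} (h : σ.U (s + (A.chΓ γ : ℝ) / 3) (tw γ E)) : σ.U s E := by
  have h1 := htw (-γ) _ _ h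
  have h2 : s + (A.chΓ γ : ℝ) / 3 + (A.chΓ (-γ) : ℝ) / 3 = s := by
    rw [map_neg]
    push_cast
    ring
  rw [h2] at h1
  have e : tw (-γ) (tw γ E) ≅ E :=
    (twAdd E (a := γ) (b := -γ) (c := 0) (by simp)).symm ≪≫ twZero E rfl
  exact (σ.ts s).isoU e h1

/-- the Fermat step -/
theorem gep_T [GCtx.Aug A] (h : Gep A W) : Gep A.T (WT A W) := by
  obtain ⟨σ, κ, c, hκ, hσ, htw⟩ := h
  obtain ⟨τ, κ', c', hκ', hτ, hU, hV⟩ := T_windows hσ hκ htw
  refine ⟨τ, κ', c', hκ', hτ, ?_⟩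
  intro γ s E hE
  obtain ⟨g, u⟩ := γ
  have hch : A.T.chΓ ((g, u) : A.Γ × ZMod 3) = A.chΓ g := rfl
  have hZ : ∀ F : MFT A W, κ' * Zf (tw ((g, u) : A.Γ × ZMod 3) F) =
      ray ((A.chΓ g : ℝ) / 3) * (κ' * Zf F) := by
    intro F
    have h1 := Zf_tw (A := A.T) (W := WT A W) ((g, u) : A.Γ × ZMod 3) F
    rw [hch] at h1
    rw [h1]
    ring
  obtain ⟨τ', h'U, -, h'S⟩ := twist_slic (A := A.T) (W := WT A W) ((g, u) : A.Γ × ZMod 3)
    ((A.chΓ g : ℝ) / 3) hτ hZ (fun F => rk_tw (A := A.T) (W := WT A W) ((g, u) : A.Γ × ZMod 3) F)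
  have hVV : ∀ (a : ℝ) (Y : MFT A W), τ.V a Y → ∀ v, σ.V (a + 1) (tgr v Y) := by
    intro a Y hY v
    exact σ.Vc_le_V (by linarith) (hV a Y (τ.V_le_Vc le_rfl hY) v)
  have k1 : ∀ (s : ℝ) (X : MFT A W), τ.U (s + 1) X → τ'.U s X := by
    intro s X hX
    rw [h'U, τ.U_iff]
    intro Y hY
    refine hom_zero_of_sides htw (a := s + (A.chΓ g : ℝ) / 3 + 1) ?_ (hVV _ Y hY)
    intro v
    obtain ⟨e⟩ := tgr_tw (A := A) (W := W) g u v X
    refine (σ.ts _).isoU e.symm ?_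
    have h1 := htw g _ _ (hU _ _ hX (v + u))
    rwa [show s + (A.chΓ g : ℝ) / 3 + 1 = s + 1 + (A.chΓ g : ℝ) / 3 by ring]
  have k2 : ∀ (s : ℝ) (X : MFT A W), τ'.U (s + 1) X → τ.U s X := by
    intro s X hX
    rw [h'U] at hX
    rw [τ.U_iff]
    intro Y hY
    refine hom_zero_of_sides htw (a := s + 1) ?_ (hVV _ Y hY)
    intro v
    obtain ⟨e⟩ := tgr_tw (A := A) (W := W) g u (v - u) X
    rw [sub_add_cancel] at e
    exact T3_untw htw g ((σ.ts _).isoU e (hU _ _ hX (v - u)))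
  have k3 := (slic_unique hτ h'S k1 k2 s E).1 hE
  rw [h'U] at k3
  rw [hch]
  exact k3

end Vale.Agent.P287T.G3
end
end

section

section

/-!
# Assembly: Gepner-type stability for all smooth quintic forms in five variables
-/

open Matrix CategoryTheory CategoryTheory.Limits CategoryTheory.Pretriangulated Polynomial

namespace Vale.Agent.P287T.G3

/-! ### derivations of degree `-2` -/

/-- derivations of charge `-2` -/
structure F1Der (A : GCtx) where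
  D : A.S → A.S
  add : ∀ x y, D (x + y) = D x + D y
  mul : ∀ x y, D (x * y) = x * D y + D x * y
  deg : ∀ {a b : A.L} {s : A.S}, s ∈ A.H a b → D s ∈ A.H (A.en (-2) +ᵥ a) b

namespace F1Der

variable {A : GCtx} (δ : F1Der A)

theorem zero : δ.D 0 = 0 := by
  have := δ.add 0 0
  rw [add_zero] at this
  exact left_eq_add.1 this

theorem one : δ.D 1 = 0 := by
  have := δ.mul 1 1
  rw [one_mul, one_mul, mul_one] at this
  exact left_eq_add.1 this

/-- as an additive map -/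
def hom : A.S →+ A.S := AddMonoidHom.mk' δ.D δ.add

theorem NH {W : A.S} (E : MF A W) : NH E (δ.D W) (A.en 4) := by
  refine ⟨E.d.map δ.D, ?_, ?_⟩
  · intro i j
    have h1 := δ.deg (E.deg i j)
    have e : A.en 4 - A.en 3 = A.en (-2) + A.en 3 := by
      rw [sub_eq_iff_eq_add, ← A.en_add, ← A.en_add]; norm_num
    rw [e, ← vadd_vadd]
    exact h1
  · ext i j
    have h1 : (E.d * E.d) i j = (W • (1 : Matrix E.ι E.ι A.S)) i j := by rw [E.sq]
    have h2 := congrArg δ.D h1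
    rw [Matrix.mul_apply] at h2
    have h3 : δ.D (∑ k, E.d i k * E.d k j) = ∑ k, δ.D (E.d i k * E.d k j) :=
      map_sum δ.hom _ _
    rw [h3] at h2
    have h4 : δ.D ((W • (1 : Matrix E.ι E.ι A.S)) i j) = (δ.D W • (1 : Matrix E.ι E.ι A.S)) i j := by
      by_cases hij : i = j
      · subst hij
        simp
      · simp [Matrix.one_apply_ne hij, δ.zero]
    rw [h4] at h2
    rw [← h2, Matrix.add_apply, Matrix.mul_apply, Matrix.mul_apply, ← Finset.sum_add_distrib]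
    refine Finset.sum_congr rfl fun k _ => ?_
    rw [δ.mul]
    rfl

/-- coefficientwise extension -/
noncomputable def extFun (f : A.S[X]) : A.S[X] :=
  ∑ n ∈ f.support, Polynomial.monomial n (δ.D (f.coeff n))

theorem coeff_extFun (f : A.S[X]) (n : ℕ) : (δ.extFun f).coeff n = δ.D (f.coeff n) := by
  unfold extFun
  rw [Polynomial.finsetSum_coeff]
  simp only [Polynomial.coeff_monomial]
  rw [Finset.sum_ite_eq' f.support n]
  split_ifs with h
  · rfl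
  · rw [Polynomial.notMem_support_iff.1 h, δ.zero]

theorem extFun_add (x y : A.S[X]) : δ.extFun (x + y) = δ.extFun x + δ.extFun y := by
  refine Polynomial.ext fun n => ?_
  rw [coeff_extFun, Polynomial.coeff_add, Polynomial.coeff_add, coeff_extFun, coeff_extFun, δ.add]

theorem extFun_mul (x y : A.S[X]) : δ.extFun (x * y) = x * δ.extFun y + δ.extFun x * y := by
  refine Polynomial.ext fun n => ?_
  rw [coeff_extFun, Polynomial.coeff_add, Polynomial.coeff_mul, Polynomial.coeff_mul,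
    Polynomial.coeff_mul, ← Finset.sum_add_distrib]
  have h3 : δ.D (∑ p ∈ Finset.HasAntidiagonal.antidiagonal n, x.coeff p.1 * y.coeff p.2)
      = ∑ p ∈ Finset.HasAntidiagonal.antidiagonal n, δ.D (x.coeff p.1 * y.coeff p.2) :=
    map_sum δ.hom _ _
  rw [h3]
  refine Finset.sum_congr rfl fun p _ => ?_
  rw [δ.mul, coeff_extFun, coeff_extFun]

theorem extFun_deg {a b : A.L} {s : A.S[X]} (hs : ∀ n : ℕ, s.coeff n ∈ A.H (-(n • A.en 2) +ᵥ a) b)
    (n : ℕ) : (δ.extFun s).coeff n ∈ A.H (-(n • A.en 2) +ᵥ (A.en (-2) +ᵥ a)) b := by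
  rw [coeff_extFun]
  have h1 := δ.deg (hs n)
  have e : (A.en (-2) +ᵥ (-(n • A.en 2) +ᵥ a) : A.L) = (-(n • A.en 2) +ᵥ (A.en (-2) +ᵥ a)) := by
    rw [vadd_vadd, vadd_vadd, add_comm]
  rw [e] at h1
  exact h1

/-- extension to `A.P`, coefficientwise -/
noncomputable def ext : F1Der A.P where
  D := δ.extFun
  add x y := δ.extFun_add x y
  mul x y := δ.extFun_mul x y
  deg hs n := δ.extFun_deg hs n

theorem deriv_deg (A : GCtx) {a b : A.L} {s : A.S[X]}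
    (hs : ∀ n : ℕ, s.coeff n ∈ A.H (-(n • A.en 2) +ᵥ a) b)
    (n : ℕ) : (Polynomial.derivative s).coeff n ∈ A.H (-(n • A.en 2) +ᵥ (A.en (-2) +ᵥ a)) b := by
  rw [Polynomial.coeff_derivative]
  have h1 := hs (n + 1)
  have e : (-((n + 1) • A.en 2) +ᵥ a : A.L) = (-(n • A.en 2) +ᵥ (A.en (-2) +ᵥ a)) := by
    rw [vadd_vadd]
    congr 1
    rw [succ_nsmul, A.en_neg]
    abel
  rw [e] at h1
  have h2 : s.coeff (n + 1) * ((n : A.S) + 1) = (n + 1) • s.coeff (n + 1) := by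
    rw [nsmul_eq_mul, mul_comm]
    push_cast
    rfl
  rw [h2]
  exact nsmul_mem h1 _

/-- the derivation with respect to the last variable -/
noncomputable def dX (A : GCtx) : F1Der A.P where
  D := fun f => Polynomial.derivative (R := A.S) f
  add x y := Polynomial.derivative_add (R := A.S)
  mul x y := by
    have : ∀ x y : A.S[X], Polynomial.derivative (x * y) =
      x * Polynomial.derivative y + Polynomial.derivative x * y := fun x y => by
        rw [Polynomial.derivative_mul, add_comm]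
    exact this x y
  deg hs n := deriv_deg A hs n

end F1Der

theorem F1_NH_smul {A : GCtx} [GCtx.Aug A] {W : A.S} {E : MF A W} {s : A.S} {γ : A.Γ}
    (h : NH E s γ) (z : ℂ) : NH E (GCtx.Aug.cst (A := A) z * s) γ := by
  obtain ⟨k, hk, e⟩ := h
  refine ⟨GCtx.Aug.cst (A := A) z • k, ?_, ?_⟩
  · intro i j
    rw [Matrix.smul_apply, smul_eq_mul]
    exact A.mul_mem (GCtx.Aug.cst_mem _ _) (hk i j)
  · rw [Matrix.mul_smul, Matrix.smul_mul, ← smul_add, ← e, smul_smul]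

theorem F1_der_X {R : Type} [CommRing R] (f : R) :
    Polynomial.derivative (C f + X ^ 3 : R[X]) = 3 * (X : R[X]) ^ 2 := by
  rw [Polynomial.derivative_add, Polynomial.derivative_C, zero_add, Polynomial.derivative_X_pow]
  norm_num
  rfl

theorem F1_ext_C {A : GCtx} (δ : F1Der A) {W t : A.S} (h : δ.D W = 3 * t ^ 2) :
    δ.extFun (C W + X ^ 3 : A.S[X]) = 3 * (C t : A.S[X]) ^ 2 := by
  refine Polynomial.ext fun k => ?_
  rw [F1Der.coeff_extFun, Polynomial.coeff_add, Polynomial.coeff_C, Polynomial.coeff_X_pow]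
  have e5 : (3 * (C t : A.S[X]) ^ 2) = C (3 * t ^ 2) := by
    rw [C_mul, C_pow]
    rfl
  rw [e5, Polynomial.coeff_C]
  split_ifs with h1 h2
  · omega
  · rw [add_zero, h]
  · rw [zero_add, δ.one]
  · rw [add_zero, δ.zero]

/-- for every variable `s` there is a derivation with `D (Fer n) = 3 s^2` -/
theorem F1_exists_der : ∀ (n : ℕ) (s : (co n).S), s ∈ vars n →
    ∃ δ : F1Der (co n), δ.D (Fer n) = 3 * s ^ 2
  | 0, s, hs => absurd hs (Set.notMem_empty s)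
  | n + 1, s, hs => by
    rcases hs with hs | ⟨t, ht, hs⟩
    · exact ⟨F1Der.dX (co n), hs ▸ F1_der_X (Fer n)⟩
    · obtain ⟨δ, hδ⟩ := F1_exists_der n t ht
      exact ⟨δ.ext, hs ▸ F1_ext_C δ hδ⟩

theorem F1_pot_aux {A : GCtx} {W : A.S} (h : A.IsPot W) (a : A.L) (k : ℕ) :
    (C W + X ^ 3 : A.S[X]).coeff k ∈ A.H (-(k • A.en 2) +ᵥ (A.en 6 +ᵥ a)) a := by
  rw [Polynomial.coeff_add, Polynomial.coeff_C, Polynomial.coeff_X_pow]
  split_ifs with h1 h2 h2
  · omega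
  · subst h1
    rw [add_zero, zero_smul, neg_zero, zero_vadd]
    exact h a
  · subst h2
    rw [zero_add]
    have e : (-(3 • A.en 2) +ᵥ (A.en 6 +ᵥ a) : A.L) = a := by
      rw [vadd_vadd]
      have : -(3 • A.en 2) + A.en 6 = 0 := by
        unfold GCtx.en
        rw [← natCast_zsmul, smul_smul, neg_add_eq_zero]
        norm_num
      rw [this, zero_vadd]
    rw [e]
    exact A.one_mem a
  · rw [add_zero]
    exact zero_mem _

theorem F1_isPot : ∀ n : ℕ, (co n).IsPot (Fer n)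
  | 0 => fun _ => zero_mem _
  | n + 1 => fun a k => F1_pot_aux (F1_isPot n) a k

theorem F1_ev_aux {A : GCtx} [GCtx.Aug A] {W : A.S} (h : GCtx.Aug.ev W = 0) :
    GCtx.Aug.ev (A := A) ((C W + X ^ 3 : A.S[X]).coeff 0) = 0 := by
  rw [Polynomial.coeff_add, Polynomial.coeff_C_zero, Polynomial.coeff_X_pow]
  simp [h]

theorem F1_ev : ∀ n : ℕ, GCtx.Aug.ev (Fer n) = 0
  | 0 => map_zero (RingHom.id ℂ)
  | n + 1 => F1_ev_aux (F1_ev n)

/-- for the Fermat potential all the variables satisfy `y^2 ≃ 0` -/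
theorem F1_nilp (n : ℕ) : Nilp (co n) (Fer n) (vars n) 2 := by
  refine ⟨fun E s hs => ?_⟩
  obtain ⟨δ, hδ⟩ := F1_exists_der n s hs
  have h1 := δ.NH E
  rw [hδ] at h1
  have h2 := F1_NH_smul h1 (1 / 3)
  have e : GCtx.Aug.cst (A := co n) (1 / 3) * (3 * s ^ 2) = s ^ 2 := by
    rw [← mul_assoc]
    have : GCtx.Aug.cst (A := co n) (1 / 3) * 3 = 1 := by
      have h5 : (3 : (co n).S) = GCtx.Aug.cst (A := co n) 3 := by
        rw [map_ofNat]
      rw [h5, ← map_mul]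
      norm_num
    rw [this, one_mul]
  rw [e] at h2
  have e2 : (co n).en (2 * ((2 : ℕ) : ℤ)) = (co n).en 4 := by norm_num
  rw [e2]
  exact h2


theorem Fer_isPot (n : ℕ) : (co n).IsPot (Fer n) := F1_isPot n

theorem ev_Fer (n : ℕ) : GCtx.Aug.ev (Fer n) = 0 := F1_ev n

/-- for the Fermat potential all the variables satisfy `y^2 ≃ 0` -/
theorem nilp_Fer (n : ℕ) : Nilp (co n) (Fer n) (vars n) 2 := F1_nilp n

theorem gep_Fer (n : ℕ) : Gep (co n) (Fer n) := by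
  induction n with
  | zero => exact gep_pt
  | succ n ih =>
    obtain ⟨σ, κ, c, hκ, hσ, htw⟩ := gep_T ih
    have D : Nonempty (Desc (co n).T (WT (co n) (Fer n)) σ (co n).P (WP (co n) (Fer n))) :=
      desc_Fo htw desc_refl
    exact gep_of_desc (B := (co n).T) (V := WT (co n) (Fer n)) (n := n + 1)
      (Fer_isPot (n + 1)) (N := 2) (by norm_num) (nilp_Fer (n + 1)) (F1_ev_aux (ev_Fer n))
      hκ hσ htw D

theorem gep_TT {A : GCtx} [GCtx.Aug A] {W : A.S} (h : Gep A W) (m : ℕ) :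
    Gep (TT A m) (TTW A W m) := by
  induction m with
  | zero => exact h
  | succ m ih => exact gep_T ih

theorem F1_ev_TTW {A : GCtx} [GCtx.Aug A] {W : A.S} (h : GCtx.Aug.ev W = 0) :
    ∀ m : ℕ, GCtx.Aug.ev (TTW A W m) = 0
  | 0 => h
  | m + 1 => F1_ev_aux (A := TT A m) (F1_ev_TTW h m)

theorem F1_pow_mem {A : GCtx} {l : A.S} (hl : ∀ a, l ∈ A.H (A.en 2 +ᵥ a) a) :
    ∀ (k : ℕ) (a : A.L), l ^ k ∈ A.H (A.en (2 * k) +ᵥ a) a
  | 0, a => by
    rw [pow_zero]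
    simpa [A.en_zero] using A.one_mem a
  | k + 1, a => by
    rw [pow_succ]
    refine A.mul_mem (F1_pow_mem hl k a) ?_
    have e : (A.en (2 * ((k + 1 : ℕ) : ℤ)) +ᵥ a : A.L) = A.en 2 +ᵥ (A.en (2 * (k : ℤ)) +ᵥ a) := by
      rw [vadd_vadd, ← A.en_add]
      congr 2
      push_cast
      ring
    rw [e]
    exact hl _

theorem F1_sum_pot {A : GCtx} {W : A.S} (hW : A.IsPot W) (ls : List A.S)
    (hls : ∀ l ∈ ls, ∀ a, l ∈ A.H (A.en 2 +ᵥ a) a) : A.IsPot (W + (ls.map (· ^ 3)).sum) := by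
  intro a
  refine add_mem (hW a) (list_sum_mem fun x hx => ?_)
  obtain ⟨l, hl, rfl⟩ := List.mem_map.1 hx
  have := F1_pow_mem (hls l hl) 3 a
  norm_num at this
  exact this

/-- sums of fifth powers -/
theorem gep_sum {n : ℕ} (ls : List (co n).S)
    (hls : ∀ l ∈ ls, ∀ a, l ∈ (co n).H ((co n).en 2 +ᵥ a) a) {N : ℕ} (hN : 1 ≤ N)
    (hnil : Nilp (co n) (Fer n + (ls.map (· ^ 3)).sum) (vars n) N) :
    Gep (co n) (Fer n + (ls.map (· ^ 3)).sum) := by
  obtain ⟨σ, κ, c, hκ, hσ, htw⟩ := gep_TT (gep_Fer n) ls.length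
  have D := desc_list (A := co n) htw ls (Fer n) (Fer_isPot n) hls desc_refl
  exact gep_of_desc (B := TT (co n) ls.length) (V := TTW (co n) (Fer n) ls.length)
    (F1_sum_pot (Fer_isPot n) ls hls) hN hnil (F1_ev_TTW (ev_Fer n) ls.length) hκ hσ htw D

theorem F1_map_aux {R S : Type} [CommRing R] [CommRing S] (φ : R ≃+* S) {W F : R} {ls : List R}
    (h : W = F + (ls.map (· ^ 3)).sum) : φ W = φ F + ((ls.map φ).map (· ^ 3)).sum := by
  rw [h, map_add, map_list_sum, List.map_map, List.map_map]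
  congr 2
  refine List.map_congr_left fun l _ => ?_
  simp

theorem F1_mem_aux {A B : GCtx} (I : CIso A B) {l : A.S} (hl : ∀ a, l ∈ A.H (A.en 2 +ᵥ a) a)
    (b : B.L) : I.φ l ∈ B.H (B.en 2 +ᵥ b) b := by
  obtain ⟨a, rfl⟩ := I.lab.surjective b
  have h1 := (I.H _ _ _).1 (hl a)
  rw [I.vadd] at h1
  have e : I.ψ (A.en 2) = B.en 2 := by
    unfold GCtx.en
    rw [map_zsmul, I.e]
  rw [e] at h1
  exact h1

end Vale.Agent.P287T.G3
end
end

section

section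

/-!
# Uniform bounds for `Σ_m dim Hom(E, F[m])`
-/

open Matrix CategoryTheory CategoryTheory.Limits CategoryTheory.Pretriangulated

namespace Vale.Agent.P287T.G3

/-- `Σ_m dim Hom(E, F[m]) ≤ C rk(E)` for all `E` -/
def HomBd {A : GCtx} [GCtx.Aug A] {W : A.S} (F : MF A W) : Prop :=
  ∃ C : ℕ, ∀ E : MF A W, (∀ m : ℤ, Module.Finite ℂ (E ⟶ F⟦m⟧)) ∧
    ∀ s : Finset ℤ, ∑ m ∈ s, Module.finrank ℂ (E ⟶ F⟦m⟧) ≤ C * rk E

/-! ### linear algebra -/

theorem g3_inj {V V' : Type} [AddCommGroup V] [Module ℂ V] [AddCommGroup V'] [Module ℂ V']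
    (f : V →ₗ[ℂ] V') (hf : Function.Injective f) (h : Module.Finite ℂ V') :
    Module.Finite ℂ V ∧ Module.finrank ℂ V ≤ Module.finrank ℂ V' := by
  have h1 : Module.Finite ℂ V := Module.Finite.of_injective f hf
  exact ⟨h1, LinearMap.finrank_le_finrank_of_injective hf⟩

theorem g3_exact {V₁ V₂ V₃ : Type} [AddCommGroup V₁] [Module ℂ V₁] [AddCommGroup V₂]
    [Module ℂ V₂] [AddCommGroup V₃] [Module ℂ V₃] (f : V₁ →ₗ[ℂ] V₂) (g : V₂ →ₗ[ℂ] V₃)
    (hf : ∀ v, g (f v) = 0) (hg : ∀ v, g v = 0 → ∃ u, v = f u)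
    (h₁ : Module.Finite ℂ V₁) (h₃ : Module.Finite ℂ V₃) :
    Module.Finite ℂ V₂ ∧
      Module.finrank ℂ V₂ ≤ Module.finrank ℂ V₁ + Module.finrank ℂ V₃ := by
  have hr : LinearMap.range f = LinearMap.ker g := by
    ext v
    rw [LinearMap.mem_range, LinearMap.mem_ker]
    constructor
    · rintro ⟨u, rfl⟩
      exact hf u
    · intro h
      obtain ⟨u, hu⟩ := hg v h
      exact ⟨u, hu.symm⟩
  have n₁ : IsNoetherian ℂ V₁ := inferInstance
  have n₃ : IsNoetherian ℂ V₃ := inferInstance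
  have n₂ : IsNoetherian ℂ V₂ := isNoetherian_of_range_eq_ker f g hr
  have h₂ : Module.Finite ℂ V₂ := inferInstance
  refine ⟨h₂, ?_⟩
  have e1 := LinearMap.finrank_range_add_finrank_ker g
  have e2 := LinearMap.finrank_range_le f
  have e3 := Submodule.finrank_le (LinearMap.range g)
  rw [hr] at e2
  omega

section abstract

variable {C : Type 1} [Category.{0} C] [Preadditive C] [Linear ℂ C]

theorem g3_iso {X Y F G : C} (e : X ≅ Y) (e' : F ≅ G) (h : Module.Finite ℂ (Y ⟶ G)) :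
    Module.Finite ℂ (X ⟶ F) ∧ Module.finrank ℂ (X ⟶ F) = Module.finrank ℂ (Y ⟶ G) := by
  let L := Linear.homCongr ℂ e e'
  exact ⟨Module.Finite.equiv L.symm, L.finrank_eq⟩

theorem g3_retH {X Y E : C} (i : X ⟶ Y) (p : Y ⟶ X) (hip : i ≫ p = 𝟙 X)
    (h : Module.Finite ℂ (E ⟶ Y)) :
    Module.Finite ℂ (E ⟶ X) ∧ Module.finrank ℂ (E ⟶ X) ≤ Module.finrank ℂ (E ⟶ Y) := by
  refine g3_inj (Linear.rightComp ℂ E i) ?_ h
  intro a b hab
  have hab' : a ≫ i = b ≫ i := hab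
  calc a = a ≫ i ≫ p := by rw [hip, Category.comp_id]
    _ = b ≫ i ≫ p := by rw [← Category.assoc, hab', Category.assoc]
    _ = b := by rw [hip, Category.comp_id]

theorem g3_zeroH {X E : C} (h : IsZero X) :
    Module.Finite ℂ (E ⟶ X) ∧ Module.finrank ℂ (E ⟶ X) = 0 := by
  have hs : Subsingleton (E ⟶ X) := ⟨fun a b => h.eq_of_tgt a b⟩
  exact ⟨inferInstance, Module.finrank_zero_of_subsingleton⟩

variable [HasZeroObject C] [HasShift C ℤ] [∀ n : ℤ, (shiftFunctor C n).Additive]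
  [Pretriangulated C]

theorem g3_triH {T : Triangle C} (hT : T ∈ distTriang C) (E : C)
    (h₁ : Module.Finite ℂ (E ⟶ T.obj₁)) (h₃ : Module.Finite ℂ (E ⟶ T.obj₃)) :
    Module.Finite ℂ (E ⟶ T.obj₂) ∧
      Module.finrank ℂ (E ⟶ T.obj₂) ≤
        Module.finrank ℂ (E ⟶ T.obj₁) + Module.finrank ℂ (E ⟶ T.obj₃) := by
  refine g3_exact (Linear.rightComp ℂ E T.mor₁) (Linear.rightComp ℂ E T.mor₂) ?_ ?_ h₁ h₃
  · intro v
    change (v ≫ T.mor₁) ≫ T.mor₂ = 0
    rw [Category.assoc, comp_distTriang_mor_zero₁₂ T hT, comp_zero]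
  · intro v hv
    exact Triangle.coyoneda_exact₂ T hT v hv

theorem g3_triS {T : Triangle C} (hT : T ∈ distTriang C) (E : C) (m : ℤ)
    (h₁ : Module.Finite ℂ (E ⟶ T.obj₁⟦m⟧)) (h₃ : Module.Finite ℂ (E ⟶ T.obj₃⟦m⟧)) :
    Module.Finite ℂ (E ⟶ T.obj₂⟦m⟧) ∧
      Module.finrank ℂ (E ⟶ T.obj₂⟦m⟧) ≤
        Module.finrank ℂ (E ⟶ T.obj₁⟦m⟧) + Module.finrank ℂ (E ⟶ T.obj₃⟦m⟧) :=
  g3_triH (Triangle.shift_distinguished T hT m) E h₁ h₃

end abstract

/-! ### closure properties -/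

section closure

variable {A : GCtx} [GCtx.Aug A] {W : A.S}

theorem g3_thick : IsThickHalf (HomBd : MF A W → Prop) where
  iso := by
    rintro X Y e ⟨C, hC⟩
    refine ⟨C, fun E => ?_⟩
    obtain ⟨h1, h2⟩ := hC E
    have h3 : ∀ m : ℤ, Module.Finite ℂ (E ⟶ Y⟦m⟧) ∧
        Module.finrank ℂ (E ⟶ Y⟦m⟧) = Module.finrank ℂ (E ⟶ X⟦m⟧) := fun m =>
      g3_iso (Iso.refl E) ((shiftFunctor (MF A W) m).mapIso e.symm) (h1 m)
    refine ⟨fun m => (h3 m).1, fun s => ?_⟩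
    rw [Finset.sum_congr rfl fun m _ => (h3 m).2]
    exact h2 s
  zero := by
    intro X h0
    refine ⟨0, fun E => ?_⟩
    have h3 : ∀ m : ℤ, Module.Finite ℂ (E ⟶ X⟦m⟧) ∧
        Module.finrank ℂ (E ⟶ X⟦m⟧) = 0 := fun m =>
      g3_zeroH ((shiftFunctor (MF A W) m).map_isZero h0)
    refine ⟨fun m => (h3 m).1, fun s => ?_⟩
    rw [Finset.sum_congr rfl fun m _ => (h3 m).2, Finset.sum_const_zero]
    exact Nat.zero_le _
  ext := by
    rintro T hT ⟨C₁, h₁⟩ ⟨C₃, h₃⟩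
    refine ⟨C₁ + C₃, fun E => ?_⟩
    have h3 := fun m : ℤ => g3_triS hT E m ((h₁ E).1 m) ((h₃ E).1 m)
    refine ⟨fun m => (h3 m).1, fun s => ?_⟩
    calc ∑ m ∈ s, Module.finrank ℂ (E ⟶ T.obj₂⟦m⟧)
        ≤ ∑ m ∈ s, (Module.finrank ℂ (E ⟶ T.obj₁⟦m⟧) + Module.finrank ℂ (E ⟶ T.obj₃⟦m⟧)) :=
          Finset.sum_le_sum fun m _ => (h3 m).2
      _ = ∑ m ∈ s, Module.finrank ℂ (E ⟶ T.obj₁⟦m⟧) +
          ∑ m ∈ s, Module.finrank ℂ (E ⟶ T.obj₃⟦m⟧) := Finset.sum_add_distrib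
      _ ≤ C₁ * rk E + C₃ * rk E := add_le_add ((h₁ E).2 s) ((h₃ E).2 s)
      _ = (C₁ + C₃) * rk E := (add_mul _ _ _).symm
  ret := by
    rintro X Y i p hip ⟨C, hC⟩
    refine ⟨C, fun E => ?_⟩
    obtain ⟨h1, h2⟩ := hC E
    have h3 : ∀ m : ℤ, Module.Finite ℂ (E ⟶ X⟦m⟧) ∧
        Module.finrank ℂ (E ⟶ X⟦m⟧) ≤ Module.finrank ℂ (E ⟶ Y⟦m⟧) := fun m =>
      g3_retH ((shiftFunctor (MF A W) m).map i) ((shiftFunctor (MF A W) m).map p)
        (by rw [← Functor.map_comp, hip, CategoryTheory.Functor.map_id]) (h1 m)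
    refine ⟨fun m => (h3 m).1, fun s => ?_⟩
    exact (Finset.sum_le_sum fun m _ => (h3 m).2).trans (h2 s)

omit [GCtx.Aug A] in
theorem g3_twF_inj (γ : A.Γ) (E F : MF A W) :
    Function.Injective ((twF γ).map : (E ⟶ F) → (tw γ E ⟶ tw γ F)) := by
  intro a b hab
  rw [← sub_eq_zero] at hab ⊢
  have h1 : (twF γ).map (a - b) = 0 := by rw [Functor.map_sub]; exact hab
  clear hab
  generalize a - b = c at h1
  induction c using hom_ind with
  | h f hf =>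
    rw [twF_map_mk] at h1
    obtain ⟨h, hh, he⟩ := (mk_eq_zero (E := tw γ E) (F := tw γ F) (tw_mem_Z0 γ hf)).1 h1
    refine (mk_eq_zero hf).2 ⟨sg (A.chΓ γ) • h, ((isDeg_tw γ).1 hh).zsmul _, ?_⟩
    refine he.trans ?_
    change (sg (A.chΓ γ) • F.d) * h + h * (sg (A.chΓ γ) • E.d) = _
    simp only [Matrix.smul_mul, Matrix.mul_smul]

theorem g3_tw (γ : A.Γ) {F : MF A W} (hF : HomBd F) : HomBd (tw γ F) := by
  obtain ⟨C, hC⟩ := hF
  refine ⟨C, fun E => ?_⟩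
  obtain ⟨h1, h2⟩ := hC (tw (-γ) E)
  have h3 : ∀ m : ℤ, Module.Finite ℂ (E ⟶ (tw γ F)⟦m⟧) ∧
      Module.finrank ℂ (E ⟶ (tw γ F)⟦m⟧) ≤ Module.finrank ℂ (tw (-γ) E ⟶ F⟦m⟧) := by
    intro m
    have e1 : F⟦m⟧ ≅ tw (-γ) ((tw γ F)⟦m⟧) :=
      (twAdd F (a := γ + A.en (3 * m)) (b := -γ) (c := A.en (3 * m)) (by abel)) ≪≫
        (twF (-γ)).mapIso (twAdd F (a := γ) (b := A.en (3 * m)) rfl)
    obtain ⟨h4, h5⟩ := g3_iso (Iso.refl (tw (-γ) E)) e1.symm (h1 m)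
    have h6 := g3_inj ((twF (-γ) : MF A W ⥤ MF A W).mapLinearMap ℂ
      (X := E) (Y := (tw γ F)⟦m⟧)) (g3_twF_inj (-γ) E _) h4
    exact ⟨h6.1, h6.2.trans h5.le⟩
  refine ⟨fun m => (h3 m).1, fun s => ?_⟩
  have h7 := (Finset.sum_le_sum fun m _ => (h3 m).2).trans (h2 s)
  rw [k1c_rk_tw] at h7
  exact h7

theorem g3_untw (γ : A.Γ) {F : MF A W} (hF : HomBd (tw γ F)) : HomBd F := by
  have h1 := g3_tw (-γ) hF
  refine g3_thick.iso ?_ h1
  exact (twAdd F (a := γ) (b := -γ) rfl).symm ≪≫ twZero F (by abel)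

end closure

/-! ### the simple objects -/

theorem g3_count {ι : Type} [Fintype ι] (c : ι → ℤ) (q : ℤ) (s : Finset ℤ) :
    ∑ m ∈ s, Fintype.card {i : ι // c i = q - 3 * m} ≤ Fintype.card ι := by
  classical
  have h1 : ∀ m ∈ s, Fintype.card {i : ι // c i = q - 3 * m} =
      ∑ i : ι, if c i = q - 3 * m then 1 else 0 := by
    intro m _
    rw [Fintype.card_subtype, Finset.card_filter]
  rw [Finset.sum_congr rfl h1, Finset.sum_comm]
  calc ∑ i : ι, ∑ m ∈ s, (if c i = q - 3 * m then 1 else 0)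
      ≤ ∑ _i : ι, 1 := by
        refine Finset.sum_le_sum fun i _ => ?_
        rw [← Finset.card_filter]
        refine Finset.card_le_one.2 fun a ha b hb => ?_
        have ha' := (Finset.mem_filter.1 ha).2
        have hb' := (Finset.mem_filter.1 hb).2
        omega
    _ = Fintype.card ι := by simp

theorem g3_simple (n : ℕ) (W : (co n).S) (hev : GCtx.Aug.ev W = 0) (S : ℤ → MF (co n) W)
    (hS1 : ∀ q m : ℤ, Nonempty (tw ((co n).en m) (S q) ≅ S (q - m)))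
    (hS2 : ∀ E : MF (co n) W, dbar E = 0 → ∀ q : ℤ, Module.Finite ℂ (E ⟶ S q) ∧
        Module.finrank ℂ (E ⟶ S q) = Fintype.card {i : E.ι // (co n).ch (E.p i) = q})
    (q : ℤ) : HomBd (S q) := by
  refine ⟨1, fun E => ?_⟩
  obtain ⟨E', ⟨e⟩, hE'⟩ := exists_minimal hev E
  have hrk : rk E = Fintype.card E'.ι := by
    rw [(isRk_rk hev).iso e, rk_of_minimal hE']
  have h3 : ∀ m : ℤ, Module.Finite ℂ (E ⟶ (S q)⟦m⟧) ∧ Module.finrank ℂ (E ⟶ (S q)⟦m⟧) =
      Fintype.card {i : E'.ι // (co n).ch (E'.p i) = q - 3 * m} := by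
    intro m
    obtain ⟨e1⟩ := hS1 q (3 * m)
    obtain ⟨h4, h5⟩ := hS2 E' hE' (q - 3 * m)
    have h6 := g3_iso (F := (S q)⟦m⟧) e e1 h4
    exact ⟨h6.1, h6.2.trans h5⟩
  refine ⟨fun m => (h3 m).1, fun s => ?_⟩
  rw [Finset.sum_congr rfl fun m _ => (h3 m).2, hrk, one_mul]
  exact g3_count _ q s

theorem homBd_all (n : ℕ) (W : (co n).S) (hW : (co n).IsPot W) {N : ℕ} (hN : 1 ≤ N)
    (hnil : Nilp (co n) W (vars n) N) (F : MF (co n) W) : HomBd F := by
  have hne := k2_nonempty n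
  have hev : GCtx.Aug.ev W = 0 := ev_pot hW
  obtain ⟨S, hS1, hS2⟩ := exists_simple n W hW
  obtain ⟨O, K, D⟩ := exists_kos n W hW
  have hthick : IsThickHalf (HomBd : MF (co n) W → Prop) := g3_thick
  -- step (1)
  have hO : HomBd O := by
    obtain ⟨O', ⟨e⟩, hO'⟩ := exists_minimal hev O
    have hO1 : ¬ IsZero O' := fun h => D.nz (h.of_iso e)
    have hO2 : Nonempty O'.ι := by
      by_contra h
      rw [not_nonempty_iff] at h
      exact hO1 (k2_isZero_of_isEmpty O')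
    obtain ⟨i₀⟩ := hO2
    have hS3 : ¬ IsZero (S ((co n).ch (O'.p i₀))) := by
      intro h
      have h1 := (hS2 O' hO' ((co n).ch (O'.p i₀))).2
      rw [(g3_zeroH (E := O') h).2] at h1
      have h2 : 0 < Fintype.card {i : O'.ι // (co n).ch (O'.p i) = (co n).ch (O'.p i₀)} :=
        Fintype.card_pos_iff.2 ⟨⟨i₀, rfl⟩⟩
      omega
    obtain ⟨E0, ⟨e0⟩, hE0⟩ := exists_minimal hev (S ((co n).ch (O'.p i₀)))
    have hE1 : Nonempty E0.ι := by
      by_contra h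
      rw [not_nonempty_iff] at h
      exact hS3 ((k2_isZero_of_isEmpty E0).of_iso e0)
    obtain ⟨i₁⟩ := hE1
    have hb0 : HomBd E0 := hthick.iso e0 (g3_simple n W hev S hS1 hS2 _)
    have hb1 : HomBd (K E0) := by
      refine hthick.of_extCl ?_ (D.ext E0)
      rintro Y ⟨j, -, ⟨e1⟩⟩
      exact hthick.iso e1.symm (g3_tw _ hb0)
    obtain ⟨a, b, hab⟩ := D.ret E0 hE0 i₁
    exact g3_untw _ (hthick.ret a b hab hb1)
  -- step (2)
  obtain ⟨E, ⟨e⟩, hE⟩ := exists_minimal hev F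
  refine hthick.iso e.symm ?_
  have hb2 : HomBd (K E) := by
    refine hthick.of_extCl ?_ (D.dec E hE)
    rintro Y ⟨i, ⟨e1⟩⟩
    exact hthick.iso e1.symm (g3_tw _ hO)
  exact D.nil N E hN (fun s hs => hnil.nh E s hs) HomBd hthick fun m _ => g3_tw _ hb2

end Vale.Agent.P287T.G3
end
end

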