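import Vale.Agent.P287T.G3.C

/-!
# The tower of Gepner-type stability conditions, with the data exposed
-/

open Matrix CategoryTheory CategoryTheory.Limits CategoryTheory.Pretriangulated Polynomial

open Vale.Agent.P294

namespace Vale.Agent.P287T.G3

/-- Gepner data on `HMF(A, W)` -/
structure GD (A : GCtx) [GCtx.Aug A] (W : A.S) where
  σ : Slic (MF A W)
  κ : ℂ
  c : ℝ
  κ_ne : κ ≠ 0
  stab : Stab σ (fun E => κ * Zf E) rk c
  twU : ∀ (γ : A.Γ) (s : ℝ) (E : MF A W), σ.U s E → σ.U (s + (A.chΓ γ : ℝ) / 3) (tw γ E)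

theorem GD.gep {A : GCtx} [GCtx.Aug A] {W : A.S} (g : GD A W) : Gep A W :=
  ⟨g.σ, g.κ, g.c, g.κ_ne, g.stab, g.twU⟩

theorem GD.twV {A : GCtx} [GCtx.Aug A] {W : A.S} (g : GD A W) (γ : A.Γ) (s : ℝ) (E : MF A W)
    (h : g.σ.V s E) : g.σ.V (s + (A.chΓ γ : ℝ) / 3) (tw γ E) :=
  K3a_htwV g.twU γ s E h

theorem GD.twP {A : GCtx} [GCtx.Aug A] {W : A.S} (g : GD A W) (γ : A.Γ) (s : ℝ) (E : MF A W)
    (h : g.σ.P s E) : g.σ.P (s + (A.chΓ γ : ℝ) / 3) (tw γ E) := by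
  refine ⟨g.twU γ s E h.1, fun t ht => ?_⟩
  have h1 := g.twV γ (t - (A.chΓ γ : ℝ) / 3) E (h.2 _ (by linarith))
  rwa [sub_add_cancel] at h1

/-- the windows for the three sides -/
structure Win {A : GCtx} {W : A.S} (σ : Slic (MF A W)) (τ : Slic (MFT A W)) : Prop where
  U : ∀ (φ : ℝ) (E : MFT A W), τ.U φ E → ∀ v, σ.U φ (tgr v E)
  V : ∀ (φ : ℝ) (E : MFT A W), τ.Vc φ E → ∀ v, σ.Vc (φ + 1 / 3) (tgr v E)

section Tstep

variable {A : GCtx} [GCtx.Aug A] {W : A.S}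

/-- sides in the aisle give the aisle, up to the width `1/3` -/
theorem Win.U_of {g : GD A W} {τ : Slic (MFT A W)} (h : Win g.σ τ) {s t : ℝ} (hst : s + 1 / 3 < t)
    {X : MFT A W} (hX : ∀ v, g.σ.U t (tgr v X)) : τ.U s X := by
  rw [τ.U_iff]
  intro Y hY
  refine hom_zero_of_sides g.twU (a := t) hX fun v => ?_
  exact g.σ.Vc_le_V hst (h.V s Y (τ.V_le_Vc le_rfl hY) v)

theorem Win.V_of {g : GD A W} {τ : Slic (MFT A W)} (h : Win g.σ τ) {s : ℝ}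
    {X : MFT A W} (hX : ∀ v, g.σ.V s (tgr v X)) : τ.V s X := by
  rw [τ.V_iff]
  intro Y hY
  exact hom_zero_of_sides g.twU (a := s) (h.U s Y hY) hX

/-- the windows and the central charge determine the slicing -/
theorem Win.unique {g : GD A W} {τ τ' : Slic (MFT A W)} (h : Win g.σ τ) (h' : Win g.σ τ')
    {Z : MFT A W → ℂ} {r r' : MFT A W → ℕ} {c c' : ℝ} (hτ : Stab τ Z r c)
    (hτ' : Stab τ' Z r' c') (s : ℝ) (X : MFT A W) : τ.U s X ↔ τ'.U s X :=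
  slic_unique hτ hτ' (fun s X hX => h'.U_of (by linarith) (h.U _ X hX))
    (fun s X hX => h.U_of (by linarith) (h'.U _ X hX)) s X

theorem Win.twU {g : GD A W} {τ : Slic (MFT A W)} (h : Win g.σ τ) {κ' : ℂ} {c' : ℝ}
    (hτ : Stab τ (fun E => κ' * Zf E) rk c') (γ : A.T.Γ) (s : ℝ) (E : MFT A W) (hE : τ.U s E) :
    τ.U (s + (A.T.chΓ γ : ℝ) / 3) (tw γ E) := by
  obtain ⟨b, u⟩ := γ
  have hch : A.T.chΓ ((b, u) : A.Γ × ZMod 3) = A.chΓ b := rfl
  have hZ : ∀ F : MFT A W, κ' * Zf (tw ((b, u) : A.Γ × ZMod 3) F) =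
      ray ((A.chΓ b : ℝ) / 3) * (κ' * Zf F) := by
    intro F
    have h1 := Zf_tw (A := A.T) (W := WT A W) ((b, u) : A.Γ × ZMod 3) F
    rw [hch] at h1
    rw [h1]
    ring
  obtain ⟨τ', h'U, -, h'S⟩ := twist_slic (A := A.T) (W := WT A W) ((b, u) : A.Γ × ZMod 3)
    ((A.chΓ b : ℝ) / 3) hτ hZ (fun F => rk_tw (A := A.T) (W := WT A W) ((b, u) : A.Γ × ZMod 3) F)
  have k1 : ∀ (s : ℝ) (X : MFT A W), τ.U (s + 1) X → τ'.U s X := by
    intro s X hX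
    rw [h'U]
    refine h.U_of (t := s + 1 + (A.chΓ b : ℝ) / 3) (by linarith) fun v => ?_
    obtain ⟨e⟩ := tgr_tw (A := A) (W := W) b u v X
    exact (g.σ.ts _).isoU e.symm (g.twU b _ _ (h.U _ _ hX (v + u)))
  have k2 : ∀ (s : ℝ) (X : MFT A W), τ'.U (s + 1) X → τ.U s X := by
    intro s X hX
    rw [h'U] at hX
    refine h.U_of (t := s + 1) (by linarith) fun v => ?_
    obtain ⟨e⟩ := tgr_tw (A := A) (W := W) b u (v - u) X
    rw [sub_add_cancel] at e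
    exact T3_untw g.twU b ((g.σ.ts _).isoU e (h.U _ _ hX (v - u)))
  have k3 := (slic_unique hτ h'S k1 k2 s E).1 hE
  rw [h'U] at k3
  rw [hch]
  exact k3

/-- the constant of the Fermat step -/
noncomputable def kT : ℂ := ray (2 / 3) / (ray (2 / 3) - 1)

theorem kT_ne : kT ≠ 0 := div_ne_zero (ray_ne_zero _) (sub_ne_zero.2 T3a_q_ne)

theorem T_full (g : GD A W) : ∃ (g' : GD A.T (WT A W)) (τ₄ : Slic (MFL A W 2)),
    Win g.σ g'.σ ∧ g'.κ = g.κ * kT ∧ g'.c = g.c / 2 ∧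
    LevPre g.σ (fun E => g.κ * Zf E) 1 τ₄ ∧ (∀ s X, g'.σ.U s X ↔ τ₄.U s (tl4 X)) ∧
    (∀ s X, g'.σ.V s X ↔ τ₄.V s (tl4 X)) := by
  have hσ := g.stab
  have htw := g.twU
  obtain ⟨τ₄, hpre, hst⟩ := lev_four hσ
  have := TL4_equiv A W
  obtain ⟨τ, hU, hV, hτ⟩ := transport_stab (TL4 A W) hst
  have hVc : ∀ s X, τ.Vc s X → τ₄.Vc s (tl4 X) := fun s X h t ht => (hV t X).1 (h t ht)
  have hZ : (fun X : MFT A W => Zlev (fun E : MF A W => g.κ * Zf E) 2 ((TL4 A W).obj X)) =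
      fun X => g.κ * kT * Zf X :=
    funext fun X => T3a_Zlev hσ.add X
  have hr : (fun X : MFT A W => rlev rk 2 ((TL4 A W).obj X)) = rk :=
    funext fun X => T3a_rlev hσ.rk X
  rw [hZ, hr] at hτ
  have hw : Win g.σ τ := by
    constructor
    · intro φ E hE
      have hE' : τ₄.U φ (tl4 E) := (hU φ E).1 hE
      have h4 : ∀ (v : Fin 2) (u : ZMod 3), ((v.val + 1 : ℕ) : ZMod 3) = u →
          g.σ.U φ (tgr u E) := by
        intro v u hu
        rw [← hu]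
        refine T3a_back_U htw (gr_tl4 v E) (hpre.gr_U hσ.hn hE' v) ?_
        push_cast
        ring
      have h0 : g.σ.U φ (tgr 0 E) := by
        refine T3a_back_U htw (tot_tl4 E) (hpre.tot_U hσ.hn hE') ?_
        push_cast
        ring
      exact T3a_forall h0 (h4 0 1 (by decide)) (h4 1 2 (by decide))
    · intro φ E hE
      have hE' : τ₄.Vc φ (tl4 E) := hVc φ E hE
      have h4 : ∀ (v : Fin 1) (u : ZMod 3), ((v.val + 2 : ℕ) : ZMod 3) = u →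
          g.σ.Vc (φ + 1 / 3) (tgr u E) := by
        intro v u hu
        rw [← hu]
        refine T3a_back_Vc htw (gr_tl4 v.succ E) (hpre.gr_succ_V hσ.hn hE' v) ?_
        simp only [Fin.val_succ]
        push_cast
        ring
      have h1 : g.σ.Vc (φ + 1 / 3) (tgr 1 E) := by
        refine T3a_back_Vc htw (gr_tl4 0 E) (hpre.gr_zero_V hσ.hn hE') ?_
        simp only [Fin.val_zero]
        push_cast
        ring
      have h0 : g.σ.Vc (φ + 1 / 3) (tgr 0 E) := by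
        refine T3a_back_Vc htw (tot_tl4 E) (hpre.tot_V hσ.hn hE') ?_
        push_cast
        ring
      exact T3a_forall h0 h1 (h4 0 2 (by decide))
  exact ⟨⟨τ, g.κ * kT, g.c / 2, mul_ne_zero g.κ_ne kT_ne, hτ, hw.twU hτ⟩, τ₄, hw, rfl, rfl,
    hpre, hU, hV⟩

/-- the Fermat step -/
noncomputable def gdT (g : GD A W) : GD A.T (WT A W) := (T_full g).choose

theorem gdT_win (g : GD A W) : Win g.σ (gdT g).σ := (T_full g).choose_spec.choose_spec.1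

theorem gdT_κ (g : GD A W) : (gdT g).κ = g.κ * kT := (T_full g).choose_spec.choose_spec.2.1

theorem gdT_c (g : GD A W) : (gdT g).c = g.c / 2 := (T_full g).choose_spec.choose_spec.2.2.1

theorem gdT_lev (g : GD A W) : ∃ τ₄ : Slic (MFL A W 2),
    LevPre g.σ (fun E => g.κ * Zf E) 1 τ₄ ∧ (∀ s X, (gdT g).σ.U s X ↔ τ₄.U s (tl4 X)) ∧
    (∀ s X, (gdT g).σ.V s X ↔ τ₄.V s (tl4 X)) :=
  ⟨_, (T_full g).choose_spec.choose_spec.2.2.2⟩

/-- iterated Fermat step -/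
noncomputable def gdTT (g : GD A W) : (m : ℕ) → GD (TT A m) (TTW A W m)
  | 0 => g
  | m + 1 => gdT (A := TT A m) (W := TTW A W m) (gdTT g m)

theorem gdTT_κ (g : GD A W) : ∀ m, (gdTT g m).κ = g.κ * kT ^ m
  | 0 => by rw [pow_zero, mul_one]; rfl
  | m + 1 => by
    have h := gdT_κ (A := TT A m) (W := TTW A W m) (gdTT g m)
    rw [gdTT_κ g m, mul_assoc, ← pow_succ] at h
    exact h

end Tstep

/-- the point -/
noncomputable def gdPt : GD GCtx.pt (show GCtx.pt.S from (0 : ℂ)) where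
  σ := F0sl
  κ := 1
  c := 1
  κ_ne := one_ne_zero
  stab := by
    have hZ : AddTri (Zf : F0Pt → ℂ) := Zf_add
    have hrk : IsRk (rk : F0Pt → ℕ) := isRk_rk F0_ev
    refine ⟨F0_HN, ?_, hrk, one_pos, ?_⟩
    · intro T hT
      change (1 : ℂ) * Zf T.obj₂ = 1 * Zf T.obj₁ + 1 * Zf T.obj₃
      rw [one_mul, one_mul, one_mul]
      exact hZ T hT
    · intro φ X hP
      obtain ⟨E', ⟨e⟩, hd, h⟩ := hP.1
      have h2 : ∀ i, F0ph E' i = φ := by
        intro i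
        refine le_antisymm ?_ (h i)
        refine le_of_forall_gt_imp_ge_of_dense fun t ht => ?_
        exact (F0V.all (hP.2 t ht) e hd i).le
      refine ⟨(Fintype.card E'.ι : ℝ), ?_, ?_⟩
      · rw [one_mul, hrk.iso e, rk_of_minimal (F0_dbar hd)]
      · rw [one_mul, hZ.isoC e]
        have h3 : Zf E' = ∑ _i : E'.ι, ray φ := by
          unfold Zf
          refine Finset.sum_congr rfl fun i _ => ?_
          rw [← h2 i]
          rfl
        rw [h3, Finset.sum_const, nsmul_eq_mul, Finset.card_univ]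
        push_cast
        rfl
  twU γ s E h := F0U_tw h γ

/-! ### descent data with known objects -/

/-- change of the potential along an equality -/
def castMF {A : GCtx} {W W' : A.S} (h : W = W') (E : MF A W) : MF A W' where
  ι := E.ι
  p := E.p
  d := E.d
  deg := E.deg
  sq := h ▸ E.sq

theorem castMF_rfl {A : GCtx} {W : A.S} (E : MF A W) : castMF rfl E = E := rfl

theorem Zf_castMF {A : GCtx} {W W' : A.S} (h : W = W') (E : MF A W) : Zf (castMF h E) = Zf E := rfl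

section desc

variable {B : GCtx} [GCtx.Aug B] {V : B.S} {σ : Slic (MF B V)}

/-- descent data whose functor is `Φ` on objects -/
def DescO (B : GCtx) [GCtx.Aug B] (V : B.S) (σ : Slic (MF B V)) (A : GCtx) [GCtx.Aug A] (W : A.S)
    (Φ : MF A W → MF B V) : Prop :=
  ∃ D : Desc B V σ A W, ∀ X, Nonempty (D.F.obj X ≅ Φ X)

theorem descO_refl : DescO B V σ B V id :=
  ⟨{ F := 𝟭 _
     G := 𝟭 _
     adj := Adjunction.id
     tw := fun γ => ⟨γ, rfl, fun _ => ⟨Iso.refl _⟩⟩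
     mon := fun _ _ h => h
     rk_le := fun _ => le_rfl
     Z := ⟨1, one_ne_zero, fun _ => (one_mul _).symm⟩ }, fun _ => ⟨Iso.refl _⟩⟩

theorem descO_cast {A : GCtx} [GCtx.Aug A] {W W' : A.S} (h : W' = W) {Φ : MF A W → MF B V}
    (hD : DescO B V σ A W Φ) : DescO B V σ A W' (fun X => Φ (castMF h X)) := by
  subst h
  exact hD

theorem descO_comp {A A' : GCtx} [GCtx.Aug A] [GCtx.Aug A'] {W : A.S} {W' : A'.S}
    (D : Desc B V σ A W) (L : MF A W ⥤ MF A' W') [L.CommShift ℤ] [L.IsTriangulated]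
    (R : MF A' W' ⥤ MF A W) (adj : L ⊣ R)
    (htw : ∀ γ : A'.Γ, ∃ γ' : A.Γ, A.chΓ γ' = A'.chΓ γ ∧
      ∀ X : MF A' W', Nonempty (R.obj (tw γ X) ≅ tw γ' (R.obj X)))
    (hmon : ∀ (s : ℝ) (Y : MF A W), σ.U s (D.F.obj Y) → σ.U s (D.F.obj (R.obj (L.obj Y))))
    (hrk : ∀ X, rk X ≤ rk (R.obj X))
    (hZ : ∃ κ : ℂ, κ ≠ 0 ∧ ∀ X, Zf (R.obj X) = κ * Zf X) :
    ∃ D' : Desc B V σ A' W', ∀ X, D'.F.obj X = D.F.obj (R.obj X) := by
  let _ := adj.rightAdjointCommShift ℤ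
  have := adj.commShift_of_leftAdjoint ℤ
  have : R.IsTriangulated := adj.isTriangulated_rightAdjoint
  refine ⟨{ F := R ⋙ D.F, G := D.G ⋙ L, adj := D.adj.comp adj, tw := ?_, mon := ?_,
            rk_le := ?_, Z := ?_ }, fun _ => rfl⟩
  · intro γ
    obtain ⟨γ₁, h1, h2⟩ := htw γ
    obtain ⟨γ₂, h3, h4⟩ := D.tw γ₁
    refine ⟨γ₂, h3.trans h1, fun X => ?_⟩
    obtain ⟨e1⟩ := h2 X
    obtain ⟨e2⟩ := h4 (R.obj X)
    exact ⟨(D.F.mapIso e1).trans e2⟩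
  · intro s Y hY
    exact hmon s (D.G.obj Y) (D.mon s Y hY)
  · intro X
    exact (hrk X).trans (D.rk_le (R.obj X))
  · obtain ⟨κ, h1, h2⟩ := hZ
    obtain ⟨κ', h3, h4⟩ := D.Z
    refine ⟨κ' * κ, mul_ne_zero h3 h1, fun X => ?_⟩
    change Zf (D.F.obj (R.obj X)) = _
    rw [h4, h2, mul_assoc]

theorem descO_Fo {A : GCtx} [GCtx.Aug A] {W : A.S}
    (htw : ∀ (γ : B.Γ) (s : ℝ) (E : MF B V), σ.U s E → σ.U (s + (B.chΓ γ : ℝ) / 3) (tw γ E))
    {Φ : MFT A W → MF B V} (h : DescO B V σ A.T (WT A W) Φ) :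
    DescO B V σ A.P (WP A W) (fun X => Φ (IndO X)) := by
  obtain ⟨D, hD⟩ := h
  obtain ⟨R, adj, hR⟩ := Fo_adj (A := A) (W := W)
  have key : ∃ D' : Desc B V σ A.P (WP A W), ∀ X, D'.F.obj X = D.F.obj (R.obj X) := by
    refine descO_comp D (Fo A W).functor R adj ?_ ?_ ?_ ?_
    · intro γ
      refine ⟨((γ, 0) : A.Γ × ZMod 3), rfl, fun X => ?_⟩
      obtain ⟨e1⟩ := hR (tw γ X)
      obtain ⟨e2⟩ := IndO_tw (A := A) (W := W) γ X
      obtain ⟨e3⟩ := hR X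
      exact ⟨e1.trans (e2.trans ((twF (A := A.T) (W := WT A W)
        (((γ, 0) : A.Γ × ZMod 3) : A.T.Γ)).mapIso e3.symm))⟩
    · intro s Y hY
      obtain ⟨e1⟩ := hR ((Fo A W).functor.obj Y)
      refine (σ.ts s).isoU (D.F.mapIso e1).symm ?_
      refine e3_extCl D.F s ?_ (Fo_monad Y)
      rintro Z ⟨v, ⟨e2⟩⟩
      refine (σ.ts s).isoU (D.F.mapIso e2).symm ?_
      obtain ⟨γ', h1, h2⟩ := D.tw (((0, v) : A.Γ × ZMod 3) : A.T.Γ)
      obtain ⟨e3⟩ := h2 Y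
      refine (σ.ts s).isoU e3.symm ?_
      have h3 := htw γ' s _ hY
      have h4 : B.chΓ γ' = 0 := h1.trans (map_zero A.chΓ)
      rw [h4, Int.cast_zero, zero_div, add_zero] at h3
      exact h3
    · intro X
      obtain ⟨e1⟩ := hR X
      rw [e3_rk_iso e1, rk_IndO]
      omega
    · refine ⟨3, by norm_num, fun X => ?_⟩
      obtain ⟨e1⟩ := hR X
      rw [(Zf_add (A := A.T) (W := WT A W)).isoC e1, Zf_IndO]
  obtain ⟨D', hD'⟩ := key
  refine ⟨D', fun X => ?_⟩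
  obtain ⟨e1⟩ := hR X
  obtain ⟨e2⟩ := hD (IndO X)
  exact ⟨eqToIso (hD' X) ≪≫ D.F.mapIso e1 ≪≫ e2⟩

theorem descO_Ev {A : GCtx} [GCtx.Aug A] {Wt : A.S[X]} {l : A.S}
    (htw : ∀ (γ : B.Γ) (s : ℝ) (E : MF B V), σ.U s E → σ.U (s + (B.chΓ γ : ℝ) / 3) (tw γ E))
    (hl : ∀ a, l ∈ A.H (A.en 2 +ᵥ a) a)
    (hW : ∀ a, (inP A Wt) ∈ A.P.H (A.P.en 6 +ᵥ a) a) {Φ : MF A.P (inP A Wt) → MF B V}
    (h : DescO B V σ A.P (inP A Wt) Φ) :
    DescO B V σ A (evW A Wt l) (fun X => Φ (EvR hl hW X)) := by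
  obtain ⟨D, hD⟩ := h
  obtain ⟨R, adj, hR⟩ := Ev_adj hl hW
  have key : ∃ D' : Desc B V σ A (evW A Wt l), ∀ X, D'.F.obj X = D.F.obj (R.obj X) := by
    refine descO_comp D (Ev A Wt l hl).functor R adj ?_ ?_ ?_ ?_
    · intro γ
      refine ⟨(show A.P.Γ from γ), rfl, fun X => ?_⟩
      obtain ⟨e1⟩ := hR (tw γ X)
      obtain ⟨e2⟩ := EvR_tw hl hW γ X
      obtain ⟨e3⟩ := hR X
      exact ⟨e1.trans (e2.trans ((twF (A := A.P) (W := inP A Wt)
        (show A.P.Γ from γ)).mapIso e3.symm))⟩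
    · intro s Y hY
      obtain ⟨e1⟩ := hR ((Ev A Wt l hl).functor.obj Y)
      refine (σ.ts s).isoU (D.F.mapIso e1).symm ?_
      obtain ⟨f, g, δ, hT⟩ := Ev_monad hl hW Y
      refine (σ.ts s).extU (D.F.map_distinguished _ hT) hY ?_
      obtain ⟨γ', h1, h2⟩ := D.tw (A.P.en 1)
      obtain ⟨e3⟩ := h2 Y
      refine (σ.ts s).isoU e3.symm ?_
      have h3 := htw γ' s _ hY
      refine σ.anti ?_ _ h3
      rw [h1, GCtx.chΓ_en]
      norm_num
    · intro X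
      obtain ⟨e1⟩ := hR X
      rw [e3_rk_iso e1, rk_EvR]
      omega
    · refine ⟨1 + ray (1 / 3), e3_ray_ne, fun X => ?_⟩
      obtain ⟨e1⟩ := hR X
      rw [(Zf_add (A := A.P) (W := inP A Wt)).isoC e1, Zf_EvR]
  obtain ⟨D', hD'⟩ := key
  refine ⟨D', fun X => ?_⟩
  obtain ⟨e1⟩ := hR X
  obtain ⟨e2⟩ := hD (EvR hl hW X)
  exact ⟨eqToIso (hD' X) ≪≫ D.F.mapIso e1 ≪≫ e2⟩

end desc

section dobj

variable {A : GCtx}

theorem cube_pot {W l : A.S} (hW : A.IsPot W) (hl : ∀ a, l ∈ A.H (A.en 2 +ᵥ a) a) :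
    A.IsPot (W + l ^ 3) := by
  intro a
  refine add_mem (hW a) ?_
  have := F1_pow_mem hl 3 a
  norm_num at this
  exact this

theorem evW_TT (W l : A.S) (m : ℕ) : TTW A (W + l ^ 3) m =
    evW (TT A m) (C (TTW A W m) + X ^ 3 : (TT A m).S[X]) (TTC A m l) := by
  rw [e3_TTW_add, map_pow, evW]
  simp

theorem sum_cube_succ {R : Type} [CommRing R] {l : ℕ → R} {m : ℕ} {W V : R}
    (h : V = W + ∑ i ∈ Finset.range (m + 1), l i ^ 3) :
    V = W + l m ^ 3 + ∑ i ∈ Finset.range m, l i ^ 3 := by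
  rw [h, Finset.sum_range_succ]
  ring

theorem sum_cube_zero {R : Type} [CommRing R] {l : ℕ → R} {W V : R}
    (h : V = W + ∑ i ∈ Finset.range 0, l i ^ 3) : V = W := by
  rw [h, Finset.sum_range_zero, add_zero]

/-- one step of the descent functor on objects: push forward along `y = l`, then induce -/
noncomputable def DStep {W l : A.S} (hW : A.IsPot W) (hl : ∀ a, l ∈ A.H (A.en 2 +ᵥ a) a) (m : ℕ)
    (E : MF (TT A m) (TTW A (W + l ^ 3) m)) : MF (TT A (m + 1)) (TTW A W (m + 1)) :=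
  IndO (A := TT A m) (W := TTW A W m)
    (EvR (A := TT A m) (Wt := (C (TTW A W m) + X ^ 3 : (TT A m).S[X])) (l := TTC A m l)
      (e3_TTC_mem hl m) (fun a => e3_P_mem (e3_TTW_mem hW m) a) (castMF (evW_TT W l m) E))

/-- the descent functor on objects -/
noncomputable def DObj (l : ℕ → A.S) (hl : ∀ i a, l i ∈ A.H (A.en 2 +ᵥ a) a) :
    (m : ℕ) → (W V : A.S) → A.IsPot W → V = W + ∑ i ∈ Finset.range m, l i ^ 3 →
      MF A V → MF (TT A m) (TTW A W m)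
  | 0, _, _, _, hV, E => castMF (sum_cube_zero hV) E
  | m + 1, W, V, hW, hV, E =>
      DStep hW (hl m) m (DObj l hl m (W + l m ^ 3) V (cube_pot hW (hl m)) (sum_cube_succ hV) E)

variable (l : ℕ → A.S) (hl : ∀ i a, l i ∈ A.H (A.en 2 +ᵥ a) a)

theorem DObj_zero (W V : A.S) (hW : A.IsPot W) (hV : V = W + ∑ i ∈ Finset.range 0, l i ^ 3)
    (E : MF A V) : DObj l hl 0 W V hW hV E = castMF (sum_cube_zero hV) E := rfl

theorem DObj_succ (m : ℕ) (W V : A.S) (hW : A.IsPot W)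
    (hV : V = W + ∑ i ∈ Finset.range (m + 1), l i ^ 3) (E : MF A V) :
    DObj l hl (m + 1) W V hW hV E = DStep hW (hl m) m
      (DObj l hl m (W + l m ^ 3) V (cube_pot hW (hl m)) (sum_cube_succ hV) E) := rfl

/-- the constant of one descent step -/
noncomputable def kD : ℂ := 3 * (1 + ray (1 / 3))

theorem kD_ne : kD ≠ 0 := mul_ne_zero (by norm_num) e3_ray_ne

theorem Zf_DStep {W l : A.S} (hW : A.IsPot W) (hl : ∀ a, l ∈ A.H (A.en 2 +ᵥ a) a) (m : ℕ)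
    (E : MF (TT A m) (TTW A (W + l ^ 3) m)) : Zf (DStep hW hl m E) = kD * Zf E := by
  refine (Zf_IndO (A := TT A m) (W := TTW A W m) _).trans ?_
  refine (congrArg (fun z => 3 * z) (Zf_EvR (A := TT A m)
    (Wt := (C (TTW A W m) + X ^ 3 : (TT A m).S[X])) (l := TTC A m l) (e3_TTC_mem hl m)
    (fun a => e3_P_mem (e3_TTW_mem hW m) a) (castMF (evW_TT W l m) E))).trans ?_
  rw [Zf_castMF, kD, mul_assoc]

theorem Zf_DObj : ∀ (m : ℕ) (W V : A.S) (hW : A.IsPot W)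
    (hV : V = W + ∑ i ∈ Finset.range m, l i ^ 3) (E : MF A V),
    Zf (DObj l hl m W V hW hV E) = kD ^ m * Zf E
  | 0, W, V, hW, hV, E => by rw [pow_zero, one_mul]; rfl
  | m + 1, W, V, hW, hV, E => by
    rw [DObj_succ, Zf_DStep, Zf_DObj m, pow_succ]
    ring

variable [GCtx.Aug A] {B : GCtx} [GCtx.Aug B] {V₀ : B.S} {σ : Slic (MF B V₀)}

theorem descO_step
    (htw : ∀ (γ : B.Γ) (s : ℝ) (E : MF B V₀), σ.U s E → σ.U (s + (B.chΓ γ : ℝ) / 3) (tw γ E))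
    {W l : A.S} (hW : A.IsPot W) (hl : ∀ a, l ∈ A.H (A.en 2 +ᵥ a) a) (m : ℕ)
    {Φ : MF (TT A (m + 1)) (TTW A W (m + 1)) → MF B V₀}
    (h : DescO B V₀ σ (TT A (m + 1)) (TTW A W (m + 1)) Φ) :
    DescO B V₀ σ (TT A m) (TTW A (W + l ^ 3) m) (fun X => Φ (DStep hW hl m X)) := by
  have h1 : DescO B V₀ σ (TT A m).T (WT (TT A m) (TTW A W m)) Φ := h
  have h2 : DescO B V₀ σ (TT A m).P (inP (TT A m) (C (TTW A W m) + X ^ 3 : (TT A m).S[X]))
      (fun X => Φ (IndO (A := TT A m) (W := TTW A W m) X)) := descO_Fo htw h1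
  have h3 := descO_Ev (l := TTC A m l) htw (e3_TTC_mem hl m)
    (fun a => e3_P_mem (e3_TTW_mem hW m) a) h2
  exact descO_cast (evW_TT W l m) h3

theorem descO_DObj
    (htw : ∀ (γ : B.Γ) (s : ℝ) (E : MF B V₀), σ.U s E → σ.U (s + (B.chΓ γ : ℝ) / 3) (tw γ E)) :
    ∀ (m : ℕ) (W V : A.S) (hW : A.IsPot W) (hV : V = W + ∑ i ∈ Finset.range m, l i ^ 3)
      (Φ : MF (TT A m) (TTW A W m) → MF B V₀), DescO B V₀ σ (TT A m) (TTW A W m) Φ →
      DescO B V₀ σ A V (fun X => Φ (DObj l hl m W V hW hV X))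
  | 0, W, _, _, hV, _, h => descO_cast (A := A) (W := W) (sum_cube_zero hV) h
  | m + 1, W, V, hW, hV, _, h =>
    descO_DObj htw m (W + l m ^ 3) V (cube_pot hW (hl m)) (sum_cube_succ hV) _
      (descO_step htw hW (hl m) m h)

end dobj

/-- descent of Gepner data -/
theorem gd_desc {B : GCtx} [GCtx.Aug B] {V : B.S} (g : GD B V) {n : ℕ} {W : (co n).S}
    (hW : (co n).IsPot W) {N : ℕ} (hN : 1 ≤ N) (hnil : Nilp (co n) W (vars n) N)
    (hV : GCtx.Aug.ev V = 0) {Φ : MF (co n) W → MF B V} (h : DescO B V g.σ (co n) W Φ)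
    {k : ℂ} (hk : k ≠ 0) (hZ : ∀ X, Zf (Φ X) = k * Zf X) :
    ∃ g' : GD (co n) W, g'.κ = g.κ * k ∧ g'.c = g.c ∧ (∀ s X, g'.σ.U s X ↔ g.σ.U s (Φ X)) ∧
      (∀ s X, g'.σ.V s X ↔ g.σ.V s (Φ X)) := by
  obtain ⟨D, hD⟩ := h
  obtain ⟨R, hR⟩ := liftHyp_of_desc hW hN hnil g.twU hV D
  refine ⟨⟨liftSlic D.adj hR, g.κ * k, g.c, mul_ne_zero g.κ_ne hk, ?_, ?_⟩, rfl, rfl, ?_, ?_⟩
  · have h1 := lift_stab D.adj hR g.stab rk (isRk_rk (K3_ev hW)) D.rk_le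
    have h2 : (fun X : MF (co n) W => g.κ * Zf (D.F.obj X)) = fun X => g.κ * k * Zf X := by
      funext X
      obtain ⟨e⟩ := hD X
      rw [(Zf_add (A := B) (W := V)).isoC e, hZ X]
      ring
    rw [h2] at h1
    exact h1
  · intro γ s E hE
    obtain ⟨γ', h1, h2⟩ := D.tw γ
    obtain ⟨e⟩ := h2 E
    have h3 : g.σ.U (s + (B.chΓ γ' : ℝ) / 3) (tw γ' (D.F.obj E)) := g.twU γ' s _ hE
    rw [h1] at h3
    exact (g.σ.ts _).isoU e.symm h3
  · intro s X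
    obtain ⟨e⟩ := hD X
    exact ⟨fun h => (g.σ.ts s).isoU e h, fun h => (g.σ.ts s).isoU e.symm h⟩
  · intro s X
    obtain ⟨e⟩ := hD X
    exact ⟨fun h => (g.σ.ts s).isoV e h, fun h => (g.σ.ts s).isoV e.symm h⟩

theorem gd_Fer_step (n : ℕ) (g : GD (co n) (Fer n)) : ∃ g' : GD (co (n + 1)) (Fer (n + 1)),
    g'.κ = (gdT g).κ * 3 ∧ g'.c = (gdT g).c ∧
    (∀ s X, g'.σ.U s X ↔ (gdT g).σ.U s (IndO (A := co n) (W := Fer n) X)) ∧
    (∀ s X, g'.σ.V s X ↔ (gdT g).σ.V s (IndO (A := co n) (W := Fer n) X)) := by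
  have D : DescO (co n).T (WT (co n) (Fer n)) (gdT g).σ (co n).P (WP (co n) (Fer n))
      (fun X => id (IndO X)) := descO_Fo (gdT g).twU descO_refl
  exact gd_desc (B := (co n).T) (V := WT (co n) (Fer n)) (gdT g) (n := n + 1)
    (Fer_isPot (n + 1)) (N := 2) (by norm_num) (nilp_Fer (n + 1)) (F1_ev_aux (ev_Fer n)) D
    (by norm_num) (fun X => Zf_IndO (A := co n) (W := Fer n) X)

/-- the Fermat potential -/
noncomputable def gdFer : (n : ℕ) → GD (co n) (Fer n)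
  | 0 => gdPt
  | n + 1 => (gd_Fer_step n (gdFer n)).choose

theorem gdFer_U (n : ℕ) (s : ℝ) (X : MF (co (n + 1)) (Fer (n + 1))) :
    (gdFer (n + 1)).σ.U s X ↔ (gdT (gdFer n)).σ.U s (IndO (A := co n) (W := Fer n) X) :=
  (gd_Fer_step n (gdFer n)).choose_spec.2.2.1 s X

theorem gdFer_V (n : ℕ) (s : ℝ) (X : MF (co (n + 1)) (Fer (n + 1))) :
    (gdFer (n + 1)).σ.V s X ↔ (gdT (gdFer n)).σ.V s (IndO (A := co n) (W := Fer n) X) :=
  (gd_Fer_step n (gdFer n)).choose_spec.2.2.2 s X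

theorem gdFer_κ : ∀ n : ℕ, (gdFer n).κ = (3 * kT) ^ n
  | 0 => by rw [pow_zero]; rfl
  | n + 1 => by
    have h : (gdFer (n + 1)).κ = (gdT (gdFer n)).κ * 3 :=
      (gd_Fer_step n (gdFer n)).choose_spec.1
    rw [h, gdT_κ, gdFer_κ n, pow_succ]
    ring

/-- sums of cubes on `co n` -/
theorem gd_sum {n : ℕ} (l : ℕ → (co n).S) (hl : ∀ i a, l i ∈ (co n).H ((co n).en 2 +ᵥ a) a)
    (m : ℕ) {V : (co n).S} (hV : V = Fer n + ∑ i ∈ Finset.range m, l i ^ 3) {N : ℕ} (hN : 1 ≤ N)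
    (hnil : Nilp (co n) V (vars n) N) :
    ∃ g : GD (co n) V, g.κ = (gdTT (gdFer n) m).κ * kD ^ m ∧ g.c = (gdTT (gdFer n) m).c ∧
      (∀ s X, g.σ.U s X ↔
        (gdTT (gdFer n) m).σ.U s (DObj l hl m (Fer n) V (Fer_isPot n) hV X)) ∧
      (∀ s X, g.σ.V s X ↔
        (gdTT (gdFer n) m).σ.V s (DObj l hl m (Fer n) V (Fer_isPot n) hV X)) := by
  have hp : (co n).IsPot V := by
    rw [hV]
    intro a
    refine add_mem (Fer_isPot n a) (sum_mem fun i _ => ?_)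
    have := F1_pow_mem (hl i) 3 a
    norm_num at this
    exact this
  have D := descO_DObj l hl (gdTT (gdFer n) m).twU m (Fer n) V (Fer_isPot n) hV id descO_refl
  exact gd_desc (gdTT (gdFer n) m) hp hN hnil (F1_ev_TTW (ev_Fer n) m) D (pow_ne_zero m kD_ne)
    (fun X => Zf_DObj l hl m (Fer n) V (Fer_isPot n) hV X)

/-! ### transport along isomorphisms of contexts -/

section ciso

variable {A B : GCtx} (I : CIso A B) {W : A.S}

theorem CIso.Zf_obj (E : MF A W) : Zf ((I.chom W).obj E) = Zf E := by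
  unfold Zf
  change ∑ i : (I.chom W).Ix E, ray (-(B.ch (I.lab (E.p i.1)) : ℝ) / 3) = _
  refine Fintype.sum_equiv (Equiv.subtypeUnivEquiv fun _ => trivial) _ _ fun i => ?_
  rw [I.ch]
  rfl

theorem CIso.tw_obj (γ : A.Γ) (E : MF A W) :
    Nonempty ((I.chom W).obj (tw γ E) ≅ tw (I.ψ γ) ((I.chom W).obj E)) := by
  refine ⟨CIso.n2aReIso (X := (I.chom W).obj (tw γ E)) (Y := tw (I.ψ γ) ((I.chom W).obj E))
    (Equiv.refl _) (fun i => ?_) ?_⟩
  · change -I.ψ γ +ᵥ I.lab (E.p i.1) = I.lab (-γ +ᵥ E.p i.1)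
    rw [I.vadd, map_neg]
  · ext i j
    change I.φ (sg (A.chΓ γ) • E.d i.1 j.1) = sg (B.chΓ (I.ψ γ)) • I.φ (E.d i.1 j.1)
    rw [I.chΓ, map_zsmul]

variable [GCtx.Aug A] [GCtx.Aug B]

theorem CIso.rk_obj (hev : ∀ s, GCtx.Aug.ev (I.φ s) = GCtx.Aug.ev s) (E : MF A W) :
    rk ((I.chom W).obj E) = rk E := by
  let e : ((I.chom W).obj E).ι ≃ E.ι := Equiv.subtypeUnivEquiv fun _ => trivial
  have h1 : dbar ((I.chom W).obj E) = (dbar E).submatrix e e := by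
    ext i j
    exact hev _
  unfold rk
  rw [h1, Matrix.rank_submatrix, Fintype.card_congr e]

theorem CIso.cst [Nonempty A.L] (hev : ∀ s, GCtx.Aug.ev (I.φ s) = GCtx.Aug.ev s) (z : ℂ) :
    I.φ (GCtx.Aug.cst z) = GCtx.Aug.cst z := by
  obtain ⟨a⟩ := ‹Nonempty A.L›
  by_cases h0 : I.φ (GCtx.Aug.cst z) = 0
  · have h1 : (GCtx.Aug.cst z : A.S) = 0 := by
      apply I.φ.injective
      rw [h0, map_zero]
    have h2 : z = 0 := by
      rw [← GCtx.Aug.ev_cst (A := A) z, h1, map_zero]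
    rw [h2, map_zero, map_zero, map_zero]
  · have h1 : I.φ (GCtx.Aug.cst z) ∈ B.H (I.lab a) (I.lab a) :=
      (I.H a a _).1 (GCtx.Aug.cst_mem (A := A) a z)
    have h2 := (GCtx.Aug.conn h1 h0 rfl).2
    rw [hev, GCtx.Aug.ev_cst] at h2
    exact h2

theorem gd_ciso (hev : ∀ s, GCtx.Aug.ev (I.φ s) = GCtx.Aug.ev s) (g : GD B (I.φ W)) :
    ∃ g' : GD A W, g'.κ = g.κ ∧ g'.c = g.c ∧
      (∀ s X, g'.σ.U s X ↔ g.σ.U s ((I.chom W).obj X)) ∧
      (∀ s X, g'.σ.V s X ↔ g.σ.V s ((I.chom W).obj X)) := by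
  have := I.chom_equiv W
  obtain ⟨τ, hU, hV, hτ⟩ := transport_stab (I.chom W).functor g.stab
  have h1 : (fun X : MF A W => g.κ * Zf ((I.chom W).functor.obj X)) = fun X => g.κ * Zf X :=
    funext fun X => congrArg (fun z => g.κ * z) (I.Zf_obj X)
  have h2 : (fun X : MF A W => rk ((I.chom W).functor.obj X)) = rk :=
    funext fun X => I.rk_obj hev X
  rw [h1, h2] at hτ
  refine ⟨⟨τ, g.κ, g.c, g.κ_ne, hτ, fun γ s E hE => ?_⟩, rfl, rfl, hU, hV⟩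
  rw [hU] at hE ⊢
  obtain ⟨e⟩ := I.tw_obj γ E
  have h3 := g.twU (I.ψ γ) s _ hE
  rw [I.chΓ] at h3
  exact (g.σ.ts _).isoU e.symm h3

end ciso

end Vale.Agent.P287T.G3
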