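import Vale.Agent.P287T.G3.D

/-!
# The window of charges of a semistable matrix factorization
-/

open Matrix CategoryTheory CategoryTheory.Limits CategoryTheory.Pretriangulated Polynomial

open Vale.Agent.P294

namespace Vale.Agent.P287T.G3

/-- the charges of a minimal object of phases in `[φ, ψ]` lie in `[φ, ψ + n / 3]` -/
structure ChW {A : GCtx} [GCtx.Aug A] {W : A.S} (σ : Slic (MF A W)) (n : ℕ) : Prop where
  U : ∀ (φ : ℝ) (E : MF A W), dbar E = 0 → σ.U φ E → ∀ i, φ ≤ -(A.ch (E.p i) : ℝ) / 3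
  V : ∀ (φ : ℝ) (E : MF A W), dbar E = 0 → σ.Vc φ E → ∀ i, -(A.ch (E.p i) : ℝ) / 3 ≤ φ + n / 3

/-- `Φ` keeps minimal objects minimal and has generators of charges `p` and `p - k` -/
structure Gen {A B : GCtx} [GCtx.Aug A] [GCtx.Aug B] {W : A.S} {V : B.S} (X : MF A W)
    (Y : MF B V) (k : ℕ) : Prop where
  min : dbar X = 0 → dbar Y = 0
  lo : ∀ i, ∃ j, B.ch (Y.p j) = A.ch (X.p i)
  hi : ∀ i, ∃ j, B.ch (Y.p j) = A.ch (X.p i) - k

section

variable {A B D : GCtx} [GCtx.Aug A] [GCtx.Aug B] [GCtx.Aug D] {W : A.S} {V : B.S} {U : D.S}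

theorem Gen.trans {X : MF A W} {Y : MF B V} {Z : MF D U} {k m : ℕ} (h : Gen X Y k)
    (h' : Gen Y Z m) : Gen X Z (k + m) where
  min h0 := h'.min (h.min h0)
  lo i := by
    obtain ⟨j, hj⟩ := h.lo i
    obtain ⟨l, hl⟩ := h'.lo j
    exact ⟨l, hl.trans hj⟩
  hi i := by
    obtain ⟨j, hj⟩ := h.hi i
    obtain ⟨l, hl⟩ := h'.hi j
    refine ⟨l, ?_⟩
    rw [hl, hj]
    push_cast
    ring

theorem ChW.comap {σ : Slic (MF A W)} {τ : Slic (MF B V)} {Φ : MF A W → MF B V} {n k : ℕ}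
    (h : ChW τ (n + k)) (hΦ : ∀ X, Gen X (Φ X) k) (hU : ∀ s X, σ.U s X → τ.U s (Φ X))
    (hV : ∀ s X, σ.V s X → τ.V s (Φ X)) : ChW σ n where
  U φ E hE h1 i := by
    obtain ⟨j, hj⟩ := (hΦ E).lo i
    have := h.U φ _ ((hΦ E).min hE) (hU _ _ h1) j
    rwa [hj] at this
  V φ E hE h1 i := by
    obtain ⟨j, hj⟩ := (hΦ E).hi i
    have := h.V φ _ ((hΦ E).min hE) (fun t ht => hV _ _ (h1 t ht)) j
    rw [hj] at this
    push_cast at this
    linarith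

theorem gen_cast {W' : A.S} (h : W = W') (E : MF A W) : Gen E (castMF h E) 0 where
  min h0 := h0
  lo i := ⟨i, rfl⟩
  hi i := ⟨i, by rw [Nat.cast_zero, sub_zero]; rfl⟩

theorem gen_IndO (Y : MF A.P (WP A W)) : Gen Y (IndO Y) 0 where
  min h0 := by
    ext ⟨i, u⟩ ⟨j, v⟩
    refine (E2_ev_wtPart u v (Y.d i j)).trans ?_
    split_ifs
    · exact congrFun (congrFun h0 i) j
    · rfl
  lo i := ⟨(i, 0), rfl⟩
  hi i := ⟨(i, 0), by rw [Nat.cast_zero, sub_zero]; rfl⟩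

theorem dbar_EvR {Wt : A.S[X]} {l : A.S} (hl : ∀ a, l ∈ A.H (A.en 2 +ᵥ a) a)
    (hW : ∀ a, (inP A Wt) ∈ A.P.H (A.P.en 6 +ᵥ a) a) (Y : MF A (evW A Wt l)) :
    dbar (EvR hl hW Y) = (Matrix.fromBlocks (dbar Y) 0 0 (-dbar Y) :
      Matrix (Y.ι ⊕ Y.ι) (Y.ι ⊕ Y.ι) ℂ) := by
  have hX : Nonempty Y.ι → ((GCtx.Aug.ev (A := A)).comp
      (Polynomial.constantCoeff (R := A.S))) (X - C l) = 0 := fun ⟨i⟩ => by
    have h : GCtx.Aug.ev (A := A) l = 0 := by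
      refine GCtx.Aug.ev_pos (A := A) (hl (Y.p i)) ?_
      rw [A.ch_vadd, A.chΓ_en]
      linarith
    rw [RingHom.comp_apply, map_sub, Polynomial.constantCoeff_apply,
      Polynomial.constantCoeff_apply, coeff_X_zero, coeff_C_zero, zero_sub, map_neg, h, neg_zero]
  have hw : Nonempty Y.ι → ((GCtx.Aug.ev (A := A)).comp
      (Polynomial.constantCoeff (R := A.S))) (quoW A Wt l) = 0 := fun ⟨i⟩ => by
    have h := quoW_mem A Wt l hl hW (Y.p i) 0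
    rw [RingHom.comp_apply, Polynomial.constantCoeff_apply]
    refine GCtx.Aug.ev_pos (A := A) h ?_
    change A.ch (Y.p i) < A.ch (-(0 • A.en 2) +ᵥ (A.en 4 +ᵥ Y.p i))
    rw [A.ch_vadd, A.ch_vadd, A.chΓ_en]
    simp
  rw [e1_dbar, e1_map_blocks _ _ _ _ hX hw]
  have : (Y.d.map (C : A.S → A.S[X])).map ((GCtx.Aug.ev (A := A)).comp
      (Polynomial.constantCoeff (R := A.S))) = dbar Y := by
    ext1 i j
    change GCtx.Aug.ev (A := A) ((C (Y.d i j)).coeff 0) = GCtx.Aug.ev (A := A) (Y.d i j)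
    rw [coeff_C_zero]
  rw [this]

theorem gen_EvR {Wt : A.S[X]} {l : A.S} (hl : ∀ a, l ∈ A.H (A.en 2 +ᵥ a) a)
    (hW : ∀ a, (inP A Wt) ∈ A.P.H (A.P.en 6 +ᵥ a) a) (Y : MF A (evW A Wt l)) :
    Gen Y (EvR hl hW Y) 1 where
  min h0 := by
    rw [dbar_EvR, h0, neg_zero]
    exact Matrix.fromBlocks_zero
  lo i := ⟨Sum.inl i, rfl⟩
  hi i := ⟨Sum.inr i, by
    change A.ch (-A.en 1 +ᵥ Y.p i) = _
    rw [A.ch_vadd, map_neg, A.chΓ_en]
    push_cast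
    ring⟩

theorem gen_ciso (I : CIso A B) (hev : ∀ s, GCtx.Aug.ev (I.φ s) = GCtx.Aug.ev s) (E : MF A W) :
    Gen E ((I.chom W).obj E) 0 where
  min h0 := by
    ext i j
    exact (hev _).trans (congrFun (congrFun h0 i.1) j.1)
  lo i := ⟨⟨i, trivial⟩, I.ch _⟩
  hi i := ⟨⟨i, trivial⟩, by rw [Nat.cast_zero, sub_zero]; exact I.ch _⟩

theorem gen_DStep {l : A.S} (hW : A.IsPot W) (hl : ∀ a, l ∈ A.H (A.en 2 +ᵥ a) a) (m : ℕ)
    (E : MF (TT A m) (TTW A (W + l ^ 3) m)) : Gen E (DStep hW hl m E) 1 :=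
  ((gen_cast (evW_TT W l m) E).trans (gen_EvR (A := TT A m)
    (Wt := (C (TTW A W m) + X ^ 3 : (TT A m).S[X])) (l := TTC A m l) (e3_TTC_mem hl m)
    (fun a => e3_P_mem (e3_TTW_mem hW m) a) _)).trans
    (gen_IndO (A := TT A m) (W := TTW A W m) _)

theorem gen_DObj (l : ℕ → A.S) (hl : ∀ i a, l i ∈ A.H (A.en 2 +ᵥ a) a) :
    ∀ (m : ℕ) (W V : A.S) (hW : A.IsPot W) (hV : V = W + ∑ i ∈ Finset.range m, l i ^ 3)
      (E : MF A V), Gen E (DObj l hl m W V hW hV E) m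
  | 0, _, _, _, hV, E => gen_cast (sum_cube_zero hV) E
  | m + 1, W, V, hW, hV, E =>
    (gen_DObj l hl m (W + l m ^ 3) V (cube_pot hW (hl m)) (sum_cube_succ hV) E).trans
      (gen_DStep hW (hl m) m _)

theorem dbar_tgr {E : MFT A W} (h : dbar E = 0) (v : ZMod 3) : dbar (tgr v E) = 0 := by
  ext i j
  exact congrFun (congrFun h i.1) j.1

theorem ChW.T {σ : Slic (MF A W)} {τ : Slic (MFT A W)} {n : ℕ} (h : ChW σ n) (hw : Win σ τ) :
    ChW τ (n + 1) where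
  U φ E hE h1 i :=
    h.U φ _ (dbar_tgr hE (T3b_w (E.p i))) (hw.U φ E h1 _) (T3b_mk (T3b_w (E.p i)) i rfl)
  V φ E hE h1 i := by
    have h2 : -(A.T.ch (E.p i) : ℝ) / 3 ≤ φ + 1 / 3 + n / 3 :=
      h.V _ _ (dbar_tgr hE (T3b_w (E.p i))) (hw.V φ E h1 _) (T3b_mk (T3b_w (E.p i)) i rfl)
    push_cast
    linarith

theorem chW_TT {g : GD A W} {n : ℕ} (h : ChW g.σ n) : ∀ m, ChW (gdTT g m).σ (n + m)
  | 0 => h
  | m + 1 => ChW.T (A := TT A m) (W := TTW A W m) (chW_TT h m) (gdT_win (gdTT g m))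

end

theorem chW_pt : ChW gdPt.σ 0 where
  U φ E hE h i := F0U.all h (Iso.refl E) (by ext i j; exact k2_dbar hE i j) i
  V φ E hE h i := by
    rw [Nat.cast_zero, zero_div, add_zero]
    refine le_of_forall_gt_imp_ge_of_dense fun t ht => ?_
    exact (F0V.all (h t ht) (Iso.refl E) (by ext i j; exact k2_dbar hE i j) i).le

theorem chW_Fer : ∀ n, ChW (gdFer n).σ n
  | 0 => chW_pt
  | n + 1 => ChW.comap (A := co (n + 1)) (W := Fer (n + 1)) (k := 0)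
      (Φ := fun X => IndO (A := co n) (W := Fer n) X)
      ((chW_Fer n).T (gdT_win (gdFer n))) (fun X => gen_IndO (A := co n) (W := Fer n) X)
      (fun s X => (gdFer_U n s X).1) (fun s X => (gdFer_V n s X).1)

/-- the window for sums of cubes -/
theorem chW_sum {n : ℕ} (l : ℕ → (co n).S) (hl : ∀ i a, l i ∈ (co n).H ((co n).en 2 +ᵥ a) a)
    (m : ℕ) {V : (co n).S} (hV : V = Fer n + ∑ i ∈ Finset.range m, l i ^ 3)
    {σ : Slic (MF (co n) V)}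
    (h1 : ∀ s X, σ.U s X → (gdTT (gdFer n) m).σ.U s (DObj l hl m (Fer n) V (Fer_isPot n) hV X))
    (h2 : ∀ s X, σ.V s X → (gdTT (gdFer n) m).σ.V s (DObj l hl m (Fer n) V (Fer_isPot n) hV X)) :
    ChW σ n :=
  (chW_TT (chW_Fer n) m).comap (gen_DObj l hl m (Fer n) V (Fer_isPot n) hV) h1 h2

end Vale.Agent.P287T.G3
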