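import Vale.Agent.P287T.G3.E
import Vale.Agent.P287T.G3.Win

/-!
# The family at the Fermat form; diagonal symmetries
-/

open Matrix CategoryTheory CategoryTheory.Limits CategoryTheory.Pretriangulated Polynomial

open Vale.Agent.P294

namespace Vale.Agent.P287T.G3

/-- the window of charges for the family -/
theorem chW_sig {n : ℕ} {W : MvPolynomial (Fin n) ℂ} (hW : W.IsHomogeneous 3)
    (hs : SmoothForm W) : ChW (sig W hW hs).σ n :=
  (chW_TT (chW_Fer n) (mW n)).comap (k := mW n) (Φ := Fd W hW)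
    (fun X => by
      have h := (gen_ciso (mvIso n) (mvIso_ev n) X).trans (gen_DObj (lC W) (lC_mem W) (mW n)
        (Fer n) ((mvIso n).φ (mvS W)) (Fer_isPot n) (lC_sum W hW) _)
      rw [zero_add] at h
      exact h)
    (fun s X => (sig_U hW hs s X).1) (fun s X => (sig_V hW hs s X).1)

section ob

variable {A B : GCtx}

/-- the image of an object under an isomorphism of contexts -/
def CIso.ob (I : CIso A B) {W : A.S} {W' : B.S} (h : I.φ W = W') (X : MF A W) : MF B W' where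
  ι := X.ι
  p i := I.lab (X.p i)
  d := X.d.map I.φ
  deg i j := by
    have := (I.H _ _ _).1 (X.deg i j)
    rwa [I.vadd, I.n2a_en] at this
  sq := by
    rw [← Matrix.map_mul, X.sq, ← h]
    ext i j
    rw [Matrix.map_apply, Matrix.smul_apply, Matrix.smul_apply, smul_eq_mul, smul_eq_mul, map_mul,
      Matrix.one_apply, Matrix.one_apply]
    split_ifs <;> simp

/-- comparison with the functor -/
noncomputable def CIso.obIso (I : CIso A B) {W : A.S} (X : MF A W) :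
    (I.chom W).obj X ≅ I.ob rfl X :=
  permIso (E := (I.chom W).obj X) (F := I.ob rfl X) (Equiv.subtypeUnivEquiv fun _ => trivial)
    (fun _ => rfl) (fun _ _ => rfl)

variable [GCtx.Aug A] [GCtx.Aug B]

/-- Gepner data corresponding under an isomorphism of contexts -/
structure GRel (I : CIso A B) {W : A.S} {W' : B.S} (h : I.φ W = W') (g : GD A W) (g' : GD B W') :
    Prop where
  κ : g.κ = g'.κ
  U : ∀ s X, g.σ.U s X ↔ g'.σ.U s (I.ob h X)
  V : ∀ s X, g.σ.V s X ↔ g'.σ.V s (I.ob h X)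

theorem GRel.P {I : CIso A B} {W : A.S} {W' : B.S} {h : I.φ W = W'} {g : GD A W} {g' : GD B W'}
    (r : GRel I h g g') (s : ℝ) (X : MF A W) : g.σ.P s X ↔ g'.σ.P s (I.ob h X) :=
  and_congr (r.U s X) (forall_congr' fun t => forall_congr' fun _ => r.V t X)

theorem gd_ob (I : CIso A B) (hev : ∀ s, GCtx.Aug.ev (I.φ s) = GCtx.Aug.ev s) {W : A.S}
    {W' : B.S} (h : I.φ W = W') (g' : GD B W') : ∃ g : GD A W, GRel I h g g' := by
  subst h
  obtain ⟨g, h1, -, h2, h3⟩ := gd_ciso I hev g'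
  refine ⟨g, h1, fun s X => (h2 s X).trans ?_, fun s X => (h3 s X).trans ?_⟩
  · exact ⟨(g'.σ.ts s).isoU (I.obIso X), (g'.σ.ts s).isoU (I.obIso X).symm⟩
  · exact ⟨(g'.σ.ts s).isoV (I.obIso X), (g'.σ.ts s).isoV (I.obIso X).symm⟩

omit [GCtx.Aug A] in
theorem V_of_U {W : A.S} {σ τ : Slic (MF A W)} (h : ∀ s X, σ.U s X ↔ τ.U s X) (s : ℝ)
    (X : MF A W) : σ.V s X ↔ τ.V s X := by
  rw [σ.V_iff, τ.V_iff]
  exact forall_congr' fun Y => imp_congr_left (h s Y)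

omit [GCtx.Aug A] in
theorem U_of_le {W : A.S} {σ τ : Slic (MF A W)} (hU : ∀ s X, σ.U s X → τ.U s X)
    (hV : ∀ s X, σ.Vc s X → τ.Vc s X) (s : ℝ) (X : MF A W) : σ.U s X ↔ τ.U s X := by
  refine ⟨hU s X, fun h => σ.leftc s X fun t ht => ?_⟩
  rw [σ.U_iff]
  intro Y hY f
  exact τ.hom_zero' ht h (hV t Y (σ.V_le_Vc le_rfl hY)) f

theorem GRel.of_U {I : CIso A B} {W : A.S} {W' : B.S} {h : I.φ W = W'} {g g₁ : GD A W}
    {g' : GD B W'} (r : GRel I h g₁ g') (hκ : g.κ = g'.κ) (hU : ∀ s X, g.σ.U s X ↔ g₁.σ.U s X) :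
    GRel I h g g' :=
  ⟨hκ, fun s X => (hU s X).trans (r.U s X), fun s X => (V_of_U hU s X).trans (r.V s X)⟩

end ob

/-! ### extension of isomorphisms of contexts -/

section ext

/-- `X ↦ c X` together with an isomorphism of the coefficients -/
noncomputable def scl {R S : Type} [CommRing R] [CommRing S] (φ : R ≃+* S) (c c' : S)
    (h : c * c' = 1) : R[X] ≃+* S[X] :=
  (mapEquiv φ).trans (RingEquiv.ofRingHom (compRingHom (C c * X)) (compRingHom (C c' * X))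
    (by
      refine Polynomial.ringHom_ext (fun a => by simp) ?_
      simp only [RingHom.comp_apply, coe_compRingHom, X_comp, mul_comp, C_comp, RingHom.id_apply]
      rw [← mul_assoc, ← C_mul, mul_comm c', h, C_1, one_mul])
    (by
      refine Polynomial.ringHom_ext (fun a => by simp) ?_
      simp only [RingHom.comp_apply, coe_compRingHom, X_comp, mul_comp, C_comp, RingHom.id_apply]
      rw [← mul_assoc, ← C_mul, h, C_1, one_mul]))

theorem scl_coeff {R S : Type} [CommRing R] [CommRing S] (φ : R ≃+* S) (c c' : S)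
    (h : c * c' = 1) (f : R[X]) (n : ℕ) :
    (scl φ c c' h f).coeff n = c ^ n * φ (f.coeff n) := by
  change ((f.map (φ : R →+* S)).comp (C c * X)).coeff n = _
  rw [comp_C_mul_X_coeff, coeff_map, mul_comm]
  rfl

theorem scl_wtPart {R S : Type} [CommRing R] [CommRing S] (φ : R ≃+* S) (c c' : S)
    (h : c * c' = 1) (w : ZMod 3) (f : R[X]) :
    scl φ c c' h (wtPart w f) = wtPart w (scl φ c c' h f) := by
  refine Polynomial.ext fun n => ?_
  rw [scl_coeff, coeff_wtPart, coeff_wtPart, scl_coeff]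
  split_ifs
  · rfl
  · rw [map_zero, mul_zero]

theorem scl_C {R S : Type} [CommRing R] [CommRing S] (φ : R ≃+* S) (c c' : S)
    (h : c * c' = 1) (a : R) : scl φ c c' h (C a) = C (φ a) := by
  change (((C a : R[X]).map (φ : R →+* S)).comp (C c * X)) = _
  simp

theorem scl_X {R S : Type} [CommRing R] [CommRing S] (φ : R ≃+* S) (c c' : S)
    (h : c * c' = 1) : scl φ c c' h X = C c * X := by
  change (((X : R[X]).map (φ : R →+* S)).comp (C c * X)) = _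
  simp

variable {A B : GCtx}

theorem pow_mem_H {c : B.S} (m : ∀ b, c ∈ B.H b b) (b : B.L) : ∀ n : ℕ, c ^ n ∈ B.H b b
  | 0 => by rw [pow_zero]; exact B.one_mem b
  | n + 1 => by rw [pow_succ]; exact B.mul_mem (pow_mem_H m b n) (m b)

theorem unit_mem_H {c c' : B.S} (h : c * c' = 1) (m : ∀ b, c ∈ B.H b b) (m' : ∀ b, c' ∈ B.H b b)
    (n : ℕ) (a b : B.L) (s : B.S) : s ∈ B.H a b ↔ c ^ n * s ∈ B.H a b := by
  refine ⟨fun hs => B.mul_mem (pow_mem_H m b n) hs, fun hs => ?_⟩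
  have h1 := B.mul_mem (pow_mem_H m' b n) hs
  rwa [← mul_assoc, ← mul_pow, mul_comm c', h, one_pow, one_mul] at h1

theorem poly_H (I : CIso A B) (η : A.Γ) (η' : B.Γ) (hη : I.ψ η = η') (c c' : B.S)
    (h : c * c' = 1) (m : ∀ b, c ∈ B.H b b) (m' : ∀ b, c' ∈ B.H b b) (a b : A.L) (s : A.S[X])
    (n : ℕ) : s.coeff n ∈ A.H (-(n • η) +ᵥ a) b ↔
      (scl I.φ c c' h s).coeff n ∈ B.H (-(n • η') +ᵥ I.lab a) (I.lab b) := by
  rw [scl_coeff, ← unit_mem_H h m m', I.H, I.vadd, map_neg, map_nsmul, hη]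

/-- polynomial extension -/
noncomputable def CIso.poly (I : CIso A B) (η : A.Γ) (η' : B.Γ) (hη : I.ψ η = η') (c c' : B.S)
    (h : c * c' = 1) (m : ∀ b, c ∈ B.H b b) (m' : ∀ b, c' ∈ B.H b b) :
    CIso (A.poly η) (B.poly η') where
  φ := scl I.φ c c' h
  lab := I.lab
  ψ := I.ψ
  e := I.e
  chΓ := I.chΓ
  ch := I.ch
  vadd := I.vadd
  H a b s := forall_congr' fun n => poly_H I η η' hη c c' h m m' a b s n

/-- adding weights -/
def CIso.wt (I : CIso A B) (G : Type) [AddCommGroup G] [DecidableEq G] :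
    CIso (A.wt G) (B.wt G) where
  φ := I.φ
  lab := I.lab.prodCongr (Equiv.refl G)
  ψ := I.ψ.prodCongr (AddEquiv.refl G)
  e := Prod.ext I.e rfl
  chΓ γ := I.chΓ γ.1
  ch a := I.ch a.1
  vadd γ a := Prod.ext (I.vadd γ.1 a.1) rfl
  H a b s := by
    refine (GCtx.wt_mem_iff A G a b s).trans (Iff.trans ?_
      (GCtx.wt_mem_iff B G (I.lab a.1, a.2) (I.lab b.1, b.2) (I.φ s)).symm)
    exact or_congr (and_congr Iff.rfl (I.H a.1 b.1 s)) (map_eq_zero_iff I.φ I.φ.injective).symm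

/-- the identity -/
def CIso.rfl' (A : GCtx) : CIso A A where
  φ := RingEquiv.refl _
  lab := Equiv.refl _
  ψ := AddEquiv.refl _
  e := rfl
  chΓ _ := rfl
  ch _ := rfl
  vadd _ _ := rfl
  H _ _ _ := Iff.rfl

variable [GCtx.Aug B]

theorem cst_cube {z : ℂ} (hz : z ^ 3 = 1) :
    (GCtx.Aug.cst z : B.S) * GCtx.Aug.cst (z ^ 2) = 1 := by
  rw [← map_mul, ← pow_succ', hz, map_one]

/-- extension to `A.P`, the variable is multiplied by a cube root of unity -/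
noncomputable def CIso.P (I : CIso A B) {z : ℂ} (hz : z ^ 3 = 1) : CIso A.P B.P :=
  I.poly (A.en 2) (B.en 2) (I.n2a_en 2) (GCtx.Aug.cst z) (GCtx.Aug.cst (z ^ 2)) (cst_cube hz)
    (fun b => GCtx.Aug.cst_mem b z) (fun b => GCtx.Aug.cst_mem b (z ^ 2))

/-- extension to `A.T` -/
noncomputable def CIso.T (I : CIso A B) {z : ℂ} (hz : z ^ 3 = 1) : CIso A.T B.T :=
  (I.wt (ZMod 3)).poly (A.en 2, 1) (B.en 2, 1) (Prod.ext (I.n2a_en 2) rfl)
    (GCtx.Aug.cst (A := B) z) (GCtx.Aug.cst (A := B) (z ^ 2)) (cst_cube (B := B) hz)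
    (fun b => GCtx.Aug.cst_mem (A := B.wt (ZMod 3)) b z)
    (fun b => GCtx.Aug.cst_mem (A := B.wt (ZMod 3)) b (z ^ 2))

theorem scl_pot (I : CIso A B) {z : ℂ} (hz : z ^ 3 = 1) {W : A.S} {W' : B.S} (h : I.φ W = W') :
    scl I.φ (GCtx.Aug.cst z) (GCtx.Aug.cst (z ^ 2)) (cst_cube hz) (C W + X ^ 3) =
      C W' + X ^ 3 := by
  have h1 : (GCtx.Aug.cst z : B.S) ^ 3 = 1 := by rw [← map_pow, hz, map_one]
  rw [map_add, map_pow (scl I.φ _ _ _), scl_C, scl_X, h, mul_pow, ← C_pow, h1, C_1, one_mul]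

theorem CIso.P_pot (I : CIso A B) {z : ℂ} (hz : z ^ 3 = 1) {W : A.S} {W' : B.S}
    (h : I.φ W = W') : (I.P hz).φ (WP A W) = WP B W' := scl_pot I hz h

theorem CIso.T_pot (I : CIso A B) {z : ℂ} (hz : z ^ 3 = 1) {W : A.S} {W' : B.S}
    (h : I.φ W = W') : (I.T hz).φ (WT A W) = WT B W' := scl_pot I hz h

theorem CIso.tgr_ob (I : CIso A B) {z : ℂ} (hz : z ^ 3 = 1) {W : A.S} {W' : B.S}
    (h : I.φ W = W') (v : ZMod 3) (E : MFT A W) :
    Nonempty (tgr v ((I.T hz).ob (I.T_pot hz h) E) ≅ I.ob h (tgr v E)) := by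
  refine ⟨permIso (E := tgr v ((I.T hz).ob (I.T_pot hz h) E)) (F := I.ob h (tgr v E))
    (Equiv.refl _) (fun _ => rfl) (fun i j => ?_)⟩
  have h1 := scl_coeff I.φ (GCtx.Aug.cst z) (GCtx.Aug.cst (z ^ 2)) (cst_cube hz) (E.d i.1 j.1) 0
  rw [pow_zero, one_mul] at h1
  exact h1.symm

theorem CIso.IndO_ob (I : CIso A B) {z : ℂ} (hz : z ^ 3 = 1) {W : A.S} {W' : B.S}
    (h : I.φ W = W') (E : MF A.P (WP A W)) :
    Nonempty (IndO ((I.P hz).ob (I.P_pot hz h) E) ≅ (I.T hz).ob (I.T_pot hz h) (IndO E)) := by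
  refine ⟨permIso (E := IndO ((I.P hz).ob (I.P_pot hz h) E))
    (F := (I.T hz).ob (I.T_pot hz h) (IndO E)) (Equiv.refl _) (fun _ => rfl) (fun i j => ?_)⟩
  exact scl_wtPart I.φ (GCtx.Aug.cst z) (GCtx.Aug.cst (z ^ 2)) (cst_cube hz) (j.2 - i.2)
    (E.d i.1 j.1)

variable [GCtx.Aug A]

theorem scl_ev (I : CIso A B) (hev : ∀ s, GCtx.Aug.ev (I.φ s) = GCtx.Aug.ev s) {z : ℂ}
    (hz : z ^ 3 = 1) (s : A.S[X]) :
    GCtx.Aug.ev (A := B)
      ((scl I.φ (GCtx.Aug.cst z) (GCtx.Aug.cst (z ^ 2)) (cst_cube hz) s).coeff 0) =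
      GCtx.Aug.ev (A := A) (s.coeff 0) := by
  rw [scl_coeff, pow_zero, one_mul, hev]

theorem CIso.P_ev (I : CIso A B) (hev : ∀ s, GCtx.Aug.ev (I.φ s) = GCtx.Aug.ev s) {z : ℂ}
    (hz : z ^ 3 = 1) (s : A.P.S) : GCtx.Aug.ev ((I.P hz).φ s) = GCtx.Aug.ev s :=
  scl_ev I hev hz s

theorem CIso.T_ev (I : CIso A B) (hev : ∀ s, GCtx.Aug.ev (I.φ s) = GCtx.Aug.ev s) {z : ℂ}
    (hz : z ^ 3 = 1) (s : A.T.S) : GCtx.Aug.ev ((I.T hz).φ s) = GCtx.Aug.ev s :=
  scl_ev I hev hz s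

/-- the Fermat step is compatible with isomorphisms of contexts -/
theorem GRel.T {I : CIso A B} (hev : ∀ s, GCtx.Aug.ev (I.φ s) = GCtx.Aug.ev s) {z : ℂ}
    (hz : z ^ 3 = 1) {W : A.S} {W' : B.S} {h : I.φ W = W'} {g : GD A W} {g' : GD B W'}
    (r : GRel I h g g') : GRel (I.T hz) (I.T_pot hz h) (gdT g) (gdT g') := by
  obtain ⟨g₁, r₁⟩ := gd_ob (I.T hz) (I.T_ev hev hz) (I.T_pot hz h) (gdT g')
  have hκ : (gdT g).κ = (gdT g').κ := by rw [gdT_κ, gdT_κ, r.κ]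
  have hw : Win g.σ g₁.σ := by
    constructor
    · intro φ E hE v
      obtain ⟨e⟩ := I.tgr_ob hz h v E
      exact (r.U _ _).2 ((g'.σ.ts _).isoU e ((gdT_win g').U φ _ ((r₁.U φ E).1 hE) v))
    · intro φ E hE v t ht
      obtain ⟨e⟩ := I.tgr_ob hz h v E
      exact (r.V _ _).2 ((g'.σ.ts _).isoV e
        ((gdT_win g').V φ _ (fun u hu => (r₁.V u E).1 (hE u hu)) v t ht))
  have hs := g₁.stab
  rw [r₁.κ, ← hκ] at hs
  exact r₁.of_U hκ ((gdT_win g).unique hw (gdT g).stab hs)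

end ext

/-! ### diagonal symmetries of the Fermat potential -/

/-- the diagonal automorphism of `co n` -/
noncomputable def dg : (n : ℕ) → (z : Fin n → ℂ) → (∀ i, z i ^ 3 = 1) → CIso (co n) (co n)
  | 0, _, _ => CIso.rfl' _
  | n + 1, z, hz => (dg n (Fin.tail z) (fun i => hz i.succ)).P (hz 0)

theorem dg_fer : ∀ (n : ℕ) (z : Fin n → ℂ) (hz : ∀ i, z i ^ 3 = 1),
    (dg n z hz).φ (Fer n) = Fer n
  | 0, _, _ => rfl
  | n + 1, z, hz => (dg n (Fin.tail z) (fun i => hz i.succ)).P_pot (hz 0) (dg_fer n _ _)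

theorem dg_ev : ∀ (n : ℕ) (z : Fin n → ℂ) (hz : ∀ i, z i ^ 3 = 1) (s : (co n).S),
    GCtx.Aug.ev ((dg n z hz).φ s) = GCtx.Aug.ev s
  | 0, _, _, _ => rfl
  | n + 1, z, hz, s => (dg n (Fin.tail z) (fun i => hz i.succ)).P_ev (dg_ev n _ _) (hz 0) s

theorem dg_lab : ∀ (n : ℕ) (z : Fin n → ℂ) (hz : ∀ i, z i ^ 3 = 1) (a : (co n).L),
    (dg n z hz).lab a = a
  | 0, _, _, _ => rfl
  | n + 1, z, hz, a => dg_lab n (Fin.tail z) (fun i => hz i.succ) a

theorem dg_X : ∀ (n : ℕ) (z : Fin n → ℂ) (hz : ∀ i, z i ^ 3 = 1) (i : Fin n),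
    (dg n z hz).φ ((mvIso n).φ (mvS (MvPolynomial.X i))) =
      GCtx.Aug.cst (z i) * (mvIso n).φ (mvS (MvPolynomial.X i))
  | 0, _, _, i => i.elim0
  | n + 1, z, hz, i => by
    let I := dg n (Fin.tail z) (fun i => hz i.succ)
    let φ : MvPolynomial (Fin n) ℂ ≃+* (co n).S := (mvIso n).φ
    change scl I.φ (GCtx.Aug.cst (z 0)) (GCtx.Aug.cst (z 0 ^ 2)) (cst_cube (hz 0))
      (N2_phi φ (MvPolynomial.X i)) =
      (C (GCtx.Aug.cst (z i)) * N2_phi φ (MvPolynomial.X i) : (co n).S[X])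
    refine Fin.cases ?_ (fun j => ?_) i
    · rw [N2_phi_X_zero, scl_X]
      rfl
    · rw [N2_phi_X_succ, scl_C]
      exact (congrArg C (dg_X n (Fin.tail z) (fun i => hz i.succ) j)).trans C_mul

theorem grel_fer : ∀ (n : ℕ) (z : Fin n → ℂ) (hz : ∀ i, z i ^ 3 = 1),
    GRel (dg n z hz) (dg_fer n z hz) (gdFer n) (gdFer n)
  | 0, _, _ => ⟨rfl, fun _ _ => Iff.rfl, fun _ _ => Iff.rfl⟩
  | n + 1, z, hz => by
    have r := (grel_fer n (Fin.tail z) (fun i => hz i.succ)).T (dg_ev n _ _) (hz 0)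
    refine ⟨rfl, fun s X => ?_, fun s X => ?_⟩
    · obtain ⟨e⟩ := (dg n (Fin.tail z) (fun i => hz i.succ)).IndO_ob (hz 0) (dg_fer n _ _) X
      refine (gdFer_U n s X).trans ((r.U s _).trans (Iff.trans ?_ (gdFer_U n s _).symm))
      exact ⟨((gdT (gdFer n)).σ.ts s).isoU e.symm, ((gdT (gdFer n)).σ.ts s).isoU e⟩
    · obtain ⟨e⟩ := (dg n (Fin.tail z) (fun i => hz i.succ)).IndO_ob (hz 0) (dg_fer n _ _) X
      refine (gdFer_V n s X).trans ((r.V s _).trans (Iff.trans ?_ (gdFer_V n s _).symm))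
      exact ⟨((gdT (gdFer n)).σ.ts s).isoV e.symm, ((gdT (gdFer n)).σ.ts s).isoV e⟩

/-! ### the descent functor for vanishing linear forms -/

section zero

variable {A : GCtx}

theorem ret_mat {S : Type} [CommRing S] {a b : Type} [Fintype a] [Fintype b] [DecidableEq a]
    [DecidableEq b] (d : Matrix a a S) (e : Matrix b b S) :
    (Matrix.fromBlocks d 0 0 e * Matrix.fromRows (1 : Matrix a a S) (0 : Matrix b a S) =
      Matrix.fromRows (1 : Matrix a a S) (0 : Matrix b a S) * d) ∧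
    (d * Matrix.fromCols (1 : Matrix a a S) (0 : Matrix a b S) =
      Matrix.fromCols (1 : Matrix a a S) (0 : Matrix a b S) * Matrix.fromBlocks d 0 0 e) ∧
    (Matrix.fromCols (1 : Matrix a a S) (0 : Matrix a b S) *
      Matrix.fromRows (1 : Matrix a a S) (0 : Matrix b a S) = 1) ∧
    (Matrix.fromBlocks d 0 0 e * Matrix.fromRows (0 : Matrix a b S) (1 : Matrix b b S) =
      Matrix.fromRows (0 : Matrix a b S) (1 : Matrix b b S) * e) ∧
    (e * Matrix.fromCols (0 : Matrix b a S) (1 : Matrix b b S) =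
      Matrix.fromCols (0 : Matrix b a S) (1 : Matrix b b S) * Matrix.fromBlocks d 0 0 e) ∧
    (Matrix.fromCols (0 : Matrix b a S) (1 : Matrix b b S) *
      Matrix.fromRows (0 : Matrix a b S) (1 : Matrix b b S) = 1) := by
  refine ⟨?_, ?_, ?_, ?_, ?_, ?_⟩
  · rw [Matrix.fromBlocks_mul_fromRows, Matrix.fromRows_mul]
    simp
  · rw [Matrix.fromCols_mul_fromBlocks, Matrix.mul_fromCols]
    simp
  · rw [Matrix.fromCols_mul_fromRows]
    simp
  · rw [Matrix.fromBlocks_mul_fromRows, Matrix.fromRows_mul]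
    simp
  · rw [Matrix.fromCols_mul_fromBlocks, Matrix.mul_fromCols]
    simp
  · rw [Matrix.fromCols_mul_fromRows]
    simp

theorem dsum_ret₁ {W : A.S} (E F : MF A W) :
    ∃ (i : E ⟶ dsum E F) (p : dsum E F ⟶ E), i ≫ p = 𝟙 E := by
  have h1 : (Matrix.fromRows 1 0 : Matrix (E.ι ⊕ F.ι) E.ι A.S) ∈ Z0 E (dsum E F) := by
    refine ⟨?_, (ret_mat E.d F.d).1⟩
    rintro (i | i) j
    · exact IsDeg.one E i j
    · exact zero_mem _
  have h2 : (Matrix.fromCols 1 0 : Matrix E.ι (E.ι ⊕ F.ι) A.S) ∈ Z0 (dsum E F) E := by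
    refine ⟨?_, (ret_mat E.d F.d).2.1⟩
    rintro i (j | j)
    · exact IsDeg.one E i j
    · exact zero_mem _
  exact ⟨mk (E := E) (F := dsum E F) _ h1, mk (E := dsum E F) (F := E) _ h2,
    mk_congr (E := E) (F := E) _ (ret_mat E.d F.d).2.2.1⟩

theorem dsum_ret₂ {W : A.S} (E F : MF A W) :
    ∃ (i : F ⟶ dsum E F) (p : dsum E F ⟶ F), i ≫ p = 𝟙 F := by
  have h1 : (Matrix.fromRows 0 1 : Matrix (E.ι ⊕ F.ι) F.ι A.S) ∈ Z0 F (dsum E F) := by
    refine ⟨?_, (ret_mat E.d F.d).2.2.2.1⟩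
    rintro (i | i) j
    · exact zero_mem _
    · exact IsDeg.one F i j
  have h2 : (Matrix.fromCols 0 1 : Matrix F.ι (E.ι ⊕ F.ι) A.S) ∈ Z0 (dsum E F) F := by
    refine ⟨?_, (ret_mat E.d F.d).2.2.2.2.1⟩
    rintro i (j | j)
    · exact zero_mem _
    · exact IsDeg.one F i j
  exact ⟨mk (E := F) (F := dsum E F) _ h1, mk (E := dsum E F) (F := F) _ h2,
    mk_congr (E := F) (F := F) _ (ret_mat E.d F.d).2.2.2.2.2⟩

theorem quoW_zero (W : A.S) : (quoW A (C W + X ^ 3 : A.S[X]) 0).coeff 0 = 0 := by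
  have h := quoW_mul A (C W + X ^ 3 : A.S[X]) 0
  have h1 := congrArg (fun f : A.S[X] => f.coeff 1) h
  simpa [coeff_X_pow, coeff_C] using h1

theorem smul_coeff {R ι : Type} [CommRing R] [DecidableEq ι] (f : R[X]) (h : f.coeff 0 = 0)
    (i j : ι) : ((f • (1 : Matrix ι ι R[X])) i j).coeff 0 = 0 := by
  rw [Matrix.smul_apply, smul_eq_mul, mul_coeff_zero, h, zero_mul]

theorem tgr_step {W V l : A.S} (hl : ∀ a, l ∈ A.H (A.en 2 +ᵥ a) a) (h0 : l = 0)
    (hW : ∀ a, (inP A (C W + X ^ 3 : A.S[X])) ∈ A.P.H (A.P.en 6 +ᵥ a) a)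
    (hV : V = evW A (C W + X ^ 3 : A.S[X]) l) (e : V = W) (E : MF A V) (v : ZMod 3) :
    Nonempty (dsum (castMF e E) (tw (A.en 1) (castMF e E)) ≅
      tgr v (IndO (A := A) (W := W) (EvR hl hW (castMF hV E)))) := by
  subst h0
  refine ⟨permIso (E := dsum (castMF e E) (tw (A.en 1) (castMF e E)))
    (F := tgr v (IndO (A := A) (W := W) (EvR hl hW (castMF hV E))))
    { toFun := fun i => ⟨(i, v), rfl⟩
      invFun := fun i => i.1.1
      left_inv := fun _ => rfl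
      right_inv := fun i => Subtype.ext (Prod.ext rfl i.2.symm) } ?_ ?_⟩
  · rintro (i | i) <;> rfl
  · intro i j
    refine (coeff_wtPart (v - v) ((EvR hl hW (castMF hV E)).d i j) 0).trans ?_
    refine (if_pos (by simp)).trans ?_
    rcases i with i | i <;> rcases j with j | j
    · exact coeff_C_zero
    · exact smul_coeff (ι := E.ι) (X - C (0 : A.S)) (by simp) i j
    · exact smul_coeff (ι := E.ι) _ (quoW_zero W) i j
    · change (-(C (E.d i j)) : A.S[X]).coeff 0 = sg (A.chΓ (A.en 1)) • E.d i j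
      rw [A.chΓ_en, coeff_neg, coeff_C_zero]
      have : sg 1 = -1 := by decide
      rw [this, neg_one_smul]

variable [GCtx.Aug A]

theorem step_down {W V l : A.S} (g : GD A W) (hl : ∀ a, l ∈ A.H (A.en 2 +ᵥ a) a) (h0 : l = 0)
    (hW : ∀ a, (inP A (C W + X ^ 3 : A.S[X])) ∈ A.P.H (A.P.en 6 +ᵥ a) a)
    (hV : V = evW A (C W + X ^ 3 : A.S[X]) l) (e : V = W) (E : MF A V) (s : ℝ) :
    ((gdT g).σ.U s (IndO (A := A) (W := W) (EvR hl hW (castMF hV E))) → g.σ.U s (castMF e E)) ∧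
    ((gdT g).σ.Vc s (IndO (A := A) (W := W) (EvR hl hW (castMF hV E))) →
      g.σ.Vc s (castMF e E)) := by
  obtain ⟨k⟩ := tgr_step hl h0 hW hV e E 0
  constructor
  · intro h
    obtain ⟨i, p, hip⟩ := dsum_ret₁ (castMF e E) (tw (A.en 1) (castMF e E))
    exact (g.σ.ts s).retU i p hip ((g.σ.ts s).isoU k.symm ((gdT_win g).U s _ h 0))
  · intro h t ht
    obtain ⟨i, p, hip⟩ := dsum_ret₂ (castMF e E) (tw (A.en 1) (castMF e E))
    have h1 := (g.σ.ts _).retV i p hip ((g.σ.ts _).isoV k.symm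
      ((gdT_win g).V s _ h 0 (t + 1 / 3) (by linarith)))
    have h2 := g.twV (-A.en 1) _ _ h1
    rw [map_neg, A.chΓ_en] at h2
    have h3 : t + 1 / 3 + ((-1 : ℤ) : ℝ) / 3 = t := by
      push_cast
      ring
    rw [h3] at h2
    exact (g.σ.ts t).isoV (T3c_inv _ _) h2

omit [GCtx.Aug A] in
theorem DObj_cast (l : ℕ → A.S) (hl : ∀ i a, l i ∈ A.H (A.en 2 +ᵥ a) a) (m : ℕ) {W W' V : A.S}
    (h : W' = W) (hW : A.IsPot W) (hW' : A.IsPot W')
    (hV : V = W + ∑ i ∈ Finset.range m, l i ^ 3) (hV' : V = W' + ∑ i ∈ Finset.range m, l i ^ 3)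
    (h' : TTW A W' m = TTW A W m) (E : MF A V) :
    castMF h' (DObj l hl m W' V hW' hV' E) = DObj l hl m W V hW hV E := by
  subst h
  rfl

theorem DObj_down (l : ℕ → A.S) (hl : ∀ i a, l i ∈ A.H (A.en 2 +ᵥ a) a) (h0 : ∀ i, l i = 0)
    {W V : A.S} (g : GD A W) (hW : A.IsPot W) (e : V = W) (E : MF A V) (s : ℝ) :
    ∀ (m : ℕ) (hV : V = W + ∑ i ∈ Finset.range m, l i ^ 3),
      ((gdTT g m).σ.U s (DObj l hl m W V hW hV E) → g.σ.U s (castMF e E)) ∧
      ((gdTT g m).σ.Vc s (DObj l hl m W V hW hV E) → g.σ.Vc s (castMF e E))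
  | 0, _ => ⟨id, id⟩
  | m + 1, hV => by
    have h1 : W + l m ^ 3 = W := by rw [h0 m]; ring
    have h2 : V = W + ∑ i ∈ Finset.range m, l i ^ 3 := by rw [← h1]; exact sum_cube_succ hV
    have h3 : TTW A (W + l m ^ 3) m = TTW A W m := by rw [h1]
    have h4 := step_down (A := TT A m) (gdTT g m) (e3_TTC_mem (hl m) m) (by rw [h0 m, map_zero])
      (fun a => e3_P_mem (e3_TTW_mem hW m) a) (evW_TT W (l m) m) h3
      (DObj l hl m (W + l m ^ 3) V (cube_pot hW (hl m)) (sum_cube_succ hV) E) s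
    rw [DObj_cast l hl m h1 hW _ h2] at h4
    have h5 := DObj_down l hl h0 g hW e E s m h2
    exact ⟨fun h => h5.1 (h4.1 h), fun h => h5.2 (h4.2 h)⟩

end zero

/-- **the family at the Fermat form** is the Fermat tower -/
theorem grel_sig (n : ℕ) :
    (∀ s X, (sig (fer n) (fer_hom n) (fer_smooth n)).σ.U s X ↔
      (gdFer n).σ.U s ((mvIso n).ob (mvIso_fer n) X)) ∧
    (∀ s X, (sig (fer n) (fer_hom n) (fer_smooth n)).σ.V s X ↔
      (gdFer n).σ.V s ((mvIso n).ob (mvIso_fer n) X)) := by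
  obtain ⟨g, r⟩ := gd_ob (mvIso n) (mvIso_ev n) (mvIso_fer n) (gdFer n)
  have k : ∀ X : MF (mvCtx n) (mvS (fer n)),
      Nonempty (castMF (mvIso_fer n) (((mvIso n).chom (mvS (fer n))).obj X) ≅
        (mvIso n).ob (mvIso_fer n) X) := fun X =>
    ⟨permIso (E := castMF (mvIso_fer n) (((mvIso n).chom (mvS (fer n))).obj X))
      (F := (mvIso n).ob (mvIso_fer n) X) (Equiv.subtypeUnivEquiv fun _ => trivial)
      (fun _ => rfl) (fun _ _ => rfl)⟩
  have d := fun X s => DObj_down (lC (fer n)) (lC_mem (fer n)) lC_fer (gdFer n) (Fer_isPot n)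
    (mvIso_fer n) (((mvIso n).chom (mvS (fer n))).obj X) s (mW n) (lC_sum _ (fer_hom n))
  have hU : ∀ s X, (sig (fer n) (fer_hom n) (fer_smooth n)).σ.U s X ↔ g.σ.U s X := by
    refine U_of_le (fun s X h => ?_) (fun s X h t ht => ?_)
    · obtain ⟨e⟩ := k X
      exact (r.U s X).2 (((gdFer n).σ.ts s).isoU e ((d X s).1 ((sig_U _ _ s X).1 h)))
    · obtain ⟨e⟩ := k X
      exact (r.V t X).2 (((gdFer n).σ.ts t).isoV e
        ((d X s).2 (fun u hu => (sig_V _ _ u X).1 (h u hu)) t ht))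
  exact ⟨fun s X => (hU s X).trans (r.U s X), fun s X => (V_of_U hU s X).trans (r.V s X)⟩

theorem grel_sigP (n : ℕ) (s : ℝ) (X : MF (mvCtx n) (mvS (fer n))) :
    (sig (fer n) (fer_hom n) (fer_smooth n)).σ.P s X ↔
      (gdFer n).σ.P s ((mvIso n).ob (mvIso_fer n) X) :=
  and_congr ((grel_sig n).1 s X)
    (forall_congr' fun t => forall_congr' fun _ => (grel_sig n).2 t X)

/-- the substitution `x_i ↦ z_i x_i` -/
noncomputable def dsc {n : ℕ} (z : Fin n → ℂ) :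
    MvPolynomial (Fin n) ℂ →ₐ[ℂ] MvPolynomial (Fin n) ℂ :=
  MvPolynomial.aeval fun i => MvPolynomial.C (z i) * MvPolynomial.X i

theorem mvIso_dsc {n : ℕ} (z : Fin n → ℂ) (hz : ∀ i, z i ^ 3 = 1) (f : MvPolynomial (Fin n) ℂ) :
    (mvIso n).φ (mvS (dsc z f)) = (dg n z hz).φ ((mvIso n).φ (mvS f)) := by
  have : Nonempty (co n).L := K3_nonempty_L n
  let φ : MvPolynomial (Fin n) ℂ ≃+* (co n).S := (mvIso n).φ
  have hC : ∀ a : ℂ, φ (MvPolynomial.C a) = GCtx.Aug.cst a := mvIso_cst n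
  have h : (φ : MvPolynomial (Fin n) ℂ →+* (co n).S).comp (dsc z).toRingHom =
      ((dg n z hz).φ : (co n).S →+* (co n).S).comp (φ : MvPolynomial (Fin n) ℂ →+* (co n).S) := by
    refine MvPolynomial.ringHom_ext (fun a => ?_) (fun i => ?_)
    · change φ (dsc z (MvPolynomial.C a)) = (dg n z hz).φ (φ (MvPolynomial.C a))
      rw [dsc, MvPolynomial.aeval_C, MvPolynomial.algebraMap_eq, hC,
        (dg n z hz).cst (dg_ev n z hz)]
    · change φ (dsc z (MvPolynomial.X i)) = (dg n z hz).φ (φ (MvPolynomial.X i))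
      rw [dsc, MvPolynomial.aeval_X, map_mul, hC]
      exact (dg_X n z hz i).symm
  exact RingHom.congr_fun h f

/-- **diagonal symmetry**: objects `E`, `E'` with the same charges and `d' = d(z x)` lie in the
same aisles -/
theorem sig_dsc {n : ℕ} (z : Fin n → ℂ) (hz : ∀ i, z i ^ 3 = 1)
    {E E' : MF (mvCtx n) (mvS (fer n))} (e : E.ι ≃ E'.ι) (hp : ∀ i, E'.p (e i) = E.p i)
    (hd : ∀ i j, E'.d (e i) (e j) = mvS (dsc z (E.d i j))) (s : ℝ) :
    ((sig (fer n) (fer_hom n) (fer_smooth n)).σ.U s E ↔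
      (sig (fer n) (fer_hom n) (fer_smooth n)).σ.U s E') ∧
    ((sig (fer n) (fer_hom n) (fer_smooth n)).σ.V s E ↔
      (sig (fer n) (fer_hom n) (fer_smooth n)).σ.V s E') := by
  have k : (dg n z hz).ob (dg_fer n z hz) ((mvIso n).ob (mvIso_fer n) E) ≅
      (mvIso n).ob (mvIso_fer n) E' := by
    refine permIso (E := (dg n z hz).ob (dg_fer n z hz) ((mvIso n).ob (mvIso_fer n) E))
      (F := (mvIso n).ob (mvIso_fer n) E') e (fun i => ?_) (fun i j => ?_)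
    · exact (congrArg (mvIso n).lab (hp i)).trans (dg_lab n z hz _).symm
    · exact (congrArg (mvIso n).φ (hd i j)).trans (mvIso_dsc z hz _)
  have r := grel_fer n z hz
  constructor
  · rw [(grel_sig n).1, (grel_sig n).1, r.U]
    exact ⟨((gdFer n).σ.ts s).isoU k, ((gdFer n).σ.ts s).isoU k.symm⟩
  · rw [(grel_sig n).2, (grel_sig n).2, r.V]
    exact ⟨((gdFer n).σ.ts s).isoV k, ((gdFer n).σ.ts s).isoV k.symm⟩

theorem dsc_fer {n : ℕ} (z : Fin n → ℂ) (hz : ∀ i, z i ^ 3 = 1) : dsc z (fer n) = fer n := by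
  rw [fer, map_sum]
  refine Finset.sum_congr rfl fun i _ => ?_
  rw [map_pow, dsc, MvPolynomial.aeval_X, mul_pow, ← MvPolynomial.C_pow, hz, MvPolynomial.C_1,
    one_mul]

theorem dsc_mem {n : ℕ} (z : Fin n → ℂ) (hz : ∀ i, z i ^ 3 = 1) {a b : (mvCtx n).L}
    {f : MvPolynomial (Fin n) ℂ} (hf : mvS f ∈ (mvCtx n).H a b) :
    mvS (dsc z f) ∈ (mvCtx n).H a b := by
  rw [(mvIso n).H, mvIso_dsc z hz]
  have h := ((dg n z hz).H _ _ _).1 (((mvIso n).H _ _ _).1 hf)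
  rwa [dg_lab, dg_lab] at h

theorem dsc_sq {n : ℕ} (z : Fin n → ℂ) (hz : ∀ i, z i ^ 3 = 1) {ι : Type} [Fintype ι]
    [DecidableEq ι] (d : Matrix ι ι (MvPolynomial (Fin n) ℂ)) (h : d * d = fer n • 1) :
    d.map (dsc z).toRingHom * d.map (dsc z).toRingHom = fer n • 1 := by
  rw [← Matrix.map_mul, h]
  ext1 i j
  rw [Matrix.map_apply, Matrix.smul_apply, smul_eq_mul, map_mul, Matrix.one_apply]
  have h3 : (dsc z).toRingHom (fer n) = fer n := dsc_fer z hz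
  rw [h3]
  split_ifs <;> simp

/-- the object with differential `d(z x)` -/
noncomputable def dscO {n : ℕ} (z : Fin n → ℂ) (hz : ∀ i, z i ^ 3 = 1)
    (E : MF (mvCtx n) (mvS (fer n))) : MF (mvCtx n) (mvS (fer n)) where
  ι := E.ι
  p := E.p
  d := fun i j => mvS (dsc z (E.d i j))
  deg i j := dsc_mem z hz (E.deg i j)
  sq := dsc_sq z hz (ι := E.ι) E.d E.sq

theorem sig_dscO {n : ℕ} (z : Fin n → ℂ) (hz : ∀ i, z i ^ 3 = 1)
    (E : MF (mvCtx n) (mvS (fer n))) (s : ℝ) :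
    ((sig (fer n) (fer_hom n) (fer_smooth n)).σ.U s E ↔
      (sig (fer n) (fer_hom n) (fer_smooth n)).σ.U s (dscO z hz E)) ∧
    ((sig (fer n) (fer_hom n) (fer_smooth n)).σ.V s E ↔
      (sig (fer n) (fer_hom n) (fer_smooth n)).σ.V s (dscO z hz E)) :=
  sig_dsc z hz (E := E) (E' := dscO z hz E) (Equiv.refl E.ι) (fun _ => rfl) (fun _ _ => rfl) s

end Vale.Agent.P287T.G3
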